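import Vale.Agent.P237.Petty.Cor.Grid.Tiny.N12.Cert

/-!
# P237: a cell down to zero in dimension 12, subdivisions
-/

namespace Vale.Agent.P237.Petty.Cor.Grid.Tiny.N12

theorem covers24 : cell.Covers Vale.Agent.P237.Petty.Cor.Grid.N12.table row24.1 :=
  ⟨(.cut .d 0 (.cut .v 16777216 (.cut .v 8388608 (.pos 2 .mm ⟨⟨0, 0, 1237963987, 0, 0, 509230401, 0, 0, 0, ⟨0, 0⟩, 0⟩, 0, 0⟩ 0 0) (.cut .d (-8388608) (.void 3 ⟨⟨100023, 0, 0, 0, 0, 0, 0, 0, 0, ⟨0, 0⟩, 0⟩, 0, 0⟩ 0 0) (.cut .d (-4194304) (.void 3 ⟨⟨100000, 0, 0, 0, 0, 0, 0, 0, 0, ⟨0, 0⟩, 0⟩, 0, 0⟩ 0 0) (.cut .d (-2097152) (.void 3 ⟨⟨100000, 0, 0, 0, 0, 0, 0, 0, 0, ⟨0, 0⟩, 0⟩, 0, 0⟩ 0 0)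 (.cut .d (-1048576) (.void 3 ⟨⟨0, 0, 0, 0, 0, 100000, 0, 0, 0, ⟨0, 0⟩, 0⟩, 0, 0⟩ 0 0) (.cut .d (-524288) (.void 3 ⟨⟨0, 0, 0, 0, 0, 100000, 0, 0, 0, ⟨0, 0⟩, 0⟩, 0, 0⟩ 0 0) (.cut .d (-262144) (.void 3 ⟨⟨0, 0, 0, 0, 0, 100000, 0, 0, 0, ⟨0, 0⟩, 0⟩, 0, 0⟩ 0 0) (.cut .s 13631488 (.pos 3 .mm ⟨⟨0, 0, 0, 0, 0, 996335784, 0, 0, 0, ⟨0, 0⟩, 0⟩, 0, 0⟩ 0 0) (.pos 3 .mm ⟨⟨0, 0, 0, 0, 0, 1115171111, 0, 0, 0, ⟨0, 0⟩, 0⟩, 0, 0⟩ 0 0))))))))) (.cut .v 268435456 (.cut .v 67108864 (.cut .v 33554432 (.cut .d (-8388608) (.void 20 ⟨⟨99899, 0, 0, 0, 0, 0, 0, 0, 0, ⟨0, 0⟩, 0⟩, 0, 0⟩ 0 0) (.cut .v 25165824 (.cut .d (-4194304) (.void 21 ⟨⟨100000, 0, 0, 0, 0, 0,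 0, 0, 0, ⟨0, 0⟩, 0⟩, 0, 0⟩ 0 0) (.cut .v 20971520 (.cut .d (-2097152) (.void 23 ⟨⟨100000, 0, 0, 0, 0, 0, 0, 0, 0, ⟨0, 0⟩, 0⟩, 0, 0⟩ 0 0) (.cut .v 18874368 (.cut .d (-1048576) (.void 25 ⟨⟨100000, 0, 0, 0, 0, 0, 0, 0, 0, ⟨0, 0⟩, 0⟩, 0, 0⟩ 0 0) (.cut .v 17825792 (.cut .d (-524288) (.void 27 ⟨⟨100000, 0, 0, 0, 0, 0, 0, 0, 0, ⟨0, 0⟩, 0⟩, 0, 0⟩ 0 0) (.cut .v 17301504 (.cut .d (-262144) (.void 29 ⟨⟨100000, 0, 0, 0, 0, 0, 0, 0, 0, ⟨0, 0⟩, 0⟩, 0, 0⟩ 0 0) (.cut .v 17039360 (.cut .d (-131072) (.void 31 ⟨⟨100000, 0, 0, 0, 0, 0, 0, 0, 0, ⟨0, 0⟩, 0⟩, 0, 0⟩ 0 0) (.cut .d (-65536) (.void 31 ⟨⟨100000, 0, 0, 0, 0, 0, 0, 0, 0, ⟨0, 0⟩, 0⟩, 0, 0⟩ 0 0) (.cut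 .d (-32768) (.void 31 ⟨⟨100000, 0, 0, 0, 0, 0, 0, 0, 0, ⟨0, 0⟩, 0⟩, 0, 0⟩ 0 0) (.cut .d (-16384) (.void 31 ⟨⟨0, 0, 0, 0, 0, 100000, 0, 0, 0, ⟨0, 0⟩, 0⟩, 0, 0⟩ 0 0) (.cut .s 13631488 (.cut .v 16908288 (.cut .s 13565952 (.cut .s 13533184 (.cut .v 16842752 (.cut .d (-8192) (.cut .s 13516800 (.pos 43 .mp ⟨⟨436532131, 0, 0, 0, 0, 180583106, 0, 0, 0, ⟨0, 0⟩, 0⟩, 0, 0⟩ 0 0) (.cut .s 13524992 (.pos 43 .mp ⟨⟨442079476, 0, 0, 0, 0, 177436269, 0, 0, 0, ⟨0, 0⟩, 0⟩, 0, 0⟩ 0 0) (.pos 43 .mp ⟨⟨444884015, 0, 0, 0, 0, 178272153, 0, 0, 0, ⟨0, 0⟩, 0⟩, 0, 0⟩ 0 0))) (.cut .l 153791 (.cut .v 16809984 (.cut .s 13516800 (.cut .d (-4096) (.pos 45 .mp ⟨⟨436991825,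 0, 0, 0, 0, 177369449, 0, 0, 0, ⟨0, 0⟩, 0⟩, 0, 0⟩ 0 0) (.cut .v 16793600 (.cut .s 13508608 (.pos 47 .mp ⟨⟨441527331, 0, 0, 0, 0, 156753347, 0, 0, 0, ⟨0, 0⟩, 0⟩, 0, 0⟩ 0 0) (.cut .s 13512704 (.pos 47 .mp ⟨⟨449781388, 0, 0, 0, 0, 146247109, 0, 0, 0, ⟨0, 0⟩, 0⟩, 0, 0⟩ 0 0) (.pos 47 .mp ⟨⟨450936193, 0, 0, 0, 0, 147073470, 0, 0, 0, ⟨0, 0⟩, 0⟩, 0, 0⟩ 0 0))) (.pos 48 .mp ⟨⟨484939067, 0, 0, 0, 0, 81517449, 0, 0, 0, ⟨0, 0⟩, 0⟩, 0, 0⟩ 0 0))) (.cut .d (-4096) (.pos 45 .mp ⟨⟨442522165, 0, 0, 0, 0, 179066890, 0, 0, 0, ⟨0, 0⟩, 0⟩, 0, 0⟩ 0 0) (.cut .v 16793600 (.cut .l 76895 (.cut .d (-2048) (.pos 47 .mp ⟨⟨442746542, 0, 0, 0, 0, 177454686, 0, 0, 0,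 ⟨0, 0⟩, 0⟩, 0, 0⟩ 0 0) (.cut .s 13524992 (.pos 47 .mp ⟨⟨448350307, 0, 0, 0, 0, 155612542, 0, 0, 0, ⟨0, 0⟩, 0⟩, 0, 0⟩ 0 0) (.pos 47 .mp ⟨⟨451179557, 0, 0, 0, 0, 156433300, 0, 0, 0, ⟨0, 0⟩, 0⟩, 0, 0⟩ 0 0))) (.pos 47 .mp ⟨⟨440985835, 0, 0, 0, 0, 166562669, 0, 0, 0, ⟨0, 0⟩, 0⟩, 0, 0⟩ 0 0)) (.pos 48 .mp ⟨⟨489459611, 0, 0, 0, 0, 85060877, 0, 0, 0, ⟨0, 0⟩, 0⟩, 0, 0⟩ 0 0)))) (.pos 46 .mp ⟨⟨540798811, 0, 0, 0, 0, 0, 0, 0, 0, ⟨0, 0⟩, 0⟩, 0, 0⟩ 0 0)) (.cut .s 13516800 (.pos 43 .mp ⟨⟨447668201, 0, 0, 0, 0, 142530419, 0, 0, 0, ⟨0, 0⟩, 0⟩, 0, 0⟩ 0 0) (.pos 43 .mp ⟨⟨453365565, 0, 0, 0, 0, 144296049, 0, 0, 0, ⟨0, 0⟩, 0⟩, 0, 0⟩ 0 0)))) (.pos 44 .mp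 ⟨⟨542920244, 0, 0, 0, 0, 0, 0, 0, 0, ⟨0, 0⟩, 0⟩, 0, 0⟩ 0 0)) (.cut .v 16842752 (.cut .d (-8192) (.cut .d (-12288) (.pos 43 .mp ⟨⟨451302593, 0, 0, 0, 0, 300135076, 0, 0, 0, ⟨0, 0⟩, 0⟩, 0, 0⟩ 0 0) (.cut .v 16809984 (.pos 45 .mp ⟨⟨0, 0, 0, 0, 0, 1064566214, 0, 0, 0, ⟨0, 0⟩, 0⟩, 0, 0⟩ 0 0) (.cut .v 16826368 (.cut .s 13549568 (.pos 115 .mp ⟨⟨454435848, 0, 0, 0, 0, 168557931, 0, 0, 0, ⟨0, 0⟩, 0⟩, 0, 0⟩ 0 0) (.cut .s 13557760 (.pos 115 .mp ⟨⟨461464664, 0, 0, 0, 0, 162978616, 0, 0, 0, ⟨0, 0⟩, 0⟩, 0, 0⟩ 0 0) (.pos 115 .mp ⟨⟨463866564, 0, 0, 0, 0, 164917674, 0, 0, 0, ⟨0, 0⟩, 0⟩, 0, 0⟩ 0 0))) (.pos 116 .mp ⟨⟨532805587, 0, 0, 0, 0, 32453316, 0,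 0, 0, ⟨0, 0⟩, 0⟩, 0, 0⟩ 0 0)))) (.cut .l 153791 (.cut .v 16809984 (.cut .s 13549568 (.cut .d (-4096) (.pos 45 .mp ⟨⟨448134704, 0, 0, 0, 0, 180881096, 0, 0, 0, ⟨0, 0⟩, 0⟩, 0, 0⟩ 0 0) (.cut .v 16793600 (.cut .l 76895 (.cut .d (-2048) (.pos 47 .mp ⟨⟨448350465, 0, 0, 0, 0, 179269796, 0, 0, 0, ⟨0, 0⟩, 0⟩, 0, 0⟩ 0 0) (.cut .v 16785408 (.cut .l 38447 (.cut .d (-1024) (.pos 81 .mp ⟨⟨448459115, 0, 0, 0, 0, 178462619, 0, 0, 0, ⟨0, 0⟩, 0⟩, 0, 0⟩ 0 0) (.cut .s 13541376 (.pos 81 .mp ⟨⟨452664620, 0, 0, 0, 0, 159715465, 0, 0, 0, ⟨0, 0⟩, 0⟩, 0, 0⟩ 0 0) (.pos 81 .mp ⟨⟨455573353, 0, 0, 0, 0, 160502866, 0, 0, 0, ⟨0, 0⟩, 0⟩, 0, 0⟩ 0 0))) (.pos 81 .mp ⟨⟨447562575,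 0, 0, 0, 0, 166287395, 0, 0, 0, ⟨0, 0⟩, 0⟩, 0, 0⟩ 0 0)) (.pos 82 .mp ⟨⟨494956711, 0, 0, 0, 0, 86369952, 0, 0, 0, ⟨0, 0⟩, 0⟩, 0, 0⟩ 0 0))) (.pos 47 .mp ⟨⟨446557206, 0, 0, 0, 0, 168769281, 0, 0, 0, ⟨0, 0⟩, 0⟩, 0, 0⟩ 0 0)) (.pos 48 .mp ⟨⟨494218296, 0, 0, 0, 0, 88419485, 0, 0, 0, ⟨0, 0⟩, 0⟩, 0, 0⟩ 0 0))) (.cut .d (-4096) (.pos 45 .mp ⟨⟨453830650, 0, 0, 0, 0, 182813973, 0, 0, 0, ⟨0, 0⟩, 0⟩, 0, 0⟩ 0 0) (.cut .l 76895 (.cut .v 16793600 (.cut .d (-2048) (.pos 47 .mp ⟨⟨454037638, 0, 0, 0, 0, 181203588, 0, 0, 0, ⟨0, 0⟩, 0⟩, 0, 0⟩ 0 0) (.cut .l 38447 (.cut .d (-1024) (.pos 47 .mp ⟨⟨460948421, 0, 0, 0, 0, 164765614, 0, 0, 0, ⟨0, 0⟩, 0⟩, 0, 0⟩ 0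 0) (.cut .v 16785408 (.cut .l 19223 (.cut .d (-512) (.pos 81 .mp ⟨⟨460892826, 0, 0, 0, 0, 164188075, 0, 0, 0, ⟨0, 0⟩, 0⟩, 0, 0⟩ 0 0) (.cut .v 16781312 (.cut .s 13557760 (.pos 83 .mp ⟨⟨457786143, 0, 0, 0, 0, 162601862, 0, 0, 0, ⟨0, 0⟩, 0⟩, 0, 0⟩ 0 0) (.cut .s 13561856 (.pos 83 .mp ⟨⟨462508151, 0, 0, 0, 0, 159357192, 0, 0, 0, ⟨0, 0⟩, 0⟩, 0, 0⟩ 0 0) (.pos 83 .mp ⟨⟨463844295, 0, 0, 0, 0, 160041142, 0, 0, 0, ⟨0, 0⟩, 0⟩, 0, 0⟩ 0 0))) (.pos 84 .mp ⟨⟨546191184, 0, 0, 0, 0, 0, 0, 0, 0, ⟨0, 0⟩, 0⟩, 0, 0⟩ 0 0))) (.pos 81 .mp ⟨⟨460633494, 0, 0, 0, 0, 154036843, 0, 0, 0, ⟨0, 0⟩, 0⟩, 0, 0⟩ 0 0)) (.pos 82 .mp ⟨⟨546352477, 0, 0, 0, 0, 0, 0, 0, 0, ⟨0,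 0⟩, 0⟩, 0, 0⟩ 0 0))) (.pos 47 .mp ⟨⟨461258074, 0, 0, 0, 0, 153175522, 0, 0, 0, ⟨0, 0⟩, 0⟩, 0, 0⟩ 0 0))) (.pos 48 .mp ⟨⟨558078570, 0, 0, 0, 0, 0, 0, 0, 0, ⟨0, 0⟩, 0⟩, 0, 0⟩ 0 0)) (.pos 45 .mp ⟨⟨462508874, 0, 0, 0, 0, 151450792, 0, 0, 0, ⟨0, 0⟩, 0⟩, 0, 0⟩ 0 0)))) (.pos 46 .mp ⟨⟨554409050, 0, 0, 0, 0, 0, 0, 0, 0, ⟨0, 0⟩, 0⟩, 0, 0⟩ 0 0)) (.cut .s 13549568 (.pos 43 .mp ⟨⟨459148089, 0, 0, 0, 0, 146117566, 0, 0, 0, ⟨0, 0⟩, 0⟩, 0, 0⟩ 0 0) (.pos 43 .mp ⟨⟨465017031, 0, 0, 0, 0, 147991659, 0, 0, 0, ⟨0, 0⟩, 0⟩, 0, 0⟩ 0 0)))) (.pos 44 .mp ⟨⟨556586926, 0, 0, 0, 0, 0, 0, 0, 0, ⟨0, 0⟩, 0⟩, 0, 0⟩ 0 0))) (.cut .s 13598720 (.cut .v 16842752 (.cut .d (-8192)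 (.cut .d (-12288) (.void 43 ⟨⟨0, 0, 0, 0, 0, 100000, 0, 0, 0, ⟨0, 0⟩, 0⟩, 0, 0⟩ 0 0) (.cut .v 16809984 (.pos 45 .mp ⟨⟨0, 0, 0, 0, 0, 1093151498, 0, 0, 0, ⟨0, 0⟩, 0⟩, 0, 0⟩ 0 0) (.cut .v 16826368 (.cut .l 153791 (.void 115 ⟨⟨100000, 0, 0, 0, 0, 0, 0, 0, 0, ⟨0, 0⟩, 0⟩, 0, 0⟩ 0 0) (.cut .s 13582336 (.pos 115 .mp ⟨⟨460056347, 0, 0, 0, 0, 181691607, 0, 0, 0, ⟨0, 0⟩, 0⟩, 0, 0⟩ 0 0) (.pos 115 .mp ⟨⟨465951312, 0, 0, 0, 0, 183909065, 0, 0, 0, ⟨0, 0⟩, 0⟩, 0, 0⟩ 0 0))) (.pos 116 .mp ⟨⟨544861788, 0, 0, 0, 0, 35755645, 0, 0, 0, ⟨0, 0⟩, 0⟩, 0, 0⟩ 0 0)))) (.cut .l 153791 (.cut .v 16809984 (.cut .s 13582336 (.cut .d (-4096) (.cut .s 13574144 (.pos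 45 .mp ⟨⟨459611238, 0, 0, 0, 0, 179702283, 0, 0, 0, ⟨0, 0⟩, 0⟩, 0, 0⟩ 0 0) (.pos 45 .mp ⟨⟨462533664, 0, 0, 0, 0, 180717826, 0, 0, 0, ⟨0, 0⟩, 0⟩, 0, 0⟩ 0 0)) (.cut .l 76895 (.cut .v 16793600 (.cut .d (-2048) (.pos 47 .mp ⟨⟨459809294, 0, 0, 0, 0, 183258008, 0, 0, 0, ⟨0, 0⟩, 0⟩, 0, 0⟩ 0 0) (.cut .l 38447 (.cut .v 16785408 (.cut .d (-1024) (.pos 81 .mp ⟨⟨459909113, 0, 0, 0, 0, 182451712, 0, 0, 0, ⟨0, 0⟩, 0⟩, 0, 0⟩ 0 0) (.cut .l 19223 (.cut .d (-512) (.pos 81 .mp ⟨⟨466510640, 0, 0, 0, 0, 166679266, 0, 0, 0, ⟨0, 0⟩, 0⟩, 0, 0⟩ 0 0) (.cut .v 16781312 (.cut .l 9611 (.cut .v 16779264 (.cut .s 13574144 (.cut .s 13570048 (.pos 85 .mp ⟨⟨466279450,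 0, 0, 0, 0, 158433831, 0, 0, 0, ⟨0, 0⟩, 0⟩, 0, 0⟩ 0 0) (.pos 85 .mp ⟨⟨467602926, 0, 0, 0, 0, 159181432, 0, 0, 0, ⟨0, 0⟩, 0⟩, 0, 0⟩ 0 0)) (.cut .s 13578240 (.pos 85 .mp ⟨⟨468937927, 0, 0, 0, 0, 159923796, 0, 0, 0, ⟨0, 0⟩, 0⟩, 0, 0⟩ 0 0) (.pos 85 .mp ⟨⟨470284605, 0, 0, 0, 0, 160660675, 0, 0, 0, ⟨0, 0⟩, 0⟩, 0, 0⟩ 0 0))) (.pos 86 .mp ⟨⟨564142481, 0, 0, 0, 0, 0, 0, 0, 0, ⟨0, 0⟩, 0⟩, 0, 0⟩ 0 0)) (.pos 83 .mp ⟨⟨466176529, 0, 0, 0, 0, 156544380, 0, 0, 0, ⟨0, 0⟩, 0⟩, 0, 0⟩ 0 0)) (.pos 84 .mp ⟨⟨552914423, 0, 0, 0, 0, 0, 0, 0, 0, ⟨0, 0⟩, 0⟩, 0, 0⟩ 0 0))) (.pos 81 .mp ⟨⟨466495329, 0, 0, 0, 0, 156103494, 0, 0, 0, ⟨0, 0⟩, 0⟩, 0, 0⟩ 0 0))) (.pos 82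 .mp ⟨⟨564568990, 0, 0, 0, 0, 0, 0, 0, 0, ⟨0, 0⟩, 0⟩, 0, 0⟩ 0 0)) (.pos 47 .mp ⟨⟨467133423, 0, 0, 0, 0, 155221741, 0, 0, 0, ⟨0, 0⟩, 0⟩, 0, 0⟩ 0 0))) (.pos 48 .mp ⟨⟨565124118, 0, 0, 0, 0, 0, 0, 0, 0, ⟨0, 0⟩, 0⟩, 0, 0⟩ 0 0)) (.pos 45 .mp ⟨⟨468411281, 0, 0, 0, 0, 153456104, 0, 0, 0, ⟨0, 0⟩, 0⟩, 0, 0⟩ 0 0))) (.cut .d (-4096) (.cut .s 13590528 (.pos 45 .mp ⟨⟨465477725, 0, 0, 0, 0, 181763982, 0, 0, 0, ⟨0, 0⟩, 0⟩, 0, 0⟩ 0 0) (.pos 45 .mp ⟨⟨468443582, 0, 0, 0, 0, 182841004, 0, 0, 0, ⟨0, 0⟩, 0⟩, 0, 0⟩ 0 0)) (.cut .l 76895 (.cut .v 16793600 (.cut .d (-2048) (.pos 47 .mp ⟨⟨465666688, 0, 0, 0, 0, 185435043, 0, 0, 0, ⟨0, 0⟩, 0⟩, 0, 0⟩ 0 0) (.cut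 .l 38447 (.cut .v 16785408 (.cut .d (-1024) (.pos 81 .mp ⟨⟨465761972, 0, 0, 0, 0, 184629194, 0, 0, 0, ⟨0, 0⟩, 0⟩, 0, 0⟩ 0 0) (.cut .l 19223 (.cut .d (-512) (.pos 81 .mp ⟨⟨472158312, 0, 0, 0, 0, 169450282, 0, 0, 0, ⟨0, 0⟩, 0⟩, 0, 0⟩ 0 0) (.cut .v 16781312 (.cut .l 9611 (.cut .v 16779264 (.cut .s 13590528 (.cut .s 13586432 (.pos 85 .mp ⟨⟨471643106, 0, 0, 0, 0, 161391819, 0, 0, 0, ⟨0, 0⟩, 0⟩, 0, 0⟩ 0 0) (.pos 85 .mp ⟨⟨473013583, 0, 0, 0, 0, 162116975, 0, 0, 0, ⟨0, 0⟩, 0⟩, 0, 0⟩ 0 0)) (.cut .s 13594624 (.pos 85 .mp ⟨⟨474396186, 0, 0, 0, 0, 162835891, 0, 0, 0, ⟨0, 0⟩, 0⟩, 0, 0⟩ 0 0) (.pos 85 .mp ⟨⟨475791067, 0, 0, 0, 0, 163548311, 0, 0,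 0, ⟨0, 0⟩, 0⟩, 0, 0⟩ 0 0))) (.pos 86 .mp ⟨⟨571289677, 0, 0, 0, 0, 0, 0, 0, 0, ⟨0, 0⟩, 0⟩, 0, 0⟩ 0 0)) (.pos 83 .mp ⟨⟨472118603, 0, 0, 0, 0, 158670321, 0, 0, 0, ⟨0, 0⟩, 0⟩, 0, 0⟩ 0 0)) (.pos 84 .mp ⟨⟨559783926, 0, 0, 0, 0, 0, 0, 0, 0, ⟨0, 0⟩, 0⟩, 0, 0⟩ 0 0))) (.pos 81 .mp ⟨⟨472444290, 0, 0, 0, 0, 158219003, 0, 0, 0, ⟨0, 0⟩, 0⟩, 0, 0⟩ 0 0))) (.pos 82 .mp ⟨⟨571721863, 0, 0, 0, 0, 0, 0, 0, 0, ⟨0, 0⟩, 0⟩, 0, 0⟩ 0 0)) (.pos 47 .mp ⟨⟨473096167, 0, 0, 0, 0, 157316383, 0, 0, 0, ⟨0, 0⟩, 0⟩, 0, 0⟩ 0 0))) (.pos 48 .mp ⟨⟨572284405, 0, 0, 0, 0, 0, 0, 0, 0, ⟨0, 0⟩, 0⟩, 0, 0⟩ 0 0)) (.pos 45 .mp ⟨⟨474401622, 0, 0, 0, 0, 155508970, 0, 0, 0, ⟨0, 0⟩, 0⟩,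 0, 0⟩ 0 0)))) (.pos 46 .mp ⟨⟨568482710, 0, 0, 0, 0, 0, 0, 0, 0, ⟨0, 0⟩, 0⟩, 0, 0⟩ 0 0)) (.cut .d (-4096) (.cut .s 13582336 (.pos 43 .mp ⟨⟨470973677, 0, 0, 0, 0, 150852404, 0, 0, 0, ⟨0, 0⟩, 0⟩, 0, 0⟩ 0 0) (.cut .s 13590528 (.pos 43 .mp ⟨⟨473985297, 0, 0, 0, 0, 157378427, 0, 0, 0, ⟨0, 0⟩, 0⟩, 0, 0⟩ 0 0) (.pos 43 .mp ⟨⟨477019337, 0, 0, 0, 0, 158322593, 0, 0, 0, ⟨0, 0⟩, 0⟩, 0, 0⟩ 0 0))) (.pos 43 .mp ⟨⟨0, 0, 0, 0, 0, 0, 0, 0, 0, ⟨0, 0⟩, 0⟩, 0, 0⟩ 0 0)))) (.pos 44 .mp ⟨⟨570718999, 0, 0, 0, 0, 0, 0, 0, 0, ⟨0, 0⟩, 0⟩, 0, 0⟩ 0 0)) (.cut .v 16842752 (.cut .d (-8192) (.cut .d (-12288) (.void 43 ⟨⟨0, 0, 0, 0, 0, 100000, 0, 0, 0, ⟨0, 0⟩, 0⟩, 0,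 0⟩ 0 0) (.cut .v 16809984 (.pos 45 .mp ⟨⟨0, 0, 0, 0, 0, 1122998299, 0, 0, 0, ⟨0, 0⟩, 0⟩, 0, 0⟩ 0 0) (.cut .v 16826368 (.cut .l 153791 (.void 115 ⟨⟨100000, 0, 0, 0, 0, 0, 0, 0, 0, ⟨0, 0⟩, 0⟩, 0, 0⟩ 0 0) (.cut .s 13615104 (.pos 115 .mp ⟨⟨471933942, 0, 0, 0, 0, 186220012, 0, 0, 0, ⟨0, 0⟩, 0⟩, 0, 0⟩ 0 0) (.cut .s 13623296 (.pos 115 .mp ⟨⟨478005556, 0, 0, 0, 0, 184192651, 0, 0, 0, ⟨0, 0⟩, 0⟩, 0, 0⟩ 0 0) (.pos 115 .mp ⟨⟨481075151, 0, 0, 0, 0, 185386693, 0, 0, 0, ⟨0, 0⟩, 0⟩, 0, 0⟩ 0 0)))) (.pos 116 .mp ⟨⟨558251473, 0, 0, 0, 0, 37629215, 0, 0, 0, ⟨0, 0⟩, 0⟩, 0, 0⟩ 0 0)))) (.cut .l 153791 (.cut .v 16809984 (.cut .s 13615104 (.cut .d (-4096)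 (.cut .s 13606912 (.pos 45 .mp ⟨⟨471431398, 0, 0, 0, 0, 183949145, 0, 0, 0, ⟨0, 0⟩, 0⟩, 0, 0⟩ 0 0) (.pos 45 .mp ⟨⟨474441337, 0, 0, 0, 0, 185088665, 0, 0, 0, ⟨0, 0⟩, 0⟩, 0, 0⟩ 0 0)) (.cut .l 76895 (.cut .v 16793600 (.cut .d (-2048) (.pos 47 .mp ⟨⟨471611103, 0, 0, 0, 0, 187736719, 0, 0, 0, ⟨0, 0⟩, 0⟩, 0, 0⟩ 0 0) (.cut .l 38447 (.cut .v 16785408 (.cut .d (-1024) (.pos 81 .mp ⟨⟨471701770, 0, 0, 0, 0, 186931323, 0, 0, 0, ⟨0, 0⟩, 0⟩, 0, 0⟩ 0 0) (.cut .l 19223 (.cut .v 16781312 (.cut .d (-512) (.pos 83 .mp ⟨⟨471747346, 0, 0, 0, 0, 186528329, 0, 0, 0, ⟨0, 0⟩, 0⟩, 0, 0⟩ 0 0) (.cut .l 9611 (.cut .v 16779264 (.cut .s 13606912 (.cut .s 13602816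 (.pos 85 .mp ⟨⟨477198378, 0, 0, 0, 0, 164253979, 0, 0, 0, ⟨0, 0⟩, 0⟩, 0, 0⟩ 0 0) (.pos 85 .mp ⟨⟨478618273, 0, 0, 0, 0, 164952637, 0, 0, 0, ⟨0, 0⟩, 0⟩, 0, 0⟩ 0 0)) (.cut .s 13611008 (.pos 85 .mp ⟨⟨480050906, 0, 0, 0, 0, 165644024, 0, 0, 0, ⟨0, 0⟩, 0⟩, 0, 0⟩ 0 0) (.pos 85 .mp ⟨⟨481496433, 0, 0, 0, 0, 166327879, 0, 0, 0, ⟨0, 0⟩, 0⟩, 0, 0⟩ 0 0))) (.pos 86 .mp ⟨⟨578550510, 0, 0, 0, 0, 0, 0, 0, 0, ⟨0, 0⟩, 0⟩, 0, 0⟩ 0 0)) (.pos 83 .mp ⟨⟨478148980, 0, 0, 0, 0, 160841940, 0, 0, 0, ⟨0, 0⟩, 0⟩, 0, 0⟩ 0 0))) (.pos 84 .mp ⟨⟨578701387, 0, 0, 0, 0, 0, 0, 0, 0, ⟨0, 0⟩, 0⟩, 0, 0⟩ 0 0)) (.pos 81 .mp ⟨⟨478481690, 0, 0, 0, 0, 160379967, 0, 0, 0, ⟨0, 0⟩,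 0⟩, 0, 0⟩ 0 0))) (.pos 82 .mp ⟨⟨578988466, 0, 0, 0, 0, 0, 0, 0, 0, ⟨0, 0⟩, 0⟩, 0, 0⟩ 0 0)) (.pos 47 .mp ⟨⟨479147622, 0, 0, 0, 0, 159456038, 0, 0, 0, ⟨0, 0⟩, 0⟩, 0, 0⟩ 0 0))) (.pos 48 .mp ⟨⟨579558544, 0, 0, 0, 0, 0, 0, 0, 0, ⟨0, 0⟩, 0⟩, 0, 0⟩ 0 0)) (.pos 45 .mp ⟨⟨480481221, 0, 0, 0, 0, 157605961, 0, 0, 0, ⟨0, 0⟩, 0⟩, 0, 0⟩ 0 0))) (.cut .d (-4096) (.cut .s 13623296 (.pos 45 .mp ⟨⟨477473567, 0, 0, 0, 0, 186259824, 0, 0, 0, ⟨0, 0⟩, 0⟩, 0, 0⟩ 0 0) (.pos 45 .mp ⟨⟨480528256, 0, 0, 0, 0, 187462884, 0, 0, 0, ⟨0, 0⟩, 0⟩, 0, 0⟩ 0 0)) (.cut .l 76895 (.cut .v 16793600 (.cut .d (-2048) (.pos 47 .mp ⟨⟨477643849, 0, 0, 0, 0, 190165105, 0, 0, 0, ⟨0,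 0⟩, 0⟩, 0, 0⟩ 0 0) (.cut .l 38447 (.cut .v 16785408 (.cut .d (-1024) (.pos 81 .mp ⟨⟨477729817, 0, 0, 0, 0, 189360166, 0, 0, 0, ⟨0, 0⟩, 0⟩, 0, 0⟩ 0 0) (.cut .l 19223 (.cut .v 16781312 (.cut .d (-512) (.pos 83 .mp ⟨⟨477773046, 0, 0, 0, 0, 188957398, 0, 0, 0, ⟨0, 0⟩, 0⟩, 0, 0⟩ 0 0) (.cut .l 9611 (.cut .v 16779264 (.cut .s 13623296 (.cut .s 13619200 (.pos 85 .mp ⟨⟨482955010, 0, 0, 0, 0, 167003939, 0, 0, 0, ⟨0, 0⟩, 0⟩, 0, 0⟩ 0 0) (.pos 85 .mp ⟨⟨484426793, 0, 0, 0, 0, 167671939, 0, 0, 0, ⟨0, 0⟩, 0⟩, 0, 0⟩ 0 0)) (.cut .s 13627392 (.pos 85 .mp ⟨⟨485911940, 0, 0, 0, 0, 168331612, 0, 0, 0, ⟨0, 0⟩, 0⟩, 0, 0⟩ 0 0) (.pos 85 .mp ⟨⟨487410610, 0, 0,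 0, 0, 168982690, 0, 0, 0, ⟨0, 0⟩, 0⟩, 0, 0⟩ 0 0))) (.pos 86 .mp ⟨⟨585924100, 0, 0, 0, 0, 0, 0, 0, 0, ⟨0, 0⟩, 0⟩, 0, 0⟩ 0 0)) (.pos 83 .mp ⟨⟨484268994, 0, 0, 0, 0, 163055785, 0, 0, 0, ⟨0, 0⟩, 0⟩, 0, 0⟩ 0 0))) (.pos 84 .mp ⟨⟨586076988, 0, 0, 0, 0, 0, 0, 0, 0, ⟨0, 0⟩, 0⟩, 0, 0⟩ 0 0)) (.pos 81 .mp ⟨⟨484608866, 0, 0, 0, 0, 162582933, 0, 0, 0, ⟨0, 0⟩, 0⟩, 0, 0⟩ 0 0))) (.pos 82 .mp ⟨⟨586367918, 0, 0, 0, 0, 0, 0, 0, 0, ⟨0, 0⟩, 0⟩, 0, 0⟩ 0 0)) (.pos 47 .mp ⟨⟨485289131, 0, 0, 0, 0, 161637243, 0, 0, 0, ⟨0, 0⟩, 0⟩, 0, 0⟩ 0 0))) (.pos 48 .mp ⟨⟨586945652, 0, 0, 0, 0, 0, 0, 0, 0, ⟨0, 0⟩, 0⟩, 0, 0⟩ 0 0)) (.pos 45 .mp ⟨⟨486651428, 0, 0, 0, 0, 159743598,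 0, 0, 0, ⟨0, 0⟩, 0⟩, 0, 0⟩ 0 0)))) (.pos 46 .mp ⟨⟨583012667, 0, 0, 0, 0, 0, 0, 0, 0, ⟨0, 0⟩, 0⟩, 0, 0⟩ 0 0)) (.cut .d (-4096) (.cut .d (-6144) (.cut .l 230687 (.cut .l 192239 (.cut .s 13615104 (.pos 43 .mp ⟨⟨474921756, 0, 0, 0, 0, 183287187, 0, 0, 0, ⟨0, 0⟩, 0⟩, 0, 0⟩ 0 0) (.pos 43 .mp ⟨⟨480952848, 0, 0, 0, 0, 185911680, 0, 0, 0, ⟨0, 0⟩, 0⟩, 0, 0⟩ 0 0)) (.pos 43 .mp ⟨⟨485470157, 0, 0, 0, 0, 149222144, 0, 0, 0, ⟨0, 0⟩, 0⟩, 0, 0⟩ 0 0)) (.pos 43 .mp ⟨⟨479570645, 0, 0, 0, 0, 0, 0, 0, 0, ⟨0, 0⟩, 0⟩, 0, 0⟩ 0 0)) (.pos 43 .mp ⟨⟨483620028, 0, 0, 0, 0, 151598079, 0, 0, 0, ⟨0, 0⟩, 0⟩, 0, 0⟩ 0 0)) (.pos 43 .mp ⟨⟨0, 0, 0, 0, 0, 0, 0, 0, 0, ⟨0,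 0⟩, 0⟩, 0, 0⟩ 0 0)))) (.pos 44 .mp ⟨⟨585309309, 0, 0, 0, 0, 0, 0, 0, 0, ⟨0, 0⟩, 0⟩, 0, 0⟩ 0 0)))) (.pos 36 .mp ⟨⟨574461963, 0, 0, 0, 0, 0, 0, 0, 0, ⟨0, 0⟩, 0⟩, 0, 0⟩ 0 0)) (.cut .v 16908288 (.cut .s 13697024 (.cut .s 13664256 (.cut .v 16842752 (.cut .d (-8192) (.cut .d (-12288) (.void 43 ⟨⟨0, 0, 0, 0, 0, 100000, 0, 0, 0, ⟨0, 0⟩, 0⟩, 0, 0⟩ 0 0) (.cut .v 16809984 (.pos 45 .mp ⟨⟨0, 0, 0, 0, 0, 1154147538, 0, 0, 0, ⟨0, 0⟩, 0⟩, 0, 0⟩ 0 0) (.cut .v 16826368 (.cut .l 153791 (.void 115 ⟨⟨100000, 0, 0, 0, 0, 0, 0, 0, 0, ⟨0, 0⟩, 0⟩, 0, 0⟩ 0 0) (.cut .l 230687 (.pos 115 .mp ⟨⟨487213307, 0, 0, 0, 0, 203228806, 0, 0, 0, ⟨0, 0⟩, 0⟩, 0, 0⟩ 0 0) (.cut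 .s 13647872 (.pos 115 .mp ⟨⟨484167499, 0, 0, 0, 0, 188271092, 0, 0, 0, ⟨0, 0⟩, 0⟩, 0, 0⟩ 0 0) (.pos 115 .mp ⟨⟨490421147, 0, 0, 0, 0, 190811391, 0, 0, 0, ⟨0, 0⟩, 0⟩, 0, 0⟩ 0 0)))) (.pos 116 .mp ⟨⟨573115878, 0, 0, 0, 0, 37822575, 0, 0, 0, ⟨0, 0⟩, 0⟩, 0, 0⟩ 0 0)))) (.cut .s 13647872 (.cut .l 153791 (.cut .v 16809984 (.cut .d (-4096) (.cut .s 13639680 (.pos 45 .mp ⟨⟨483605573, 0, 0, 0, 0, 188698112, 0, 0, 0, ⟨0, 0⟩, 0⟩, 0, 0⟩ 0 0) (.pos 45 .mp ⟨⟨486705691, 0, 0, 0, 0, 189965776, 0, 0, 0, ⟨0, 0⟩, 0⟩, 0, 0⟩ 0 0)) (.cut .l 76895 (.cut .v 16793600 (.cut .d (-2048) (.pos 47 .mp ⟨⟨483766263, 0, 0, 0, 0, 192722311, 0, 0, 0, ⟨0, 0⟩, 0⟩, 0, 0⟩ 0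 0) (.cut .l 38447 (.cut .v 16785408 (.cut .d (-1024) (.pos 81 .mp ⟨⟨483847446, 0, 0, 0, 0, 191917834, 0, 0, 0, ⟨0, 0⟩, 0⟩, 0, 0⟩ 0 0) (.cut .l 19223 (.cut .v 16781312 (.cut .d (-512) (.pos 83 .mp ⟨⟨483888288, 0, 0, 0, 0, 191515296, 0, 0, 0, ⟨0, 0⟩, 0⟩, 0, 0⟩ 0 0) (.cut .l 9611 (.cut .v 16779264 (.cut .s 13639680 (.cut .s 13635584 (.pos 85 .mp ⟨⟨488922963, 0, 0, 0, 0, 169624902, 0, 0, 0, ⟨0, 0⟩, 0⟩, 0, 0⟩ 0 0) (.pos 85 .mp ⟨⟨490449157, 0, 0, 0, 0, 170257979, 0, 0, 0, ⟨0, 0⟩, 0⟩, 0, 0⟩ 0 0)) (.cut .s 13643776 (.pos 85 .mp ⟨⟨491989356, 0, 0, 0, 0, 170881644, 0, 0, 0, ⟨0, 0⟩, 0⟩, 0, 0⟩ 0 0) (.pos 85 .mp ⟨⟨493543721, 0, 0, 0, 0, 171495624,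 0, 0, 0, ⟨0, 0⟩, 0⟩, 0, 0⟩ 0 0))) (.pos 86 .mp ⟨⟨593409576, 0, 0, 0, 0, 0, 0, 0, 0, ⟨0, 0⟩, 0⟩, 0, 0⟩ 0 0)) (.pos 83 .mp ⟨⟨490480010, 0, 0, 0, 0, 165308355, 0, 0, 0, ⟨0, 0⟩, 0⟩, 0, 0⟩ 0 0))) (.pos 84 .mp ⟨⟨593564505, 0, 0, 0, 0, 0, 0, 0, 0, ⟨0, 0⟩, 0⟩, 0, 0⟩ 0 0)) (.pos 81 .mp ⟨⟨490827184, 0, 0, 0, 0, 164824394, 0, 0, 0, ⟨0, 0⟩, 0⟩, 0, 0⟩ 0 0))) (.pos 82 .mp ⟨⟨593859347, 0, 0, 0, 0, 0, 0, 0, 0, ⟨0, 0⟩, 0⟩, 0, 0⟩ 0 0)) (.pos 47 .mp ⟨⟨491522063, 0, 0, 0, 0, 163856482, 0, 0, 0, ⟨0, 0⟩, 0⟩, 0, 0⟩ 0 0))) (.pos 48 .mp ⟨⟨594444856, 0, 0, 0, 0, 0, 0, 0, 0, ⟨0, 0⟩, 0⟩, 0, 0⟩ 0 0)) (.pos 45 .mp ⟨⟨492913621, 0, 0, 0, 0, 161918348, 0, 0, 0, ⟨0,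 0⟩, 0⟩, 0, 0⟩ 0 0))) (.pos 46 .mp ⟨⟨595614475, 0, 0, 0, 0, 0, 0, 0, 0, ⟨0, 0⟩, 0⟩, 0, 0⟩ 0 0)) (.cut .s 13639680 (.pos 43 .mp ⟨⟨492531781, 0, 0, 0, 0, 162207820, 0, 0, 0, ⟨0, 0⟩, 0⟩, 0, 0⟩ 0 0) (.pos 43 .mp ⟨⟨495703933, 0, 0, 0, 0, 163294688, 0, 0, 0, ⟨0, 0⟩, 0⟩, 0, 0⟩ 0 0))) (.cut .l 153791 (.cut .v 16809984 (.cut .d (-4096) (.cut .s 13656064 (.pos 45 .mp ⟨⟨489828783, 0, 0, 0, 0, 191266147, 0, 0, 0, ⟨0, 0⟩, 0⟩, 0, 0⟩ 0 0) (.pos 45 .mp ⟨⟨492975024, 0, 0, 0, 0, 192599500, 0, 0, 0, ⟨0, 0⟩, 0⟩, 0, 0⟩ 0 0)) (.cut .l 76895 (.cut .v 16793600 (.cut .d (-2048) (.pos 47 .mp ⟨⟨489979709, 0, 0, 0, 0, 195410492, 0, 0, 0, ⟨0, 0⟩, 0⟩, 0, 0⟩ 0 0)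 (.cut .l 38447 (.cut .v 16785408 (.cut .d (-1024) (.pos 81 .mp ⟨⟨490056023, 0, 0, 0, 0, 194606483, 0, 0, 0, ⟨0, 0⟩, 0⟩, 0, 0⟩ 0 0) (.cut .l 19223 (.cut .v 16781312 (.cut .d (-512) (.pos 83 .mp ⟨⟨490094433, 0, 0, 0, 0, 194204175, 0, 0, 0, ⟨0, 0⟩, 0⟩, 0, 0⟩ 0 0) (.cut .l 9611 (.cut .v 16779264 (.cut .s 13656064 (.cut .s 13651968 (.pos 85 .mp ⟨⟨495112415, 0, 0, 0, 0, 172099642, 0, 0, 0, ⟨0, 0⟩, 0⟩, 0, 0⟩ 0 0) (.pos 85 .mp ⟨⟨496695602, 0, 0, 0, 0, 172693418, 0, 0, 0, ⟨0, 0⟩, 0⟩, 0, 0⟩ 0 0)) (.cut .s 13660160 (.pos 85 .mp ⟨⟨498293446, 0, 0, 0, 0, 173276672, 0, 0, 0, ⟨0, 0⟩, 0⟩, 0, 0⟩ 0 0) (.pos 85 .mp ⟨⟨499906114, 0, 0, 0, 0, 173849122,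 0, 0, 0, ⟨0, 0⟩, 0⟩, 0, 0⟩ 0 0))) (.pos 86 .mp ⟨⟨601006069, 0, 0, 0, 0, 0, 0, 0, 0, ⟨0, 0⟩, 0⟩, 0, 0⟩ 0 0)) (.pos 83 .mp ⟨⟨496783421, 0, 0, 0, 0, 167596091, 0, 0, 0, ⟨0, 0⟩, 0⟩, 0, 0⟩ 0 0))) (.pos 84 .mp ⟨⟨601163071, 0, 0, 0, 0, 0, 0, 0, 0, ⟨0, 0⟩, 0⟩, 0, 0⟩ 0 0)) (.pos 81 .mp ⟨⟨497138041, 0, 0, 0, 0, 167100787, 0, 0, 0, ⟨0, 0⟩, 0⟩, 0, 0⟩ 0 0))) (.pos 82 .mp ⟨⟨601461884, 0, 0, 0, 0, 0, 0, 0, 0, ⟨0, 0⟩, 0⟩, 0, 0⟩ 0 0)) (.pos 47 .mp ⟨⟨497847819, 0, 0, 0, 0, 166110187, 0, 0, 0, ⟨0, 0⟩, 0⟩, 0, 0⟩ 0 0))) (.pos 48 .mp ⟨⟨602055287, 0, 0, 0, 0, 0, 0, 0, 0, ⟨0, 0⟩, 0⟩, 0, 0⟩ 0 0)) (.pos 45 .mp ⟨⟨499269210, 0, 0, 0, 0, 164126626, 0, 0, 0, ⟨0,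 0⟩, 0⟩, 0, 0⟩ 0 0))) (.pos 46 .mp ⟨⟨603240681, 0, 0, 0, 0, 0, 0, 0, 0, ⟨0, 0⟩, 0⟩, 0, 0⟩ 0 0)) (.cut .s 13656064 (.pos 43 .mp ⟨⟨498899720, 0, 0, 0, 0, 164389527, 0, 0, 0, ⟨0, 0⟩, 0⟩, 0, 0⟩ 0 0) (.pos 43 .mp ⟨⟨502119323, 0, 0, 0, 0, 165491877, 0, 0, 0, ⟨0, 0⟩, 0⟩, 0, 0⟩ 0 0))))) (.pos 44 .mp ⟨⟨600350807, 0, 0, 0, 0, 0, 0, 0, 0, ⟨0, 0⟩, 0⟩, 0, 0⟩ 0 0)) (.cut .v 16842752 (.cut .d (-8192) (.cut .d (-12288) (.void 43 ⟨⟨0, 0, 0, 0, 0, 100000, 0, 0, 0, ⟨0, 0⟩, 0⟩, 0, 0⟩ 0 0) (.cut .v 16809984 (.pos 45 .mp ⟨⟨0, 0, 0, 0, 0, 1186641835, 0, 0, 0, ⟨0, 0⟩, 0⟩, 0, 0⟩ 0 0) (.cut .v 16826368 (.cut .l 153791 (.void 115 ⟨⟨100000, 0, 0, 0, 0, 0, 0, 0,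 0, ⟨0, 0⟩, 0⟩, 0, 0⟩ 0 0) (.cut .s 13680640 (.cut .s 13672448 (.pos 115 .mp ⟨⟨496767903, 0, 0, 0, 0, 191701217, 0, 0, 0, ⟨0, 0⟩, 0⟩, 0, 0⟩ 0 0) (.pos 115 .mp ⟨⟨499976644, 0, 0, 0, 0, 193032406, 0, 0, 0, ⟨0, 0⟩, 0⟩, 0, 0⟩ 0 0)) (.pos 115 .mp ⟨⟨503209201, 0, 0, 0, 0, 199156616, 0, 0, 0, ⟨0, 0⟩, 0⟩, 0, 0⟩ 0 0))) (.pos 116 .mp ⟨⟨589601508, 0, 0, 0, 0, 36073464, 0, 0, 0, ⟨0, 0⟩, 0⟩, 0, 0⟩ 0 0)))) (.cut .s 13680640 (.cut .l 153791 (.cut .v 16809984 (.cut .d (-4096) (.cut .s 13672448 (.pos 45 .mp ⟨⟨496144592, 0, 0, 0, 0, 193966111, 0, 0, 0, ⟨0, 0⟩, 0⟩, 0, 0⟩ 0 0) (.pos 45 .mp ⟨⟨499337666, 0, 0, 0, 0, 195366261, 0, 0, 0, ⟨0, 0⟩, 0⟩, 0, 0⟩ 0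 0)) (.cut .l 76895 (.cut .v 16793600 (.cut .d (-2048) (.pos 47 .mp ⟨⟨496285581, 0, 0, 0, 0, 198231848, 0, 0, 0, ⟨0, 0⟩, 0⟩, 0, 0⟩ 0 0) (.cut .l 38447 (.cut .v 16785408 (.cut .d (-1024) (.pos 81 .mp ⟨⟨496356939, 0, 0, 0, 0, 197428312, 0, 0, 0, ⟨0, 0⟩, 0⟩, 0, 0⟩ 0 0) (.cut .l 19223 (.cut .v 16781312 (.cut .d (-512) (.pos 83 .mp ⟨⟨496392875, 0, 0, 0, 0, 197026238, 0, 0, 0, ⟨0, 0⟩, 0⟩, 0, 0⟩ 0 0) (.cut .l 9611 (.cut .v 16779264 (.cut .s 13672448 (.cut .s 13668352 (.pos 85 .mp ⟨⟨501533772, 0, 0, 0, 0, 174410484, 0, 0, 0, ⟨0, 0⟩, 0⟩, 0, 0⟩ 0 0) (.pos 85 .mp ⟨⟨503176588, 0, 0, 0, 0, 174960471, 0, 0, 0, ⟨0, 0⟩, 0⟩, 0, 0⟩ 0 0)) (.cut .s 13676544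 (.pos 85 .mp ⟨⟨504834730, 0, 0, 0, 0, 175498795, 0, 0, 0, ⟨0, 0⟩, 0⟩, 0, 0⟩ 0 0) (.pos 85 .mp ⟨⟨506508368, 0, 0, 0, 0, 176025168, 0, 0, 0, ⟨0, 0⟩, 0⟩, 0, 0⟩ 0 0))) (.pos 86 .mp ⟨⟨608712720, 0, 0, 0, 0, 0, 0, 0, 0, ⟨0, 0⟩, 0⟩, 0, 0⟩ 0 0)) (.pos 83 .mp ⟨⟨503180651, 0, 0, 0, 0, 169915383, 0, 0, 0, ⟨0, 0⟩, 0⟩, 0, 0⟩ 0 0))) (.pos 84 .mp ⟨⟨608871826, 0, 0, 0, 0, 0, 0, 0, 0, ⟨0, 0⟩, 0⟩, 0, 0⟩ 0 0)) (.pos 81 .mp ⟨⟨503542860, 0, 0, 0, 0, 169408497, 0, 0, 0, ⟨0, 0⟩, 0⟩, 0, 0⟩ 0 0))) (.pos 82 .mp ⟨⟨609174669, 0, 0, 0, 0, 0, 0, 0, 0, ⟨0, 0⟩, 0⟩, 0, 0⟩ 0 0)) (.pos 47 .mp ⟨⟨504267827, 0, 0, 0, 0, 168394730, 0, 0, 0, ⟨0, 0⟩, 0⟩, 0, 0⟩ 0 0))) (.pos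 48 .mp ⟨⟨609776084, 0, 0, 0, 0, 0, 0, 0, 0, ⟨0, 0⟩, 0⟩, 0, 0⟩ 0 0)) (.pos 45 .mp ⟨⟨505719631, 0, 0, 0, 0, 166364787, 0, 0, 0, ⟨0, 0⟩, 0⟩, 0, 0⟩ 0 0))) (.pos 46 .mp ⟨⟨610977486, 0, 0, 0, 0, 0, 0, 0, 0, ⟨0, 0⟩, 0⟩, 0, 0⟩ 0 0)) (.cut .s 13672448 (.pos 43 .mp ⟨⟨505362924, 0, 0, 0, 0, 166601277, 0, 0, 0, ⟨0, 0⟩, 0⟩, 0, 0⟩ 0 0) (.pos 43 .mp ⟨⟨508630709, 0, 0, 0, 0, 167717262, 0, 0, 0, ⟨0, 0⟩, 0⟩, 0, 0⟩ 0 0))) (.cut .l 153791 (.cut .v 16809984 (.cut .d (-4096) (.cut .s 13688832 (.pos 45 .mp ⟨⟨502554427, 0, 0, 0, 0, 196800232, 0, 0, 0, ⟨0, 0⟩, 0⟩, 0, 0⟩ 0 0) (.pos 45 .mp ⟨⟨505795058, 0, 0, 0, 0, 198268310, 0, 0, 0, ⟨0, 0⟩, 0⟩, 0, 0⟩ 0 0)) (.cut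 .l 76895 (.cut .v 16793600 (.cut .d (-2048) (.pos 47 .mp ⟨⟨502685302, 0, 0, 0, 0, 201188625, 0, 0, 0, ⟨0, 0⟩, 0⟩, 0, 0⟩ 0 0) (.cut .l 38447 (.cut .v 16785408 (.cut .d (-1024) (.pos 81 .mp ⟨⟨502751617, 0, 0, 0, 0, 200385566, 0, 0, 0, ⟨0, 0⟩, 0⟩, 0, 0⟩ 0 0) (.cut .l 19223 (.cut .v 16781312 (.cut .d (-512) (.pos 83 .mp ⟨⟨502785034, 0, 0, 0, 0, 199983729, 0, 0, 0, ⟨0, 0⟩, 0⟩, 0, 0⟩ 0 0) (.cut .l 9611 (.cut .v 16779264 (.cut .s 13688832 (.cut .s 13684736 (.pos 85 .mp ⟨⟨508197672, 0, 0, 0, 0, 176539298, 0, 0, 0, ⟨0, 0⟩, 0⟩, 0, 0⟩ 0 0) (.pos 85 .mp ⟨⟨509902813, 0, 0, 0, 0, 177040890, 0, 0, 0, ⟨0, 0⟩, 0⟩, 0, 0⟩ 0 0)) (.cut .s 13692928 (.pos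 85 .mp ⟨⟨511623964, 0, 0, 0, 0, 177529650, 0, 0, 0, ⟨0, 0⟩, 0⟩, 0, 0⟩ 0 0) (.pos 85 .mp ⟨⟨513361297, 0, 0, 0, 0, 178005281, 0, 0, 0, ⟨0, 0⟩, 0⟩, 0, 0⟩ 0 0))) (.pos 86 .mp ⟨⟨616528675, 0, 0, 0, 0, 0, 0, 0, 0, ⟨0, 0⟩, 0⟩, 0, 0⟩ 0 0)) (.pos 83 .mp ⟨⟨509673152, 0, 0, 0, 0, 172262560, 0, 0, 0, ⟨0, 0⟩, 0⟩, 0, 0⟩ 0 0))) (.pos 84 .mp ⟨⟨616689916, 0, 0, 0, 0, 0, 0, 0, 0, ⟨0, 0⟩, 0⟩, 0, 0⟩ 0 0)) (.pos 81 .mp ⟨⟨510043098, 0, 0, 0, 0, 171743849, 0, 0, 0, ⟨0, 0⟩, 0⟩, 0, 0⟩ 0 0))) (.pos 82 .mp ⟨⟨616996848, 0, 0, 0, 0, 0, 0, 0, 0, ⟨0, 0⟩, 0⟩, 0, 0⟩ 0 0)) (.pos 47 .mp ⟨⟨510783548, 0, 0, 0, 0, 170706430, 0, 0, 0, ⟨0, 0⟩, 0⟩, 0, 0⟩ 0 0))) (.pos 48 .mp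 ⟨⟨617606391, 0, 0, 0, 0, 0, 0, 0, 0, ⟨0, 0⟩, 0⟩, 0, 0⟩ 0 0)) (.pos 45 .mp ⟨⟨512266354, 0, 0, 0, 0, 168629131, 0, 0, 0, ⟨0, 0⟩, 0⟩, 0, 0⟩ 0 0))) (.pos 46 .mp ⟨⟨618824036, 0, 0, 0, 0, 0, 0, 0, 0, ⟨0, 0⟩, 0⟩, 0, 0⟩ 0 0)) (.cut .s 13688832 (.pos 43 .mp ⟨⟨511922864, 0, 0, 0, 0, 168839362, 0, 0, 0, ⟨0, 0⟩, 0⟩, 0, 0⟩ 0 0) (.pos 43 .mp ⟨⟨515239577, 0, 0, 0, 0, 169967103, 0, 0, 0, ⟨0, 0⟩, 0⟩, 0, 0⟩ 0 0))))) (.pos 44 .mp ⟨⟨615836547, 0, 0, 0, 0, 0, 0, 0, 0, ⟨0, 0⟩, 0⟩, 0, 0⟩ 0 0))) (.cut .s 13729792 (.cut .v 16842752 (.cut .d (-8192) (.cut .d (-12288) (.void 43 ⟨⟨0, 0, 0, 0, 0, 100000, 0, 0, 0, ⟨0, 0⟩, 0⟩, 0, 0⟩ 0 0) (.cut .v 16809984 (.pos 45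 .mp ⟨⟨0, 0, 0, 0, 0, 1220525598, 0, 0, 0, ⟨0, 0⟩, 0⟩, 0, 0⟩ 0 0) (.cut .v 16826368 (.cut .d (-10240) (.pos 115 .mp ⟨⟨511912791, 0, 0, 0, 0, 217378653, 0, 0, 0, ⟨0, 0⟩, 0⟩, 0, 0⟩ 0 0) (.cut .l 153791 (.void 115 ⟨⟨100000, 0, 0, 0, 0, 0, 0, 0, 0, ⟨0, 0⟩, 0⟩, 0, 0⟩ 0 0) (.cut .s 13713408 (.pos 115 .mp ⟨⟨509746506, 0, 0, 0, 0, 201452185, 0, 0, 0, ⟨0, 0⟩, 0⟩, 0, 0⟩ 0 0) (.pos 115 .mp ⟨⟨516381313, 0, 0, 0, 0, 204443305, 0, 0, 0, ⟨0, 0⟩, 0⟩, 0, 0⟩ 0 0)))) (.pos 116 .mp ⟨⟨607860434, 0, 0, 0, 0, 32108225, 0, 0, 0, ⟨0, 0⟩, 0⟩, 0, 0⟩ 0 0)))) (.cut .s 13713408 (.cut .l 153791 (.cut .v 16809984 (.cut .d (-4096) (.cut .s 13705216 (.pos 45 .mp ⟨⟨509059744,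 0, 0, 0, 0, 199770785, 0, 0, 0, ⟨0, 0⟩, 0⟩, 0, 0⟩ 0 0) (.pos 45 .mp ⟨⟨512348672, 0, 0, 0, 0, 201307947, 0, 0, 0, ⟨0, 0⟩, 0⟩, 0, 0⟩ 0 0)) (.cut .l 76895 (.cut .v 16793600 (.cut .d (-2048) (.pos 47 .mp ⟨⟨509180326, 0, 0, 0, 0, 204283116, 0, 0, 0, ⟨0, 0⟩, 0⟩, 0, 0⟩ 0 0) (.cut .l 38447 (.cut .v 16785408 (.cut .d (-1024) (.pos 81 .mp ⟨⟨509241507, 0, 0, 0, 0, 203480540, 0, 0, 0, ⟨0, 0⟩, 0⟩, 0, 0⟩ 0 0) (.cut .l 19223 (.cut .d (-512) (.pos 81 .mp ⟨⟨516293868, 0, 0, 0, 0, 186623965, 0, 0, 0, ⟨0, 0⟩, 0⟩, 0, 0⟩ 0 0) (.cut .v 16781312 (.cut .l 9611 (.cut .v 16779264 (.cut .s 13705216 (.cut .s 13701120 (.pos 85 .mp ⟨⟨515114988, 0, 0, 0, 0, 178467484,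 0, 0, 0, ⟨0, 0⟩, 0⟩, 0, 0⟩ 0 0) (.pos 85 .mp ⟨⟨516885211, 0, 0, 0, 0, 178915957, 0, 0, 0, ⟨0, 0⟩, 0⟩, 0, 0⟩ 0 0)) (.cut .s 13709312 (.pos 85 .mp ⟨⟨518672143, 0, 0, 0, 0, 179350398, 0, 0, 0, ⟨0, 0⟩, 0⟩, 0, 0⟩ 0 0) (.pos 85 .mp ⟨⟨520475960, 0, 0, 0, 0, 179770501, 0, 0, 0, ⟨0, 0⟩, 0⟩, 0, 0⟩ 0 0))) (.pos 86 .mp ⟨⟨624453086, 0, 0, 0, 0, 0, 0, 0, 0, ⟨0, 0⟩, 0⟩, 0, 0⟩ 0 0)) (.pos 83 .mp ⟨⟨516262409, 0, 0, 0, 0, 174633893, 0, 0, 0, ⟨0, 0⟩, 0⟩, 0, 0⟩ 0 0)) (.pos 84 .mp ⟨⟨612150922, 0, 0, 0, 0, 0, 0, 0, 0, ⟨0, 0⟩, 0⟩, 0, 0⟩ 0 0))) (.pos 81 .mp ⟨⟨516640240, 0, 0, 0, 0, 174103111, 0, 0, 0, ⟨0, 0⟩, 0⟩, 0, 0⟩ 0 0))) (.pos 82 .mp ⟨⟨624927571, 0, 0,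 0, 0, 0, 0, 0, 0, ⟨0, 0⟩, 0⟩, 0, 0⟩ 0 0)) (.pos 47 .mp ⟨⟨517396472, 0, 0, 0, 0, 173041543, 0, 0, 0, ⟨0, 0⟩, 0⟩, 0, 0⟩ 0 0))) (.pos 48 .mp ⟨⟨625545359, 0, 0, 0, 0, 0, 0, 0, 0, ⟨0, 0⟩, 0⟩, 0, 0⟩ 0 0)) (.pos 45 .mp ⟨⟨518910877, 0, 0, 0, 0, 170915896, 0, 0, 0, ⟨0, 0⟩, 0⟩, 0, 0⟩ 0 0))) (.pos 46 .mp ⟨⟨626779477, 0, 0, 0, 0, 0, 0, 0, 0, ⟨0, 0⟩, 0⟩, 0, 0⟩ 0 0)) (.cut .s 13705216 (.pos 43 .mp ⟨⟨518581040, 0, 0, 0, 0, 171100010, 0, 0, 0, ⟨0, 0⟩, 0⟩, 0, 0⟩ 0 0) (.pos 43 .mp ⟨⟨521947445, 0, 0, 0, 0, 172237601, 0, 0, 0, ⟨0, 0⟩, 0⟩, 0, 0⟩ 0 0))) (.cut .l 153791 (.cut .v 16809984 (.cut .d (-4096) (.pos 45 .mp ⟨⟨515662031, 0, 0, 0, 0, 209118305, 0,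 0, 0, ⟨0, 0⟩, 0⟩, 0, 0⟩ 0 0) (.cut .l 76895 (.cut .v 16793600 (.cut .d (-2048) (.pos 47 .mp ⟨⟨515772138, 0, 0, 0, 0, 207517662, 0, 0, 0, ⟨0, 0⟩, 0⟩, 0, 0⟩ 0 0) (.cut .l 38447 (.cut .d (-1024) (.pos 47 .mp ⟨⟨516294893, 0, 0, 0, 0, 209277899, 0, 0, 0, ⟨0, 0⟩, 0⟩, 0, 0⟩ 0 0) (.cut .v 16785408 (.cut .l 19223 (.cut .d (-512) (.pos 81 .mp ⟨⟨516089652, 0, 0, 0, 0, 208991985, 0, 0, 0, ⟨0, 0⟩, 0⟩, 0, 0⟩ 0 0) (.cut .v 16781312 (.cut .l 9611 (.cut .v 16779264 (.cut .s 13721600 (.cut .s 13717504 (.pos 85 .mp ⟨⟨522296841, 0, 0, 0, 0, 180175960, 0, 0, 0, ⟨0, 0⟩, 0⟩, 0, 0⟩ 0 0) (.pos 85 .mp ⟨⟨524134965, 0, 0, 0, 0, 180566466, 0, 0, 0, ⟨0, 0⟩, 0⟩,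 0, 0⟩ 0 0)) (.cut .s 13725696 (.pos 85 .mp ⟨⟨525990512, 0, 0, 0, 0, 180941709, 0, 0, 0, ⟨0, 0⟩, 0⟩, 0, 0⟩ 0 0) (.pos 85 .mp ⟨⟨527863664, 0, 0, 0, 0, 181301374, 0, 0, 0, ⟨0, 0⟩, 0⟩, 0, 0⟩ 0 0))) (.pos 86 .mp ⟨⟨632485113, 0, 0, 0, 0, 0, 0, 0, 0, ⟨0, 0⟩, 0⟩, 0, 0⟩ 0 0)) (.pos 83 .mp ⟨⟨522949938, 0, 0, 0, 0, 177025594, 0, 0, 0, ⟨0, 0⟩, 0⟩, 0, 0⟩ 0 0)) (.pos 84 .mp ⟨⟨620271283, 0, 0, 0, 0, 0, 0, 0, 0, ⟨0, 0⟩, 0⟩, 0, 0⟩ 0 0))) (.pos 81 .mp ⟨⟨523335806, 0, 0, 0, 0, 176482488, 0, 0, 0, ⟨0, 0⟩, 0⟩, 0, 0⟩ 0 0)) (.pos 82 .mp ⟨⟨620454733, 0, 0, 0, 0, 0, 0, 0, 0, ⟨0, 0⟩, 0⟩, 0, 0⟩ 0 0))) (.pos 47 .mp ⟨⟨524108123, 0, 0, 0, 0, 175396267, 0, 0, 0,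 ⟨0, 0⟩, 0⟩, 0, 0⟩ 0 0))) (.pos 48 .mp ⟨⟨633592144, 0, 0, 0, 0, 0, 0, 0, 0, ⟨0, 0⟩, 0⟩, 0, 0⟩ 0 0)) (.pos 45 .mp ⟨⟨525654735, 0, 0, 0, 0, 173221262, 0, 0, 0, ⟨0, 0⟩, 0⟩, 0, 0⟩ 0 0))) (.pos 46 .mp ⟨⟨634842966, 0, 0, 0, 0, 0, 0, 0, 0, ⟨0, 0⟩, 0⟩, 0, 0⟩ 0 0)) (.cut .s 13721600 (.pos 43 .mp ⟨⟨525338988, 0, 0, 0, 0, 173379392, 0, 0, 0, ⟨0, 0⟩, 0⟩, 0, 0⟩ 0 0) (.pos 43 .mp ⟨⟨528755865, 0, 0, 0, 0, 174524893, 0, 0, 0, ⟨0, 0⟩, 0⟩, 0, 0⟩ 0 0))))) (.pos 44 .mp ⟨⟨631759685, 0, 0, 0, 0, 0, 0, 0, 0, ⟨0, 0⟩, 0⟩, 0, 0⟩ 0 0)) (.cut .v 16842752 (.cut .d (-8192) (.cut .d (-12288) (.void 43 ⟨⟨0, 0, 0, 0, 0, 100000, 0, 0, 0, ⟨0, 0⟩, 0⟩, 0, 0⟩ 0 0) (.cut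 .d (-10240) (.pos 43 .mp ⟨⟨524419224, 0, 0, 0, 0, 229100708, 0, 0, 0, ⟨0, 0⟩, 0⟩, 0, 0⟩ 0 0) (.cut .v 16809984 (.pos 45 .mp ⟨⟨0, 0, 0, 0, 0, 1255845124, 0, 0, 0, ⟨0, 0⟩, 0⟩, 0, 0⟩ 0 0) (.cut .s 13746176 (.cut .s 13737984 (.pos 46 .mp ⟨⟨543051645, 0, 0, 0, 0, 165053327, 0, 0, 0, ⟨0, 0⟩, 0⟩, 0, 0⟩ 0 0) (.pos 46 .mp ⟨⟨534719563, 0, 0, 0, 0, 191351744, 0, 0, 0, ⟨0, 0⟩, 0⟩, 0, 0⟩ 0 0)) (.pos 46 .mp ⟨⟨537848386, 0, 0, 0, 0, 200217732, 0, 0, 0, ⟨0, 0⟩, 0⟩, 0, 0⟩ 0 0))))) (.cut .s 13746176 (.cut .l 153791 (.cut .v 16809984 (.cut .d (-4096) (.pos 45 .mp ⟨⟨522362807, 0, 0, 0, 0, 212494259, 0, 0, 0, ⟨0, 0⟩, 0⟩, 0, 0⟩ 0 0) (.cut .l 76895 (.cut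 .v 16793600 (.cut .d (-2048) (.pos 47 .mp ⟨⟨522462254, 0, 0, 0, 0, 210894654, 0, 0, 0, ⟨0, 0⟩, 0⟩, 0, 0⟩ 0 0) (.cut .l 38447 (.cut .d (-1024) (.pos 47 .mp ⟨⟨522985499, 0, 0, 0, 0, 212697267, 0, 0, 0, ⟨0, 0⟩, 0⟩, 0, 0⟩ 0 0) (.cut .v 16785408 (.cut .l 19223 (.cut .d (-512) (.pos 81 .mp ⟨⟨522774700, 0, 0, 0, 0, 212412841, 0, 0, 0, ⟨0, 0⟩, 0⟩, 0, 0⟩ 0 0) (.cut .v 16781312 (.cut .l 9611 (.cut .v 16779264 (.cut .s 13737984 (.cut .s 13733888 (.pos 85 .mp ⟨⟨529754602, 0, 0, 0, 0, 181645149, 0, 0, 0, ⟨0, 0⟩, 0⟩, 0, 0⟩ 0 0) (.pos 85 .mp ⟨⟨531663510, 0, 0, 0, 0, 181972714, 0, 0, 0, ⟨0, 0⟩, 0⟩, 0, 0⟩ 0 0)) (.cut .s 13742080 (.pos 85 .mp ⟨⟨533590571,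 0, 0, 0, 0, 182283753, 0, 0, 0, ⟨0, 0⟩, 0⟩, 0, 0⟩ 0 0) (.pos 85 .mp ⟨⟨535535973, 0, 0, 0, 0, 182577943, 0, 0, 0, ⟨0, 0⟩, 0⟩, 0, 0⟩ 0 0))) (.pos 86 .mp ⟨⟨640623919, 0, 0, 0, 0, 0, 0, 0, 0, ⟨0, 0⟩, 0⟩, 0, 0⟩ 0 0)) (.pos 83 .mp ⟨⟨529737288, 0, 0, 0, 0, 179433812, 0, 0, 0, ⟨0, 0⟩, 0⟩, 0, 0⟩ 0 0)) (.pos 84 .mp ⟨⟨628558827, 0, 0, 0, 0, 0, 0, 0, 0, ⟨0, 0⟩, 0⟩, 0, 0⟩ 0 0))) (.pos 81 .mp ⟨⟨530131347, 0, 0, 0, 0, 178878124, 0, 0, 0, ⟨0, 0⟩, 0⟩, 0, 0⟩ 0 0)) (.pos 82 .mp ⟨⟨628744757, 0, 0, 0, 0, 0, 0, 0, 0, ⟨0, 0⟩, 0⟩, 0, 0⟩ 0 0))) (.pos 47 .mp ⟨⟨530920057, 0, 0, 0, 0, 177766737, 0, 0, 0, ⟨0, 0⟩, 0⟩, 0, 0⟩ 0 0))) (.pos 48 .mp ⟨⟨641745911, 0, 0,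 0, 0, 0, 0, 0, 0, ⟨0, 0⟩, 0⟩, 0, 0⟩ 0 0)) (.pos 45 .mp ⟨⟨532499492, 0, 0, 0, 0, 175541343, 0, 0, 0, ⟨0, 0⟩, 0⟩, 0, 0⟩ 0 0))) (.pos 46 .mp ⟨⟨643013664, 0, 0, 0, 0, 0, 0, 0, 0, ⟨0, 0⟩, 0⟩, 0, 0⟩ 0 0)) (.cut .s 13737984 (.pos 43 .mp ⟨⟨532198275, 0, 0, 0, 0, 175673613, 0, 0, 0, ⟨0, 0⟩, 0⟩, 0, 0⟩ 0 0) (.pos 43 .mp ⟨⟨535666420, 0, 0, 0, 0, 176825055, 0, 0, 0, ⟨0, 0⟩, 0⟩, 0, 0⟩ 0 0))) (.cut .l 153791 (.cut .v 16809984 (.cut .d (-4096) (.pos 45 .mp ⟨⟨529163624, 0, 0, 0, 0, 216015091, 0, 0, 0, ⟨0, 0⟩, 0⟩, 0, 0⟩ 0 0) (.cut .l 76895 (.cut .d (-2048) (.pos 45 .mp ⟨⟨530209597, 0, 0, 0, 0, 216827354, 0, 0, 0, ⟨0, 0⟩, 0⟩, 0, 0⟩ 0 0) (.cut .v 16793600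 (.cut .l 38447 (.cut .d (-1024) (.pos 47 .mp ⟨⟨529775950, 0, 0, 0, 0, 216262278, 0, 0, 0, ⟨0, 0⟩, 0⟩, 0, 0⟩ 0 0) (.cut .v 16785408 (.cut .l 19223 (.cut .d (-512) (.pos 81 .mp ⟨⟨529559504, 0, 0, 0, 0, 215979339, 0, 0, 0, ⟨0, 0⟩, 0⟩, 0, 0⟩ 0 0) (.cut .s 13754368 (.cut .s 13750272 (.pos 81 .mp ⟨⟨534267707, 0, 0, 0, 0, 189294256, 0, 0, 0, ⟨0, 0⟩, 0⟩, 0, 0⟩ 0 0) (.pos 81 .mp ⟨⟨536114652, 0, 0, 0, 0, 189825101, 0, 0, 0, ⟨0, 0⟩, 0⟩, 0, 0⟩ 0 0)) (.pos 81 .mp ⟨⟨537285542, 0, 0, 0, 0, 192580290, 0, 0, 0, ⟨0, 0⟩, 0⟩, 0, 0⟩ 0 0))) (.pos 81 .mp ⟨⟨537028448, 0, 0, 0, 0, 181286100, 0, 0, 0, ⟨0, 0⟩, 0⟩, 0, 0⟩ 0 0)) (.pos 82 .mp ⟨⟨637204595, 0, 0, 0,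 0, 0, 0, 0, 0, ⟨0, 0⟩, 0⟩, 0, 0⟩ 0 0))) (.pos 47 .mp ⟨⟨537833864, 0, 0, 0, 0, 180149021, 0, 0, 0, ⟨0, 0⟩, 0⟩, 0, 0⟩ 0 0)) (.pos 48 .mp ⟨⟨637575850, 0, 0, 0, 0, 0, 0, 0, 0, ⟨0, 0⟩, 0⟩, 0, 0⟩ 0 0))) (.pos 45 .mp ⟨⟨539446749, 0, 0, 0, 0, 177872190, 0, 0, 0, ⟨0, 0⟩, 0⟩, 0, 0⟩ 0 0))) (.pos 46 .mp ⟨⟨651290738, 0, 0, 0, 0, 0, 0, 0, 0, ⟨0, 0⟩, 0⟩, 0, 0⟩ 0 0)) (.pos 43 .mp ⟨⟨542680730, 0, 0, 0, 0, 173306250, 0, 0, 0, ⟨0, 0⟩, 0⟩, 0, 0⟩ 0 0)))) (.pos 44 .mp ⟨⟨648113475, 0, 0, 0, 0, 0, 0, 0, 0, ⟨0, 0⟩, 0⟩, 0, 0⟩ 0 0)))) (.pos 36 .mp ⟨⟨635999101, 0, 0, 0, 0, 0, 0, 0, 0, ⟨0, 0⟩, 0⟩, 0, 0⟩ 0 0))))))) (.pos 32 .mp ⟨⟨704732345, 0, 0, 0, 0, 0, 0, 0,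 0, ⟨0, 0⟩, 0⟩, 0, 0⟩ 0 0))) (.void 30 ⟨⟨100000, 0, 0, 0, 0, 0, 0, 0, 0, ⟨0, 0⟩, 0⟩, 0, 0⟩ 0 0))) (.void 28 ⟨⟨100000, 0, 0, 0, 0, 0, 0, 0, 0, ⟨0, 0⟩, 0⟩, 0, 0⟩ 0 0))) (.void 26 ⟨⟨100000, 0, 0, 0, 0, 0, 0, 0, 0, ⟨0, 0⟩, 0⟩, 0, 0⟩ 0 0))) (.void 24 ⟨⟨100000, 0, 0, 0, 0, 0, 0, 0, 0, ⟨0, 0⟩, 0⟩, 0, 0⟩ 0 0))) (.void 22 ⟨⟨100000, 0, 0, 0, 0, 0, 0, 0, 0, ⟨0, 0⟩, 0⟩, 0, 0⟩ 0 0))) (.void 103 ⟨⟨100000, 0, 0, 0, 0, 0, 0, 0, 0, ⟨0, 0⟩, 0⟩, 0, 0⟩ 0 0)) (.void 114 ⟨⟨100000, 0, 0, 0, 0, 0, 0, 0, 0, ⟨0, 0⟩, 0⟩, 0, 0⟩ 0 0)) (.void 125 ⟨⟨93139, 0, 0, 5902, 0, 0, 0, 0, 0, ⟨0, 0⟩, 0⟩, 0, 0⟩ 0 0))) (.cut .v 16777216 (.cut .v 8388608 (.cut .v 4194304 (.cut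 .v 2097152 (.cut .v 1048576 (.pos 119 .pm ⟨⟨0, 0, 25894631, 0, 0, 0, 0, 0, 0, ⟨0, 0⟩, 0⟩, 0, 4646⟩ 0 0) (.pos 120 .pm ⟨⟨0, 0, 29952260, 0, 0, 0, 0, 0, 0, ⟨0, 0⟩, 0⟩, 0, 13393⟩ 0 0)) (.pos 118 .pm ⟨⟨0, 0, 39126635, 0, 0, 0, 0, 0, 0, ⟨0, 0⟩, 0⟩, 0, 33590⟩ 0 0)) (.pos 5 .pm ⟨⟨0, 0, 22046310, 0, 0, 0, 0, 0, 0, ⟨0, 0⟩, 0⟩, 0, 0⟩ 0 0)) (.pos 3 .pm ⟨⟨0, 0, 0, 0, 0, 0, 0, 0, 0, ⟨0, 0⟩, 0⟩, 0, 0⟩ 0 0)) (.cut .v 268435456 (.cut .v 67108864 (.cut .d 2036071 (.cut .v 33554432 (.cut .d 1018035 (.cut .v 25165824 (.cut .d 509017 (.cut .d 254508 (.cut .v 20971520 (.cut .v 18874368 (.cut .d 127254 (.cut .d 63627 (.cut .v 17825792 (.cut .d 31813 (.cut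 .v 17301504 (.cut .s 13631488 (.pos 29 .pp ⟨⟨476038288, 0, 0, 0, 0, 0, 0, 0, 0, ⟨0, 0⟩, 0⟩, 7136389, 0⟩ 0 0) (.pos 29 .pp ⟨⟨521733699, 0, 0, 0, 0, 0, 0, 0, 0, ⟨0, 0⟩, 0⟩, 8719895, 0⟩ 0 0)) (.pos 30 .pp ⟨⟨616232521, 0, 0, 0, 0, 0, 0, 0, 0, ⟨0, 0⟩, 0⟩, 0, 0⟩ 0 0)) (.pos 27 .pp ⟨⟨475975257, 0, 0, 0, 0, 0, 0, 0, 0, ⟨0, 0⟩, 0⟩, 0, 13298⟩ 0 0)) (.pos 28 .pp ⟨⟨677431693, 0, 0, 0, 0, 0, 0, 0, 0, ⟨0, 0⟩, 0⟩, 0, 0⟩ 0 0)) (.pos 25 .pp ⟨⟨501169558, 0, 0, 0, 0, 0, 0, 0, 0, ⟨0, 0⟩, 0⟩, 0, 6002⟩ 0 0)) (.pos 25 .pp ⟨⟨0, 0, 0, 0, 0, 0, 0, 0, 0, ⟨0, 0⟩, 0⟩, 0, 160046⟩ 0 0)) (.cut .d 127254 (.cut .v 19922944 (.pos 53 .pp ⟨⟨740112577, 0, 0, 0, 0, 0, 0,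 0, 0, ⟨0, 0⟩, 0⟩, 0, 0⟩ 0 0) (.pos 54 .pp ⟨⟨848141573, 0, 0, 0, 0, 0, 0, 0, 0, ⟨0, 0⟩, 0⟩, 0, 0⟩ 0 0)) (.pos 26 .pp ⟨⟨629380309, 0, 0, 0, 0, 0, 0, 0, 0, ⟨0, 0⟩, 0⟩, 0, 0⟩ 0 0))) (.cut .d 127254 (.void 24 ⟨⟨0, 0, 0, 0, 0, 0, 0, 0, 0, ⟨0, 0⟩, 0⟩, 100000, 0⟩ 0 0) (.cut .v 23068672 (.cut .d 190881 (.cut .v 22020096 (.pos 57 .pp ⟨⟨859615956, 0, 0, 0, 0, 0, 0, 0, 0, ⟨0, 0⟩, 0⟩, 0, 0⟩ 0 0) (.pos 58 .pp ⟨⟨0, 0, 0, 0, 0, 0, 0, 0, 0, ⟨0, 0⟩, 0⟩, 135001392, 0⟩ 0 0)) (.pos 55 .pp ⟨⟨0, 0, 0, 0, 0, 0, 1270, 0, 0, ⟨0, 0⟩, 0⟩, 94728096, 0⟩ 0 0)) (.pos 56 .pp ⟨⟨0, 0, 0, 0, 0, 0, 0, 0, 0, ⟨0, 0⟩, 0⟩, 129491949, 0⟩ 0 0)))) (.cut .v 20971520 (.pos 23 .pp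 ⟨⟨0, 0, 0, 0, 0, 0, 0, 0, 0, ⟨0, 0⟩, 0⟩, 0, 167949⟩ 0 0) (.pos 24 .pp ⟨⟨0, 0, 0, 0, 0, 0, 21464, 0, 0, ⟨0, 0⟩, 0⟩, 89647267, 0⟩ 0 0))) (.pos 21 .pp ⟨⟨0, 0, 0, 0, 0, 0, 0, 0, 0, ⟨0, 0⟩, 0⟩, 0, 181385⟩ 0 0)) (.cut .d 509017 (.cut .d 254508 (.void 22 ⟨⟨0, 0, 0, 0, 0, 0, 0, 0, 0, ⟨0, 0⟩, 0⟩, 100000, 0⟩ 0 0) (.cut .d 381762 (.pos 22 .pp ⟨⟨0, 0, 0, 0, 0, 0, 0, 0, 0, ⟨0, 0⟩, 0⟩, 144332690, 0⟩ 0 0) (.pos 22 .pp ⟨⟨0, 0, 0, 0, 0, 0, 0, 0, 0, ⟨0, 0⟩, 0⟩, 119056602, 0⟩ 0 0))) (.pos 22 .pp ⟨⟨0, 0, 0, 0, 0, 0, 11198, 0, 0, ⟨0, 0⟩, 0⟩, 92699795, 0⟩ 0 0))) (.pos 20 .pp ⟨⟨0, 0, 0, 0, 0, 0, 0, 0, 0, ⟨0, 0⟩, 0⟩, 0, 201539⟩ 0 0)) (.cut .d 1018035 (.cut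 .v 50331648 (.pos 106 .pp ⟨⟨0, 0, 0, 0, 0, 0, 0, 0, 0, ⟨0, 0⟩, 0⟩, 241745895, 0⟩ 0 0) (.void 107 ⟨⟨0, 0, 0, 0, 0, 0, 0, 0, 0, ⟨0, 0⟩, 0⟩, 100000, 0⟩ 0 0)) (.pos 103 .pp ⟨⟨0, 0, 0, 0, 0, 0, 0, 0, 0, ⟨0, 0⟩, 0⟩, 132542005, 0⟩ 0 0))) (.pos 102 .pp ⟨⟨0, 0, 0, 0, 0, 0, 0, 0, 0, ⟨0, 0⟩, 0⟩, 0, 151154⟩ 0 0)) (.void 114 ⟨⟨0, 0, 0, 47756, 0, 0, 0, 0, 0, ⟨0, 0⟩, 0⟩, 52244, 0⟩ 0 0)) (.void 125 ⟨⟨0, 0, 0, 0, 0, 0, 0, 0, 0, ⟨0, 0⟩, 0⟩, 100000, 0⟩ 0 0)))),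
    by decide +kernel⟩

def covers25 : cell.Covers Vale.Agent.P237.Petty.Cor.Grid.N12.table row25.1 :=
  ⟨(.cut .d 0 (.cut .v 16777216 (.cut .v 8388608 (.void 2 ⟨⟨0, 0, 100000, 0, 0, 0, 0, 0, 0, ⟨0, 0⟩, 0⟩, 0, 0⟩ 0 0) (.cut .d (-8388608) (.void 3 ⟨⟨100000, 0, 0, 0, 0, 0, 0, 0, 0, ⟨0, 0⟩, 0⟩, 0, 0⟩ 0 0) (.cut .d (-4194304) (.void 3 ⟨⟨100000, 0, 0, 0, 0, 0, 0, 0, 0, ⟨0, 0⟩, 0⟩, 0, 0⟩ 0 0) (.cut .d (-2097152) (.void 3 ⟨⟨100000, 0, 0, 0, 0, 0, 0, 0, 0, ⟨0, 0⟩, 0⟩, 0, 0⟩ 0 0) (.cut .d (-1048576) (.void 3 ⟨⟨0, 0, 0, 0, 0, 100000, 0, 0, 0, ⟨0, 0⟩, 0⟩, 0, 0⟩ 0 0) (.cut .d (-524288) (.void 3 ⟨⟨0, 0, 0, 0, 0, 100000, 0, 0, 0, ⟨0, 0⟩, 0⟩, 0, 0⟩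 0 0) (.cut .s 13860864 (.pos 3 .mm ⟨⟨0, 0, 0, 0, 0, 1260022540, 0, 0, 0, ⟨0, 0⟩, 0⟩, 0, 0⟩ 0 0) (.cut .s 13910016 (.pos 3 .mm ⟨⟨0, 0, 0, 0, 0, 1317762421, 0, 0, 0, ⟨0, 0⟩, 0⟩, 0, 0⟩ 0 0) (.pos 3 .mm ⟨⟨0, 0, 0, 0, 0, 1377228873, 0, 0, 0, ⟨0, 0⟩, 0⟩, 0, 0⟩ 0 0))))))))) (.cut .v 268435456 (.cut .v 67108864 (.cut .v 33554432 (.cut .d (-8388608) (.void 20 ⟨⟨100000, 0, 0, 0, 0, 0, 0, 0, 0, ⟨0, 0⟩, 0⟩, 0, 0⟩ 0 0) (.cut .v 25165824 (.cut .d (-4194304) (.void 21 ⟨⟨100000, 0, 0, 0, 0, 0, 0, 0, 0, ⟨0, 0⟩, 0⟩, 0, 0⟩ 0 0) (.cut .v 20971520 (.cut .d (-2097152) (.void 23 ⟨⟨100000, 0, 0, 0, 0, 0, 0, 0, 0, ⟨0, 0⟩, 0⟩, 0, 0⟩ 0 0) (.cut .v 18874368 (.cut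 .d (-1048576) (.void 25 ⟨⟨100000, 0, 0, 0, 0, 0, 0, 0, 0, ⟨0, 0⟩, 0⟩, 0, 0⟩ 0 0) (.cut .v 17825792 (.cut .d (-524288) (.void 27 ⟨⟨100000, 0, 0, 0, 0, 0, 0, 0, 0, ⟨0, 0⟩, 0⟩, 0, 0⟩ 0 0) (.cut .v 17301504 (.cut .d (-262144) (.void 29 ⟨⟨100000, 0, 0, 0, 0, 0, 0, 0, 0, ⟨0, 0⟩, 0⟩, 0, 0⟩ 0 0) (.cut .v 17039360 (.cut .d (-131072) (.void 31 ⟨⟨100000, 0, 0, 0, 0, 0, 0, 0, 0, ⟨0, 0⟩, 0⟩, 0, 0⟩ 0 0) (.cut .d (-65536) (.void 31 ⟨⟨100000, 0, 0, 0, 0, 0, 0, 0, 0, ⟨0, 0⟩, 0⟩, 0, 0⟩ 0 0) (.cut .d (-32768) (.void 31 ⟨⟨100000, 0, 0, 0, 0, 0, 0, 0, 0, ⟨0, 0⟩, 0⟩, 0, 0⟩ 0 0) (.cut .d (-16384) (.void 31 ⟨⟨0, 0, 0, 0, 0, 100000, 0, 0, 0, ⟨0, 0⟩, 0⟩, 0,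 0⟩ 0 0) (.cut .s 13860864 (.cut .v 16908288 (.cut .s 13811712 (.cut .v 16842752 (.cut .d (-8192) (.cut .l 153791 (.void 43 ⟨⟨0, 0, 0, 0, 0, 100000, 0, 0, 0, ⟨0, 0⟩, 0⟩, 0, 0⟩ 0 0) (.cut .d (-12288) (.void 43 ⟨⟨0, 0, 0, 0, 0, 100000, 0, 0, 0, ⟨0, 0⟩, 0⟩, 0, 0⟩ 0 0) (.cut .d (-10240) (.pos 43 .mp ⟨⟨538247291, 0, 0, 0, 0, 252701444, 0, 0, 0, ⟨0, 0⟩, 0⟩, 0, 0⟩ 0 0) (.cut .v 16809984 (.pos 45 .mp ⟨⟨0, 0, 0, 0, 0, 1289629899, 0, 0, 0, ⟨0, 0⟩, 0⟩, 0, 0⟩ 0 0) (.cut .s 13787136 (.pos 46 .mp ⟨⟨557810372, 0, 0, 0, 0, 177947975, 0, 0, 0, ⟨0, 0⟩, 0⟩, 0, 0⟩ 0 0) (.cut .s 13799424 (.pos 46 .mp ⟨⟨563329214, 0, 0, 0, 0, 183976297, 0, 0, 0, ⟨0, 0⟩, 0⟩,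 0, 0⟩ 0 0) (.pos 46 .mp ⟨⟨568913462, 0, 0, 0, 0, 185511175, 0, 0, 0, ⟨0, 0⟩, 0⟩, 0, 0⟩ 0 0))))))) (.cut .s 13787136 (.cut .s 13774848 (.cut .v 16809984 (.cut .l 153791 (.cut .d (-4096) (.pos 45 .mp ⟨⟨536060481, 0, 0, 0, 0, 216451243, 0, 0, 0, ⟨0, 0⟩, 0⟩, 0, 0⟩ 0 0) (.cut .s 13768704 (.pos 45 .mp ⟨⟨545477892, 0, 0, 0, 0, 184960141, 0, 0, 0, ⟨0, 0⟩, 0⟩, 0, 0⟩ 0 0) (.cut .s 13771776 (.pos 45 .mp ⟨⟨547389000, 0, 0, 0, 0, 186217065, 0, 0, 0, ⟨0, 0⟩, 0⟩, 0, 0⟩ 0 0) (.pos 45 .mp ⟨⟨548568097, 0, 0, 0, 0, 186882076, 0, 0, 0, ⟨0, 0⟩, 0⟩, 0, 0⟩ 0 0)))) (.pos 45 .mp ⟨⟨531398132, 0, 0, 0, 0, 210134919, 0, 0, 0, ⟨0, 0⟩, 0⟩, 0, 0⟩ 0 0)) (.pos 46 .mp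 ⟨⟨585355878, 0, 0, 0, 0, 117656548, 0, 0, 0, ⟨0, 0⟩, 0⟩, 0, 0⟩ 0 0)) (.cut .v 16809984 (.cut .l 153791 (.cut .d (-4096) (.pos 45 .mp ⟨⟨541313299, 0, 0, 0, 0, 218167023, 0, 0, 0, ⟨0, 0⟩, 0⟩, 0, 0⟩ 0 0) (.cut .v 16793600 (.cut .s 13780992 (.pos 47 .mp ⟨⟨545352259, 0, 0, 0, 0, 197120152, 0, 0, 0, ⟨0, 0⟩, 0⟩, 0, 0⟩ 0 0) (.cut .s 13784064 (.pos 47 .mp ⟨⟨554689612, 0, 0, 0, 0, 184057941, 0, 0, 0, ⟨0, 0⟩, 0⟩, 0, 0⟩ 0 0) (.pos 47 .mp ⟨⟨555842469, 0, 0, 0, 0, 184820785, 0, 0, 0, ⟨0, 0⟩, 0⟩, 0, 0⟩ 0 0))) (.pos 48 .mp ⟨⟨591640370, 0, 0, 0, 0, 115765002, 0, 0, 0, ⟨0, 0⟩, 0⟩, 0, 0⟩ 0 0))) (.pos 45 .mp ⟨⟨536583862, 0, 0, 0, 0, 212310491, 0, 0, 0,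 ⟨0, 0⟩, 0⟩, 0, 0⟩ 0 0)) (.pos 46 .mp ⟨⟨589729402, 0, 0, 0, 0, 121030789, 0, 0, 0, ⟨0, 0⟩, 0⟩, 0, 0⟩ 0 0))) (.cut .s 13799424 (.cut .v 16809984 (.cut .l 153791 (.cut .d (-4096) (.pos 45 .mp ⟨⟨546627773, 0, 0, 0, 0, 219973484, 0, 0, 0, ⟨0, 0⟩, 0⟩, 0, 0⟩ 0 0) (.cut .v 16793600 (.cut .l 76895 (.cut .d (-2048) (.pos 47 .mp ⟨⟨546683325, 0, 0, 0, 0, 218394472, 0, 0, 0, ⟨0, 0⟩, 0⟩, 0, 0⟩ 0 0) (.cut .s 13793280 (.pos 47 .mp ⟨⟨552820290, 0, 0, 0, 0, 194243138, 0, 0, 0, ⟨0, 0⟩, 0⟩, 0, 0⟩ 0 0) (.pos 47 .mp ⟨⟨555527301, 0, 0, 0, 0, 195115999, 0, 0, 0, ⟨0, 0⟩, 0⟩, 0, 0⟩ 0 0))) (.pos 47 .mp ⟨⟨544284961, 0, 0, 0, 0, 208341690, 0, 0, 0, ⟨0, 0⟩, 0⟩,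 0, 0⟩ 0 0)) (.pos 48 .mp ⟨⟨596239230, 0, 0, 0, 0, 118889885, 0, 0, 0, ⟨0, 0⟩, 0⟩, 0, 0⟩ 0 0))) (.pos 45 .mp ⟨⟨541830063, 0, 0, 0, 0, 214530714, 0, 0, 0, ⟨0, 0⟩, 0⟩, 0, 0⟩ 0 0)) (.pos 46 .mp ⟨⟨594302830, 0, 0, 0, 0, 124223695, 0, 0, 0, ⟨0, 0⟩, 0⟩, 0, 0⟩ 0 0)) (.cut .l 153791 (.cut .d (-4096) (.pos 43 .mp ⟨⟨554149826, 0, 0, 0, 0, 222734469, 0, 0, 0, ⟨0, 0⟩, 0⟩, 0, 0⟩ 0 0) (.cut .v 16809984 (.cut .v 16793600 (.cut .l 76895 (.cut .d (-2048) (.pos 47 .mp ⟨⟨552048836, 0, 0, 0, 0, 220300130, 0, 0, 0, ⟨0, 0⟩, 0⟩, 0, 0⟩ 0 0) (.cut .s 13805568 (.pos 47 .mp ⟨⟨558250194, 0, 0, 0, 0, 196005982, 0, 0, 0, ⟨0, 0⟩, 0⟩, 0, 0⟩ 0 0) (.cut .s 13808640 (.pos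 47 .mp ⟨⟨561834894, 0, 0, 0, 0, 194444447, 0, 0, 0, ⟨0, 0⟩, 0⟩, 0, 0⟩ 0 0) (.pos 47 .mp ⟨⟨563102318, 0, 0, 0, 0, 195089891, 0, 0, 0, ⟨0, 0⟩, 0⟩, 0, 0⟩ 0 0)))) (.pos 47 .mp ⟨⟨549615744, 0, 0, 0, 0, 210538527, 0, 0, 0, ⟨0, 0⟩, 0⟩, 0, 0⟩ 0 0)) (.pos 48 .mp ⟨⟨601048013, 0, 0, 0, 0, 121815215, 0, 0, 0, ⟨0, 0⟩, 0⟩, 0, 0⟩ 0 0)) (.pos 46 .mp ⟨⟨663746818, 0, 0, 0, 0, 0, 0, 0, 0, ⟨0, 0⟩, 0⟩, 0, 0⟩ 0 0))) (.cut .s 13805568 (.pos 43 .mp ⟨⟨561636455, 0, 0, 0, 0, 187298855, 0, 0, 0, ⟨0, 0⟩, 0⟩, 0, 0⟩ 0 0) (.pos 43 .mp ⟨⟨564409449, 0, 0, 0, 0, 188247153, 0, 0, 0, ⟨0, 0⟩, 0⟩, 0, 0⟩ 0 0)))))) (.cut .s 13787136 (.pos 44 .mp ⟨⟨664526891, 0, 0, 0, 0, 0,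 0, 0, 0, ⟨0, 0⟩, 0⟩, 0, 0⟩ 0 0) (.pos 44 .mp ⟨⟨677519540, 0, 0, 0, 0, 0, 0, 0, 0, ⟨0, 0⟩, 0⟩, 0, 0⟩ 0 0))) (.cut .v 16842752 (.cut .d (-8192) (.cut .d (-12288) (.void 43 ⟨⟨0, 0, 0, 0, 0, 100000, 0, 0, 0, ⟨0, 0⟩, 0⟩, 0, 0⟩ 0 0) (.cut .d (-10240) (.pos 43 .mp ⟨⟨559860058, 0, 0, 0, 0, 263386194, 0, 0, 0, ⟨0, 0⟩, 0⟩, 0, 0⟩ 0 0) (.cut .v 16809984 (.pos 45 .mp ⟨⟨0, 0, 0, 0, 0, 1360159981, 0, 0, 0, ⟨0, 0⟩, 0⟩, 0, 0⟩ 0 0) (.cut .l 153791 (.void 46 ⟨⟨100000, 0, 0, 0, 0, 0, 0, 0, 0, ⟨0, 0⟩, 0⟩, 0, 0⟩ 0 0) (.cut .v 16826368 (.cut .l 230687 (.pos 115 .mp ⟨⟨576072584, 0, 0, 0, 0, 230467387, 0, 0, 0, ⟨0, 0⟩, 0⟩, 0, 0⟩ 0 0) (.cut .s 13836288 (.pos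 115 .mp ⟨⟨558391983, 0, 0, 0, 0, 222865143, 0, 0, 0, ⟨0, 0⟩, 0⟩, 0, 0⟩ 0 0) (.pos 115 .mp ⟨⟨569531029, 0, 0, 0, 0, 227232804, 0, 0, 0, ⟨0, 0⟩, 0⟩, 0, 0⟩ 0 0))) (.pos 116 .mp ⟨⟨688327831, 0, 0, 0, 0, 0, 0, 0, 0, ⟨0, 0⟩, 0⟩, 0, 0⟩ 0 0)))))) (.cut .s 13836288 (.cut .s 13824000 (.cut .l 153791 (.cut .v 16809984 (.cut .d (-4096) (.pos 45 .mp ⟨⟨557444660, 0, 0, 0, 0, 223863253, 0, 0, 0, ⟨0, 0⟩, 0⟩, 0, 0⟩ 0 0) (.cut .v 16793600 (.cut .l 76895 (.cut .d (-2048) (.pos 47 .mp ⟨⟨557477329, 0, 0, 0, 0, 222298990, 0, 0, 0, ⟨0, 0⟩, 0⟩, 0, 0⟩ 0 0) (.cut .l 38447 (.cut .d (-1024) (.pos 47 .mp ⟨⟨558119965, 0, 0, 0, 0, 223226631, 0, 0, 0, ⟨0, 0⟩, 0⟩,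 0, 0⟩ 0 0) (.cut .s 13817856 (.pos 47 .mp ⟨⟨562493941, 0, 0, 0, 0, 200059720, 0, 0, 0, ⟨0, 0⟩, 0⟩, 0, 0⟩ 0 0) (.pos 47 .mp ⟨⟨565261752, 0, 0, 0, 0, 201004058, 0, 0, 0, ⟨0, 0⟩, 0⟩, 0, 0⟩ 0 0))) (.pos 47 .mp ⟨⟨564741633, 0, 0, 0, 0, 193384512, 0, 0, 0, ⟨0, 0⟩, 0⟩, 0, 0⟩ 0 0))) (.pos 47 .mp ⟨⟨555008905, 0, 0, 0, 0, 212775100, 0, 0, 0, ⟨0, 0⟩, 0⟩, 0, 0⟩ 0 0)) (.pos 48 .mp ⟨⟨606076689, 0, 0, 0, 0, 124523230, 0, 0, 0, ⟨0, 0⟩, 0⟩, 0, 0⟩ 0 0))) (.pos 46 .mp ⟨⟨685572057, 0, 0, 0, 0, 0, 0, 0, 0, ⟨0, 0⟩, 0⟩, 0, 0⟩ 0 0)) (.cut .s 13817856 (.pos 43 .mp ⟨⟨567198783, 0, 0, 0, 0, 189204028, 0, 0, 0, ⟨0, 0⟩, 0⟩, 0, 0⟩ 0 0) (.pos 43 .mp ⟨⟨570004557,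 0, 0, 0, 0, 190169229, 0, 0, 0, ⟨0, 0⟩, 0⟩, 0, 0⟩ 0 0))) (.cut .l 153791 (.cut .v 16809984 (.cut .d (-4096) (.pos 45 .mp ⟨⟨562948593, 0, 0, 0, 0, 225949012, 0, 0, 0, ⟨0, 0⟩, 0⟩, 0, 0⟩ 0 0) (.cut .l 76895 (.cut .d (-2048) (.pos 45 .mp ⟨⟨564091509, 0, 0, 0, 0, 225923428, 0, 0, 0, ⟨0, 0⟩, 0⟩, 0, 0⟩ 0 0) (.cut .v 16793600 (.cut .l 38447 (.cut .d (-1024) (.pos 47 .mp ⟨⟨563591778, 0, 0, 0, 0, 225404638, 0, 0, 0, ⟨0, 0⟩, 0⟩, 0, 0⟩ 0 0) (.cut .s 13830144 (.pos 47 .mp ⟨⟨568040031, 0, 0, 0, 0, 201978805, 0, 0, 0, ⟨0, 0⟩, 0⟩, 0, 0⟩ 0 0) (.cut .s 13833216 (.pos 47 .mp ⟨⟨570413041, 0, 0, 0, 0, 202921227, 0, 0, 0, ⟨0, 0⟩, 0⟩, 0, 0⟩ 0 0) (.pos 47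 .mp ⟨⟨571768653, 0, 0, 0, 0, 203500281, 0, 0, 0, ⟨0, 0⟩, 0⟩, 0, 0⟩ 0 0)))) (.pos 47 .mp ⟨⟨570315581, 0, 0, 0, 0, 195420322, 0, 0, 0, ⟨0, 0⟩, 0⟩, 0, 0⟩ 0 0)) (.pos 48 .mp ⟨⟨675794591, 0, 0, 0, 0, 0, 0, 0, 0, ⟨0, 0⟩, 0⟩, 0, 0⟩ 0 0))) (.pos 45 .mp ⟨⟨572096009, 0, 0, 0, 0, 192884542, 0, 0, 0, ⟨0, 0⟩, 0⟩, 0, 0⟩ 0 0))) (.pos 46 .mp ⟨⟨692307126, 0, 0, 0, 0, 0, 0, 0, 0, ⟨0, 0⟩, 0⟩, 0, 0⟩ 0 0)) (.cut .s 13830144 (.pos 43 .mp ⟨⟨572826871, 0, 0, 0, 0, 191142504, 0, 0, 0, ⟨0, 0⟩, 0⟩, 0, 0⟩ 0 0) (.pos 43 .mp ⟨⟨575665824, 0, 0, 0, 0, 192123596, 0, 0, 0, ⟨0, 0⟩, 0⟩, 0, 0⟩ 0 0)))) (.cut .s 13848576 (.cut .l 153791 (.cut .v 16809984 (.cut .d (-4096)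 (.pos 45 .mp ⟨⟨568517219, 0, 0, 0, 0, 228130356, 0, 0, 0, ⟨0, 0⟩, 0⟩, 0, 0⟩ 0 0) (.cut .l 76895 (.cut .d (-2048) (.pos 45 .mp ⟨⟨569637304, 0, 0, 0, 0, 228194996, 0, 0, 0, ⟨0, 0⟩, 0⟩, 0, 0⟩ 0 0) (.cut .v 16793600 (.cut .l 38447 (.cut .d (-1024) (.pos 47 .mp ⟨⟨569126784, 0, 0, 0, 0, 227682542, 0, 0, 0, ⟨0, 0⟩, 0⟩, 0, 0⟩ 0 0) (.cut .v 16785408 (.cut .l 19223 (.cut .d (-512) (.pos 81 .mp ⟨⟨568872253, 0, 0, 0, 0, 227424913, 0, 0, 0, ⟨0, 0⟩, 0⟩, 0, 0⟩ 0 0) (.cut .s 13842432 (.pos 81 .mp ⟨⟨572466557, 0, 0, 0, 0, 206122420, 0, 0, 0, ⟨0, 0⟩, 0⟩, 0, 0⟩ 0 0) (.pos 81 .mp ⟨⟨575310170, 0, 0, 0, 0, 207107301, 0, 0, 0, ⟨0, 0⟩, 0⟩, 0, 0⟩ 0 0))) (.pos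 81 .mp ⟨⟨575051290, 0, 0, 0, 0, 198777766, 0, 0, 0, ⟨0, 0⟩, 0⟩, 0, 0⟩ 0 0)) (.pos 82 .mp ⟨⟨681972130, 0, 0, 0, 0, 0, 0, 0, 0, ⟨0, 0⟩, 0⟩, 0, 0⟩ 0 0))) (.pos 47 .mp ⟨⟨575955126, 0, 0, 0, 0, 197488516, 0, 0, 0, ⟨0, 0⟩, 0⟩, 0, 0⟩ 0 0)) (.pos 48 .mp ⟨⟨682368604, 0, 0, 0, 0, 0, 0, 0, 0, ⟨0, 0⟩, 0⟩, 0, 0⟩ 0 0))) (.pos 45 .mp ⟨⟨577765072, 0, 0, 0, 0, 194906874, 0, 0, 0, ⟨0, 0⟩, 0⟩, 0, 0⟩ 0 0))) (.pos 46 .mp ⟨⟨699125745, 0, 0, 0, 0, 0, 0, 0, 0, ⟨0, 0⟩, 0⟩, 0, 0⟩ 0 0)) (.cut .s 13842432 (.pos 43 .mp ⟨⟨578521519, 0, 0, 0, 0, 193112250, 0, 0, 0, ⟨0, 0⟩, 0⟩, 0, 0⟩ 0 0) (.pos 43 .mp ⟨⟨581394058, 0, 0, 0, 0, 194108207, 0, 0, 0, ⟨0, 0⟩, 0⟩, 0, 0⟩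 0 0))) (.cut .l 153791 (.cut .v 16809984 (.cut .d (-4096) (.pos 45 .mp ⟨⟨574151329, 0, 0, 0, 0, 230408560, 0, 0, 0, ⟨0, 0⟩, 0⟩, 0, 0⟩ 0 0) (.cut .l 76895 (.cut .d (-2048) (.pos 45 .mp ⟨⟨575247192, 0, 0, 0, 0, 230567789, 0, 0, 0, ⟨0, 0⟩, 0⟩, 0, 0⟩ 0 0) (.cut .v 16793600 (.cut .l 38447 (.cut .d (-1024) (.pos 47 .mp ⟨⟨574725743, 0, 0, 0, 0, 230061721, 0, 0, 0, ⟨0, 0⟩, 0⟩, 0, 0⟩ 0 0) (.cut .v 16785408 (.cut .l 19223 (.cut .d (-512) (.pos 81 .mp ⟨⟨574465757, 0, 0, 0, 0, 229807264, 0, 0, 0, ⟨0, 0⟩, 0⟩, 0, 0⟩ 0 0) (.cut .s 13854720 (.pos 81 .mp ⟨⟨578147046, 0, 0, 0, 0, 208163349, 0, 0, 0, ⟨0, 0⟩, 0⟩, 0, 0⟩ 0 0) (.cut .s 13857792 (.pos 81 .mp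 ⟨⟨581335693, 0, 0, 0, 0, 207761857, 0, 0, 0, ⟨0, 0⟩, 0⟩, 0, 0⟩ 0 0) (.pos 81 .mp ⟨⟨582747137, 0, 0, 0, 0, 208336859, 0, 0, 0, ⟨0, 0⟩, 0⟩, 0, 0⟩ 0 0)))) (.pos 81 .mp ⟨⟨580742264, 0, 0, 0, 0, 200899596, 0, 0, 0, ⟨0, 0⟩, 0⟩, 0, 0⟩ 0 0)) (.pos 82 .mp ⟨⟨688654754, 0, 0, 0, 0, 0, 0, 0, 0, ⟨0, 0⟩, 0⟩, 0, 0⟩ 0 0))) (.pos 47 .mp ⟨⟨581661073, 0, 0, 0, 0, 199587056, 0, 0, 0, ⟨0, 0⟩, 0⟩, 0, 0⟩ 0 0)) (.pos 48 .mp ⟨⟨689055130, 0, 0, 0, 0, 0, 0, 0, 0, ⟨0, 0⟩, 0⟩, 0, 0⟩ 0 0))) (.pos 45 .mp ⟨⟨583501001, 0, 0, 0, 0, 196958784, 0, 0, 0, ⟨0, 0⟩, 0⟩, 0, 0⟩ 0 0))) (.pos 46 .mp ⟨⟨706027436, 0, 0, 0, 0, 0, 0, 0, 0, ⟨0, 0⟩, 0⟩, 0, 0⟩ 0 0)) (.cut .s 13854720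 (.pos 43 .mp ⟨⟨584283545, 0, 0, 0, 0, 195111207, 0, 0, 0, ⟨0, 0⟩, 0⟩, 0, 0⟩ 0 0) (.pos 43 .mp ⟨⟨587190083, 0, 0, 0, 0, 196120990, 0, 0, 0, ⟨0, 0⟩, 0⟩, 0, 0⟩ 0 0)))))) (.cut .s 13836288 (.pos 44 .mp ⟨⟨690851538, 0, 0, 0, 0, 0, 0, 0, 0, ⟨0, 0⟩, 0⟩, 0, 0⟩ 0 0) (.pos 44 .mp ⟨⟨704519042, 0, 0, 0, 0, 0, 0, 0, 0, ⟨0, 0⟩, 0⟩, 0, 0⟩ 0 0)))) (.pos 36 .mp ⟨⟨693352134, 0, 0, 0, 0, 0, 0, 0, 0, ⟨0, 0⟩, 0⟩, 0, 0⟩ 0 0)) (.cut .v 16908288 (.cut .s 13910016 (.cut .d (-8192) (.cut .v 16842752 (.cut .d (-12288) (.void 43 ⟨⟨0, 0, 0, 0, 0, 100000, 0, 0, 0, ⟨0, 0⟩, 0⟩, 0, 0⟩ 0 0) (.cut .d (-10240) (.pos 43 .mp ⟨⟨582510956, 0, 0, 0, 0, 274848507, 0, 0, 0,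 ⟨0, 0⟩, 0⟩, 0, 0⟩ 0 0) (.cut .v 16809984 (.pos 45 .mp ⟨⟨0, 0, 0, 0, 0, 1419053492, 0, 0, 0, ⟨0, 0⟩, 0⟩, 0, 0⟩ 0 0) (.cut .l 153791 (.void 46 ⟨⟨100000, 0, 0, 0, 0, 0, 0, 0, 0, ⟨0, 0⟩, 0⟩, 0, 0⟩ 0 0) (.cut .l 230687 (.void 46 ⟨⟨0, 0, 0, 0, 0, 100000, 0, 0, 0, ⟨0, 0⟩, 0⟩, 0, 0⟩ 0 0) (.cut .s 13885440 (.pos 46 .mp ⟨⟨600104202, 0, 0, 0, 0, 192242966, 0, 0, 0, ⟨0, 0⟩, 0⟩, 0, 0⟩ 0 0) (.pos 46 .mp ⟨⟨612230956, 0, 0, 0, 0, 196168899, 0, 0, 0, ⟨0, 0⟩, 0⟩, 0, 0⟩ 0 0))))))) (.pos 44 .mp ⟨⟨735451899, 0, 0, 0, 0, 0, 0, 0, 0, ⟨0, 0⟩, 0⟩, 0, 0⟩ 0 0)) (.cut .v 16842752 (.cut .s 13885440 (.cut .s 13873152 (.cut .l 153791 (.cut .v 16809984 (.cut .d (-4096)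 (.pos 45 .mp ⟨⟨579851730, 0, 0, 0, 0, 232784924, 0, 0, 0, ⟨0, 0⟩, 0⟩, 0, 0⟩ 0 0) (.cut .l 76895 (.cut .d (-2048) (.pos 45 .mp ⟨⟨580921948, 0, 0, 0, 0, 233043210, 0, 0, 0, ⟨0, 0⟩, 0⟩, 0, 0⟩ 0 0) (.cut .v 16793600 (.cut .l 38447 (.cut .d (-1024) (.pos 47 .mp ⟨⟨580389425, 0, 0, 0, 0, 232543577, 0, 0, 0, ⟨0, 0⟩, 0⟩, 0, 0⟩ 0 0) (.cut .v 16785408 (.cut .l 19223 (.cut .d (-512) (.pos 81 .mp ⟨⟨580123914, 0, 0, 0, 0, 232292316, 0, 0, 0, ⟨0, 0⟩, 0⟩, 0, 0⟩ 0 0) (.cut .v 16781312 (.cut .l 9611 (.cut .v 16779264 (.cut .s 13867008 (.pos 85 .mp ⟨⟨582961801, 0, 0, 0, 0, 212057739, 0, 0, 0, ⟨0, 0⟩, 0⟩, 0, 0⟩ 0 0) (.pos 85 .mp ⟨⟨585724185, 0, 0, 0, 0,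 213416457, 0, 0, 0, ⟨0, 0⟩, 0⟩, 0, 0⟩ 0 0)) (.pos 86 .mp ⟨⟨710355287, 0, 0, 0, 0, 0, 0, 0, 0, ⟨0, 0⟩, 0⟩, 0, 0⟩ 0 0)) (.pos 83 .mp ⟨⟨586033560, 0, 0, 0, 0, 203718032, 0, 0, 0, ⟨0, 0⟩, 0⟩, 0, 0⟩ 0 0)) (.pos 84 .mp ⟨⟨695246588, 0, 0, 0, 0, 0, 0, 0, 0, ⟨0, 0⟩, 0⟩, 0, 0⟩ 0 0))) (.pos 81 .mp ⟨⟨586500227, 0, 0, 0, 0, 203050100, 0, 0, 0, ⟨0, 0⟩, 0⟩, 0, 0⟩ 0 0)) (.pos 82 .mp ⟨⟨695451177, 0, 0, 0, 0, 0, 0, 0, 0, ⟨0, 0⟩, 0⟩, 0, 0⟩ 0 0))) (.pos 47 .mp ⟨⟨587434243, 0, 0, 0, 0, 201713880, 0, 0, 0, ⟨0, 0⟩, 0⟩, 0, 0⟩ 0 0)) (.pos 48 .mp ⟨⟨695855523, 0, 0, 0, 0, 0, 0, 0, 0, ⟨0, 0⟩, 0⟩, 0, 0⟩ 0 0))) (.pos 45 .mp ⟨⟨589304619, 0, 0, 0, 0, 199038197, 0,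 0, 0, ⟨0, 0⟩, 0⟩, 0, 0⟩ 0 0))) (.pos 46 .mp ⟨⟨713011727, 0, 0, 0, 0, 0, 0, 0, 0, ⟨0, 0⟩, 0⟩, 0, 0⟩ 0 0)) (.cut .s 13867008 (.pos 43 .mp ⟨⟨590113777, 0, 0, 0, 0, 197137292, 0, 0, 0, ⟨0, 0⟩, 0⟩, 0, 0⟩ 0 0) (.pos 43 .mp ⟨⟨593054735, 0, 0, 0, 0, 198159849, 0, 0, 0, ⟨0, 0⟩, 0⟩, 0, 0⟩ 0 0))) (.cut .l 153791 (.cut .v 16809984 (.cut .d (-4096) (.pos 45 .mp ⟨⟨585619240, 0, 0, 0, 0, 235260767, 0, 0, 0, ⟨0, 0⟩, 0⟩, 0, 0⟩ 0 0) (.cut .l 76895 (.cut .d (-2048) (.pos 45 .mp ⟨⟨586662358, 0, 0, 0, 0, 235622682, 0, 0, 0, ⟨0, 0⟩, 0⟩, 0, 0⟩ 0 0) (.cut .v 16793600 (.cut .l 38447 (.cut .d (-1024) (.pos 47 .mp ⟨⟨586118618, 0, 0, 0, 0, 235129532, 0, 0, 0,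 ⟨0, 0⟩, 0⟩, 0, 0⟩ 0 0) (.cut .v 16785408 (.cut .l 19223 (.cut .d (-512) (.pos 81 .mp ⟨⟨585847509, 0, 0, 0, 0, 234881492, 0, 0, 0, ⟨0, 0⟩, 0⟩, 0, 0⟩ 0 0) (.cut .v 16781312 (.cut .l 9611 (.cut .v 16779264 (.cut .s 13879296 (.cut .s 13876224 (.pos 85 .mp ⟨⟨592719579, 0, 0, 0, 0, 205572518, 0, 0, 0, ⟨0, 0⟩, 0⟩, 0, 0⟩ 0 0) (.pos 85 .mp ⟨⟨594178825, 0, 0, 0, 0, 206133057, 0, 0, 0, ⟨0, 0⟩, 0⟩, 0, 0⟩ 0 0)) (.cut .s 13882368 (.pos 85 .mp ⟨⟨595649169, 0, 0, 0, 0, 206685155, 0, 0, 0, ⟨0, 0⟩, 0⟩, 0, 0⟩ 0 0) (.pos 85 .mp ⟨⟨597130712, 0, 0, 0, 0, 207228641, 0, 0, 0, ⟨0, 0⟩, 0⟩, 0, 0⟩ 0 0))) (.pos 86 .mp ⟨⟨717394086, 0, 0, 0, 0, 0, 0, 0, 0, ⟨0, 0⟩,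 0⟩, 0, 0⟩ 0 0)) (.pos 83 .mp ⟨⟨591851627, 0, 0, 0, 0, 205907159, 0, 0, 0, ⟨0, 0⟩, 0⟩, 0, 0⟩ 0 0)) (.pos 84 .mp ⟨⟨702156132, 0, 0, 0, 0, 0, 0, 0, 0, ⟨0, 0⟩, 0⟩, 0, 0⟩ 0 0))) (.pos 81 .mp ⟨⟨592326011, 0, 0, 0, 0, 205227194, 0, 0, 0, ⟨0, 0⟩, 0⟩, 0, 0⟩ 0 0)) (.pos 82 .mp ⟨⟨702362775, 0, 0, 0, 0, 0, 0, 0, 0, ⟨0, 0⟩, 0⟩, 0, 0⟩ 0 0))) (.pos 47 .mp ⟨⟨593275471, 0, 0, 0, 0, 203866898, 0, 0, 0, ⟨0, 0⟩, 0⟩, 0, 0⟩ 0 0)) (.pos 48 .mp ⟨⟨702771157, 0, 0, 0, 0, 0, 0, 0, 0, ⟨0, 0⟩, 0⟩, 0, 0⟩ 0 0))) (.pos 45 .mp ⟨⟨595176767, 0, 0, 0, 0, 201143014, 0, 0, 0, ⟨0, 0⟩, 0⟩, 0, 0⟩ 0 0))) (.pos 46 .mp ⟨⟨720078148, 0, 0, 0, 0, 0, 0, 0, 0, ⟨0, 0⟩, 0⟩, 0, 0⟩ 0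 0)) (.cut .s 13879296 (.pos 43 .mp ⟨⟨596013062, 0, 0, 0, 0, 199188393, 0, 0, 0, ⟨0, 0⟩, 0⟩, 0, 0⟩ 0 0) (.pos 43 .mp ⟨⟨598988866, 0, 0, 0, 0, 200222657, 0, 0, 0, ⟨0, 0⟩, 0⟩, 0, 0⟩ 0 0)))) (.cut .s 13897728 (.cut .l 153791 (.cut .v 16809984 (.cut .d (-4096) (.pos 45 .mp ⟨⟨591454691, 0, 0, 0, 0, 237837431, 0, 0, 0, ⟨0, 0⟩, 0⟩, 0, 0⟩ 0 0) (.cut .l 76895 (.cut .d (-2048) (.pos 45 .mp ⟨⟨592479776, 0, 0, 0, 0, 238277654, 0, 0, 0, ⟨0, 0⟩, 0⟩, 0, 0⟩ 0 0) (.cut .v 16793600 (.cut .l 38447 (.cut .d (-1024) (.pos 47 .mp ⟨⟨591927976, 0, 0, 0, 0, 237781636, 0, 0, 0, ⟨0, 0⟩, 0⟩, 0, 0⟩ 0 0) (.cut .v 16785408 (.cut .l 19223 (.cut .d (-512) (.pos 81 .mp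 ⟨⟨591652514, 0, 0, 0, 0, 237533091, 0, 0, 0, ⟨0, 0⟩, 0⟩, 0, 0⟩ 0 0) (.cut .v 16781312 (.cut .l 9611 (.cut .v 16779264 (.cut .s 13891584 (.cut .s 13888512 (.pos 85 .mp ⟨⟨598623553, 0, 0, 0, 0, 207763341, 0, 0, 0, ⟨0, 0⟩, 0⟩, 0, 0⟩ 0 0) (.pos 85 .mp ⟨⟨600127793, 0, 0, 0, 0, 208289080, 0, 0, 0, ⟨0, 0⟩, 0⟩, 0, 0⟩ 0 0)) (.pos 85 .mp ⟨⟨597417709, 0, 0, 0, 0, 218061278, 0, 0, 0, ⟨0, 0⟩, 0⟩, 0, 0⟩ 0 0)) (.pos 86 .mp ⟨⟨724514222, 0, 0, 0, 0, 0, 0, 0, 0, ⟨0, 0⟩, 0⟩, 0, 0⟩ 0 0)) (.pos 83 .mp ⟨⟨597738241, 0, 0, 0, 0, 208120967, 0, 0, 0, ⟨0, 0⟩, 0⟩, 0, 0⟩ 0 0)) (.pos 84 .mp ⟨⟨709182213, 0, 0, 0, 0, 0, 0, 0, 0, ⟨0, 0⟩, 0⟩, 0, 0⟩ 0 0))) (.pos 81 .mp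 ⟨⟨598220461, 0, 0, 0, 0, 207428767, 0, 0, 0, ⟨0, 0⟩, 0⟩, 0, 0⟩ 0 0)) (.pos 82 .mp ⟨⟨709390944, 0, 0, 0, 0, 0, 0, 0, 0, ⟨0, 0⟩, 0⟩, 0, 0⟩ 0 0))) (.pos 47 .mp ⟨⟨599185603, 0, 0, 0, 0, 206043996, 0, 0, 0, ⟨0, 0⟩, 0⟩, 0, 0⟩ 0 0)) (.pos 48 .mp ⟨⟨709803431, 0, 0, 0, 0, 0, 0, 0, 0, ⟨0, 0⟩, 0⟩, 0, 0⟩ 0 0))) (.pos 45 .mp ⟨⟨601118300, 0, 0, 0, 0, 203271105, 0, 0, 0, ⟨0, 0⟩, 0⟩, 0, 0⟩ 0 0))) (.pos 46 .mp ⟨⟨727226232, 0, 0, 0, 0, 0, 0, 0, 0, ⟨0, 0⟩, 0⟩, 0, 0⟩ 0 0)) (.cut .s 13891584 (.pos 43 .mp ⟨⟨601982255, 0, 0, 0, 0, 201262370, 0, 0, 0, ⟨0, 0⟩, 0⟩, 0, 0⟩ 0 0) (.pos 43 .mp ⟨⟨604993341, 0, 0, 0, 0, 202307262, 0, 0, 0, ⟨0, 0⟩, 0⟩, 0, 0⟩ 0 0)))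 (.cut .l 153791 (.cut .v 16809984 (.cut .d (-4096) (.pos 45 .mp ⟨⟨597358930, 0, 0, 0, 0, 240516281, 0, 0, 0, ⟨0, 0⟩, 0⟩, 0, 0⟩ 0 0) (.cut .l 76895 (.cut .d (-2048) (.pos 45 .mp ⟨⟨598381476, 0, 0, 0, 0, 240991152, 0, 0, 0, ⟨0, 0⟩, 0⟩, 0, 0⟩ 0 0) (.cut .v 16793600 (.cut .l 38447 (.cut .d (-1024) (.pos 47 .mp ⟨⟨597818208, 0, 0, 0, 0, 240501574, 0, 0, 0, ⟨0, 0⟩, 0⟩, 0, 0⟩ 0 0) (.cut .v 16785408 (.cut .l 19223 (.cut .d (-512) (.pos 81 .mp ⟨⟨597537018, 0, 0, 0, 0, 240256242, 0, 0, 0, ⟨0, 0⟩, 0⟩, 0, 0⟩ 0 0) (.cut .v 16781312 (.cut .s 13903872 (.cut .s 13900800 (.pos 83 .mp ⟨⟨603453423, 0, 0, 0, 0, 212505678, 0, 0, 0, ⟨0, 0⟩, 0⟩, 0, 0⟩ 0 0)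 (.pos 83 .mp ⟨⟨604991017, 0, 0, 0, 0, 213022710, 0, 0, 0, ⟨0, 0⟩, 0⟩, 0, 0⟩ 0 0)) (.pos 83 .mp ⟨⟨604168886, 0, 0, 0, 0, 218925487, 0, 0, 0, ⟨0, 0⟩, 0⟩, 0, 0⟩ 0 0)) (.pos 84 .mp ⟨⟨716326253, 0, 0, 0, 0, 0, 0, 0, 0, ⟨0, 0⟩, 0⟩, 0, 0⟩ 0 0))) (.pos 81 .mp ⟨⟨604184437, 0, 0, 0, 0, 209652683, 0, 0, 0, ⟨0, 0⟩, 0⟩, 0, 0⟩ 0 0)) (.pos 82 .mp ⟨⟨716537108, 0, 0, 0, 0, 0, 0, 0, 0, ⟨0, 0⟩, 0⟩, 0, 0⟩ 0 0))) (.pos 47 .mp ⟨⟨605165503, 0, 0, 0, 0, 208243027, 0, 0, 0, ⟨0, 0⟩, 0⟩, 0, 0⟩ 0 0)) (.pos 48 .mp ⟨⟨716953768, 0, 0, 0, 0, 0, 0, 0, 0, ⟨0, 0⟩, 0⟩, 0, 0⟩ 0 0))) (.pos 45 .mp ⟨⟨607130086, 0, 0, 0, 0, 205420315, 0, 0, 0, ⟨0, 0⟩, 0⟩, 0, 0⟩ 0 0))) (.pos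 46 .mp ⟨⟨734455513, 0, 0, 0, 0, 0, 0, 0, 0, ⟨0, 0⟩, 0⟩, 0, 0⟩ 0 0)) (.cut .s 13903872 (.pos 43 .mp ⟨⟨608022232, 0, 0, 0, 0, 203357058, 0, 0, 0, ⟨0, 0⟩, 0⟩, 0, 0⟩ 0 0) (.pos 43 .mp ⟨⟨611069041, 0, 0, 0, 0, 204411483, 0, 0, 0, ⟨0, 0⟩, 0⟩, 0, 0⟩ 0 0))))) (.pos 44 .mp ⟨⟨714532060, 0, 0, 0, 0, 0, 0, 0, 0, ⟨0, 0⟩, 0⟩, 0, 0⟩ 0 0))) (.cut .d (-8192) (.cut .v 16842752 (.cut .d (-12288) (.void 43 ⟨⟨0, 0, 0, 0, 0, 100000, 0, 0, 0, ⟨0, 0⟩, 0⟩, 0, 0⟩ 0 0) (.cut .d (-10240) (.pos 43 .mp ⟨⟨606251864, 0, 0, 0, 0, 287972482, 0, 0, 0, ⟨0, 0⟩, 0⟩, 0, 0⟩ 0 0) (.cut .v 16809984 (.pos 45 .mp ⟨⟨0, 0, 0, 0, 0, 1482013033, 0, 0, 0, ⟨0, 0⟩, 0⟩, 0, 0⟩ 0 0) (.cut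 .l 153791 (.void 46 ⟨⟨100000, 0, 0, 0, 0, 0, 0, 0, 0, ⟨0, 0⟩, 0⟩, 0, 0⟩ 0 0) (.cut .l 230687 (.void 46 ⟨⟨0, 0, 0, 0, 0, 100000, 0, 0, 0, ⟨0, 0⟩, 0⟩, 0, 0⟩ 0 0) (.cut .s 13934592 (.pos 46 .mp ⟨⟨624647445, 0, 0, 0, 0, 200323357, 0, 0, 0, ⟨0, 0⟩, 0⟩, 0, 0⟩ 0 0) (.pos 46 .mp ⟨⟨637361056, 0, 0, 0, 0, 204701225, 0, 0, 0, ⟨0, 0⟩, 0⟩, 0, 0⟩ 0 0))))))) (.pos 44 .mp ⟨⟨765094191, 0, 0, 0, 0, 0, 0, 0, 0, ⟨0, 0⟩, 0⟩, 0, 0⟩ 0 0)) (.cut .v 16842752 (.cut .s 13934592 (.cut .s 13922304 (.cut .l 153791 (.cut .v 16809984 (.cut .d (-4096) (.pos 45 .mp ⟨⟨603332820, 0, 0, 0, 0, 243298706, 0, 0, 0, ⟨0, 0⟩, 0⟩, 0, 0⟩ 0 0) (.cut .l 76895 (.cut .d (-2048) (.pos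 45 .mp ⟨⟨604352762, 0, 0, 0, 0, 243808771, 0, 0, 0, ⟨0, 0⟩, 0⟩, 0, 0⟩ 0 0) (.cut .v 16793600 (.cut .l 38447 (.cut .d (-1024) (.pos 47 .mp ⟨⟨603777875, 0, 0, 0, 0, 243325686, 0, 0, 0, ⟨0, 0⟩, 0⟩, 0, 0⟩ 0 0) (.cut .v 16785408 (.cut .l 19223 (.cut .d (-512) (.pos 81 .mp ⟨⟨603490881, 0, 0, 0, 0, 243083594, 0, 0, 0, ⟨0, 0⟩, 0⟩, 0, 0⟩ 0 0) (.cut .s 13916160 (.pos 81 .mp ⟨⟨607448266, 0, 0, 0, 0, 219646190, 0, 0, 0, ⟨0, 0⟩, 0⟩, 0, 0⟩ 0 0) (.pos 81 .mp ⟨⟨610473979, 0, 0, 0, 0, 220885424, 0, 0, 0, ⟨0, 0⟩, 0⟩, 0, 0⟩ 0 0))) (.pos 81 .mp ⟨⟨610218814, 0, 0, 0, 0, 211896774, 0, 0, 0, ⟨0, 0⟩, 0⟩, 0, 0⟩ 0 0)) (.pos 82 .mp ⟨⟨723802713, 0, 0, 0, 0, 0,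 0, 0, 0, ⟨0, 0⟩, 0⟩, 0, 0⟩ 0 0))) (.pos 47 .mp ⟨⟨611216050, 0, 0, 0, 0, 210461821, 0, 0, 0, ⟨0, 0⟩, 0⟩, 0, 0⟩ 0 0)) (.pos 48 .mp ⟨⟨724223616, 0, 0, 0, 0, 0, 0, 0, 0, ⟨0, 0⟩, 0⟩, 0, 0⟩ 0 0))) (.pos 45 .mp ⟨⟨613213009, 0, 0, 0, 0, 207588459, 0, 0, 0, ⟨0, 0⟩, 0⟩, 0, 0⟩ 0 0))) (.pos 46 .mp ⟨⟨741765528, 0, 0, 0, 0, 0, 0, 0, 0, ⟨0, 0⟩, 0⟩, 0, 0⟩ 0 0)) (.cut .s 13916160 (.pos 43 .mp ⟨⟨614133880, 0, 0, 0, 0, 205470260, 0, 0, 0, ⟨0, 0⟩, 0⟩, 0, 0⟩ 0 0) (.pos 43 .mp ⟨⟨617216863, 0, 0, 0, 0, 206533110, 0, 0, 0, ⟨0, 0⟩, 0⟩, 0, 0⟩ 0 0))) (.cut .l 153791 (.cut .d (-4096) (.pos 43 .mp ⟨⟨611571474, 0, 0, 0, 0, 247678541, 0, 0, 0, ⟨0, 0⟩, 0⟩, 0, 0⟩ 0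 0) (.cut .l 76895 (.cut .v 16809984 (.cut .d (-2048) (.pos 45 .mp ⟨⟨610394510, 0, 0, 0, 0, 246731930, 0, 0, 0, ⟨0, 0⟩, 0⟩, 0, 0⟩ 0 0) (.cut .v 16793600 (.cut .l 38447 (.cut .d (-1024) (.pos 47 .mp ⟨⟨609807850, 0, 0, 0, 0, 246255392, 0, 0, 0, ⟨0, 0⟩, 0⟩, 0, 0⟩ 0 0) (.cut .v 16785408 (.cut .s 13928448 (.cut .s 13925376 (.pos 81 .mp ⟨⟨616096565, 0, 0, 0, 0, 216361496, 0, 0, 0, ⟨0, 0⟩, 0⟩, 0, 0⟩ 0 0) (.pos 81 .mp ⟨⟨617719179, 0, 0, 0, 0, 216823069, 0, 0, 0, ⟨0, 0⟩, 0⟩, 0, 0⟩ 0 0)) (.pos 81 .mp ⟨⟨617293410, 0, 0, 0, 0, 222138369, 0, 0, 0, ⟨0, 0⟩, 0⟩, 0, 0⟩ 0 0)) (.pos 82 .mp ⟨⟨731189231, 0, 0, 0, 0, 0, 0, 0, 0, ⟨0, 0⟩, 0⟩, 0, 0⟩ 0 0))) (.pos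 47 .mp ⟨⟨617338136, 0, 0, 0, 0, 212698175, 0, 0, 0, ⟨0, 0⟩, 0⟩, 0, 0⟩ 0 0)) (.pos 48 .mp ⟨⟨731614447, 0, 0, 0, 0, 0, 0, 0, 0, ⟨0, 0⟩, 0⟩, 0, 0⟩ 0 0))) (.pos 46 .mp ⟨⟨749683632, 0, 0, 0, 0, 0, 0, 0, 0, ⟨0, 0⟩, 0⟩, 0, 0⟩ 0 0)) (.pos 43 .mp ⟨⟨621589095, 0, 0, 0, 0, 206084010, 0, 0, 0, ⟨0, 0⟩, 0⟩, 0, 0⟩ 0 0))) (.cut .s 13928448 (.pos 43 .mp ⟨⟨620318103, 0, 0, 0, 0, 207599752, 0, 0, 0, ⟨0, 0⟩, 0⟩, 0, 0⟩ 0 0) (.pos 43 .mp ⟨⟨623437716, 0, 0, 0, 0, 208669904, 0, 0, 0, ⟨0, 0⟩, 0⟩, 0, 0⟩ 0 0)))) (.cut .s 13946880 (.cut .l 153791 (.cut .d (-4096) (.pos 43 .mp ⟨⟨617708478, 0, 0, 0, 0, 250695402, 0, 0, 0, ⟨0, 0⟩, 0⟩, 0, 0⟩ 0 0) (.cut .l 76895 (.cut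 .d (-2048) (.pos 43 .mp ⟨⟨625662739, 0, 0, 0, 0, 228258925, 0, 0, 0, ⟨0, 0⟩, 0⟩, 0, 0⟩ 0 0) (.cut .v 16809984 (.cut .v 16793600 (.cut .l 38447 (.cut .d (-1024) (.pos 47 .mp ⟨⟨615909023, 0, 0, 0, 0, 249292139, 0, 0, 0, ⟨0, 0⟩, 0⟩, 0, 0⟩ 0 0) (.cut .s 13940736 (.pos 47 .mp ⟨⟨620934708, 0, 0, 0, 0, 222385318, 0, 0, 0, ⟨0, 0⟩, 0⟩, 0, 0⟩ 0 0) (.pos 47 .mp ⟨⟨624040392, 0, 0, 0, 0, 223674207, 0, 0, 0, ⟨0, 0⟩, 0⟩, 0, 0⟩ 0 0))) (.pos 47 .mp ⟨⟨623532669, 0, 0, 0, 0, 214949859, 0, 0, 0, ⟨0, 0⟩, 0⟩, 0, 0⟩ 0 0)) (.pos 48 .mp ⟨⟨739127758, 0, 0, 0, 0, 0, 0, 0, 0, ⟨0, 0⟩, 0⟩, 0, 0⟩ 0 0)) (.pos 46 .mp ⟨⟨753231704, 0, 0, 0, 0, 0, 0, 0, 0, ⟨0, 0⟩, 0⟩,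 0, 0⟩ 0 0))) (.pos 43 .mp ⟨⟨627838479, 0, 0, 0, 0, 208244389, 0, 0, 0, ⟨0, 0⟩, 0⟩, 0, 0⟩ 0 0))) (.cut .s 13940736 (.pos 43 .mp ⟨⟨626575820, 0, 0, 0, 0, 209743280, 0, 0, 0, ⟨0, 0⟩, 0⟩, 0, 0⟩ 0 0) (.pos 43 .mp ⟨⟨629732530, 0, 0, 0, 0, 210819594, 0, 0, 0, ⟨0, 0⟩, 0⟩, 0, 0⟩ 0 0))) (.cut .l 153791 (.cut .d (-4096) (.pos 43 .mp ⟨⟨623918054, 0, 0, 0, 0, 253820608, 0, 0, 0, ⟨0, 0⟩, 0⟩, 0, 0⟩ 0 0) (.cut .l 76895 (.cut .d (-2048) (.pos 43 .mp ⟨⟨632177640, 0, 0, 0, 0, 230295736, 0, 0, 0, ⟨0, 0⟩, 0⟩, 0, 0⟩ 0 0) (.cut .v 16809984 (.cut .v 16793600 (.cut .l 38447 (.cut .d (-1024) (.pos 47 .mp ⟨⟨622082297, 0, 0, 0, 0, 252437397, 0, 0, 0, ⟨0, 0⟩, 0⟩,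 0, 0⟩ 0 0) (.cut .s 13953024 (.pos 47 .mp ⟨⟨627149331, 0, 0, 0, 0, 225014119, 0, 0, 0, ⟨0, 0⟩, 0⟩, 0, 0⟩ 0 0) (.pos 47 .mp ⟨⟨630203904, 0, 0, 0, 0, 226539484, 0, 0, 0, ⟨0, 0⟩, 0⟩, 0, 0⟩ 0 0))) (.pos 47 .mp ⟨⟨629800574, 0, 0, 0, 0, 217214611, 0, 0, 0, ⟨0, 0⟩, 0⟩, 0, 0⟩ 0 0)) (.pos 48 .mp ⟨⟨746765075, 0, 0, 0, 0, 0, 0, 0, 0, ⟨0, 0⟩, 0⟩, 0, 0⟩ 0 0)) (.pos 46 .mp ⟨⟨760729203, 0, 0, 0, 0, 0, 0, 0, 0, ⟨0, 0⟩, 0⟩, 0, 0⟩ 0 0))) (.pos 43 .mp ⟨⟨634161996, 0, 0, 0, 0, 210416489, 0, 0, 0, ⟨0, 0⟩, 0⟩, 0, 0⟩ 0 0))) (.cut .s 13953024 (.pos 43 .mp ⟨⟨632907966, 0, 0, 0, 0, 211898558, 0, 0, 0, ⟨0, 0⟩, 0⟩, 0, 0⟩ 0 0) (.pos 43 .mp ⟨⟨636102247, 0, 0, 0,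 0, 212979881, 0, 0, 0, ⟨0, 0⟩, 0⟩, 0, 0⟩ 0 0))))) (.pos 44 .mp ⟨⟨743765341, 0, 0, 0, 0, 0, 0, 0, 0, ⟨0, 0⟩, 0⟩, 0, 0⟩ 0 0)))) (.pos 36 .mp ⟨⟨750328471, 0, 0, 0, 0, 0, 0, 0, 0, ⟨0, 0⟩, 0⟩, 0, 0⟩ 0 0))))))) (.pos 32 .mp ⟨⟨826883570, 0, 0, 0, 0, 0, 0, 0, 0, ⟨0, 0⟩, 0⟩, 0, 0⟩ 0 0))) (.void 30 ⟨⟨100000, 0, 0, 0, 0, 0, 0, 0, 0, ⟨0, 0⟩, 0⟩, 0, 0⟩ 0 0))) (.void 28 ⟨⟨100000, 0, 0, 0, 0, 0, 0, 0, 0, ⟨0, 0⟩, 0⟩, 0, 0⟩ 0 0))) (.void 26 ⟨⟨100000, 0, 0, 0, 0, 0, 0, 0, 0, ⟨0, 0⟩, 0⟩, 0, 0⟩ 0 0))) (.void 24 ⟨⟨100000, 0, 0, 0, 0, 0, 0, 0, 0, ⟨0, 0⟩, 0⟩, 0, 0⟩ 0 0))) (.void 22 ⟨⟨100000, 0, 0, 0, 0, 0, 0, 0, 0, ⟨0, 0⟩, 0⟩, 0, 0⟩ 0 0))) (.void 103 ⟨⟨100000,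 0, 0, 0, 0, 0, 0, 0, 0, ⟨0, 0⟩, 0⟩, 0, 0⟩ 0 0)) (.void 114 ⟨⟨100000, 0, 0, 0, 0, 0, 0, 0, 0, ⟨0, 0⟩, 0⟩, 0, 0⟩ 0 0)) (.void 125 ⟨⟨93985, 0, 0, 6015, 0, 0, 0, 0, 0, ⟨0, 0⟩, 0⟩, 0, 0⟩ 0 0))) (.cut .v 16777216 (.cut .v 8388608 (.cut .v 4194304 (.cut .v 2097152 (.cut .v 1048576 (.pos 119 .pm ⟨⟨0, 0, 27317090, 0, 0, 0, 0, 0, 0, ⟨0, 0⟩, 0⟩, 0, 3656⟩ 0 0) (.pos 120 .pm ⟨⟨0, 0, 34971264, 0, 0, 0, 0, 0, 0, ⟨0, 0⟩, 0⟩, 0, 10539⟩ 0 0)) (.pos 118 .pm ⟨⟨0, 0, 48311681, 0, 0, 0, 0, 0, 0, ⟨0, 0⟩, 0⟩, 0, 25302⟩ 0 0)) (.pos 5 .pm ⟨⟨0, 0, 133811893, 0, 0, 0, 0, 0, 0, ⟨0, 0⟩, 0⟩, 0, 45544⟩ 0 0)) (.pos 3 .pm ⟨⟨0, 0, 0, 0, 0, 0, 0, 0, 0, ⟨0, 0⟩, 0⟩, 0,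 0⟩ 0 0)) (.cut .v 268435456 (.cut .v 67108864 (.cut .d 1837506 (.cut .v 33554432 (.cut .d 918753 (.cut .v 25165824 (.cut .d 459376 (.cut .d 229688 (.cut .v 20971520 (.cut .v 18874368 (.cut .d 114844 (.cut .d 57422 (.cut .v 17825792 (.cut .v 17301504 (.cut .s 13860864 (.pos 29 .pp ⟨⟨552241950, 0, 0, 0, 0, 0, 0, 0, 0, ⟨0, 0⟩, 0⟩, 12665312, 0⟩ 0 0) (.pos 29 .pp ⟨⟨595423285, 0, 0, 0, 0, 0, 0, 0, 0, ⟨0, 0⟩, 0⟩, 13979938, 0⟩ 0 0)) (.pos 30 .pp ⟨⟨712064615, 0, 0, 0, 0, 0, 0, 0, 0, ⟨0, 0⟩, 0⟩, 0, 0⟩ 0 0)) (.pos 28 .pp ⟨⟨800416144, 0, 0, 0, 0, 0, 0, 0, 0, ⟨0, 0⟩, 0⟩, 0, 0⟩ 0 0)) (.pos 25 .pp ⟨⟨610412808, 0, 0, 0, 0, 0, 0, 0, 0, ⟨0, 0⟩, 0⟩, 0,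 5059⟩ 0 0)) (.pos 25 .pp ⟨⟨0, 0, 0, 0, 0, 0, 0, 0, 0, ⟨0, 0⟩, 0⟩, 0, 120559⟩ 0 0)) (.cut .d 114844 (.cut .v 19922944 (.pos 53 .pp ⟨⟨873971086, 0, 0, 0, 0, 0, 0, 0, 0, ⟨0, 0⟩, 0⟩, 0, 0⟩ 0 0) (.pos 54 .pp ⟨⟨993660475, 0, 0, 0, 0, 0, 0, 0, 0, ⟨0, 0⟩, 0⟩, 0, 0⟩ 0 0)) (.pos 26 .pp ⟨⟨766127280, 0, 0, 0, 0, 0, 0, 0, 0, ⟨0, 0⟩, 0⟩, 0, 0⟩ 0 0))) (.cut .v 23068672 (.cut .d 114844 (.void 55 ⟨⟨0, 0, 0, 0, 0, 0, 0, 0, 0, ⟨0, 0⟩, 0⟩, 100000, 0⟩ 0 0) (.cut .d 172266 (.pos 55 .pp ⟨⟨923967428, 0, 0, 0, 0, 0, 0, 0, 0, ⟨0, 0⟩, 0⟩, 22784440, 0⟩ 0 0) (.pos 55 .pp ⟨⟨0, 0, 0, 0, 0, 0, 3650, 0, 0, ⟨0, 0⟩, 0⟩, 114846892, 0⟩ 0 0))) (.pos 56 .pp ⟨⟨0, 0, 0, 0,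 0, 0, 0, 0, 0, ⟨0, 0⟩, 0⟩, 161920513, 0⟩ 0 0))) (.cut .v 20971520 (.pos 23 .pp ⟨⟨0, 0, 0, 0, 0, 0, 0, 0, 0, ⟨0, 0⟩, 0⟩, 0, 126512⟩ 0 0) (.pos 24 .pp ⟨⟨0, 0, 0, 0, 0, 0, 18568, 0, 0, ⟨0, 0⟩, 0⟩, 108748541, 0⟩ 0 0))) (.pos 21 .pp ⟨⟨0, 0, 0, 0, 0, 0, 0, 0, 0, ⟨0, 0⟩, 0⟩, 0, 136633⟩ 0 0)) (.cut .d 459376 (.cut .d 229688 (.void 22 ⟨⟨0, 0, 0, 0, 0, 0, 0, 0, 0, ⟨0, 0⟩, 0⟩, 100000, 0⟩ 0 0) (.pos 22 .pp ⟨⟨0, 0, 0, 0, 0, 0, 0, 0, 0, ⟨0, 0⟩, 0⟩, 163957549, 0⟩ 0 0)) (.pos 22 .pp ⟨⟨0, 0, 0, 0, 0, 0, 10098, 0, 0, ⟨0, 0⟩, 0⟩, 112898953, 0⟩ 0 0))) (.pos 20 .pp ⟨⟨0, 0, 0, 0, 0, 0, 0, 0, 0, ⟨0, 0⟩, 0⟩, 0, 151815⟩ 0 0)) (.cut .d 918753 (.cut .v 50331648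 (.pos 106 .pp ⟨⟨0, 0, 0, 0, 0, 0, 0, 0, 0, ⟨0, 0⟩, 0⟩, 281045772, 0⟩ 0 0) (.void 107 ⟨⟨0, 0, 0, 0, 0, 0, 0, 0, 0, ⟨0, 0⟩, 0⟩, 100000, 0⟩ 0 0)) (.pos 103 .pp ⟨⟨0, 0, 0, 0, 0, 0, 0, 0, 0, ⟨0, 0⟩, 0⟩, 163360666, 0⟩ 0 0))) (.pos 102 .pp ⟨⟨0, 0, 0, 0, 0, 0, 0, 0, 0, ⟨0, 0⟩, 0⟩, 0, 113861⟩ 0 0)) (.void 114 ⟨⟨0, 0, 0, 48038, 0, 0, 0, 0, 0, ⟨0, 0⟩, 0⟩, 51962, 0⟩ 0 0)) (.void 125 ⟨⟨0, 0, 0, 0, 0, 0, 0, 0, 0, ⟨0, 0⟩, 0⟩, 100000, 0⟩ 0 0)))),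
    by decide +kernel⟩

def covers26 : cell.Covers Vale.Agent.P237.Petty.Cor.Grid.N12.table row26.1 :=
  ⟨(.cut .d 0 (.cut .v 16777216 (.cut .v 8388608 (.void 2 ⟨⟨0, 0, 100000, 0, 0, 0, 0, 0, 0, ⟨0, 0⟩, 0⟩, 0, 0⟩ 0 0) (.cut .d (-8388608) (.void 3 ⟨⟨100000, 0, 0, 0, 0, 0, 0, 0, 0, ⟨0, 0⟩, 0⟩, 0, 0⟩ 0 0) (.cut .d (-4194304) (.void 3 ⟨⟨100000, 0, 0, 0, 0, 0, 0, 0, 0, ⟨0, 0⟩, 0⟩, 0, 0⟩ 0 0) (.cut .d (-2097152) (.void 3 ⟨⟨100000, 0, 0, 0, 0, 0, 0, 0, 0, ⟨0, 0⟩, 0⟩, 0, 0⟩ 0 0) (.cut .d (-1048576) (.void 3 ⟨⟨0, 0, 0, 0, 0, 100000, 0, 0, 0, ⟨0, 0⟩, 0⟩, 0, 0⟩ 0 0) (.cut .d (-524288) (.void 3 ⟨⟨0, 0, 0, 0, 0, 100000, 0, 0, 0, ⟨0, 0⟩, 0⟩, 0, 0⟩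 0 0) (.cut .d (-262144) (.void 3 ⟨⟨0, 0, 0, 0, 0, 100000, 0, 0, 0, ⟨0, 0⟩, 0⟩, 0, 0⟩ 0 0) (.cut .s 14057472 (.pos 3 .mm ⟨⟨0, 0, 0, 0, 0, 1450058951, 0, 0, 0, ⟨0, 0⟩, 0⟩, 0, 0⟩ 0 0) (.pos 3 .mm ⟨⟨0, 0, 0, 0, 0, 1586331480, 0, 0, 0, ⟨0, 0⟩, 0⟩, 0, 0⟩ 0 0))))))))) (.cut .v 268435456 (.cut .v 67108864 (.cut .v 33554432 (.cut .d (-8388608) (.void 20 ⟨⟨100002, 0, 0, 0, 0, 0, 0, 0, 0, ⟨0, 0⟩, 0⟩, 0, 0⟩ 0 0) (.cut .v 25165824 (.cut .d (-4194304) (.void 21 ⟨⟨100000, 0, 0, 0, 0, 0, 0, 0, 0, ⟨0, 0⟩, 0⟩, 0, 0⟩ 0 0) (.cut .v 20971520 (.cut .d (-2097152) (.void 23 ⟨⟨100000, 0, 0, 0, 0, 0, 0, 0, 0, ⟨0, 0⟩, 0⟩, 0, 0⟩ 0 0) (.cut .v 18874368 (.cut .d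 (-1048576) (.void 25 ⟨⟨100000, 0, 0, 0, 0, 0, 0, 0, 0, ⟨0, 0⟩, 0⟩, 0, 0⟩ 0 0) (.cut .v 17825792 (.cut .d (-524288) (.void 27 ⟨⟨100000, 0, 0, 0, 0, 0, 0, 0, 0, ⟨0, 0⟩, 0⟩, 0, 0⟩ 0 0) (.cut .v 17301504 (.cut .d (-262144) (.void 29 ⟨⟨100000, 0, 0, 0, 0, 0, 0, 0, 0, ⟨0, 0⟩, 0⟩, 0, 0⟩ 0 0) (.cut .v 17039360 (.cut .d (-131072) (.void 31 ⟨⟨100000, 0, 0, 0, 0, 0, 0, 0, 0, ⟨0, 0⟩, 0⟩, 0, 0⟩ 0 0) (.cut .d (-65536) (.void 31 ⟨⟨100000, 0, 0, 0, 0, 0, 0, 0, 0, ⟨0, 0⟩, 0⟩, 0, 0⟩ 0 0) (.cut .d (-32768) (.void 31 ⟨⟨100000, 0, 0, 0, 0, 0, 0, 0, 0, ⟨0, 0⟩, 0⟩, 0, 0⟩ 0 0) (.cut .d (-16384) (.void 31 ⟨⟨100000, 0, 0, 0, 0, 0, 0, 0, 0, ⟨0, 0⟩, 0⟩, 0, 0⟩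 0 0) (.cut .s 14057472 (.cut .v 16908288 (.cut .d (-8192) (.cut .v 16842752 (.cut .d (-12288) (.void 43 ⟨⟨0, 0, 0, 0, 0, 100000, 0, 0, 0, ⟨0, 0⟩, 0⟩, 0, 0⟩ 0 0) (.cut .d (-10240) (.pos 43 .mp ⟨⟨631140245, 0, 0, 0, 0, 458476752, 0, 0, 0, ⟨0, 0⟩, 0⟩, 0, 0⟩ 0 0) (.cut .v 16809984 (.pos 45 .mp ⟨⟨0, 0, 0, 0, 0, 1600115369, 0, 0, 0, ⟨0, 0⟩, 0⟩, 0, 0⟩ 0 0) (.cut .l 153791 (.void 46 ⟨⟨100000, 0, 0, 0, 0, 0, 0, 0, 0, ⟨0, 0⟩, 0⟩, 0, 0⟩ 0 0) (.cut .l 230687 (.void 46 ⟨⟨0, 0, 0, 0, 0, 100000, 0, 0, 0, ⟨0, 0⟩, 0⟩, 0, 0⟩ 0 0) (.cut .s 14008320 (.cut .s 13983744 (.pos 46 .mp ⟨⟨650401666, 0, 0, 0, 0, 212892924, 0, 0, 0, ⟨0, 0⟩, 0⟩, 0, 0⟩ 0 0) (.pos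 46 .mp ⟨⟨663767447, 0, 0, 0, 0, 216823331, 0, 0, 0, ⟨0, 0⟩, 0⟩, 0, 0⟩ 0 0)) (.cut .l 269135 (.pos 46 .mp ⟨⟨664101113, 0, 0, 0, 0, 289909403, 0, 0, 0, ⟨0, 0⟩, 0⟩, 0, 0⟩ 0 0) (.cut .s 14032896 (.pos 46 .mp ⟨⟨675366305, 0, 0, 0, 0, 219464950, 0, 0, 0, ⟨0, 0⟩, 0⟩, 0, 0⟩ 0 0) (.pos 46 .mp ⟨⟨689368938, 0, 0, 0, 0, 223979510, 0, 0, 0, ⟨0, 0⟩, 0⟩, 0, 0⟩ 0 0))))))))) (.pos 44 .mp ⟨⟨826586318, 0, 0, 0, 0, 0, 0, 0, 0, ⟨0, 0⟩, 0⟩, 0, 0⟩ 0 0)) (.cut .s 14008320 (.cut .v 16842752 (.cut .s 13983744 (.cut .s 13971456 (.cut .v 16809984 (.cut .l 153791 (.cut .d (-4096) (.pos 45 .mp ⟨⟨627944332, 0, 0, 0, 0, 255483352, 0, 0, 0, ⟨0, 0⟩, 0⟩, 0, 0⟩ 0 0) (.cut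 .v 16793600 (.cut .l 76895 (.cut .d (-2048) (.pos 47 .mp ⟨⟨627824869, 0, 0, 0, 0, 254017523, 0, 0, 0, ⟨0, 0⟩, 0⟩, 0, 0⟩ 0 0) (.cut .s 13965312 (.pos 47 .mp ⟨⟨634953076, 0, 0, 0, 0, 224990860, 0, 0, 0, ⟨0, 0⟩, 0⟩, 0, 0⟩ 0 0) (.cut .s 13968384 (.pos 47 .mp ⟨⟨639249662, 0, 0, 0, 0, 222839910, 0, 0, 0, ⟨0, 0⟩, 0⟩, 0, 0⟩ 0 0) (.pos 47 .mp ⟨⟨640707852, 0, 0, 0, 0, 223617140, 0, 0, 0, ⟨0, 0⟩, 0⟩, 0, 0⟩ 0 0)))) (.pos 47 .mp ⟨⟨624882433, 0, 0, 0, 0, 242696082, 0, 0, 0, ⟨0, 0⟩, 0⟩, 0, 0⟩ 0 0)) (.pos 48 .mp ⟨⟨687279655, 0, 0, 0, 0, 133432035, 0, 0, 0, ⟨0, 0⟩, 0⟩, 0, 0⟩ 0 0))) (.pos 45 .mp ⟨⟨622058238, 0, 0, 0, 0, 249917782, 0, 0, 0, ⟨0, 0⟩, 0⟩,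 0, 0⟩ 0 0)) (.cut .s 13965312 (.pos 46 .mp ⟨⟨667861257, 0, 0, 0, 0, 168256304, 0, 0, 0, ⟨0, 0⟩, 0⟩, 0, 0⟩ 0 0) (.pos 46 .mp ⟨⟨670553295, 0, 0, 0, 0, 170225798, 0, 0, 0, ⟨0, 0⟩, 0⟩, 0, 0⟩ 0 0))) (.cut .v 16809984 (.cut .l 153791 (.cut .d (-4096) (.pos 45 .mp ⟨⟨634285765, 0, 0, 0, 0, 257762547, 0, 0, 0, ⟨0, 0⟩, 0⟩, 0, 0⟩ 0 0) (.cut .l 76895 (.cut .d (-2048) (.pos 45 .mp ⟨⟨636364878, 0, 0, 0, 0, 255390148, 0, 0, 0, ⟨0, 0⟩, 0⟩, 0, 0⟩ 0 0) (.cut .v 16793600 (.cut .l 38447 (.cut .d (-1024) (.pos 47 .mp ⟨⟨635723160, 0, 0, 0, 0, 254958000, 0, 0, 0, ⟨0, 0⟩, 0⟩, 0, 0⟩ 0 0) (.cut .s 13977600 (.pos 47 .mp ⟨⟨639850276, 0, 0, 0, 0, 229774387, 0,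 0, 0, ⟨0, 0⟩, 0⟩, 0, 0⟩ 0 0) (.pos 47 .mp ⟨⟨643070201, 0, 0, 0, 0, 230875460, 0, 0, 0, ⟨0, 0⟩, 0⟩, 0, 0⟩ 0 0))) (.pos 47 .mp ⟨⟨642569381, 0, 0, 0, 0, 222520352, 0, 0, 0, ⟨0, 0⟩, 0⟩, 0, 0⟩ 0 0)) (.pos 48 .mp ⟨⟨761901434, 0, 0, 0, 0, 0, 0, 0, 0, ⟨0, 0⟩, 0⟩, 0, 0⟩ 0 0))) (.pos 45 .mp ⟨⟨644738464, 0, 0, 0, 0, 219376506, 0, 0, 0, ⟨0, 0⟩, 0⟩, 0, 0⟩ 0 0))) (.pos 45 .mp ⟨⟨628311809, 0, 0, 0, 0, 252604871, 0, 0, 0, ⟨0, 0⟩, 0⟩, 0, 0⟩ 0 0)) (.cut .s 13977600 (.pos 46 .mp ⟨⟨673309568, 0, 0, 0, 0, 172135907, 0, 0, 0, ⟨0, 0⟩, 0⟩, 0, 0⟩ 0 0) (.pos 46 .mp ⟨⟨676131745, 0, 0, 0, 0, 173983646, 0, 0, 0, ⟨0, 0⟩, 0⟩, 0, 0⟩ 0 0)))) (.cut .s 13996032 (.cut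 .v 16809984 (.cut .l 153791 (.cut .d (-4096) (.pos 45 .mp ⟨⟨640705621, 0, 0, 0, 0, 260162760, 0, 0, 0, ⟨0, 0⟩, 0⟩, 0, 0⟩ 0 0) (.cut .l 76895 (.cut .d (-2048) (.pos 45 .mp ⟨⟨642775699, 0, 0, 0, 0, 257843242, 0, 0, 0, ⟨0, 0⟩, 0⟩, 0, 0⟩ 0 0) (.cut .v 16793600 (.cut .l 38447 (.cut .d (-1024) (.pos 47 .mp ⟨⟨642120047, 0, 0, 0, 0, 257421737, 0, 0, 0, ⟨0, 0⟩, 0⟩, 0, 0⟩ 0 0) (.cut .v 16785408 (.cut .s 13989888 (.pos 81 .mp ⟨⟨645731576, 0, 0, 0, 0, 233073212, 0, 0, 0, ⟨0, 0⟩, 0⟩, 0, 0⟩ 0 0) (.cut .s 13992960 (.pos 81 .mp ⟨⟨651079631, 0, 0, 0, 0, 229185836, 0, 0, 0, ⟨0, 0⟩, 0⟩, 0, 0⟩ 0 0) (.pos 81 .mp ⟨⟨652615165, 0, 0, 0, 0, 229942018, 0, 0,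 0, ⟨0, 0⟩, 0⟩, 0, 0⟩ 0 0))) (.pos 82 .mp ⟨⟨768967667, 0, 0, 0, 0, 0, 0, 0, 0, ⟨0, 0⟩, 0⟩, 0, 0⟩ 0 0))) (.pos 47 .mp ⟨⟨649071765, 0, 0, 0, 0, 224893694, 0, 0, 0, ⟨0, 0⟩, 0⟩, 0, 0⟩ 0 0)) (.pos 48 .mp ⟨⟨769414959, 0, 0, 0, 0, 0, 0, 0, 0, ⟨0, 0⟩, 0⟩, 0, 0⟩ 0 0))) (.pos 45 .mp ⟨⟨651277720, 0, 0, 0, 0, 221691649, 0, 0, 0, ⟨0, 0⟩, 0⟩, 0, 0⟩ 0 0))) (.pos 45 .mp ⟨⟨634642170, 0, 0, 0, 0, 255350513, 0, 0, 0, ⟨0, 0⟩, 0⟩, 0, 0⟩ 0 0)) (.cut .s 13989888 (.pos 46 .mp ⟨⟨679021505, 0, 0, 0, 0, 175766002, 0, 0, 0, ⟨0, 0⟩, 0⟩, 0, 0⟩ 0 0) (.pos 46 .mp ⟨⟨681980540, 0, 0, 0, 0, 177479938, 0, 0, 0, ⟨0, 0⟩, 0⟩, 0, 0⟩ 0 0))) (.cut .v 16809984 (.cut .l 153791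 (.cut .d (-4096) (.pos 45 .mp ⟨⟨647204914, 0, 0, 0, 0, 262685690, 0, 0, 0, ⟨0, 0⟩, 0⟩, 0, 0⟩ 0 0) (.cut .s 14002176 (.cut .s 13999104 (.pos 45 .mp ⟨⟨657014847, 0, 0, 0, 0, 225390484, 0, 0, 0, ⟨0, 0⟩, 0⟩, 0, 0⟩ 0 0) (.pos 45 .mp ⟨⟨658677556, 0, 0, 0, 0, 225948742, 0, 0, 0, ⟨0, 0⟩, 0⟩, 0, 0⟩ 0 0)) (.cut .s 14005248 (.pos 45 .mp ⟨⟨660345414, 0, 0, 0, 0, 226512450, 0, 0, 0, ⟨0, 0⟩, 0⟩, 0, 0⟩ 0 0) (.pos 45 .mp ⟨⟨662018441, 0, 0, 0, 0, 227081600, 0, 0, 0, ⟨0, 0⟩, 0⟩, 0, 0⟩ 0 0)))) (.cut .s 14002176 (.pos 45 .mp ⟨⟨641050310, 0, 0, 0, 0, 255289312, 0, 0, 0, ⟨0, 0⟩, 0⟩, 0, 0⟩ 0 0) (.pos 45 .mp ⟨⟨644283863, 0, 0, 0, 0, 256690739, 0, 0, 0, ⟨0,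 0⟩, 0⟩, 0, 0⟩ 0 0))) (.cut .s 14002176 (.pos 46 .mp ⟨⟨685010554, 0, 0, 0, 0, 179122391, 0, 0, 0, ⟨0, 0⟩, 0⟩, 0, 0⟩ 0 0) (.pos 46 .mp ⟨⟨688113267, 0, 0, 0, 0, 180690269, 0, 0, 0, ⟨0, 0⟩, 0⟩, 0, 0⟩ 0 0))))) (.pos 44 .mp ⟨⟨774787327, 0, 0, 0, 0, 0, 0, 0, 0, ⟨0, 0⟩, 0⟩, 0, 0⟩ 0 0)) (.cut .v 16842752 (.cut .s 14032896 (.cut .s 14020608 (.cut .l 153791 (.cut .d (-4096) (.pos 43 .mp ⟨⟨657204275, 0, 0, 0, 0, 263926563, 0, 0, 0, ⟨0, 0⟩, 0⟩, 0, 0⟩ 0 0) (.cut .v 16809984 (.cut .s 14014464 (.cut .s 14011392 (.pos 45 .mp ⟨⟨663696651, 0, 0, 0, 0, 227656183, 0, 0, 0, ⟨0, 0⟩, 0⟩, 0, 0⟩ 0 0) (.pos 45 .mp ⟨⟨665380063, 0, 0, 0, 0, 228236188, 0, 0, 0,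 ⟨0, 0⟩, 0⟩, 0, 0⟩ 0 0)) (.cut .s 14017536 (.pos 45 .mp ⟨⟨667068692, 0, 0, 0, 0, 228821608, 0, 0, 0, ⟨0, 0⟩, 0⟩, 0, 0⟩ 0 0) (.pos 45 .mp ⟨⟨668762556, 0, 0, 0, 0, 229412432, 0, 0, 0, ⟨0, 0⟩, 0⟩, 0, 0⟩ 0 0))) (.pos 46 .mp ⟨⟨785769699, 0, 0, 0, 0, 0, 0, 0, 0, ⟨0, 0⟩, 0⟩, 0, 0⟩ 0 0))) (.cut .s 14014464 (.pos 43 .mp ⟨⟨665775128, 0, 0, 0, 0, 223471032, 0, 0, 0, ⟨0, 0⟩, 0⟩, 0, 0⟩ 0 0) (.pos 43 .mp ⟨⟨669175174, 0, 0, 0, 0, 224653424, 0, 0, 0, ⟨0, 0⟩, 0⟩, 0, 0⟩ 0 0))) (.cut .l 153791 (.cut .d (-4096) (.pos 43 .mp ⟨⟨663880493, 0, 0, 0, 0, 266746969, 0, 0, 0, ⟨0, 0⟩, 0⟩, 0, 0⟩ 0 0) (.cut .v 16809984 (.cut .s 14026752 (.cut .s 14023680 (.pos 45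 .mp ⟨⟨670461673, 0, 0, 0, 0, 230008651, 0, 0, 0, ⟨0, 0⟩, 0⟩, 0, 0⟩ 0 0) (.pos 45 .mp ⟨⟨672166058, 0, 0, 0, 0, 230610256, 0, 0, 0, ⟨0, 0⟩, 0⟩, 0, 0⟩ 0 0)) (.cut .s 14029824 (.pos 45 .mp ⟨⟨673875730, 0, 0, 0, 0, 231217237, 0, 0, 0, ⟨0, 0⟩, 0⟩, 0, 0⟩ 0 0) (.pos 45 .mp ⟨⟨675590706, 0, 0, 0, 0, 231829583, 0, 0, 0, ⟨0, 0⟩, 0⟩, 0, 0⟩ 0 0))) (.pos 46 .mp ⟨⟨793714025, 0, 0, 0, 0, 0, 0, 0, 0, ⟨0, 0⟩, 0⟩, 0, 0⟩ 0 0))) (.cut .d (-4096) (.cut .s 14026752 (.pos 43 .mp ⟨⟨672596366, 0, 0, 0, 0, 227187793, 0, 0, 0, ⟨0, 0⟩, 0⟩, 0, 0⟩ 0 0) (.pos 43 .mp ⟨⟨676038844, 0, 0, 0, 0, 228353886, 0, 0, 0, ⟨0, 0⟩, 0⟩, 0, 0⟩ 0 0)) (.pos 43 .mp ⟨⟨665579868, 0, 0,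 0, 0, 0, 0, 0, 0, ⟨0, 0⟩, 0⟩, 0, 0⟩ 0 0)))) (.cut .s 14045184 (.cut .l 153791 (.cut .d (-4096) (.pos 43 .mp ⟨⟨670637902, 0, 0, 0, 0, 269700757, 0, 0, 0, ⟨0, 0⟩, 0⟩, 0, 0⟩ 0 0) (.cut .v 16809984 (.cut .s 14039040 (.cut .s 14035968 (.pos 45 .mp ⟨⟨677311003, 0, 0, 0, 0, 232447286, 0, 0, 0, ⟨0, 0⟩, 0⟩, 0, 0⟩ 0 0) (.pos 45 .mp ⟨⟨679036639, 0, 0, 0, 0, 233070335, 0, 0, 0, ⟨0, 0⟩, 0⟩, 0, 0⟩ 0 0)) (.cut .s 14042112 (.pos 45 .mp ⟨⟨680767630, 0, 0, 0, 0, 233698719, 0, 0, 0, ⟨0, 0⟩, 0⟩, 0, 0⟩ 0 0) (.pos 45 .mp ⟨⟨682503996, 0, 0, 0, 0, 234332429, 0, 0, 0, ⟨0, 0⟩, 0⟩, 0, 0⟩ 0 0))) (.pos 46 .mp ⟨⟨801802647, 0, 0, 0, 0, 0, 0, 0, 0, ⟨0, 0⟩, 0⟩, 0,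 0⟩ 0 0))) (.cut .d (-4096) (.cut .s 14039040 (.pos 43 .mp ⟨⟨679502746, 0, 0, 0, 0, 229540991, 0, 0, 0, ⟨0, 0⟩, 0⟩, 0, 0⟩ 0 0) (.pos 43 .mp ⟨⟨682988215, 0, 0, 0, 0, 230749025, 0, 0, 0, ⟨0, 0⟩, 0⟩, 0, 0⟩ 0 0)) (.pos 43 .mp ⟨⟨672361989, 0, 0, 0, 0, 0, 0, 0, 0, ⟨0, 0⟩, 0⟩, 0, 0⟩ 0 0))) (.cut .l 153791 (.cut .d (-4096) (.pos 43 .mp ⟨⟨677477551, 0, 0, 0, 0, 272789891, 0, 0, 0, ⟨0, 0⟩, 0⟩, 0, 0⟩ 0 0) (.cut .v 16809984 (.cut .s 14051328 (.cut .s 14048256 (.pos 45 .mp ⟨⟨684245753, 0, 0, 0, 0, 234971454, 0, 0, 0, ⟨0, 0⟩, 0⟩, 0, 0⟩ 0 0) (.pos 45 .mp ⟨⟨685992919, 0, 0, 0, 0, 235615784, 0, 0, 0, ⟨0, 0⟩, 0⟩, 0, 0⟩ 0 0)) (.cut .s 14054400 (.pos 45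 .mp ⟨⟨687745512, 0, 0, 0, 0, 236265408, 0, 0, 0, ⟨0, 0⟩, 0⟩, 0, 0⟩ 0 0) (.pos 45 .mp ⟨⟨689503551, 0, 0, 0, 0, 236920315, 0, 0, 0, ⟨0, 0⟩, 0⟩, 0, 0⟩ 0 0))) (.pos 46 .mp ⟨⟨810037423, 0, 0, 0, 0, 0, 0, 0, 0, ⟨0, 0⟩, 0⟩, 0, 0⟩ 0 0))) (.cut .d (-4096) (.cut .s 14051328 (.pos 43 .mp ⟨⟨686495392, 0, 0, 0, 0, 231977901, 0, 0, 0, ⟨0, 0⟩, 0⟩, 0, 0⟩ 0 0) (.pos 43 .mp ⟨⟨690024421, 0, 0, 0, 0, 233227533, 0, 0, 0, ⟨0, 0⟩, 0⟩, 0, 0⟩ 0 0)) (.pos 43 .mp ⟨⟨679227402, 0, 0, 0, 0, 0, 0, 0, 0, ⟨0, 0⟩, 0⟩, 0, 0⟩ 0 0))))) (.pos 44 .mp ⟨⟨806492828, 0, 0, 0, 0, 0, 0, 0, 0, ⟨0, 0⟩, 0⟩, 0, 0⟩ 0 0)))) (.pos 36 .mp ⟨⟨814188683, 0, 0, 0, 0, 0, 0, 0, 0, ⟨0, 0⟩, 0⟩,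 0, 0⟩ 0 0)) (.cut .v 16908288 (.cut .d (-8192) (.cut .v 16842752 (.cut .d (-12288) (.void 43 ⟨⟨0, 0, 0, 0, 0, 100000, 0, 0, 0, ⟨0, 0⟩, 0⟩, 0, 0⟩ 0 0) (.cut .d (-10240) (.void 43 ⟨⟨0, 0, 0, 0, 0, 100000, 0, 0, 0, ⟨0, 0⟩, 0⟩, 0, 0⟩ 0 0) (.cut .v 16809984 (.pos 45 .mp ⟨⟨0, 0, 0, 0, 0, 1749465235, 0, 0, 0, ⟨0, 0⟩, 0⟩, 0, 0⟩ 0 0) (.cut .l 153791 (.void 46 ⟨⟨100000, 0, 0, 0, 0, 0, 0, 0, 0, ⟨0, 0⟩, 0⟩, 0, 0⟩ 0 0) (.cut .l 230687 (.void 46 ⟨⟨100000, 0, 0, 0, 0, 0, 0, 0, 0, ⟨0, 0⟩, 0⟩, 0, 0⟩ 0 0) (.cut .s 14106624 (.cut .s 14082048 (.pos 46 .mp ⟨⟨683895986, 0, 0, 0, 0, 281522349, 0, 0, 0, ⟨0, 0⟩, 0⟩, 0, 0⟩ 0 0) (.pos 46 .mp ⟨⟨698103204, 0, 0,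 0, 0, 287981021, 0, 0, 0, ⟨0, 0⟩, 0⟩, 0, 0⟩ 0 0)) (.cut .s 14131200 (.pos 46 .mp ⟨⟨712666889, 0, 0, 0, 0, 294769972, 0, 0, 0, ⟨0, 0⟩, 0⟩, 0, 0⟩ 0 0) (.pos 46 .mp ⟨⟨727596744, 0, 0, 0, 0, 301882686, 0, 0, 0, ⟨0, 0⟩, 0⟩, 0, 0⟩ 0 0)))))))) (.pos 44 .mp ⟨⟨896685379, 0, 0, 0, 0, 0, 0, 0, 0, ⟨0, 0⟩, 0⟩, 0, 0⟩ 0 0)) (.cut .s 14106624 (.cut .v 16842752 (.cut .s 14082048 (.cut .s 14069760 (.cut .l 153791 (.cut .d (-4096) (.pos 43 .mp ⟨⟨684400506, 0, 0, 0, 0, 276016373, 0, 0, 0, ⟨0, 0⟩, 0⟩, 0, 0⟩ 0 0) (.cut .v 16809984 (.cut .s 14063616 (.cut .s 14060544 (.pos 45 .mp ⟨⟨691267052, 0, 0, 0, 0, 237580495, 0, 0, 0, ⟨0, 0⟩, 0⟩, 0, 0⟩ 0 0) (.pos 45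 .mp ⟨⟨693036035, 0, 0, 0, 0, 238245936, 0, 0, 0, ⟨0, 0⟩, 0⟩, 0, 0⟩ 0 0)) (.cut .s 14066688 (.pos 45 .mp ⟨⟨694810517, 0, 0, 0, 0, 238916628, 0, 0, 0, ⟨0, 0⟩, 0⟩, 0, 0⟩ 0 0) (.pos 45 .mp ⟨⟨696590517, 0, 0, 0, 0, 239592560, 0, 0, 0, ⟨0, 0⟩, 0⟩, 0, 0⟩ 0 0))) (.pos 46 .mp ⟨⟨818420244, 0, 0, 0, 0, 0, 0, 0, 0, ⟨0, 0⟩, 0⟩, 0, 0⟩ 0 0))) (.cut .d (-4096) (.cut .s 14063616 (.pos 43 .mp ⟨⟨693575446, 0, 0, 0, 0, 234497832, 0, 0, 0, ⟨0, 0⟩, 0⟩, 0, 0⟩ 0 0) (.pos 43 .mp ⟨⟨697148614, 0, 0, 0, 0, 235788707, 0, 0, 0, ⟨0, 0⟩, 0⟩, 0, 0⟩ 0 0)) (.pos 43 .mp ⟨⟨686177197, 0, 0, 0, 0, 0, 0, 0, 0, ⟨0, 0⟩, 0⟩, 0, 0⟩ 0 0))) (.cut .l 153791 (.cut .d (-4096) (.pos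 43 .mp ⟨⟨691407853, 0, 0, 0, 0, 279382241, 0, 0, 0, ⟨0, 0⟩, 0⟩, 0, 0⟩ 0 0) (.cut .v 16809984 (.cut .s 14075904 (.cut .s 14072832 (.pos 45 .mp ⟨⟨698376053, 0, 0, 0, 0, 240273719, 0, 0, 0, ⟨0, 0⟩, 0⟩, 0, 0⟩ 0 0) (.pos 45 .mp ⟨⟨700167143, 0, 0, 0, 0, 240960095, 0, 0, 0, ⟨0, 0⟩, 0⟩, 0, 0⟩ 0 0)) (.cut .s 14078976 (.pos 45 .mp ⟨⟨701963806, 0, 0, 0, 0, 241651675, 0, 0, 0, ⟨0, 0⟩, 0⟩, 0, 0⟩ 0 0) (.pos 45 .mp ⟨⟨703766061, 0, 0, 0, 0, 242348450, 0, 0, 0, ⟨0, 0⟩, 0⟩, 0, 0⟩ 0 0))) (.pos 46 .mp ⟨⟨826953037, 0, 0, 0, 0, 0, 0, 0, 0, ⟨0, 0⟩, 0⟩, 0, 0⟩ 0 0))) (.cut .d (-4096) (.cut .s 14075904 (.pos 43 .mp ⟨⟨700744072, 0, 0, 0, 0, 237100065, 0, 0, 0,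 ⟨0, 0⟩, 0⟩, 0, 0⟩ 0 0) (.pos 43 .mp ⟨⟨704361969, 0, 0, 0, 0, 238431812, 0, 0, 0, ⟨0, 0⟩, 0⟩, 0, 0⟩ 0 0)) (.pos 43 .mp ⟨⟨693212485, 0, 0, 0, 0, 0, 0, 0, 0, ⟨0, 0⟩, 0⟩, 0, 0⟩ 0 0)))) (.cut .s 14094336 (.cut .v 16809984 (.cut .l 153791 (.cut .d (-4096) (.pos 45 .mp ⟨⟨695013069, 0, 0, 0, 0, 283931502, 0, 0, 0, ⟨0, 0⟩, 0⟩, 0, 0⟩ 0 0) (.cut .s 14088192 (.cut .s 14085120 (.pos 45 .mp ⟨⟨705573926, 0, 0, 0, 0, 243050405, 0, 0, 0, ⟨0, 0⟩, 0⟩, 0, 0⟩ 0 0) (.pos 45 .mp ⟨⟨707387420, 0, 0, 0, 0, 243757531, 0, 0, 0, ⟨0, 0⟩, 0⟩, 0, 0⟩ 0 0)) (.cut .s 14091264 (.pos 45 .mp ⟨⟨709206563, 0, 0, 0, 0, 244469813, 0, 0, 0, ⟨0, 0⟩, 0⟩, 0, 0⟩ 0 0) (.pos 45 .mp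 ⟨⟨711031372, 0, 0, 0, 0, 245187242, 0, 0, 0, ⟨0, 0⟩, 0⟩, 0, 0⟩ 0 0)))) (.cut .s 14088192 (.pos 45 .mp ⟨⟨688172247, 0, 0, 0, 0, 275986021, 0, 0, 0, ⟨0, 0⟩, 0⟩, 0, 0⟩ 0 0) (.pos 45 .mp ⟨⟨691695519, 0, 0, 0, 0, 277541214, 0, 0, 0, ⟨0, 0⟩, 0⟩, 0, 0⟩ 0 0))) (.cut .s 14088192 (.pos 46 .mp ⟨⟨735870135, 0, 0, 0, 0, 192830440, 0, 0, 0, ⟨0, 0⟩, 0⟩, 0, 0⟩ 0 0) (.pos 46 .mp ⟨⟨740178599, 0, 0, 0, 0, 193014279, 0, 0, 0, ⟨0, 0⟩, 0⟩, 0, 0⟩ 0 0))) (.cut .v 16809984 (.cut .l 153791 (.cut .d (-4096) (.pos 45 .mp ⟨⟨702186535, 0, 0, 0, 0, 287501087, 0, 0, 0, ⟨0, 0⟩, 0⟩, 0, 0⟩ 0 0) (.cut .s 14100480 (.cut .s 14097408 (.pos 45 .mp ⟨⟨712861867, 0, 0, 0, 0,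 245909803, 0, 0, 0, ⟨0, 0⟩, 0⟩, 0, 0⟩ 0 0) (.pos 45 .mp ⟨⟨714698067, 0, 0, 0, 0, 246637486, 0, 0, 0, ⟨0, 0⟩, 0⟩, 0, 0⟩ 0 0)) (.cut .s 14103552 (.pos 45 .mp ⟨⟨716539991, 0, 0, 0, 0, 247370276, 0, 0, 0, ⟨0, 0⟩, 0⟩, 0, 0⟩ 0 0) (.pos 45 .mp ⟨⟨718387659, 0, 0, 0, 0, 248108162, 0, 0, 0, ⟨0, 0⟩, 0⟩, 0, 0⟩ 0 0)))) (.cut .s 14100480 (.pos 45 .mp ⟨⟨695240532, 0, 0, 0, 0, 279104795, 0, 0, 0, ⟨0, 0⟩, 0⟩, 0, 0⟩ 0 0) (.pos 45 .mp ⟨⟨698807431, 0, 0, 0, 0, 280676405, 0, 0, 0, ⟨0, 0⟩, 0⟩, 0, 0⟩ 0 0))) (.cut .s 14100480 (.pos 46 .mp ⟨⟨744587187, 0, 0, 0, 0, 193073808, 0, 0, 0, ⟨0, 0⟩, 0⟩, 0, 0⟩ 0 0) (.pos 46 .mp ⟨⟨749097844, 0, 0, 0, 0, 193005470, 0,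 0, 0, ⟨0, 0⟩, 0⟩, 0, 0⟩ 0 0))))) (.pos 44 .mp ⟨⟨840281285, 0, 0, 0, 0, 0, 0, 0, 0, ⟨0, 0⟩, 0⟩, 0, 0⟩ 0 0)) (.cut .v 16842752 (.cut .s 14131200 (.cut .s 14118912 (.cut .v 16809984 (.cut .l 153791 (.cut .d (-4096) (.pos 45 .mp ⟨⟨709449408, 0, 0, 0, 0, 291210114, 0, 0, 0, ⟨0, 0⟩, 0⟩, 0, 0⟩ 0 0) (.cut .l 76895 (.cut .d (-2048) (.pos 45 .mp ⟨⟨711329581, 0, 0, 0, 0, 289729481, 0, 0, 0, ⟨0, 0⟩, 0⟩, 0, 0⟩ 0 0) (.cut .v 16793600 (.cut .l 38447 (.cut .d (-1024) (.pos 47 .mp ⟨⟨710523160, 0, 0, 0, 0, 289421046, 0, 0, 0, ⟨0, 0⟩, 0⟩, 0, 0⟩ 0 0) (.cut .s 14112768 (.cut .s 14109696 (.pos 47 .mp ⟨⟨715162032, 0, 0, 0, 0, 258477945, 0, 0, 0, ⟨0, 0⟩, 0⟩,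 0, 0⟩ 0 0) (.pos 47 .mp ⟨⟨717098649, 0, 0, 0, 0, 259097294, 0, 0, 0, ⟨0, 0⟩, 0⟩, 0, 0⟩ 0 0)) (.pos 47 .mp ⟨⟨719171584, 0, 0, 0, 0, 260685835, 0, 0, 0, ⟨0, 0⟩, 0⟩, 0, 0⟩ 0 0))) (.pos 47 .mp ⟨⟨718705490, 0, 0, 0, 0, 250933288, 0, 0, 0, ⟨0, 0⟩, 0⟩, 0, 0⟩ 0 0)) (.pos 48 .mp ⟨⟨852482742, 0, 0, 0, 0, 0, 0, 0, 0, ⟨0, 0⟩, 0⟩, 0, 0⟩ 0 0))) (.pos 45 .mp ⟨⟨721315791, 0, 0, 0, 0, 247089100, 0, 0, 0, ⟨0, 0⟩, 0⟩, 0, 0⟩ 0 0))) (.pos 45 .mp ⟨⟨702396364, 0, 0, 0, 0, 285453747, 0, 0, 0, ⟨0, 0⟩, 0⟩, 0, 0⟩ 0 0)) (.cut .s 14112768 (.pos 46 .mp ⟨⟨753712532, 0, 0, 0, 0, 192805676, 0, 0, 0, ⟨0, 0⟩, 0⟩, 0, 0⟩ 0 0) (.pos 46 .mp ⟨⟨758433231, 0, 0, 0, 0, 192470807,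 0, 0, 0, ⟨0, 0⟩, 0⟩, 0, 0⟩ 0 0))) (.cut .v 16809984 (.cut .l 153791 (.cut .d (-4096) (.pos 45 .mp ⟨⟨716802900, 0, 0, 0, 0, 295060615, 0, 0, 0, ⟨0, 0⟩, 0⟩, 0, 0⟩ 0 0) (.cut .l 76895 (.cut .d (-2048) (.pos 45 .mp ⟨⟨718653118, 0, 0, 0, 0, 293698205, 0, 0, 0, ⟨0, 0⟩, 0⟩, 0, 0⟩ 0 0) (.cut .v 16793600 (.cut .l 38447 (.cut .d (-1024) (.pos 47 .mp ⟨⟨717830417, 0, 0, 0, 0, 293401778, 0, 0, 0, ⟨0, 0⟩, 0⟩, 0, 0⟩ 0 0) (.cut .s 14125056 (.pos 47 .mp ⟨⟨722882941, 0, 0, 0, 0, 262287327, 0, 0, 0, ⟨0, 0⟩, 0⟩, 0, 0⟩ 0 0) (.pos 47 .mp ⟨⟨726558682, 0, 0, 0, 0, 264046440, 0, 0, 0, ⟨0, 0⟩, 0⟩, 0, 0⟩ 0 0))) (.pos 47 .mp ⟨⟨726154916, 0, 0, 0, 0, 253705981,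 0, 0, 0, ⟨0, 0⟩, 0⟩, 0, 0⟩ 0 0)) (.pos 48 .mp ⟨⟨861624778, 0, 0, 0, 0, 0, 0, 0, 0, ⟨0, 0⟩, 0⟩, 0, 0⟩ 0 0))) (.pos 45 .mp ⟨⟨728809404, 0, 0, 0, 0, 249791178, 0, 0, 0, ⟨0, 0⟩, 0⟩, 0, 0⟩ 0 0))) (.pos 45 .mp ⟨⟨709640933, 0, 0, 0, 0, 288668785, 0, 0, 0, ⟨0, 0⟩, 0⟩, 0, 0⟩ 0 0)) (.cut .s 14125056 (.pos 46 .mp ⟨⟨763261933, 0, 0, 0, 0, 191997206, 0, 0, 0, ⟨0, 0⟩, 0⟩, 0, 0⟩ 0 0) (.pos 46 .mp ⟨⟨768200649, 0, 0, 0, 0, 191381189, 0, 0, 0, ⟨0, 0⟩, 0⟩, 0, 0⟩ 0 0)))) (.cut .s 14143488 (.cut .v 16809984 (.cut .l 153791 (.cut .d (-4096) (.pos 45 .mp ⟨⟨724248245, 0, 0, 0, 0, 299054657, 0, 0, 0, ⟨0, 0⟩, 0⟩, 0, 0⟩ 0 0) (.cut .v 16793600 (.cut .l 76895 (.cut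 .d (-2048) (.pos 47 .mp ⟨⟨723874682, 0, 0, 0, 0, 297822190, 0, 0, 0, ⟨0, 0⟩, 0⟩, 0, 0⟩ 0 0) (.cut .s 14137344 (.pos 47 .mp ⟨⟨732208806, 0, 0, 0, 0, 262255746, 0, 0, 0, ⟨0, 0⟩, 0⟩, 0, 0⟩ 0 0) (.pos 47 .mp ⟨⟨736004180, 0, 0, 0, 0, 263892727, 0, 0, 0, ⟨0, 0⟩, 0⟩, 0, 0⟩ 0 0))) (.pos 47 .mp ⟨⟨720239048, 0, 0, 0, 0, 283448803, 0, 0, 0, ⟨0, 0⟩, 0⟩, 0, 0⟩ 0 0)) (.pos 48 .mp ⟨⟨798140004, 0, 0, 0, 0, 145743195, 0, 0, 0, ⟨0, 0⟩, 0⟩, 0, 0⟩ 0 0))) (.pos 45 .mp ⟨⟨716975446, 0, 0, 0, 0, 291909635, 0, 0, 0, ⟨0, 0⟩, 0⟩, 0, 0⟩ 0 0)) (.cut .s 14137344 (.pos 46 .mp ⟨⟨773251407, 0, 0, 0, 0, 190619035, 0, 0, 0, ⟨0, 0⟩, 0⟩, 0, 0⟩ 0 0) (.pos 46 .mp ⟨⟨778416251,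 0, 0, 0, 0, 189706988, 0, 0, 0, ⟨0, 0⟩, 0⟩, 0, 0⟩ 0 0))) (.cut .v 16809984 (.cut .l 153791 (.cut .d (-4096) (.pos 45 .mp ⟨⟨731786700, 0, 0, 0, 0, 303194348, 0, 0, 0, ⟨0, 0⟩, 0⟩, 0, 0⟩ 0 0) (.cut .v 16793600 (.cut .s 14149632 (.cut .s 14146560 (.pos 47 .mp ⟨⟨746319659, 0, 0, 0, 0, 251838219, 0, 0, 0, ⟨0, 0⟩, 0⟩, 0, 0⟩ 0 0) (.pos 47 .mp ⟨⟨748675124, 0, 0, 0, 0, 251850013, 0, 0, 0, ⟨0, 0⟩, 0⟩, 0, 0⟩ 0 0)) (.pos 47 .mp ⟨⟨740145863, 0, 0, 0, 0, 274915651, 0, 0, 0, ⟨0, 0⟩, 0⟩, 0, 0⟩ 0 0)) (.pos 48 .mp ⟨⟨808999955, 0, 0, 0, 0, 142995820, 0, 0, 0, ⟨0, 0⟩, 0⟩, 0, 0⟩ 0 0))) (.pos 45 .mp ⟨⟨724401135, 0, 0, 0, 0, 295173309, 0, 0, 0, ⟨0, 0⟩, 0⟩,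 0, 0⟩ 0 0)) (.cut .s 14149632 (.pos 46 .mp ⟨⟨783697239, 0, 0, 0, 0, 188641260, 0, 0, 0, ⟨0, 0⟩, 0⟩, 0, 0⟩ 0 0) (.pos 46 .mp ⟨⟨789096452, 0, 0, 0, 0, 187418027, 0, 0, 0, ⟨0, 0⟩, 0⟩, 0, 0⟩ 0 0))))) (.pos 44 .mp ⟨⟨876198443, 0, 0, 0, 0, 0, 0, 0, 0, ⟨0, 0⟩, 0⟩, 0, 0⟩ 0 0)))) (.pos 36 .mp ⟨⟨883957386, 0, 0, 0, 0, 0, 0, 0, 0, ⟨0, 0⟩, 0⟩, 0, 0⟩ 0 0))))))) (.pos 32 .mp ⟨⟨974997548, 0, 0, 0, 0, 0, 0, 0, 0, ⟨0, 0⟩, 0⟩, 0, 0⟩ 0 0))) (.void 30 ⟨⟨100000, 0, 0, 0, 0, 0, 0, 0, 0, ⟨0, 0⟩, 0⟩, 0, 0⟩ 0 0))) (.void 28 ⟨⟨100000, 0, 0, 0, 0, 0, 0, 0, 0, ⟨0, 0⟩, 0⟩, 0, 0⟩ 0 0))) (.void 26 ⟨⟨100000, 0, 0, 0, 0, 0, 0, 0, 0, ⟨0, 0⟩, 0⟩, 0, 0⟩ 0 0))) (.void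 24 ⟨⟨100000, 0, 0, 0, 0, 0, 0, 0, 0, ⟨0, 0⟩, 0⟩, 0, 0⟩ 0 0))) (.void 22 ⟨⟨100000, 0, 0, 0, 0, 0, 0, 0, 0, ⟨0, 0⟩, 0⟩, 0, 0⟩ 0 0))) (.void 103 ⟨⟨100000, 0, 0, 0, 0, 0, 0, 0, 0, ⟨0, 0⟩, 0⟩, 0, 0⟩ 0 0)) (.void 114 ⟨⟨100000, 0, 0, 0, 0, 0, 0, 0, 0, ⟨0, 0⟩, 0⟩, 0, 0⟩ 0 0)) (.void 125 ⟨⟨93905, 0, 0, 6095, 0, 0, 0, 0, 0, ⟨0, 0⟩, 0⟩, 0, 0⟩ 0 0))) (.cut .v 16777216 (.cut .v 8388608 (.cut .v 4194304 (.cut .v 2097152 (.cut .v 1048576 (.pos 119 .pm ⟨⟨0, 0, 29029304, 0, 0, 0, 0, 0, 0, ⟨0, 0⟩, 0⟩, 0, 2806⟩ 0 0) (.pos 120 .pm ⟨⟨0, 0, 40257365, 0, 0, 0, 0, 0, 0, ⟨0, 0⟩, 0⟩, 0, 10535⟩ 0 0)) (.pos 118 .pm ⟨⟨0, 0, 58865951, 0, 0, 0, 0, 0, 0, ⟨0, 0⟩, 0⟩,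 0, 19643⟩ 0 0)) (.pos 5 .pm ⟨⟨0, 0, 170396795, 0, 0, 0, 0, 0, 0, ⟨0, 0⟩, 0⟩, 0, 35819⟩ 0 0)) (.pos 3 .pm ⟨⟨0, 0, 0, 0, 0, 0, 0, 0, 0, ⟨0, 0⟩, 0⟩, 0, 0⟩ 0 0)) (.cut .v 268435456 (.cut .v 67108864 (.cut .d 1693476 (.cut .v 33554432 (.cut .d 846738 (.cut .v 25165824 (.cut .d 423369 (.cut .d 211684 (.cut .v 20971520 (.cut .v 18874368 (.cut .d 105842 (.cut .d 52921 (.cut .v 17825792 (.cut .v 17301504 (.cut .s 14057472 (.pos 29 .pp ⟨⟨647285292, 0, 0, 0, 0, 0, 0, 0, 0, ⟨0, 0⟩, 0⟩, 14807645, 0⟩ 0 0) (.pos 29 .pp ⟨⟨701381225, 0, 0, 0, 0, 0, 0, 0, 0, ⟨0, 0⟩, 0⟩, 16148689, 0⟩ 0 0)) (.pos 30 .pp ⟨⟨834800278, 0, 0, 0, 0, 0, 0, 0, 0, ⟨0, 0⟩, 0⟩,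 0, 0⟩ 0 0)) (.pos 28 .pp ⟨⟨938974206, 0, 0, 0, 0, 0, 0, 0, 0, ⟨0, 0⟩, 0⟩, 0, 0⟩ 0 0)) (.pos 25 .pp ⟨⟨713070971, 0, 0, 0, 0, 0, 0, 0, 0, ⟨0, 0⟩, 0⟩, 0, 4084⟩ 0 0)) (.pos 25 .pp ⟨⟨0, 0, 0, 0, 0, 0, 0, 0, 0, ⟨0, 0⟩, 0⟩, 0, 94814⟩ 0 0)) (.cut .d 105842 (.cut .v 19922944 (.pos 53 .pp ⟨⟨1024250778, 0, 0, 0, 0, 0, 0, 0, 0, ⟨0, 0⟩, 0⟩, 0, 0⟩ 0 0) (.pos 54 .pp ⟨⟨1164162602, 0, 0, 0, 0, 0, 0, 0, 0, ⟨0, 0⟩, 0⟩, 0, 0⟩ 0 0)) (.pos 26 .pp ⟨⟨895219923, 0, 0, 0, 0, 0, 0, 0, 0, ⟨0, 0⟩, 0⟩, 0, 0⟩ 0 0))) (.cut .d 105842 (.void 24 ⟨⟨0, 0, 0, 0, 0, 0, 0, 0, 0, ⟨0, 0⟩, 0⟩, 100000, 0⟩ 0 0) (.cut .v 23068672 (.cut .d 158763 (.cut .v 22020096 (.pos 57 .pp ⟨⟨1185489448,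 0, 0, 0, 0, 0, 0, 0, 0, ⟨0, 0⟩, 0⟩, 0, 0⟩ 0 0) (.pos 58 .pp ⟨⟨0, 0, 0, 0, 0, 0, 0, 0, 0, ⟨0, 0⟩, 0⟩, 183501684, 0⟩ 0 0)) (.pos 55 .pp ⟨⟨0, 0, 0, 0, 0, 0, 3359, 0, 0, ⟨0, 0⟩, 0⟩, 134030214, 0⟩ 0 0)) (.pos 56 .pp ⟨⟨0, 0, 0, 0, 0, 0, 0, 0, 0, ⟨0, 0⟩, 0⟩, 178217774, 0⟩ 0 0)))) (.cut .v 20971520 (.pos 23 .pp ⟨⟨0, 0, 0, 0, 0, 0, 0, 0, 0, ⟨0, 0⟩, 0⟩, 0, 99496⟩ 0 0) (.pos 24 .pp ⟨⟨0, 0, 0, 0, 0, 0, 15307, 0, 0, ⟨0, 0⟩, 0⟩, 126767007, 0⟩ 0 0))) (.pos 21 .pp ⟨⟨0, 0, 0, 0, 0, 0, 0, 0, 0, ⟨0, 0⟩, 0⟩, 0, 107456⟩ 0 0)) (.cut .d 423369 (.cut .d 211684 (.void 22 ⟨⟨0, 0, 0, 0, 0, 0, 0, 0, 0, ⟨0, 0⟩, 0⟩, 100000, 0⟩ 0 0) (.pos 22 .pp ⟨⟨0, 0, 0, 0, 0,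 0, 0, 0, 0, ⟨0, 0⟩, 0⟩, 191682910, 0⟩ 0 0)) (.pos 22 .pp ⟨⟨0, 0, 0, 0, 0, 0, 7583, 0, 0, ⟨0, 0⟩, 0⟩, 132231060, 0⟩ 0 0))) (.pos 20 .pp ⟨⟨0, 0, 0, 0, 0, 0, 0, 0, 0, ⟨0, 0⟩, 0⟩, 0, 119395⟩ 0 0)) (.cut .d 846738 (.cut .v 50331648 (.pos 106 .pp ⟨⟨0, 0, 0, 0, 0, 0, 0, 0, 0, ⟨0, 0⟩, 0⟩, 326914500, 0⟩ 0 0) (.void 107 ⟨⟨0, 0, 0, 0, 0, 0, 0, 0, 0, ⟨0, 0⟩, 0⟩, 100000, 0⟩ 0 0)) (.pos 103 .pp ⟨⟨0, 0, 0, 0, 0, 0, 0, 0, 0, ⟨0, 0⟩, 0⟩, 192947013, 0⟩ 0 0))) (.pos 102 .pp ⟨⟨0, 0, 0, 0, 0, 0, 0, 0, 0, ⟨0, 0⟩, 0⟩, 0, 89547⟩ 0 0)) (.void 114 ⟨⟨0, 0, 0, 48318, 0, 0, 0, 0, 0, ⟨0, 0⟩, 0⟩, 51682, 0⟩ 0 0)) (.void 125 ⟨⟨0, 0, 0, 0, 0, 0, 0, 0, 0, ⟨0, 0⟩, 0⟩,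 100000, 0⟩ 0 0)))),
    by decide +kernel⟩

def covers27 : cell.Covers Vale.Agent.P237.Petty.Cor.Grid.N12.table row27.1 :=
  ⟨(.cut .d 0 (.cut .v 16777216 (.cut .v 8388608 (.void 2 ⟨⟨0, 0, 100000, 0, 0, 0, 0, 0, 0, ⟨0, 0⟩, 0⟩, 0, 0⟩ 0 0) (.cut .d (-8388608) (.void 3 ⟨⟨100000, 0, 0, 0, 0, 0, 0, 0, 0, ⟨0, 0⟩, 0⟩, 0, 0⟩ 0 0) (.cut .d (-4194304) (.void 3 ⟨⟨100000, 0, 0, 0, 0, 0, 0, 0, 0, ⟨0, 0⟩, 0⟩, 0, 0⟩ 0 0) (.cut .d (-2097152) (.void 3 ⟨⟨100000, 0, 0, 0, 0, 0, 0, 0, 0, ⟨0, 0⟩, 0⟩, 0, 0⟩ 0 0) (.cut .d (-1048576) (.void 3 ⟨⟨0, 0, 0, 0, 0, 100000, 0, 0, 0, ⟨0, 0⟩, 0⟩, 0, 0⟩ 0 0) (.cut .d (-524288) (.void 3 ⟨⟨0, 0, 0, 0, 0, 100000, 0, 0,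 0, ⟨0, 0⟩, 0⟩, 0, 0⟩ 0 0) (.cut .s 14237696 (.pos 3 .mm ⟨⟨0, 0, 0, 0, 0, 1780322992, 0, 0, 0, ⟨0, 0⟩, 0⟩, 0, 0⟩ 0 0) (.cut .s 14278656 (.pos 3 .mm ⟨⟨0, 0, 0, 0, 0, 1852169751, 0, 0, 0, ⟨0, 0⟩, 0⟩, 0, 0⟩ 0 0) (.pos 3 .mm ⟨⟨0, 0, 0, 0, 0, 1926099860, 0, 0, 0, ⟨0, 0⟩, 0⟩, 0, 0⟩ 0 0))))))))) (.cut .v 268435456 (.cut .v 67108864 (.cut .v 33554432 (.cut .d (-8388608) (.void 20 ⟨⟨100000, 0, 0, 0, 0, 0, 0, 0, 0, ⟨0, 0⟩, 0⟩, 0, 0⟩ 0 0) (.cut .v 25165824 (.cut .d (-4194304) (.void 21 ⟨⟨100000, 0, 0, 0, 0, 0, 0, 0, 0, ⟨0, 0⟩, 0⟩, 0, 0⟩ 0 0) (.cut .v 20971520 (.cut .d (-2097152) (.void 23 ⟨⟨100000, 0, 0, 0, 0, 0, 0, 0, 0, ⟨0, 0⟩, 0⟩, 0, 0⟩ 0 0)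 (.cut .v 18874368 (.cut .d (-1048576) (.void 25 ⟨⟨100000, 0, 0, 0, 0, 0, 0, 0, 0, ⟨0, 0⟩, 0⟩, 0, 0⟩ 0 0) (.cut .v 17825792 (.cut .d (-524288) (.void 27 ⟨⟨100000, 0, 0, 0, 0, 0, 0, 0, 0, ⟨0, 0⟩, 0⟩, 0, 0⟩ 0 0) (.cut .v 17301504 (.cut .d (-262144) (.void 29 ⟨⟨100000, 0, 0, 0, 0, 0, 0, 0, 0, ⟨0, 0⟩, 0⟩, 0, 0⟩ 0 0) (.cut .v 17039360 (.cut .d (-131072) (.void 31 ⟨⟨100000, 0, 0, 0, 0, 0, 0, 0, 0, ⟨0, 0⟩, 0⟩, 0, 0⟩ 0 0) (.cut .d (-65536) (.void 31 ⟨⟨100000, 0, 0, 0, 0, 0, 0, 0, 0, ⟨0, 0⟩, 0⟩, 0, 0⟩ 0 0) (.cut .d (-32768) (.void 31 ⟨⟨100000, 0, 0, 0, 0, 0, 0, 0, 0, ⟨0, 0⟩, 0⟩, 0, 0⟩ 0 0) (.cut .d (-16384) (.void 31 ⟨⟨100000, 0, 0, 0, 0, 0,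 0, 0, 0, ⟨0, 0⟩, 0⟩, 0, 0⟩ 0 0) (.cut .d (-8192) (.cut .v 16908288 (.cut .v 16842752 (.cut .l 153791 (.void 43 ⟨⟨100000, 0, 0, 0, 0, 0, 0, 0, 0, ⟨0, 0⟩, 0⟩, 0, 0⟩ 0 0) (.cut .d (-12288) (.void 43 ⟨⟨0, 0, 0, 0, 0, 100000, 0, 0, 0, ⟨0, 0⟩, 0⟩, 0, 0⟩ 0 0) (.cut .d (-10240) (.void 43 ⟨⟨0, 0, 0, 0, 0, 100000, 0, 0, 0, ⟨0, 0⟩, 0⟩, 0, 0⟩ 0 0) (.cut .d (-9216) (.pos 43 .mp ⟨⟨742135118, 0, 0, 0, 0, 604458467, 0, 0, 0, ⟨0, 0⟩, 0⟩, 0, 0⟩ 0 0) (.cut .l 230687 (.void 43 ⟨⟨0, 0, 0, 0, 0, 100000, 0, 0, 0, ⟨0, 0⟩, 0⟩, 0, 0⟩ 0 0) (.cut .v 16809984 (.pos 45 .mp ⟨⟨0, 0, 0, 0, 0, 1887950112, 0, 0, 0, ⟨0, 0⟩, 0⟩, 0, 0⟩ 0 0) (.cut .l 269135 (.pos 46 .mp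 ⟨⟨745231442, 0, 0, 0, 0, 728521858, 0, 0, 0, ⟨0, 0⟩, 0⟩, 0, 0⟩ 0 0) (.cut .s 14237696 (.cut .s 14196736 (.pos 46 .mp ⟨⟨773751378, 0, 0, 0, 0, 248053552, 0, 0, 0, ⟨0, 0⟩, 0⟩, 0, 0⟩ 0 0) (.pos 46 .mp ⟨⟨769358897, 0, 0, 0, 0, 342866066, 0, 0, 0, ⟨0, 0⟩, 0⟩, 0, 0⟩ 0 0)) (.cut .s 14278656 (.pos 46 .mp ⟨⟨796991774, 0, 0, 0, 0, 355001718, 0, 0, 0, ⟨0, 0⟩, 0⟩, 0, 0⟩ 0 0) (.pos 46 .mp ⟨⟨825855179, 0, 0, 0, 0, 368138471, 0, 0, 0, ⟨0, 0⟩, 0⟩, 0, 0⟩ 0 0)))))))))) (.pos 44 .mp ⟨⟨1036286984, 0, 0, 0, 0, 0, 0, 0, 0, ⟨0, 0⟩, 0⟩, 0, 0⟩ 0 0)) (.void 36 ⟨⟨100000, 0, 0, 0, 0, 0, 0, 0, 0, ⟨0, 0⟩, 0⟩, 0, 0⟩ 0 0)) (.cut .v 16908288 (.cut .s 14237696 (.cut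 .s 14196736 (.cut .v 16842752 (.cut .s 14176256 (.cut .s 14166016 (.cut .v 16809984 (.cut .d (-4096) (.pos 45 .mp ⟨⟨730119890, 0, 0, 0, 0, 316305219, 0, 0, 0, ⟨0, 0⟩, 0⟩, 0, 0⟩ 0 0) (.cut .s 14160896 (.pos 45 .mp ⟨⟨751996530, 0, 0, 0, 0, 260389531, 0, 0, 0, ⟨0, 0⟩, 0⟩, 0, 0⟩ 0 0) (.pos 45 .mp ⟨⟨755265642, 0, 0, 0, 0, 261287769, 0, 0, 0, ⟨0, 0⟩, 0⟩, 0, 0⟩ 0 0))) (.pos 46 .mp ⟨⟨810099329, 0, 0, 0, 0, 159882421, 0, 0, 0, ⟨0, 0⟩, 0⟩, 0, 0⟩ 0 0)) (.cut .v 16809984 (.cut .l 153791 (.cut .d (-4096) (.pos 45 .mp ⟨⟨745860073, 0, 0, 0, 0, 306744057, 0, 0, 0, ⟨0, 0⟩, 0⟩, 0, 0⟩ 0 0) (.cut .s 14171136 (.pos 45 .mp ⟨⟨758552570, 0, 0, 0, 0, 262171700,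 0, 0, 0, ⟨0, 0⟩, 0⟩, 0, 0⟩ 0 0) (.cut .s 14173696 (.pos 45 .mp ⟨⟨760777835, 0, 0, 0, 0, 263837237, 0, 0, 0, ⟨0, 0⟩, 0⟩, 0, 0⟩ 0 0) (.pos 45 .mp ⟨⟨762215496, 0, 0, 0, 0, 264737635, 0, 0, 0, ⟨0, 0⟩, 0⟩, 0, 0⟩ 0 0)))) (.pos 45 .mp ⟨⟨738262655, 0, 0, 0, 0, 301034127, 0, 0, 0, ⟨0, 0⟩, 0⟩, 0, 0⟩ 0 0)) (.pos 46 .mp ⟨⟨815219655, 0, 0, 0, 0, 164565424, 0, 0, 0, ⟨0, 0⟩, 0⟩, 0, 0⟩ 0 0))) (.cut .s 14186496 (.cut .v 16809984 (.cut .l 153791 (.cut .d (-4096) (.pos 45 .mp ⟨⟨752373157, 0, 0, 0, 0, 308952061, 0, 0, 0, ⟨0, 0⟩, 0⟩, 0, 0⟩ 0 0) (.cut .v 16793600 (.cut .s 14181376 (.pos 47 .mp ⟨⟨758261588, 0, 0, 0, 0, 277786831, 0, 0, 0, ⟨0, 0⟩, 0⟩, 0, 0⟩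 0 0) (.pos 47 .mp ⟨⟨760205419, 0, 0, 0, 0, 281605479, 0, 0, 0, ⟨0, 0⟩, 0⟩, 0, 0⟩ 0 0)) (.pos 48 .mp ⟨⟨823475180, 0, 0, 0, 0, 161033737, 0, 0, 0, ⟨0, 0⟩, 0⟩, 0, 0⟩ 0 0))) (.pos 45 .mp ⟨⟨744676911, 0, 0, 0, 0, 303872455, 0, 0, 0, ⟨0, 0⟩, 0⟩, 0, 0⟩ 0 0)) (.pos 46 .mp ⟨⟨820585872, 0, 0, 0, 0, 169002605, 0, 0, 0, ⟨0, 0⟩, 0⟩, 0, 0⟩ 0 0)) (.cut .v 16809984 (.cut .l 153791 (.cut .d (-4096) (.pos 45 .mp ⟨⟨758957081, 0, 0, 0, 0, 311269790, 0, 0, 0, ⟨0, 0⟩, 0⟩, 0, 0⟩ 0 0) (.cut .v 16793600 (.cut .s 14191616 (.pos 47 .mp ⟨⟨762731029, 0, 0, 0, 0, 284323976, 0, 0, 0, ⟨0, 0⟩, 0⟩, 0, 0⟩ 0 0) (.cut .s 14194176 (.pos 47 .mp ⟨⟨775577455, 0, 0, 0, 0, 265140646,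 0, 0, 0, ⟨0, 0⟩, 0⟩, 0, 0⟩ 0 0) (.pos 47 .mp ⟨⟨776982382, 0, 0, 0, 0, 266225634, 0, 0, 0, ⟨0, 0⟩, 0⟩, 0, 0⟩ 0 0))) (.pos 48 .mp ⟨⟨829131168, 0, 0, 0, 0, 165116121, 0, 0, 0, ⟨0, 0⟩, 0⟩, 0, 0⟩ 0 0))) (.pos 45 .mp ⟨⟨751160411, 0, 0, 0, 0, 306759073, 0, 0, 0, ⟨0, 0⟩, 0⟩, 0, 0⟩ 0 0)) (.pos 46 .mp ⟨⟨826208683, 0, 0, 0, 0, 173174580, 0, 0, 0, ⟨0, 0⟩, 0⟩, 0, 0⟩ 0 0)))) (.pos 44 .mp ⟨⟨910943692, 0, 0, 0, 0, 0, 0, 0, 0, ⟨0, 0⟩, 0⟩, 0, 0⟩ 0 0)) (.cut .v 16842752 (.cut .s 14217216 (.cut .s 14206976 (.cut .v 16809984 (.cut .l 153791 (.cut .d (-4096) (.pos 45 .mp ⟨⟨765612670, 0, 0, 0, 0, 313698621, 0, 0, 0, ⟨0, 0⟩, 0⟩, 0, 0⟩ 0 0) (.cut .v 16793600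 (.cut .l 76895 (.cut .d (-2048) (.pos 47 .mp ⟨⟨765112113, 0, 0, 0, 0, 312610213, 0, 0, 0, ⟨0, 0⟩, 0⟩, 0, 0⟩ 0 0) (.cut .s 14201856 (.pos 47 .mp ⟨⟨773296292, 0, 0, 0, 0, 278226746, 0, 0, 0, ⟨0, 0⟩, 0⟩, 0, 0⟩ 0 0) (.pos 47 .mp ⟨⟨776678955, 0, 0, 0, 0, 279403168, 0, 0, 0, ⟨0, 0⟩, 0⟩, 0, 0⟩ 0 0))) (.pos 47 .mp ⟨⟨761163595, 0, 0, 0, 0, 300703088, 0, 0, 0, ⟨0, 0⟩, 0⟩, 0, 0⟩ 0 0)) (.pos 48 .mp ⟨⟨835054734, 0, 0, 0, 0, 168912882, 0, 0, 0, ⟨0, 0⟩, 0⟩, 0, 0⟩ 0 0))) (.pos 45 .mp ⟨⟨757713960, 0, 0, 0, 0, 309691972, 0, 0, 0, ⟨0, 0⟩, 0⟩, 0, 0⟩ 0 0)) (.cut .s 14201856 (.pos 46 .mp ⟨⟨811636140, 0, 0, 0, 0, 211684085, 0, 0, 0, ⟨0, 0⟩, 0⟩, 0, 0⟩ 0 0)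 (.pos 46 .mp ⟨⟨814514954, 0, 0, 0, 0, 213814833, 0, 0, 0, ⟨0, 0⟩, 0⟩, 0, 0⟩ 0 0))) (.cut .v 16809984 (.cut .l 153791 (.cut .d (-4096) (.pos 45 .mp ⟨⟨772340761, 0, 0, 0, 0, 316239953, 0, 0, 0, ⟨0, 0⟩, 0⟩, 0, 0⟩ 0 0) (.cut .l 76895 (.cut .d (-2048) (.pos 45 .mp ⟨⟨775846709, 0, 0, 0, 0, 309731104, 0, 0, 0, ⟨0, 0⟩, 0⟩, 0, 0⟩ 0 0) (.cut .v 16793600 (.cut .s 14212096 (.pos 47 .mp ⟨⟨780080039, 0, 0, 0, 0, 280598865, 0, 0, 0, ⟨0, 0⟩, 0⟩, 0, 0⟩ 0 0) (.cut .s 14214656 (.pos 47 .mp ⟨⟨784660995, 0, 0, 0, 0, 278262708, 0, 0, 0, ⟨0, 0⟩, 0⟩, 0, 0⟩ 0 0) (.pos 47 .mp ⟨⟨786251702, 0, 0, 0, 0, 279097988, 0, 0, 0, ⟨0, 0⟩, 0⟩, 0, 0⟩ 0 0))) (.pos 48 .mp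 ⟨⟨926741551, 0, 0, 0, 0, 0, 0, 0, 0, ⟨0, 0⟩, 0⟩, 0, 0⟩ 0 0))) (.pos 45 .mp ⟨⟨784043946, 0, 0, 0, 0, 272513985, 0, 0, 0, ⟨0, 0⟩, 0⟩, 0, 0⟩ 0 0))) (.pos 45 .mp ⟨⟨764338378, 0, 0, 0, 0, 312669120, 0, 0, 0, ⟨0, 0⟩, 0⟩, 0, 0⟩ 0 0)) (.cut .s 14212096 (.pos 46 .mp ⟨⟨817464131, 0, 0, 0, 0, 215868117, 0, 0, 0, ⟨0, 0⟩, 0⟩, 0, 0⟩ 0 0) (.pos 46 .mp ⟨⟨820485066, 0, 0, 0, 0, 217841394, 0, 0, 0, ⟨0, 0⟩, 0⟩, 0, 0⟩ 0 0)))) (.cut .s 14227456 (.cut .v 16809984 (.cut .l 153791 (.cut .d (-4096) (.pos 45 .mp ⟨⟨779142205, 0, 0, 0, 0, 318895211, 0, 0, 0, ⟨0, 0⟩, 0⟩, 0, 0⟩ 0 0) (.cut .s 14222336 (.cut .s 14219776 (.pos 45 .mp ⟨⟨790686871, 0, 0, 0, 0, 274612702,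 0, 0, 0, ⟨0, 0⟩, 0⟩, 0, 0⟩ 0 0) (.pos 45 .mp ⟨⟨792424670, 0, 0, 0, 0, 275209166, 0, 0, 0, ⟨0, 0⟩, 0⟩, 0, 0⟩ 0 0)) (.cut .s 14224896 (.pos 45 .mp ⟨⟨794167216, 0, 0, 0, 0, 275810297, 0, 0, 0, ⟨0, 0⟩, 0⟩, 0, 0⟩ 0 0) (.pos 45 .mp ⟨⟨795914524, 0, 0, 0, 0, 276416087, 0, 0, 0, ⟨0, 0⟩, 0⟩, 0, 0⟩ 0 0)))) (.cut .s 14222336 (.pos 45 .mp ⟨⟨771034496, 0, 0, 0, 0, 312215819, 0, 0, 0, ⟨0, 0⟩, 0⟩, 0, 0⟩ 0 0) (.pos 45 .mp ⟨⟨774409706, 0, 0, 0, 0, 313722045, 0, 0, 0, ⟨0, 0⟩, 0⟩, 0, 0⟩ 0 0))) (.cut .s 14222336 (.pos 46 .mp ⟨⟨823579165, 0, 0, 0, 0, 219732103, 0, 0, 0, ⟨0, 0⟩, 0⟩, 0, 0⟩ 0 0) (.pos 46 .mp ⟨⟨826747842, 0, 0, 0, 0, 221537663, 0, 0, 0, ⟨0,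 0⟩, 0⟩, 0, 0⟩ 0 0))) (.cut .v 16809984 (.cut .s 14232576 (.cut .d (-4096) (.pos 45 .mp ⟨⟨776154077, 0, 0, 0, 0, 329653357, 0, 0, 0, ⟨0, 0⟩, 0⟩, 0, 0⟩ 0 0) (.cut .s 14230016 (.pos 45 .mp ⟨⟨797666607, 0, 0, 0, 0, 277195183, 0, 0, 0, ⟨0, 0⟩, 0⟩, 0, 0⟩ 0 0) (.pos 45 .mp ⟨⟨799423481, 0, 0, 0, 0, 277798212, 0, 0, 0, ⟨0, 0⟩, 0⟩, 0, 0⟩ 0 0))) (.cut .d (-4096) (.pos 45 .mp ⟨⟨779577135, 0, 0, 0, 0, 331080369, 0, 0, 0, ⟨0, 0⟩, 0⟩, 0, 0⟩ 0 0) (.cut .s 14235136 (.pos 45 .mp ⟨⟨801185158, 0, 0, 0, 0, 278406680, 0, 0, 0, ⟨0, 0⟩, 0⟩, 0, 0⟩ 0 0) (.pos 45 .mp ⟨⟨802951654, 0, 0, 0, 0, 279020586, 0, 0, 0, ⟨0, 0⟩, 0⟩, 0, 0⟩ 0 0)))) (.cut .s 14232576 (.pos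 46 .mp ⟨⟨829992523, 0, 0, 0, 0, 223255473, 0, 0, 0, ⟨0, 0⟩, 0⟩, 0, 0⟩ 0 0) (.pos 46 .mp ⟨⟨833314643, 0, 0, 0, 0, 224882911, 0, 0, 0, ⟨0, 0⟩, 0⟩, 0, 0⟩ 0 0))))) (.pos 44 .mp ⟨⟨942756165, 0, 0, 0, 0, 0, 0, 0, 0, ⟨0, 0⟩, 0⟩, 0, 0⟩ 0 0))) (.cut .s 14278656 (.cut .v 16842752 (.cut .s 14258176 (.cut .s 14247936 (.cut .v 16809984 (.cut .s 14242816 (.cut .d (-4096) (.pos 45 .mp ⟨⟨783018746, 0, 0, 0, 0, 332537124, 0, 0, 0, ⟨0, 0⟩, 0⟩, 0, 0⟩ 0 0) (.cut .s 14240256 (.pos 45 .mp ⟨⟨804722982, 0, 0, 0, 0, 279639932, 0, 0, 0, ⟨0, 0⟩, 0⟩, 0, 0⟩ 0 0) (.pos 45 .mp ⟨⟨806499157, 0, 0, 0, 0, 280264717, 0, 0, 0, ⟨0, 0⟩, 0⟩, 0, 0⟩ 0 0))) (.cut .d (-4096)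 (.pos 45 .mp ⟨⟨786479022, 0, 0, 0, 0, 334023810, 0, 0, 0, ⟨0, 0⟩, 0⟩, 0, 0⟩ 0 0) (.cut .s 14245376 (.pos 45 .mp ⟨⟨808280194, 0, 0, 0, 0, 280894942, 0, 0, 0, ⟨0, 0⟩, 0⟩, 0, 0⟩ 0 0) (.pos 45 .mp ⟨⟨810066106, 0, 0, 0, 0, 281530608, 0, 0, 0, ⟨0, 0⟩, 0⟩, 0, 0⟩ 0 0)))) (.cut .s 14242816 (.pos 46 .mp ⟨⟨836715646, 0, 0, 0, 0, 226417333, 0, 0, 0, ⟨0, 0⟩, 0⟩, 0, 0⟩ 0 0) (.pos 46 .mp ⟨⟨840196989, 0, 0, 0, 0, 227856078, 0, 0, 0, ⟨0, 0⟩, 0⟩, 0, 0⟩ 0 0))) (.cut .v 16809984 (.cut .s 14253056 (.cut .d (-4096) (.pos 45 .mp ⟨⟨789958074, 0, 0, 0, 0, 335540618, 0, 0, 0, ⟨0, 0⟩, 0⟩, 0, 0⟩ 0 0) (.cut .s 14250496 (.pos 45 .mp ⟨⟨811856908, 0, 0, 0, 0, 282171715,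 0, 0, 0, ⟨0, 0⟩, 0⟩, 0, 0⟩ 0 0) (.pos 45 .mp ⟨⟨813652615, 0, 0, 0, 0, 282818262, 0, 0, 0, ⟨0, 0⟩, 0⟩, 0, 0⟩ 0 0))) (.cut .d (-4096) (.pos 45 .mp ⟨⟨793456013, 0, 0, 0, 0, 337087742, 0, 0, 0, ⟨0, 0⟩, 0⟩, 0, 0⟩ 0 0) (.cut .s 14255616 (.pos 45 .mp ⟨⟨815453241, 0, 0, 0, 0, 283470251, 0, 0, 0, ⟨0, 0⟩, 0⟩, 0, 0⟩ 0 0) (.pos 45 .mp ⟨⟨817258801, 0, 0, 0, 0, 284127681, 0, 0, 0, ⟨0, 0⟩, 0⟩, 0, 0⟩ 0 0)))) (.cut .s 14253056 (.pos 46 .mp ⟨⟨843760137, 0, 0, 0, 0, 229196460, 0, 0, 0, ⟨0, 0⟩, 0⟩, 0, 0⟩ 0 0) (.pos 46 .mp ⟨⟨847406567, 0, 0, 0, 0, 230435774, 0, 0, 0, ⟨0, 0⟩, 0⟩, 0, 0⟩ 0 0)))) (.cut .s 14268416 (.cut .v 16809984 (.cut .s 14263296 (.cut .d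 (-4096) (.pos 45 .mp ⟨⟨796972952, 0, 0, 0, 0, 338665376, 0, 0, 0, ⟨0, 0⟩, 0⟩, 0, 0⟩ 0 0) (.cut .s 14260736 (.pos 45 .mp ⟨⟨819069311, 0, 0, 0, 0, 284790552, 0, 0, 0, ⟨0, 0⟩, 0⟩, 0, 0⟩ 0 0) (.pos 45 .mp ⟨⟨820884783, 0, 0, 0, 0, 285458865, 0, 0, 0, ⟨0, 0⟩, 0⟩, 0, 0⟩ 0 0))) (.cut .d (-4096) (.pos 45 .mp ⟨⟨800509005, 0, 0, 0, 0, 340273715, 0, 0, 0, ⟨0, 0⟩, 0⟩, 0, 0⟩ 0 0) (.cut .s 14265856 (.pos 45 .mp ⟨⟨822705234, 0, 0, 0, 0, 286132620, 0, 0, 0, ⟨0, 0⟩, 0⟩, 0, 0⟩ 0 0) (.pos 45 .mp ⟨⟨824530679, 0, 0, 0, 0, 286811816, 0, 0, 0, ⟨0, 0⟩, 0⟩, 0, 0⟩ 0 0)))) (.cut .s 14263296 (.pos 46 .mp ⟨⟨851137764, 0, 0, 0, 0, 231571292, 0, 0, 0, ⟨0, 0⟩, 0⟩,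 0, 0⟩ 0 0) (.pos 46 .mp ⟨⟨854955228, 0, 0, 0, 0, 232600265, 0, 0, 0, ⟨0, 0⟩, 0⟩, 0, 0⟩ 0 0))) (.cut .v 16809984 (.cut .s 14273536 (.cut .d (-4096) (.pos 45 .mp ⟨⟨804064286, 0, 0, 0, 0, 341912957, 0, 0, 0, ⟨0, 0⟩, 0⟩, 0, 0⟩ 0 0) (.cut .s 14270976 (.pos 45 .mp ⟨⟨826361132, 0, 0, 0, 0, 287496454, 0, 0, 0, ⟨0, 0⟩, 0⟩, 0, 0⟩ 0 0) (.pos 45 .mp ⟨⟨828196608, 0, 0, 0, 0, 288186533, 0, 0, 0, ⟨0, 0⟩, 0⟩, 0, 0⟩ 0 0))) (.cut .d (-4096) (.pos 45 .mp ⟨⟨807638912, 0, 0, 0, 0, 343583301, 0, 0, 0, ⟨0, 0⟩, 0⟩, 0, 0⟩ 0 0) (.cut .s 14276096 (.pos 45 .mp ⟨⟨830037123, 0, 0, 0, 0, 288882053, 0, 0, 0, ⟨0, 0⟩, 0⟩, 0, 0⟩ 0 0) (.pos 45 .mp ⟨⟨831882692, 0, 0, 0,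 0, 289583014, 0, 0, 0, ⟨0, 0⟩, 0⟩, 0, 0⟩ 0 0)))) (.cut .s 14273536 (.pos 46 .mp ⟨⟨858860465, 0, 0, 0, 0, 233519924, 0, 0, 0, ⟨0, 0⟩, 0⟩, 0, 0⟩ 0 0) (.pos 46 .mp ⟨⟨862854996, 0, 0, 0, 0, 234327474, 0, 0, 0, ⟨0, 0⟩, 0⟩, 0, 0⟩ 0 0))))) (.pos 44 .mp ⟨⟨976405956, 0, 0, 0, 0, 0, 0, 0, 0, ⟨0, 0⟩, 0⟩, 0, 0⟩ 0 0)) (.cut .v 16842752 (.cut .s 14299136 (.cut .s 14288896 (.cut .v 16809984 (.cut .s 14283776 (.cut .d (-4096) (.pos 45 .mp ⟨⟨811232999, 0, 0, 0, 0, 345284948, 0, 0, 0, ⟨0, 0⟩, 0⟩, 0, 0⟩ 0 0) (.cut .s 14281216 (.pos 45 .mp ⟨⟨833733329, 0, 0, 0, 0, 290289416, 0, 0, 0, ⟨0, 0⟩, 0⟩, 0, 0⟩ 0 0) (.pos 45 .mp ⟨⟨835589051, 0, 0, 0, 0, 291001258,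 0, 0, 0, ⟨0, 0⟩, 0⟩, 0, 0⟩ 0 0))) (.cut .d (-4096) (.pos 45 .mp ⟨⟨814846663, 0, 0, 0, 0, 347018100, 0, 0, 0, ⟨0, 0⟩, 0⟩, 0, 0⟩ 0 0) (.cut .s 14286336 (.pos 45 .mp ⟨⟨837449872, 0, 0, 0, 0, 291718540, 0, 0, 0, ⟨0, 0⟩, 0⟩, 0, 0⟩ 0 0) (.pos 45 .mp ⟨⟨839315808, 0, 0, 0, 0, 292441262, 0, 0, 0, ⟨0, 0⟩, 0⟩, 0, 0⟩ 0 0)))) (.cut .s 14283776 (.pos 46 .mp ⟨⟨866940349, 0, 0, 0, 0, 235020100, 0, 0, 0, ⟨0, 0⟩, 0⟩, 0, 0⟩ 0 0) (.pos 46 .mp ⟨⟨871118068, 0, 0, 0, 0, 235594965, 0, 0, 0, ⟨0, 0⟩, 0⟩, 0, 0⟩ 0 0))) (.cut .v 16809984 (.cut .s 14294016 (.cut .d (-4096) (.pos 45 .mp ⟨⟨818480024, 0, 0, 0, 0, 348782961, 0, 0, 0, ⟨0, 0⟩, 0⟩, 0, 0⟩ 0 0) (.cut .s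 14291456 (.pos 45 .mp ⟨⟨841186875, 0, 0, 0, 0, 293169423, 0, 0, 0, ⟨0, 0⟩, 0⟩, 0, 0⟩ 0 0) (.pos 45 .mp ⟨⟨843063087, 0, 0, 0, 0, 293903023, 0, 0, 0, ⟨0, 0⟩, 0⟩, 0, 0⟩ 0 0))) (.cut .d (-4096) (.pos 45 .mp ⟨⟨822133202, 0, 0, 0, 0, 350579736, 0, 0, 0, ⟨0, 0⟩, 0⟩, 0, 0⟩ 0 0) (.cut .s 14296576 (.pos 45 .mp ⟨⟨844944462, 0, 0, 0, 0, 294642060, 0, 0, 0, ⟨0, 0⟩, 0⟩, 0, 0⟩ 0 0) (.pos 45 .mp ⟨⟨846831014, 0, 0, 0, 0, 295386535, 0, 0, 0, ⟨0, 0⟩, 0⟩, 0, 0⟩ 0 0)))) (.cut .s 14294016 (.pos 46 .mp ⟨⟨875389704, 0, 0, 0, 0, 236049207, 0, 0, 0, ⟨0, 0⟩, 0⟩, 0, 0⟩ 0 0) (.pos 46 .mp ⟨⟨879756821, 0, 0, 0, 0, 236379944, 0, 0, 0, ⟨0, 0⟩, 0⟩, 0, 0⟩ 0 0)))) (.cut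 .s 14309376 (.cut .v 16809984 (.cut .s 14304256 (.cut .d (-4096) (.pos 45 .mp ⟨⟨825806316, 0, 0, 0, 0, 352408634, 0, 0, 0, ⟨0, 0⟩, 0⟩, 0, 0⟩ 0 0) (.cut .s 14301696 (.pos 45 .mp ⟨⟨848722758, 0, 0, 0, 0, 296136446, 0, 0, 0, ⟨0, 0⟩, 0⟩, 0, 0⟩ 0 0) (.pos 45 .mp ⟨⟨850619712, 0, 0, 0, 0, 296891794, 0, 0, 0, ⟨0, 0⟩, 0⟩, 0, 0⟩ 0 0))) (.cut .d (-4096) (.pos 45 .mp ⟨⟨829499487, 0, 0, 0, 0, 354269863, 0, 0, 0, ⟨0, 0⟩, 0⟩, 0, 0⟩ 0 0) (.cut .s 14306816 (.pos 45 .mp ⟨⟨852521890, 0, 0, 0, 0, 297652576, 0, 0, 0, ⟨0, 0⟩, 0⟩, 0, 0⟩ 0 0) (.pos 45 .mp ⟨⟨854429309, 0, 0, 0, 0, 298418793, 0, 0, 0, ⟨0, 0⟩, 0⟩, 0, 0⟩ 0 0)))) (.cut .s 14304256 (.pos 46 .mp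 ⟨⟨884220994, 0, 0, 0, 0, 236584266, 0, 0, 0, ⟨0, 0⟩, 0⟩, 0, 0⟩ 0 0) (.pos 46 .mp ⟨⟨888783811, 0, 0, 0, 0, 236659245, 0, 0, 0, ⟨0, 0⟩, 0⟩, 0, 0⟩ 0 0))) (.cut .v 16809984 (.cut .s 14314496 (.cut .d (-4096) (.pos 45 .mp ⟨⟨833212840, 0, 0, 0, 0, 356163634, 0, 0, 0, ⟨0, 0⟩, 0⟩, 0, 0⟩ 0 0) (.cut .s 14311936 (.pos 45 .mp ⟨⟨856341985, 0, 0, 0, 0, 299190443, 0, 0, 0, ⟨0, 0⟩, 0⟩, 0, 0⟩ 0 0) (.pos 45 .mp ⟨⟨858259934, 0, 0, 0, 0, 299967526, 0, 0, 0, ⟨0, 0⟩, 0⟩, 0, 0⟩ 0 0))) (.cut .d (-4096) (.pos 45 .mp ⟨⟨836946496, 0, 0, 0, 0, 358090159, 0, 0, 0, ⟨0, 0⟩, 0⟩, 0, 0⟩ 0 0) (.cut .s 14317056 (.pos 45 .mp ⟨⟨860183171, 0, 0, 0, 0, 300750040, 0, 0, 0,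 ⟨0, 0⟩, 0⟩, 0, 0⟩ 0 0) (.pos 45 .mp ⟨⟨862111714, 0, 0, 0, 0, 301537984, 0, 0, 0, ⟨0, 0⟩, 0⟩, 0, 0⟩ 0 0)))) (.cut .s 14314496 (.pos 46 .mp ⟨⟨893446870, 0, 0, 0, 0, 236601925, 0, 0, 0, ⟨0, 0⟩, 0⟩, 0, 0⟩ 0 0) (.pos 46 .mp ⟨⟨898211782, 0, 0, 0, 0, 236409327, 0, 0, 0, ⟨0, 0⟩, 0⟩, 0, 0⟩ 0 0))))) (.pos 44 .mp ⟨⟨1011927863, 0, 0, 0, 0, 0, 0, 0, 0, ⟨0, 0⟩, 0⟩, 0, 0⟩ 0 0)))) (.pos 36 .mp ⟨⟨986028887, 0, 0, 0, 0, 0, 0, 0, 0, ⟨0, 0⟩, 0⟩, 0, 0⟩ 0 0))))))) (.pos 32 .mp ⟨⟨1124378018, 0, 0, 0, 0, 0, 0, 0, 0, ⟨0, 0⟩, 0⟩, 0, 0⟩ 0 0))) (.void 30 ⟨⟨100000, 0, 0, 0, 0, 0, 0, 0, 0, ⟨0, 0⟩, 0⟩, 0, 0⟩ 0 0))) (.void 28 ⟨⟨100000, 0, 0, 0, 0, 0, 0, 0, 0, ⟨0,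 0⟩, 0⟩, 0, 0⟩ 0 0))) (.void 26 ⟨⟨100000, 0, 0, 0, 0, 0, 0, 0, 0, ⟨0, 0⟩, 0⟩, 0, 0⟩ 0 0))) (.void 24 ⟨⟨100000, 0, 0, 0, 0, 0, 0, 0, 0, ⟨0, 0⟩, 0⟩, 0, 0⟩ 0 0))) (.void 22 ⟨⟨100000, 0, 0, 0, 0, 0, 0, 0, 0, ⟨0, 0⟩, 0⟩, 0, 0⟩ 0 0))) (.void 103 ⟨⟨100000, 0, 0, 0, 0, 0, 0, 0, 0, ⟨0, 0⟩, 0⟩, 0, 0⟩ 0 0)) (.void 114 ⟨⟨100000, 0, 0, 0, 0, 0, 0, 0, 0, ⟨0, 0⟩, 0⟩, 0, 0⟩ 0 0)) (.void 125 ⟨⟨93816, 0, 0, 6161, 0, 0, 0, 0, 0, ⟨0, 0⟩, 0⟩, 0, 0⟩ 0 0))) (.cut .v 16777216 (.cut .v 8388608 (.cut .v 4194304 (.cut .v 2097152 (.cut .v 1048576 (.pos 119 .pm ⟨⟨0, 0, 31292371, 0, 0, 0, 0, 0, 0, ⟨0, 0⟩, 0⟩, 0, 2195⟩ 0 0) (.pos 120 .pm ⟨⟨0, 0, 46974558, 0, 0, 0,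 0, 0, 0, ⟨0, 0⟩, 0⟩, 0, 8088⟩ 0 0)) (.pos 118 .pm ⟨⟨0, 0, 73389466, 0, 0, 0, 0, 0, 0, ⟨0, 0⟩, 0⟩, 0, 15278⟩ 0 0)) (.pos 5 .pm ⟨⟨0, 0, 220824065, 0, 0, 0, 0, 0, 0, ⟨0, 0⟩, 0⟩, 0, 27501⟩ 0 0)) (.pos 3 .pm ⟨⟨0, 0, 0, 0, 0, 0, 0, 0, 0, ⟨0, 0⟩, 0⟩, 0, 0⟩ 0 0)) (.cut .v 268435456 (.cut .v 67108864 (.cut .d 1553447 (.cut .v 33554432 (.cut .d 776723 (.cut .v 25165824 (.cut .d 388361 (.cut .d 194180 (.cut .v 20971520 (.cut .v 18874368 (.cut .d 97090 (.cut .d 48545 (.cut .v 17825792 (.cut .v 17301504 (.cut .s 14237696 (.pos 29 .pp ⟨⟨746191346, 0, 0, 0, 0, 0, 0, 0, 0, ⟨0, 0⟩, 0⟩, 19510368, 0⟩ 0 0) (.pos 29 .pp ⟨⟨794166270, 0, 0, 0, 0, 0, 0, 0,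 0, ⟨0, 0⟩, 0⟩, 21804891, 0⟩ 0 0)) (.pos 30 .pp ⟨⟨972066894, 0, 0, 0, 0, 0, 0, 0, 0, ⟨0, 0⟩, 0⟩, 0, 0⟩ 0 0)) (.pos 28 .pp ⟨⟨1085578119, 0, 0, 0, 0, 0, 0, 0, 0, ⟨0, 0⟩, 0⟩, 0, 0⟩ 0 0)) (.pos 25 .pp ⟨⟨836255989, 0, 0, 0, 0, 0, 0, 0, 0, ⟨0, 0⟩, 0⟩, 0, 3452⟩ 0 0)) (.pos 25 .pp ⟨⟨0, 0, 0, 0, 0, 0, 0, 0, 0, ⟨0, 0⟩, 0⟩, 0, 72796⟩ 0 0)) (.cut .d 97090 (.cut .v 19922944 (.pos 53 .pp ⟨⟨1183537978, 0, 0, 0, 0, 0, 0, 0, 0, ⟨0, 0⟩, 0⟩, 0, 0⟩ 0 0) (.pos 54 .pp ⟨⟨1339013403, 0, 0, 0, 0, 0, 0, 0, 0, ⟨0, 0⟩, 0⟩, 0, 0⟩ 0 0)) (.pos 26 .pp ⟨⟨1050218670, 0, 0, 0, 0, 0, 0, 0, 0, ⟨0, 0⟩, 0⟩, 0, 0⟩ 0 0))) (.cut .v 23068672 (.cut .d 97090 (.void 55 ⟨⟨0, 0, 0,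 0, 0, 0, 0, 0, 0, ⟨0, 0⟩, 0⟩, 100000, 0⟩ 0 0) (.cut .d 145635 (.pos 55 .pp ⟨⟨0, 0, 0, 0, 0, 0, 0, 0, 0, ⟨0, 0⟩, 0⟩, 178030957, 0⟩ 0 0) (.pos 55 .pp ⟨⟨0, 0, 0, 0, 0, 0, 4499, 0, 0, ⟨0, 0⟩, 0⟩, 156153663, 0⟩ 0 0))) (.pos 56 .pp ⟨⟨0, 0, 0, 0, 0, 0, 0, 0, 0, ⟨0, 0⟩, 0⟩, 217936755, 0⟩ 0 0))) (.cut .v 20971520 (.pos 23 .pp ⟨⟨0, 0, 0, 0, 0, 0, 0, 0, 0, ⟨0, 0⟩, 0⟩, 0, 76391⟩ 0 0) (.pos 24 .pp ⟨⟨0, 0, 0, 0, 0, 0, 12581, 0, 0, ⟨0, 0⟩, 0⟩, 148613068, 0⟩ 0 0))) (.pos 21 .pp ⟨⟨0, 0, 0, 0, 0, 0, 0, 0, 0, ⟨0, 0⟩, 0⟩, 0, 82502⟩ 0 0)) (.cut .d 388361 (.cut .d 194180 (.void 22 ⟨⟨0, 0, 0, 0, 0, 0, 0, 0, 0, ⟨0, 0⟩, 0⟩, 100000, 0⟩ 0 0) (.pos 22 .pp ⟨⟨0,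 0, 0, 0, 0, 0, 0, 0, 0, ⟨0, 0⟩, 0⟩, 221591653, 0⟩ 0 0)) (.pos 22 .pp ⟨⟨0, 0, 0, 0, 0, 0, 6141, 0, 0, ⟨0, 0⟩, 0⟩, 155576039, 0⟩ 0 0))) (.pos 20 .pp ⟨⟨0, 0, 0, 0, 0, 0, 0, 0, 0, ⟨0, 0⟩, 0⟩, 0, 91669⟩ 0 0)) (.cut .d 776723 (.cut .v 50331648 (.pos 106 .pp ⟨⟨0, 0, 0, 0, 0, 0, 0, 0, 0, ⟨0, 0⟩, 0⟩, 373783625, 0⟩ 0 0) (.void 107 ⟨⟨0, 0, 0, 0, 0, 0, 0, 0, 0, ⟨0, 0⟩, 0⟩, 100000, 0⟩ 0 0)) (.pos 103 .pp ⟨⟨0, 0, 0, 0, 0, 0, 0, 0, 0, ⟨0, 0⟩, 0⟩, 228716612, 0⟩ 0 0))) (.pos 102 .pp ⟨⟨0, 0, 0, 0, 0, 0, 0, 0, 0, ⟨0, 0⟩, 0⟩, 0, 68752⟩ 0 0)) (.void 114 ⟨⟨0, 0, 0, 48550, 0, 0, 0, 0, 0, ⟨0, 0⟩, 0⟩, 51450, 0⟩ 0 0)) (.void 125 ⟨⟨0, 0, 0, 0, 0, 0, 0, 0, 0,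 ⟨0, 0⟩, 0⟩, 100000, 0⟩ 0 0)))),
    by decide +kernel⟩

def covers28 : cell.Covers Vale.Agent.P237.Petty.Cor.Grid.N12.table row28.1 :=
  ⟨(.cut .d 0 (.cut .v 16777216 (.cut .v 8388608 (.void 2 ⟨⟨0, 0, 100000, 0, 0, 0, 0, 0, 0, ⟨0, 0⟩, 0⟩, 0, 0⟩ 0 0) (.cut .d (-8388608) (.void 3 ⟨⟨100000, 0, 0, 0, 0, 0, 0, 0, 0, ⟨0, 0⟩, 0⟩, 0, 0⟩ 0 0) (.cut .d (-4194304) (.void 3 ⟨⟨100000, 0, 0, 0, 0, 0, 0, 0, 0, ⟨0, 0⟩, 0⟩, 0, 0⟩ 0 0) (.cut .d (-2097152) (.void 3 ⟨⟨100000, 0, 0, 0, 0, 0, 0, 0, 0, ⟨0, 0⟩, 0⟩, 0, 0⟩ 0 0) (.cut .d (-1048576) (.void 3 ⟨⟨0, 0, 0, 0, 0, 100000, 0, 0, 0, ⟨0, 0⟩, 0⟩, 0, 0⟩ 0 0) (.cut .d (-524288) (.void 3 ⟨⟨0, 0, 0, 0, 0, 100000,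 0, 0, 0, ⟨0, 0⟩, 0⟩, 0, 0⟩ 0 0) (.cut .d (-262144) (.void 3 ⟨⟨0, 0, 0, 0, 0, 100000, 0, 0, 0, ⟨0, 0⟩, 0⟩, 0, 0⟩ 0 0) (.cut .s 14401536 (.pos 3 .mm ⟨⟨0, 0, 0, 0, 0, 2001460379, 0, 0, 0, ⟨0, 0⟩, 0⟩, 0, 0⟩ 0 0) (.pos 3 .mm ⟨⟨0, 0, 0, 0, 0, 2167966035, 0, 0, 0, ⟨0, 0⟩, 0⟩, 0, 0⟩ 0 0))))))))) (.cut .v 268435456 (.cut .v 67108864 (.cut .v 33554432 (.cut .d (-8388608) (.void 20 ⟨⟨100000, 0, 0, 0, 0, 0, 0, 0, 0, ⟨0, 0⟩, 0⟩, 0, 0⟩ 0 0) (.cut .v 25165824 (.cut .d (-4194304) (.void 21 ⟨⟨100000, 0, 0, 0, 0, 0, 0, 0, 0, ⟨0, 0⟩, 0⟩, 0, 0⟩ 0 0) (.cut .v 20971520 (.cut .d (-2097152) (.void 23 ⟨⟨100000, 0, 0, 0, 0, 0, 0, 0, 0, ⟨0, 0⟩, 0⟩, 0, 0⟩ 0 0)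 (.cut .v 18874368 (.cut .d (-1048576) (.void 25 ⟨⟨100000, 0, 0, 0, 0, 0, 0, 0, 0, ⟨0, 0⟩, 0⟩, 0, 0⟩ 0 0) (.cut .d (-524288) (.void 25 ⟨⟨100000, 0, 0, 0, 0, 0, 0, 0, 0, ⟨0, 0⟩, 0⟩, 0, 0⟩ 0 0) (.cut .v 17825792 (.cut .v 17301504 (.cut .d (-262144) (.void 29 ⟨⟨100000, 0, 0, 0, 0, 0, 0, 0, 0, ⟨0, 0⟩, 0⟩, 0, 0⟩ 0 0) (.cut .v 17039360 (.cut .d (-131072) (.void 31 ⟨⟨100000, 0, 0, 0, 0, 0, 0, 0, 0, ⟨0, 0⟩, 0⟩, 0, 0⟩ 0 0) (.cut .d (-65536) (.void 31 ⟨⟨100000, 0, 0, 0, 0, 0, 0, 0, 0, ⟨0, 0⟩, 0⟩, 0, 0⟩ 0 0) (.cut .d (-32768) (.void 31 ⟨⟨100000, 0, 0, 0, 0, 0, 0, 0, 0, ⟨0, 0⟩, 0⟩, 0, 0⟩ 0 0) (.cut .d (-16384) (.void 31 ⟨⟨100000, 0, 0, 0, 0, 0,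 0, 0, 0, ⟨0, 0⟩, 0⟩, 0, 0⟩ 0 0) (.cut .d (-8192) (.cut .v 16908288 (.cut .v 16842752 (.cut .s 14401536 (.cut .s 14360576 (.pos 43 .mp ⟨⟨853267454, 0, 0, 0, 0, 409832013, 0, 0, 0, ⟨0, 0⟩, 0⟩, 0, 0⟩ 0 0) (.pos 43 .mp ⟨⟨884448877, 0, 0, 0, 0, 426791054, 0, 0, 0, ⟨0, 0⟩, 0⟩, 0, 0⟩ 0 0)) (.pos 43 .mp ⟨⟨917393449, 0, 0, 0, 0, 535711636, 0, 0, 0, ⟨0, 0⟩, 0⟩, 0, 0⟩ 0 0)) (.pos 44 .mp ⟨⟨1207491880, 0, 0, 0, 0, 0, 0, 0, 0, ⟨0, 0⟩, 0⟩, 0, 0⟩ 0 0)) (.void 36 ⟨⟨100000, 0, 0, 0, 0, 0, 0, 0, 0, ⟨0, 0⟩, 0⟩, 0, 0⟩ 0 0)) (.cut .v 16908288 (.cut .s 14401536 (.cut .s 14360576 (.cut .v 16842752 (.cut .s 14340096 (.cut .s 14329856 (.cut .v 16809984 (.cut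 .s 14324736 (.cut .d (-4096) (.pos 45 .mp ⟨⟨840702402, 0, 0, 0, 0, 360030969, 0, 0, 0, ⟨0, 0⟩, 0⟩, 0, 0⟩ 0 0) (.cut .s 14322176 (.pos 45 .mp ⟨⟨864047194, 0, 0, 0, 0, 302329153, 0, 0, 0, ⟨0, 0⟩, 0⟩, 0, 0⟩ 0 0) (.pos 45 .mp ⟨⟨865986528, 0, 0, 0, 0, 302935024, 0, 0, 0, ⟨0, 0⟩, 0⟩, 0, 0⟩ 0 0))) (.cut .d (-4096) (.pos 45 .mp ⟨⟨844482161, 0, 0, 0, 0, 361451767, 0, 0, 0, ⟨0, 0⟩, 0⟩, 0, 0⟩ 0 0) (.cut .s 14327296 (.pos 45 .mp ⟨⟨867931430, 0, 0, 0, 0, 303547877, 0, 0, 0, ⟨0, 0⟩, 0⟩, 0, 0⟩ 0 0) (.pos 45 .mp ⟨⟨869881917, 0, 0, 0, 0, 304167712, 0, 0, 0, ⟨0, 0⟩, 0⟩, 0, 0⟩ 0 0)))) (.cut .s 14324736 (.pos 46 .mp ⟨⟨902929047, 0, 0, 0, 0, 236372223,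 0, 0, 0, ⟨0, 0⟩, 0⟩, 0, 0⟩ 0 0) (.pos 46 .mp ⟨⟨906282683, 0, 0, 0, 0, 238664157, 0, 0, 0, ⟨0, 0⟩, 0⟩, 0, 0⟩ 0 0))) (.cut .v 16809984 (.cut .s 14334976 (.cut .d (-4096) (.pos 45 .mp ⟨⟨848283412, 0, 0, 0, 0, 362908509, 0, 0, 0, ⟨0, 0⟩, 0⟩, 0, 0⟩ 0 0) (.cut .s 14332416 (.pos 45 .mp ⟨⟨871838006, 0, 0, 0, 0, 304794532, 0, 0, 0, ⟨0, 0⟩, 0⟩, 0, 0⟩ 0 0) (.pos 45 .mp ⟨⟨873799714, 0, 0, 0, 0, 305428338, 0, 0, 0, ⟨0, 0⟩, 0⟩, 0, 0⟩ 0 0))) (.cut .d (-4096) (.pos 45 .mp ⟨⟨852106287, 0, 0, 0, 0, 364401434, 0, 0, 0, ⟨0, 0⟩, 0⟩, 0, 0⟩ 0 0) (.cut .s 14337536 (.pos 45 .mp ⟨⟨875767059, 0, 0, 0, 0, 306069131, 0, 0, 0, ⟨0, 0⟩, 0⟩, 0, 0⟩ 0 0) (.pos 45 .mp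 ⟨⟨877740058, 0, 0, 0, 0, 306716913, 0, 0, 0, ⟨0, 0⟩, 0⟩, 0, 0⟩ 0 0)))) (.cut .s 14334976 (.pos 46 .mp ⟨⟨909715101, 0, 0, 0, 0, 240875281, 0, 0, 0, ⟨0, 0⟩, 0⟩, 0, 0⟩ 0 0) (.pos 46 .mp ⟨⟨913228091, 0, 0, 0, 0, 243002330, 0, 0, 0, ⟨0, 0⟩, 0⟩, 0, 0⟩ 0 0)))) (.cut .s 14350336 (.cut .v 16809984 (.cut .s 14345216 (.cut .d (-4096) (.pos 45 .mp ⟨⟨855950920, 0, 0, 0, 0, 365930781, 0, 0, 0, ⟨0, 0⟩, 0⟩, 0, 0⟩ 0 0) (.cut .s 14342656 (.pos 45 .mp ⟨⟨879718728, 0, 0, 0, 0, 307371684, 0, 0, 0, ⟨0, 0⟩, 0⟩, 0, 0⟩ 0 0) (.pos 45 .mp ⟨⟨881703087, 0, 0, 0, 0, 308033447, 0, 0, 0, ⟨0, 0⟩, 0⟩, 0, 0⟩ 0 0))) (.cut .d (-4096) (.pos 45 .mp ⟨⟨859817445, 0, 0, 0,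 0, 367496793, 0, 0, 0, ⟨0, 0⟩, 0⟩, 0, 0⟩ 0 0) (.cut .s 14347776 (.pos 45 .mp ⟨⟨883693153, 0, 0, 0, 0, 308702202, 0, 0, 0, ⟨0, 0⟩, 0⟩, 0, 0⟩ 0 0) (.pos 45 .mp ⟨⟨885688943, 0, 0, 0, 0, 309377950, 0, 0, 0, ⟨0, 0⟩, 0⟩, 0, 0⟩ 0 0)))) (.cut .s 14345216 (.pos 46 .mp ⟨⟨916823454, 0, 0, 0, 0, 245042013, 0, 0, 0, ⟨0, 0⟩, 0⟩, 0, 0⟩ 0 0) (.pos 46 .mp ⟨⟨920503008, 0, 0, 0, 0, 246991013, 0, 0, 0, ⟨0, 0⟩, 0⟩, 0, 0⟩ 0 0))) (.cut .v 16809984 (.cut .s 14355456 (.cut .d (-4096) (.pos 45 .mp ⟨⟨863705998, 0, 0, 0, 0, 369099711, 0, 0, 0, ⟨0, 0⟩, 0⟩, 0, 0⟩ 0 0) (.cut .s 14352896 (.pos 45 .mp ⟨⟨887690475, 0, 0, 0, 0, 310060693, 0, 0, 0, ⟨0, 0⟩, 0⟩, 0, 0⟩ 0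 0) (.pos 45 .mp ⟨⟨889697766, 0, 0, 0, 0, 310750430, 0, 0, 0, ⟨0, 0⟩, 0⟩, 0, 0⟩ 0 0))) (.cut .d (-4096) (.pos 45 .mp ⟨⟨867616715, 0, 0, 0, 0, 370739784, 0, 0, 0, ⟨0, 0⟩, 0⟩, 0, 0⟩ 0 0) (.cut .s 14358016 (.pos 45 .mp ⟨⟨891710836, 0, 0, 0, 0, 311447165, 0, 0, 0, ⟨0, 0⟩, 0⟩, 0, 0⟩ 0 0) (.pos 45 .mp ⟨⟨893729701, 0, 0, 0, 0, 312150896, 0, 0, 0, ⟨0, 0⟩, 0⟩, 0, 0⟩ 0 0)))) (.cut .s 14355456 (.pos 46 .mp ⟨⟨924268582, 0, 0, 0, 0, 248845985, 0, 0, 0, ⟨0, 0⟩, 0⟩, 0, 0⟩ 0 0) (.pos 46 .mp ⟨⟨928122019, 0, 0, 0, 0, 250603557, 0, 0, 0, ⟨0, 0⟩, 0⟩, 0, 0⟩ 0 0))))) (.pos 44 .mp ⟨⟨1049462441, 0, 0, 0, 0, 0, 0, 0, 0, ⟨0, 0⟩, 0⟩, 0, 0⟩ 0 0)) (.cut .v 16842752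 (.cut .s 14381056 (.cut .s 14370816 (.cut .v 16809984 (.cut .s 14365696 (.cut .d (-4096) (.pos 45 .mp ⟨⟨871549736, 0, 0, 0, 0, 372417258, 0, 0, 0, ⟨0, 0⟩, 0⟩, 0, 0⟩ 0 0) (.cut .s 14363136 (.pos 45 .mp ⟨⟨895754380, 0, 0, 0, 0, 312861625, 0, 0, 0, ⟨0, 0⟩, 0⟩, 0, 0⟩ 0 0) (.pos 45 .mp ⟨⟨897784891, 0, 0, 0, 0, 313579352, 0, 0, 0, ⟨0, 0⟩, 0⟩, 0, 0⟩ 0 0))) (.cut .d (-4096) (.pos 45 .mp ⟨⟨875505198, 0, 0, 0, 0, 374132384, 0, 0, 0, ⟨0, 0⟩, 0⟩, 0, 0⟩ 0 0) (.cut .s 14368256 (.pos 45 .mp ⟨⟨899821252, 0, 0, 0, 0, 314304079, 0, 0, 0, ⟨0, 0⟩, 0⟩, 0, 0⟩ 0 0) (.pos 45 .mp ⟨⟨901863481, 0, 0, 0, 0, 315035806, 0, 0, 0, ⟨0, 0⟩, 0⟩, 0, 0⟩ 0 0)))) (.cut .s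 14365696 (.pos 46 .mp ⟨⟨932065176, 0, 0, 0, 0, 252260327, 0, 0, 0, ⟨0, 0⟩, 0⟩, 0, 0⟩ 0 0) (.pos 46 .mp ⟨⟨936099924, 0, 0, 0, 0, 253812867, 0, 0, 0, ⟨0, 0⟩, 0⟩, 0, 0⟩ 0 0))) (.cut .v 16809984 (.cut .s 14375936 (.cut .d (-4096) (.pos 45 .mp ⟨⟨879483243, 0, 0, 0, 0, 375885413, 0, 0, 0, ⟨0, 0⟩, 0⟩, 0, 0⟩ 0 0) (.cut .l 153791 (.cut .d (-2048) (.pos 45 .mp ⟨⟨895317283, 0, 0, 0, 0, 340035466, 0, 0, 0, ⟨0, 0⟩, 0⟩, 0, 0⟩ 0 0) (.cut .s 14373376 (.pos 45 .mp ⟨⟨898229723, 0, 0, 0, 0, 326784881, 0, 0, 0, ⟨0, 0⟩, 0⟩, 0, 0⟩ 0 0) (.pos 45 .mp ⟨⟨900282431, 0, 0, 0, 0, 327528750, 0, 0, 0, ⟨0, 0⟩, 0⟩, 0, 0⟩ 0 0))) (.pos 45 .mp ⟨⟨892983570, 0, 0, 0, 0,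 0, 0, 0, 0, ⟨0, 0⟩, 0⟩, 0, 0⟩ 0 0))) (.cut .d (-4096) (.pos 45 .mp ⟨⟨883484012, 0, 0, 0, 0, 377676601, 0, 0, 0, ⟨0, 0⟩, 0⟩, 0, 0⟩ 0 0) (.cut .l 153791 (.cut .d (-2048) (.pos 45 .mp ⟨⟨899317587, 0, 0, 0, 0, 341829509, 0, 0, 0, ⟨0, 0⟩, 0⟩, 0, 0⟩ 0 0) (.cut .s 14378496 (.pos 45 .mp ⟨⟨902337784, 0, 0, 0, 0, 328286937, 0, 0, 0, ⟨0, 0⟩, 0⟩, 0, 0⟩ 0 0) (.pos 45 .mp ⟨⟨904395749, 0, 0, 0, 0, 329059556, 0, 0, 0, ⟨0, 0⟩, 0⟩, 0, 0⟩ 0 0))) (.pos 45 .mp ⟨⟨897043516, 0, 0, 0, 0, 0, 0, 0, 0, ⟨0, 0⟩, 0⟩, 0, 0⟩ 0 0)))) (.cut .s 14375936 (.pos 46 .mp ⟨⟨940228148, 0, 0, 0, 0, 255257720, 0, 0, 0, ⟨0, 0⟩, 0⟩, 0, 0⟩ 0 0) (.pos 46 .mp ⟨⟨944451746, 0, 0, 0,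 0, 256591399, 0, 0, 0, ⟨0, 0⟩, 0⟩, 0, 0⟩ 0 0)))) (.cut .s 14391296 (.cut .v 16809984 (.cut .s 14386176 (.cut .d (-4096) (.pos 45 .mp ⟨⟨887507649, 0, 0, 0, 0, 379506203, 0, 0, 0, ⟨0, 0⟩, 0⟩, 0, 0⟩ 0 0) (.cut .l 153791 (.cut .d (-2048) (.pos 45 .mp ⟨⟨903373518, 0, 0, 0, 0, 343580414, 0, 0, 0, ⟨0, 0⟩, 0⟩, 0, 0⟩ 0 0) (.cut .s 14383616 (.pos 45 .mp ⟨⟨906456295, 0, 0, 0, 0, 329846721, 0, 0, 0, ⟨0, 0⟩, 0⟩, 0, 0⟩ 0 0) (.pos 45 .mp ⟨⟨908519390, 0, 0, 0, 0, 330648548, 0, 0, 0, ⟨0, 0⟩, 0⟩, 0, 0⟩ 0 0))) (.pos 45 .mp ⟨⟨901126518, 0, 0, 0, 0, 0, 0, 0, 0, ⟨0, 0⟩, 0⟩, 0, 0⟩ 0 0))) (.cut .d (-4096) (.pos 45 .mp ⟨⟨891554296, 0, 0, 0, 0, 381374478, 0,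 0, 0, ⟨0, 0⟩, 0⟩, 0, 0⟩ 0 0) (.cut .l 153791 (.cut .d (-2048) (.pos 45 .mp ⟨⟨907485986, 0, 0, 0, 0, 345286455, 0, 0, 0, ⟨0, 0⟩, 0⟩, 0, 0⟩ 0 0) (.cut .s 14388736 (.pos 45 .mp ⟨⟨910585001, 0, 0, 0, 0, 331465154, 0, 0, 0, ⟨0, 0⟩, 0⟩, 0, 0⟩ 0 0) (.pos 45 .mp ⟨⟨912653095, 0, 0, 0, 0, 332296655, 0, 0, 0, ⟨0, 0⟩, 0⟩, 0, 0⟩ 0 0))) (.pos 45 .mp ⟨⟨905232720, 0, 0, 0, 0, 0, 0, 0, 0, ⟨0, 0⟩, 0⟩, 0, 0⟩ 0 0)))) (.cut .s 14386176 (.pos 46 .mp ⟨⟨948772634, 0, 0, 0, 0, 257810389, 0, 0, 0, ⟨0, 0⟩, 0⟩, 0, 0⟩ 0 0) (.pos 46 .mp ⟨⟨953192737, 0, 0, 0, 0, 258911146, 0, 0, 0, ⟨0, 0⟩, 0⟩, 0, 0⟩ 0 0))) (.cut .v 16809984 (.cut .s 14396416 (.cut .d (-4096) (.pos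 45 .mp ⟨⟨895624099, 0, 0, 0, 0, 383281688, 0, 0, 0, ⟨0, 0⟩, 0⟩, 0, 0⟩ 0 0) (.cut .l 153791 (.cut .d (-2048) (.pos 45 .mp ⟨⟨911655909, 0, 0, 0, 0, 346945893, 0, 0, 0, ⟨0, 0⟩, 0⟩, 0, 0⟩ 0 0) (.cut .s 14393856 (.pos 45 .mp ⟨⟨914723640, 0, 0, 0, 0, 333143169, 0, 0, 0, ⟨0, 0⟩, 0⟩, 0, 0⟩ 0 0) (.pos 45 .mp ⟨⟨916796601, 0, 0, 0, 0, 334004815, 0, 0, 0, ⟨0, 0⟩, 0⟩, 0, 0⟩ 0 0))) (.pos 45 .mp ⟨⟨909362266, 0, 0, 0, 0, 0, 0, 0, 0, ⟨0, 0⟩, 0⟩, 0, 0⟩ 0 0))) (.cut .d (-4096) (.pos 45 .mp ⟨⟨899717205, 0, 0, 0, 0, 385228095, 0, 0, 0, ⟨0, 0⟩, 0⟩, 0, 0⟩ 0 0) (.cut .l 153791 (.cut .d (-2048) (.pos 45 .mp ⟨⟨915884213, 0, 0, 0, 0, 348556976, 0, 0, 0, ⟨0, 0⟩,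 0⟩, 0, 0⟩ 0 0) (.cut .s 14398976 (.pos 45 .mp ⟨⟨918871946, 0, 0, 0, 0, 334881713, 0, 0, 0, ⟨0, 0⟩, 0⟩, 0, 0⟩ 0 0) (.pos 45 .mp ⟨⟨920949641, 0, 0, 0, 0, 335773982, 0, 0, 0, ⟨0, 0⟩, 0⟩, 0, 0⟩ 0 0))) (.pos 45 .mp ⟨⟨913515303, 0, 0, 0, 0, 0, 0, 0, 0, ⟨0, 0⟩, 0⟩, 0, 0⟩ 0 0)))) (.cut .s 14396416 (.pos 46 .mp ⟨⟨957714000, 0, 0, 0, 0, 259890095, 0, 0, 0, ⟨0, 0⟩, 0⟩, 0, 0⟩ 0 0) (.pos 46 .mp ⟨⟨962338379, 0, 0, 0, 0, 260743632, 0, 0, 0, ⟨0, 0⟩, 0⟩, 0, 0⟩ 0 0))))) (.pos 44 .mp ⟨⟨1087972501, 0, 0, 0, 0, 0, 0, 0, 0, ⟨0, 0⟩, 0⟩, 0, 0⟩ 0 0))) (.cut .s 14442496 (.cut .v 16842752 (.cut .s 14422016 (.cut .s 14411776 (.cut .v 16809984 (.cut .s 14406656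 (.cut .d (-4096) (.pos 45 .mp ⟨⟨903833762, 0, 0, 0, 0, 387213964, 0, 0, 0, ⟨0, 0⟩, 0⟩, 0, 0⟩ 0 0) (.cut .s 14404096 (.cut .s 14402816 (.pos 45 .mp ⟨⟨927506395, 0, 0, 0, 0, 327329809, 0, 0, 0, ⟨0, 0⟩, 0⟩, 0, 0⟩ 0 0) (.pos 45 .mp ⟨⟨928539988, 0, 0, 0, 0, 327802591, 0, 0, 0, ⟨0, 0⟩, 0⟩, 0, 0⟩ 0 0)) (.pos 45 .mp ⟨⟨931081310, 0, 0, 0, 0, 326015167, 0, 0, 0, ⟨0, 0⟩, 0⟩, 0, 0⟩ 0 0))) (.cut .d (-4096) (.pos 45 .mp ⟨⟨907973918, 0, 0, 0, 0, 389239564, 0, 0, 0, ⟨0, 0⟩, 0⟩, 0, 0⟩ 0 0) (.cut .s 14409216 (.pos 45 .mp ⟨⟨933213815, 0, 0, 0, 0, 326851923, 0, 0, 0, ⟨0, 0⟩, 0⟩, 0, 0⟩ 0 0) (.pos 45 .mp ⟨⟨935352492, 0, 0, 0, 0, 327695680, 0, 0, 0, ⟨0, 0⟩,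 0⟩, 0, 0⟩ 0 0)))) (.cut .s 14406656 (.pos 46 .mp ⟨⟨967067846, 0, 0, 0, 0, 261468121, 0, 0, 0, ⟨0, 0⟩, 0⟩, 0, 0⟩ 0 0) (.pos 46 .mp ⟨⟨971904390, 0, 0, 0, 0, 262059897, 0, 0, 0, ⟨0, 0⟩, 0⟩, 0, 0⟩ 0 0))) (.cut .v 16809984 (.cut .s 14416896 (.cut .d (-4096) (.pos 45 .mp ⟨⟨912137825, 0, 0, 0, 0, 391305164, 0, 0, 0, ⟨0, 0⟩, 0⟩, 0, 0⟩ 0 0) (.cut .s 14414336 (.pos 45 .mp ⟨⟨937497360, 0, 0, 0, 0, 328546437, 0, 0, 0, ⟨0, 0⟩, 0⟩, 0, 0⟩ 0 0) (.pos 45 .mp ⟨⟨939648440, 0, 0, 0, 0, 329404194, 0, 0, 0, ⟨0, 0⟩, 0⟩, 0, 0⟩ 0 0))) (.cut .d (-4096) (.pos 45 .mp ⟨⟨916325633, 0, 0, 0, 0, 393411037, 0, 0, 0, ⟨0, 0⟩, 0⟩, 0, 0⟩ 0 0) (.cut .s 14419456 (.pos 45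 .mp ⟨⟨941805752, 0, 0, 0, 0, 330268950, 0, 0, 0, ⟨0, 0⟩, 0⟩, 0, 0⟩ 0 0) (.pos 45 .mp ⟨⟨943969314, 0, 0, 0, 0, 331140705, 0, 0, 0, ⟨0, 0⟩, 0⟩, 0, 0⟩ 0 0)))) (.cut .s 14416896 (.pos 46 .mp ⟨⟨976850013, 0, 0, 0, 0, 262515263, 0, 0, 0, ⟨0, 0⟩, 0⟩, 0, 0⟩ 0 0) (.pos 46 .mp ⟨⟨981906733, 0, 0, 0, 0, 262830492, 0, 0, 0, ⟨0, 0⟩, 0⟩, 0, 0⟩ 0 0)))) (.cut .s 14432256 (.cut .v 16809984 (.cut .s 14427136 (.cut .d (-4096) (.pos 45 .mp ⟨⟨920537496, 0, 0, 0, 0, 395557457, 0, 0, 0, ⟨0, 0⟩, 0⟩, 0, 0⟩ 0 0) (.cut .s 14424576 (.pos 45 .mp ⟨⟨946139148, 0, 0, 0, 0, 332019457, 0, 0, 0, ⟨0, 0⟩, 0⟩, 0, 0⟩ 0 0) (.pos 45 .mp ⟨⟨948315273, 0, 0, 0, 0, 332905206, 0,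 0, 0, ⟨0, 0⟩, 0⟩, 0, 0⟩ 0 0))) (.cut .d (-4096) (.pos 45 .mp ⟨⟨924773568, 0, 0, 0, 0, 397744701, 0, 0, 0, ⟨0, 0⟩, 0⟩, 0, 0⟩ 0 0) (.cut .s 14429696 (.pos 45 .mp ⟨⟨950497710, 0, 0, 0, 0, 333797951, 0, 0, 0, ⟨0, 0⟩, 0⟩, 0, 0⟩ 0 0) (.pos 45 .mp ⟨⟨952686479, 0, 0, 0, 0, 334697690, 0, 0, 0, ⟨0, 0⟩, 0⟩, 0, 0⟩ 0 0)))) (.cut .s 14427136 (.pos 46 .mp ⟨⟨987076585, 0, 0, 0, 0, 263001822, 0, 0, 0, ⟨0, 0⟩, 0⟩, 0, 0⟩ 0 0) (.pos 46 .mp ⟨⟨992361617, 0, 0, 0, 0, 263025463, 0, 0, 0, ⟨0, 0⟩, 0⟩, 0, 0⟩ 0 0))) (.cut .v 16809984 (.cut .s 14437376 (.cut .d (-4096) (.pos 45 .mp ⟨⟨929034004, 0, 0, 0, 0, 399973049, 0, 0, 0, ⟨0, 0⟩, 0⟩, 0, 0⟩ 0 0) (.cut .s 14434816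 (.pos 45 .mp ⟨⟨954881599, 0, 0, 0, 0, 335604423, 0, 0, 0, ⟨0, 0⟩, 0⟩, 0, 0⟩ 0 0) (.pos 45 .mp ⟨⟨957083093, 0, 0, 0, 0, 336518148, 0, 0, 0, ⟨0, 0⟩, 0⟩, 0, 0⟩ 0 0))) (.cut .d (-4096) (.pos 45 .mp ⟨⟨933318963, 0, 0, 0, 0, 402242783, 0, 0, 0, ⟨0, 0⟩, 0⟩, 0, 0⟩ 0 0) (.cut .s 14439936 (.pos 45 .mp ⟨⟨959290979, 0, 0, 0, 0, 337438865, 0, 0, 0, ⟨0, 0⟩, 0⟩, 0, 0⟩ 0 0) (.pos 45 .mp ⟨⟨961505280, 0, 0, 0, 0, 338366571, 0, 0, 0, ⟨0, 0⟩, 0⟩, 0, 0⟩ 0 0)))) (.cut .s 14437376 (.pos 46 .mp ⟨⟨997763897, 0, 0, 0, 0, 262897589, 0, 0, 0, ⟨0, 0⟩, 0⟩, 0, 0⟩ 0 0) (.pos 46 .mp ⟨⟨1003285506, 0, 0, 0, 0, 262614344, 0, 0, 0, ⟨0, 0⟩, 0⟩, 0, 0⟩ 0 0))))) (.pos 44 .mp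 ⟨⟨1128804071, 0, 0, 0, 0, 0, 0, 0, 0, ⟨0, 0⟩, 0⟩, 0, 0⟩ 0 0)) (.cut .v 16842752 (.cut .s 14462976 (.cut .s 14452736 (.cut .v 16809984 (.cut .s 14447616 (.cut .d (-4096) (.pos 45 .mp ⟨⟨937628602, 0, 0, 0, 0, 404554187, 0, 0, 0, ⟨0, 0⟩, 0⟩, 0, 0⟩ 0 0) (.cut .s 14445056 (.pos 45 .mp ⟨⟨963726015, 0, 0, 0, 0, 339301266, 0, 0, 0, ⟨0, 0⟩, 0⟩, 0, 0⟩ 0 0) (.pos 45 .mp ⟨⟨965953206, 0, 0, 0, 0, 340242948, 0, 0, 0, ⟨0, 0⟩, 0⟩, 0, 0⟩ 0 0))) (.cut .d (-4096) (.pos 45 .mp ⟨⟨941963081, 0, 0, 0, 0, 406907547, 0, 0, 0, ⟨0, 0⟩, 0⟩, 0, 0⟩ 0 0) (.cut .s 14450176 (.pos 45 .mp ⟨⟨968186872, 0, 0, 0, 0, 341191615, 0, 0, 0, ⟨0, 0⟩, 0⟩, 0, 0⟩ 0 0) (.pos 45 .mp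 ⟨⟨970427037, 0, 0, 0, 0, 342147266, 0, 0, 0, ⟨0, 0⟩, 0⟩, 0, 0⟩ 0 0)))) (.cut .s 14447616 (.pos 46 .mp ⟨⟨1008928542, 0, 0, 0, 0, 262171838, 0, 0, 0, ⟨0, 0⟩, 0⟩, 0, 0⟩ 0 0) (.pos 46 .mp ⟨⟨1014695120, 0, 0, 0, 0, 261566145, 0, 0, 0, ⟨0, 0⟩, 0⟩, 0, 0⟩ 0 0))) (.cut .v 16809984 (.cut .s 14457856 (.cut .d (-4096) (.pos 45 .mp ⟨⟨946322561, 0, 0, 0, 0, 409303154, 0, 0, 0, ⟨0, 0⟩, 0⟩, 0, 0⟩ 0 0) (.cut .s 14455296 (.pos 45 .mp ⟨⟨972673719, 0, 0, 0, 0, 343109898, 0, 0, 0, ⟨0, 0⟩, 0⟩, 0, 0⟩ 0 0) (.pos 45 .mp ⟨⟨974883999, 0, 0, 0, 0, 344169517, 0, 0, 0, ⟨0, 0⟩, 0⟩, 0, 0⟩ 0 0))) (.cut .s 14460416 (.pos 45 .mp ⟨⟨966051430, 0, 0, 0, 0, 368945113, 0,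 0, 0, ⟨0, 0⟩, 0⟩, 0, 0⟩ 0 0) (.pos 45 .mp ⟨⟨968660398, 0, 0, 0, 0, 369214402, 0, 0, 0, ⟨0, 0⟩, 0⟩, 0, 0⟩ 0 0))) (.cut .s 14457856 (.pos 46 .mp ⟨⟨1020587371, 0, 0, 0, 0, 260793310, 0, 0, 0, ⟨0, 0⟩, 0⟩, 0, 0⟩ 0 0) (.pos 46 .mp ⟨⟨1026607445, 0, 0, 0, 0, 259849338, 0, 0, 0, ⟨0, 0⟩, 0⟩, 0, 0⟩ 0 0)))) (.cut .s 14473216 (.cut .v 16809984 (.cut .d (-4096) (.pos 45 .mp ⟨⟨955117177, 0, 0, 0, 0, 420078691, 0, 0, 0, ⟨0, 0⟩, 0⟩, 0, 0⟩ 0 0) (.cut .l 153791 (.cut .v 16793600 (.cut .s 14468096 (.cut .s 14465536 (.pos 47 .mp ⟨⟨983922966, 0, 0, 0, 0, 342346713, 0, 0, 0, ⟨0, 0⟩, 0⟩, 0, 0⟩ 0 0) (.pos 47 .mp ⟨⟨986673155, 0, 0, 0, 0, 342413164, 0, 0, 0,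 ⟨0, 0⟩, 0⟩, 0, 0⟩ 0 0)) (.pos 47 .mp ⟨⟨975559646, 0, 0, 0, 0, 372407885, 0, 0, 0, ⟨0, 0⟩, 0⟩, 0, 0⟩ 0 0)) (.pos 48 .mp ⟨⟨1068086321, 0, 0, 0, 0, 193745957, 0, 0, 0, ⟨0, 0⟩, 0⟩, 0, 0⟩ 0 0)) (.pos 45 .mp ⟨⟨967765666, 0, 0, 0, 0, 364259965, 0, 0, 0, ⟨0, 0⟩, 0⟩, 0, 0⟩ 0 0))) (.cut .s 14468096 (.pos 46 .mp ⟨⟨1032757507, 0, 0, 0, 0, 258730205, 0, 0, 0, ⟨0, 0⟩, 0⟩, 0, 0⟩ 0 0) (.pos 46 .mp ⟨⟨1039039740, 0, 0, 0, 0, 257431848, 0, 0, 0, ⟨0, 0⟩, 0⟩, 0, 0⟩ 0 0))) (.cut .v 16809984 (.cut .d (-4096) (.pos 45 .mp ⟨⟨964013769, 0, 0, 0, 0, 425262830, 0, 0, 0, ⟨0, 0⟩, 0⟩, 0, 0⟩ 0 0) (.cut .l 153791 (.cut .v 16793600 (.cut .s 14478336 (.pos 47 .mp ⟨⟨981376552,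 0, 0, 0, 0, 371918568, 0, 0, 0, ⟨0, 0⟩, 0⟩, 0, 0⟩ 0 0) (.pos 47 .mp ⟨⟨987903290, 0, 0, 0, 0, 370081770, 0, 0, 0, ⟨0, 0⟩, 0⟩, 0, 0⟩ 0 0)) (.pos 48 .mp ⟨⟨1081329393, 0, 0, 0, 0, 189941195, 0, 0, 0, ⟨0, 0⟩, 0⟩, 0, 0⟩ 0 0)) (.pos 45 .mp ⟨⟨976735152, 0, 0, 0, 0, 367927856, 0, 0, 0, ⟨0, 0⟩, 0⟩, 0, 0⟩ 0 0))) (.cut .s 14478336 (.pos 46 .mp ⟨⟨1045456344, 0, 0, 0, 0, 255950169, 0, 0, 0, ⟨0, 0⟩, 0⟩, 0, 0⟩ 0 0) (.pos 46 .mp ⟨⟨1052009537, 0, 0, 0, 0, 254281037, 0, 0, 0, ⟨0, 0⟩, 0⟩, 0, 0⟩ 0 0))))) (.pos 44 .mp ⟨⟨1172002615, 0, 0, 0, 0, 0, 0, 0, 0, ⟨0, 0⟩, 0⟩, 0, 0⟩ 0 0)))) (.cut .s 14401536 (.pos 36 .mp ⟨⟨1084627827, 0, 0, 0, 0, 0, 0, 0, 0, ⟨0, 0⟩,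 0⟩, 0, 0⟩ 0 0) (.pos 36 .mp ⟨⟨1167418771, 0, 0, 0, 0, 0, 0, 0, 0, ⟨0, 0⟩, 0⟩, 0, 0⟩ 0 0)))))))) (.pos 32 .mp ⟨⟨1302918441, 0, 0, 0, 0, 0, 0, 0, 0, ⟨0, 0⟩, 0⟩, 0, 0⟩ 0 0))) (.void 30 ⟨⟨100000, 0, 0, 0, 0, 0, 0, 0, 0, ⟨0, 0⟩, 0⟩, 0, 0⟩ 0 0)) (.void 28 ⟨⟨100000, 0, 0, 0, 0, 0, 0, 0, 0, ⟨0, 0⟩, 0⟩, 0, 0⟩ 0 0)))) (.void 26 ⟨⟨100000, 0, 0, 0, 0, 0, 0, 0, 0, ⟨0, 0⟩, 0⟩, 0, 0⟩ 0 0))) (.void 24 ⟨⟨100000, 0, 0, 0, 0, 0, 0, 0, 0, ⟨0, 0⟩, 0⟩, 0, 0⟩ 0 0))) (.void 22 ⟨⟨100000, 0, 0, 0, 0, 0, 0, 0, 0, ⟨0, 0⟩, 0⟩, 0, 0⟩ 0 0))) (.void 103 ⟨⟨100000, 0, 0, 0, 0, 0, 0, 0, 0, ⟨0, 0⟩, 0⟩, 0, 0⟩ 0 0)) (.void 114 ⟨⟨100000, 0, 0, 0, 0, 0, 0, 0, 0, ⟨0, 0⟩, 0⟩,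 0, 0⟩ 0 0)) (.void 125 ⟨⟨93786, 0, 0, 6230, 0, 0, 0, 0, 0, ⟨0, 0⟩, 0⟩, 0, 0⟩ 0 0))) (.cut .v 16777216 (.cut .v 8388608 (.cut .v 4194304 (.cut .v 2097152 (.cut .v 1048576 (.pos 119 .pm ⟨⟨0, 0, 34078865, 0, 0, 0, 0, 0, 0, ⟨0, 0⟩, 0⟩, 0, 1680⟩ 0 0) (.pos 120 .pm ⟨⟨0, 0, 54993935, 0, 0, 0, 0, 0, 0, ⟨0, 0⟩, 0⟩, 0, 6323⟩ 0 0)) (.pos 118 .pm ⟨⟨0, 0, 90043020, 0, 0, 0, 0, 0, 0, ⟨0, 0⟩, 0⟩, 0, 11944⟩ 0 0)) (.pos 5 .pm ⟨⟨0, 0, 277157934, 0, 0, 0, 0, 0, 0, ⟨0, 0⟩, 0⟩, 0, 21499⟩ 0 0)) (.pos 3 .pm ⟨⟨0, 0, 0, 0, 0, 0, 0, 0, 0, ⟨0, 0⟩, 0⟩, 0, 0⟩ 0 0)) (.cut .v 268435456 (.cut .v 67108864 (.cut .d 1439693 (.cut .v 33554432 (.cut .d 719846 (.cut .v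 25165824 (.cut .d 359923 (.cut .d 179961 (.cut .v 20971520 (.cut .v 18874368 (.cut .d 89980 (.cut .d 44990 (.cut .v 17825792 (.cut .v 17301504 (.cut .s 14401536 (.pos 29 .pp ⟨⟨854562253, 0, 0, 0, 0, 0, 0, 0, 0, ⟨0, 0⟩, 0⟩, 23188864, 0⟩ 0 0) (.pos 29 .pp ⟨⟨916657657, 0, 0, 0, 0, 0, 0, 0, 0, ⟨0, 0⟩, 0⟩, 25258081, 0⟩ 0 0)) (.pos 30 .pp ⟨⟨1120622798, 0, 0, 0, 0, 0, 0, 0, 0, ⟨0, 0⟩, 0⟩, 0, 0⟩ 0 0)) (.pos 28 .pp ⟨⟨1252400752, 0, 0, 0, 0, 0, 0, 0, 0, ⟨0, 0⟩, 0⟩, 0, 0⟩ 0 0)) (.pos 25 .pp ⟨⟨961013326, 0, 0, 0, 0, 0, 0, 0, 0, ⟨0, 0⟩, 0⟩, 0, 2703⟩ 0 0)) (.pos 25 .pp ⟨⟨0, 0, 0, 0, 0, 0, 0, 0, 0, ⟨0, 0⟩, 0⟩, 0, 56909⟩ 0 0)) (.cut .d 89980 (.cut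 .v 19922944 (.pos 53 .pp ⟨⟨1364435027, 0, 0, 0, 0, 0, 0, 0, 0, ⟨0, 0⟩, 0⟩, 0, 0⟩ 0 0) (.pos 54 .pp ⟨⟨1543497926, 0, 0, 0, 0, 0, 0, 0, 0, ⟨0, 0⟩, 0⟩, 0, 0⟩ 0 0)) (.pos 26 .pp ⟨⟨1207651038, 0, 0, 0, 0, 0, 0, 0, 0, ⟨0, 0⟩, 0⟩, 0, 0⟩ 0 0))) (.cut .v 23068672 (.cut .d 89980 (.void 55 ⟨⟨0, 0, 0, 0, 0, 0, 0, 0, 0, ⟨0, 0⟩, 0⟩, 100000, 0⟩ 0 0) (.cut .d 134970 (.pos 55 .pp ⟨⟨0, 0, 0, 0, 0, 0, 0, 0, 0, ⟨0, 0⟩, 0⟩, 205191177, 0⟩ 0 0) (.pos 55 .pp ⟨⟨0, 0, 0, 0, 0, 0, 3661, 0, 0, ⟨0, 0⟩, 0⟩, 179267696, 0⟩ 0 0))) (.pos 56 .pp ⟨⟨0, 0, 0, 0, 0, 0, 0, 0, 0, ⟨0, 0⟩, 0⟩, 251165393, 0⟩ 0 0))) (.cut .v 20971520 (.pos 23 .pp ⟨⟨0, 0, 0, 0, 0, 0, 0, 0, 0, ⟨0,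 0⟩, 0⟩, 0, 59720⟩ 0 0) (.pos 24 .pp ⟨⟨0, 0, 0, 0, 0, 0, 9925, 0, 0, ⟨0, 0⟩, 0⟩, 170676441, 0⟩ 0 0))) (.pos 21 .pp ⟨⟨0, 0, 0, 0, 0, 0, 0, 0, 0, ⟨0, 0⟩, 0⟩, 0, 64497⟩ 0 0)) (.cut .d 359923 (.cut .d 179961 (.void 22 ⟨⟨0, 0, 0, 0, 0, 0, 0, 0, 0, ⟨0, 0⟩, 0⟩, 100000, 0⟩ 0 0) (.pos 22 .pp ⟨⟨0, 0, 0, 0, 0, 0, 0, 0, 0, ⟨0, 0⟩, 0⟩, 255152735, 0⟩ 0 0)) (.pos 22 .pp ⟨⟨0, 0, 0, 0, 0, 0, 4137, 0, 0, ⟨0, 0⟩, 0⟩, 179560808, 0⟩ 0 0))) (.pos 20 .pp ⟨⟨0, 0, 0, 0, 0, 0, 0, 0, 0, ⟨0, 0⟩, 0⟩, 0, 71664⟩ 0 0)) (.cut .d 719846 (.cut .v 50331648 (.pos 106 .pp ⟨⟨0, 0, 0, 0, 0, 0, 0, 0, 0, ⟨0, 0⟩, 0⟩, 428469758, 0⟩ 0 0) (.void 107 ⟨⟨0, 0, 0, 0, 0, 0, 0, 0, 0,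 ⟨0, 0⟩, 0⟩, 100000, 0⟩ 0 0)) (.pos 103 .pp ⟨⟨0, 0, 0, 0, 0, 0, 0, 0, 0, ⟨0, 0⟩, 0⟩, 266358900, 0⟩ 0 0))) (.pos 102 .pp ⟨⟨0, 0, 0, 0, 0, 0, 0, 0, 0, ⟨0, 0⟩, 0⟩, 0, 53748⟩ 0 0)) (.void 114 ⟨⟨0, 0, 0, 48781, 0, 0, 0, 0, 0, ⟨0, 0⟩, 0⟩, 51219, 0⟩ 0 0)) (.void 125 ⟨⟨0, 0, 0, 0, 0, 0, 0, 0, 0, ⟨0, 0⟩, 0⟩, 100000, 0⟩ 0 0)))),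
    by decide +kernel⟩

def covers29 : cell.Covers Vale.Agent.P237.Petty.Cor.Grid.N12.table row29.1 :=
  ⟨(.cut .d 0 (.cut .v 16777216 (.cut .v 8388608 (.void 2 ⟨⟨0, 0, 100000, 0, 0, 0, 0, 0, 0, ⟨0, 0⟩, 0⟩, 0, 0⟩ 0 0) (.cut .d (-8388608) (.void 3 ⟨⟨100000, 0, 0, 0, 0, 0, 0, 0, 0, ⟨0, 0⟩, 0⟩, 0, 0⟩ 0 0) (.cut .d (-4194304) (.void 3 ⟨⟨100000, 0, 0, 0, 0, 0, 0, 0, 0, ⟨0, 0⟩, 0⟩, 0, 0⟩ 0 0) (.cut .d (-2097152) (.void 3 ⟨⟨100000, 0, 0, 0, 0, 0, 0, 0, 0, ⟨0, 0⟩, 0⟩, 0, 0⟩ 0 0) (.cut .d (-1048576) (.void 3 ⟨⟨79527, 0, 20473, 0, 0, 0, 0, 0, 0, ⟨0, 0⟩, 0⟩, 0, 0⟩ 0 0) (.cut .d (-524288) (.void 3 ⟨⟨0, 0, 0, 0, 0, 100000, 0, 0, 0, ⟨0, 0⟩, 0⟩, 0,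 0⟩ 0 0) (.cut .d (-262144) (.void 3 ⟨⟨0, 0, 0, 0, 0, 100000, 0, 0, 0, ⟨0, 0⟩, 0⟩, 0, 0⟩ 0 0) (.cut .s 14565376 (.pos 3 .mm ⟨⟨0, 0, 0, 0, 0, 2352146955, 0, 0, 0, ⟨0, 0⟩, 0⟩, 0, 0⟩ 0 0) (.pos 3 .mm ⟨⟨0, 0, 0, 0, 0, 2555749057, 0, 0, 0, ⟨0, 0⟩, 0⟩, 0, 0⟩ 0 0))))))))) (.cut .v 268435456 (.cut .v 67108864 (.cut .v 33554432 (.cut .d (-8388608) (.void 20 ⟨⟨100000, 0, 0, 0, 0, 0, 0, 0, 0, ⟨0, 0⟩, 0⟩, 0, 0⟩ 0 0) (.cut .v 25165824 (.cut .d (-4194304) (.void 21 ⟨⟨100000, 0, 0, 0, 0, 0, 0, 0, 0, ⟨0, 0⟩, 0⟩, 0, 0⟩ 0 0) (.cut .v 20971520 (.cut .d (-2097152) (.void 23 ⟨⟨100000, 0, 0, 0, 0, 0, 0, 0, 0, ⟨0, 0⟩, 0⟩, 0, 0⟩ 0 0) (.cut .d (-1048576) (.void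 23 ⟨⟨100000, 0, 0, 0, 0, 0, 0, 0, 0, ⟨0, 0⟩, 0⟩, 0, 0⟩ 0 0) (.cut .v 18874368 (.cut .d (-524288) (.void 25 ⟨⟨100000, 0, 0, 0, 0, 0, 0, 0, 0, ⟨0, 0⟩, 0⟩, 0, 0⟩ 0 0) (.cut .v 17825792 (.cut .v 17301504 (.cut .d (-262144) (.void 29 ⟨⟨100000, 0, 0, 0, 0, 0, 0, 0, 0, ⟨0, 0⟩, 0⟩, 0, 0⟩ 0 0) (.cut .v 17039360 (.cut .d (-131072) (.void 31 ⟨⟨100000, 0, 0, 0, 0, 0, 0, 0, 0, ⟨0, 0⟩, 0⟩, 0, 0⟩ 0 0) (.cut .d (-65536) (.void 31 ⟨⟨100000, 0, 0, 0, 0, 0, 0, 0, 0, ⟨0, 0⟩, 0⟩, 0, 0⟩ 0 0) (.cut .d (-32768) (.void 31 ⟨⟨100000, 0, 0, 0, 0, 0, 0, 0, 0, ⟨0, 0⟩, 0⟩, 0, 0⟩ 0 0) (.cut .d (-16384) (.void 31 ⟨⟨100000, 0, 0, 0, 0, 0, 0, 0, 0, ⟨0, 0⟩, 0⟩, 0, 0⟩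 0 0) (.cut .d (-8192) (.void 31 ⟨⟨0, 0, 0, 0, 0, 100000, 0, 0, 0, ⟨0, 0⟩, 0⟩, 0, 0⟩ 0 0) (.cut .s 14565376 (.cut .v 16908288 (.cut .s 14524416 (.cut .v 16842752 (.cut .s 14503936 (.cut .s 14493696 (.cut .v 16809984 (.cut .d (-4096) (.pos 45 .mp ⟨⟨973016269, 0, 0, 0, 0, 430603740, 0, 0, 0, ⟨0, 0⟩, 0⟩, 0, 0⟩ 0 0) (.cut .l 153791 (.cut .d (-2048) (.pos 45 .mp ⟨⟨993966231, 0, 0, 0, 0, 382999577, 0, 0, 0, ⟨0, 0⟩, 0⟩, 0, 0⟩ 0 0) (.cut .s 14488576 (.pos 45 .mp ⟨⟨996078583, 0, 0, 0, 0, 364698766, 0, 0, 0, ⟨0, 0⟩, 0⟩, 0, 0⟩ 0 0) (.pos 45 .mp ⟨⟨1001067713, 0, 0, 0, 0, 365314766, 0, 0, 0, ⟨0, 0⟩, 0⟩, 0, 0⟩ 0 0))) (.pos 45 .mp ⟨⟨991314125, 0, 0,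 0, 0, 362165101, 0, 0, 0, ⟨0, 0⟩, 0⟩, 0, 0⟩ 0 0))) (.pos 46 .mp ⟨⟨1088106675, 0, 0, 0, 0, 202198595, 0, 0, 0, ⟨0, 0⟩, 0⟩, 0, 0⟩ 0 0)) (.cut .v 16809984 (.cut .d (-4096) (.pos 45 .mp ⟨⟨982143441, 0, 0, 0, 0, 433715213, 0, 0, 0, ⟨0, 0⟩, 0⟩, 0, 0⟩ 0 0) (.cut .l 153791 (.cut .v 16793600 (.cut .s 14498816 (.pos 47 .mp ⟨⟨999157728, 0, 0, 0, 0, 380559601, 0, 0, 0, ⟨0, 0⟩, 0⟩, 0, 0⟩ 0 0) (.cut .s 14501376 (.pos 47 .mp ⟨⟨1017062778, 0, 0, 0, 0, 353356586, 0, 0, 0, ⟨0, 0⟩, 0⟩, 0, 0⟩ 0 0) (.pos 47 .mp ⟨⟨1018891285, 0, 0, 0, 0, 355145919, 0, 0, 0, ⟨0, 0⟩, 0⟩, 0, 0⟩ 0 0))) (.pos 48 .mp ⟨⟨1099648505, 0, 0, 0, 0, 197548520, 0, 0, 0, ⟨0, 0⟩, 0⟩, 0,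 0⟩ 0 0)) (.pos 45 .mp ⟨⟨1000618958, 0, 0, 0, 0, 365662885, 0, 0, 0, ⟨0, 0⟩, 0⟩, 0, 0⟩ 0 0))) (.cut .s 14498816 (.pos 46 .mp ⟨⟨1063847392, 0, 0, 0, 0, 263378961, 0, 0, 0, ⟨0, 0⟩, 0⟩, 0, 0⟩ 0 0) (.pos 46 .mp ⟨⟨1067394482, 0, 0, 0, 0, 267135886, 0, 0, 0, ⟨0, 0⟩, 0⟩, 0, 0⟩ 0 0)))) (.cut .s 14514176 (.cut .v 16809984 (.cut .d (-4096) (.pos 45 .mp ⟨⟨991381147, 0, 0, 0, 0, 437012405, 0, 0, 0, ⟨0, 0⟩, 0⟩, 0, 0⟩ 0 0) (.cut .l 153791 (.cut .s 14509056 (.cut .s 14506496 (.pos 45 .mp ⟨⟨1019021205, 0, 0, 0, 0, 360179144, 0, 0, 0, ⟨0, 0⟩, 0⟩, 0, 0⟩ 0 0) (.pos 45 .mp ⟨⟨1021412297, 0, 0, 0, 0, 360945183, 0, 0, 0, ⟨0, 0⟩, 0⟩, 0, 0⟩ 0 0)) (.cut .s 14511616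 (.pos 45 .mp ⟨⟨1023810691, 0, 0, 0, 0, 361719038, 0, 0, 0, ⟨0, 0⟩, 0⟩, 0, 0⟩ 0 0) (.pos 45 .mp ⟨⟨1026216411, 0, 0, 0, 0, 362500694, 0, 0, 0, ⟨0, 0⟩, 0⟩, 0, 0⟩ 0 0))) (.pos 45 .mp ⟨⟨1010033280, 0, 0, 0, 0, 369245662, 0, 0, 0, ⟨0, 0⟩, 0⟩, 0, 0⟩ 0 0))) (.cut .s 14509056 (.pos 46 .mp ⟨⟨1071046935, 0, 0, 0, 0, 270780511, 0, 0, 0, ⟨0, 0⟩, 0⟩, 0, 0⟩ 0 0) (.pos 46 .mp ⟨⟨1074807231, 0, 0, 0, 0, 274308276, 0, 0, 0, ⟨0, 0⟩, 0⟩, 0, 0⟩ 0 0))) (.cut .v 16809984 (.cut .s 14519296 (.cut .d (-4096) (.pos 45 .mp ⟨⟨1000730858, 0, 0, 0, 0, 434101465, 0, 0, 0, ⟨0, 0⟩, 0⟩, 0, 0⟩ 0 0) (.cut .s 14516736 (.pos 45 .mp ⟨⟨1028629481, 0, 0, 0, 0, 363631600, 0,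 0, 0, ⟨0, 0⟩, 0⟩, 0, 0⟩ 0 0) (.pos 45 .mp ⟨⟨1031049925, 0, 0, 0, 0, 364391834, 0, 0, 0, ⟨0, 0⟩, 0⟩, 0, 0⟩ 0 0))) (.cut .d (-4096) (.pos 45 .mp ⟨⟨1005448183, 0, 0, 0, 0, 435857166, 0, 0, 0, ⟨0, 0⟩, 0⟩, 0, 0⟩ 0 0) (.cut .s 14521856 (.pos 45 .mp ⟨⟨1033477770, 0, 0, 0, 0, 365160973, 0, 0, 0, ⟨0, 0⟩, 0⟩, 0, 0⟩ 0 0) (.pos 45 .mp ⟨⟨1035913038, 0, 0, 0, 0, 365939016, 0, 0, 0, ⟨0, 0⟩, 0⟩, 0, 0⟩ 0 0)))) (.cut .s 14519296 (.pos 46 .mp ⟨⟨1078677871, 0, 0, 0, 0, 277714576, 0, 0, 0, ⟨0, 0⟩, 0⟩, 0, 0⟩ 0 0) (.pos 46 .mp ⟨⟨1082661376, 0, 0, 0, 0, 280994770, 0, 0, 0, ⟨0, 0⟩, 0⟩, 0, 0⟩ 0 0))))) (.pos 44 .mp ⟨⟨1217760730, 0, 0, 0, 0, 0, 0, 0, 0, ⟨0, 0⟩,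 0⟩, 0, 0⟩ 0 0)) (.cut .v 16842752 (.cut .s 14544896 (.cut .s 14534656 (.cut .v 16809984 (.cut .s 14529536 (.cut .d (-4096) (.pos 45 .mp ⟨⟨1010194074, 0, 0, 0, 0, 437660707, 0, 0, 0, ⟨0, 0⟩, 0⟩, 0, 0⟩ 0 0) (.cut .s 14526976 (.pos 45 .mp ⟨⟨1038355756, 0, 0, 0, 0, 366725962, 0, 0, 0, ⟨0, 0⟩, 0⟩, 0, 0⟩ 0 0) (.pos 45 .mp ⟨⟨1040805947, 0, 0, 0, 0, 367521812, 0, 0, 0, ⟨0, 0⟩, 0⟩, 0, 0⟩ 0 0))) (.cut .d (-4096) (.pos 45 .mp ⟨⟨1014968723, 0, 0, 0, 0, 439512430, 0, 0, 0, ⟨0, 0⟩, 0⟩, 0, 0⟩ 0 0) (.cut .s 14532096 (.pos 45 .mp ⟨⟨1043263638, 0, 0, 0, 0, 368326564, 0, 0, 0, ⟨0, 0⟩, 0⟩, 0, 0⟩ 0 0) (.pos 45 .mp ⟨⟨1045728854, 0, 0, 0, 0, 369140217, 0,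 0, 0, ⟨0, 0⟩, 0⟩, 0, 0⟩ 0 0)))) (.cut .s 14529536 (.pos 46 .mp ⟨⟨1086760287, 0, 0, 0, 0, 284144171, 0, 0, 0, ⟨0, 0⟩, 0⟩, 0, 0⟩ 0 0) (.pos 46 .mp ⟨⟨1090977166, 0, 0, 0, 0, 287158053, 0, 0, 0, ⟨0, 0⟩, 0⟩, 0, 0⟩ 0 0))) (.cut .v 16809984 (.cut .s 14539776 (.cut .d (-4096) (.pos 45 .mp ⟨⟨1019772322, 0, 0, 0, 0, 441412681, 0, 0, 0, ⟨0, 0⟩, 0⟩, 0, 0⟩ 0 0) (.cut .s 14537216 (.pos 45 .mp ⟨⟨1048201619, 0, 0, 0, 0, 369962770, 0, 0, 0, ⟨0, 0⟩, 0⟩, 0, 0⟩ 0 0) (.pos 45 .mp ⟨⟨1050681959, 0, 0, 0, 0, 370794223, 0, 0, 0, ⟨0, 0⟩, 0⟩, 0, 0⟩ 0 0))) (.cut .d (-4096) (.pos 45 .mp ⟨⟨1024605068, 0, 0, 0, 0, 443361807, 0, 0, 0, ⟨0, 0⟩, 0⟩, 0, 0⟩ 0 0) (.cut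 .s 14542336 (.pos 45 .mp ⟨⟨1053169900, 0, 0, 0, 0, 371634574, 0, 0, 0, ⟨0, 0⟩, 0⟩, 0, 0⟩ 0 0) (.pos 45 .mp ⟨⟨1055665467, 0, 0, 0, 0, 372483821, 0, 0, 0, ⟨0, 0⟩, 0⟩, 0, 0⟩ 0 0)))) (.cut .s 14539776 (.pos 46 .mp ⟨⟨1095314598, 0, 0, 0, 0, 290031645, 0, 0, 0, ⟨0, 0⟩, 0⟩, 0, 0⟩ 0 0) (.pos 46 .mp ⟨⟨1099775185, 0, 0, 0, 0, 292760136, 0, 0, 0, ⟨0, 0⟩, 0⟩, 0, 0⟩ 0 0)))) (.cut .s 14555136 (.cut .v 16809984 (.cut .s 14550016 (.cut .d (-4096) (.pos 45 .mp ⟨⟨1029467157, 0, 0, 0, 0, 445360160, 0, 0, 0, ⟨0, 0⟩, 0⟩, 0, 0⟩ 0 0) (.cut .l 153791 (.cut .d (-2048) (.pos 45 .mp ⟨⟨1048354891, 0, 0, 0, 0, 401916707, 0, 0, 0, ⟨0, 0⟩, 0⟩, 0, 0⟩ 0 0) (.cut .s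 14547456 (.pos 45 .mp ⟨⟨1050981076, 0, 0, 0, 0, 387351402, 0, 0, 0, ⟨0, 0⟩, 0⟩, 0, 0⟩ 0 0) (.pos 45 .mp ⟨⟨1053539168, 0, 0, 0, 0, 388106053, 0, 0, 0, ⟨0, 0⟩, 0⟩, 0, 0⟩ 0 0))) (.pos 45 .mp ⟨⟨1045643407, 0, 0, 0, 0, 389853432, 0, 0, 0, ⟨0, 0⟩, 0⟩, 0, 0⟩ 0 0))) (.cut .d (-4096) (.pos 45 .mp ⟨⟨1034358788, 0, 0, 0, 0, 447408096, 0, 0, 0, ⟨0, 0⟩, 0⟩, 0, 0⟩ 0 0) (.cut .l 153791 (.cut .d (-2048) (.pos 45 .mp ⟨⟨1053030036, 0, 0, 0, 0, 404510375, 0, 0, 0, ⟨0, 0⟩, 0⟩, 0, 0⟩ 0 0) (.cut .s 14552576 (.pos 45 .mp ⟨⟨1056100343, 0, 0, 0, 0, 388879936, 0, 0, 0, ⟨0, 0⟩, 0⟩, 0, 0⟩ 0 0) (.pos 45 .mp ⟨⟨1058664551, 0, 0, 0, 0, 389673219, 0, 0, 0, ⟨0, 0⟩,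 0⟩, 0, 0⟩ 0 0))) (.pos 45 .mp ⟨⟨1050608452, 0, 0, 0, 0, 391845330, 0, 0, 0, ⟨0, 0⟩, 0⟩, 0, 0⟩ 0 0)))) (.cut .s 14550016 (.pos 46 .mp ⟨⟨1104361554, 0, 0, 0, 0, 295338668, 0, 0, 0, ⟨0, 0⟩, 0⟩, 0, 0⟩ 0 0) (.pos 46 .mp ⟨⟨1109076353, 0, 0, 0, 0, 297762344, 0, 0, 0, ⟨0, 0⟩, 0⟩, 0, 0⟩ 0 0))) (.cut .v 16809984 (.cut .s 14560256 (.cut .d (-4096) (.pos 45 .mp ⟨⟨1039280162, 0, 0, 0, 0, 449505973, 0, 0, 0, ⟨0, 0⟩, 0⟩, 0, 0⟩ 0 0) (.cut .l 153791 (.cut .d (-2048) (.pos 45 .mp ⟨⟨1057778653, 0, 0, 0, 0, 407044329, 0, 0, 0, ⟨0, 0⟩, 0⟩, 0, 0⟩ 0 0) (.cut .s 14557696 (.pos 45 .mp ⟨⟨1061231742, 0, 0, 0, 0, 390486072, 0, 0, 0, ⟨0, 0⟩, 0⟩, 0, 0⟩ 0 0) (.pos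 45 .mp ⟨⟨1063801866, 0, 0, 0, 0, 391318666, 0, 0, 0, ⟨0, 0⟩, 0⟩, 0, 0⟩ 0 0))) (.pos 45 .mp ⟨⟨1055603375, 0, 0, 0, 0, 393852721, 0, 0, 0, ⟨0, 0⟩, 0⟩, 0, 0⟩ 0 0))) (.cut .d (-4096) (.pos 45 .mp ⟨⟨1044231482, 0, 0, 0, 0, 451654152, 0, 0, 0, ⟨0, 0⟩, 0⟩, 0, 0⟩ 0 0) (.cut .l 153791 (.cut .d (-2048) (.pos 45 .mp ⟨⟨1062602004, 0, 0, 0, 0, 409516164, 0, 0, 0, ⟨0, 0⟩, 0⟩, 0, 0⟩ 0 0) (.cut .s 14562816 (.pos 45 .mp ⟨⟨1066374874, 0, 0, 0, 0, 392171173, 0, 0, 0, ⟨0, 0⟩, 0⟩, 0, 0⟩ 0 0) (.pos 45 .mp ⟨⟨1068950713, 0, 0, 0, 0, 393043766, 0, 0, 0, ⟨0, 0⟩, 0⟩, 0, 0⟩ 0 0))) (.pos 45 .mp ⟨⟨1060628382, 0, 0, 0, 0, 395875117, 0, 0, 0, ⟨0, 0⟩, 0⟩, 0, 0⟩ 0 0))))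 (.cut .s 14560256 (.pos 46 .mp ⟨⟨1113922250, 0, 0, 0, 0, 300026217, 0, 0, 0, ⟨0, 0⟩, 0⟩, 0, 0⟩ 0 0) (.pos 46 .mp ⟨⟨1118901938, 0, 0, 0, 0, 302125298, 0, 0, 0, ⟨0, 0⟩, 0⟩, 0, 0⟩ 0 0))))) (.pos 44 .mp ⟨⟨1263828345, 0, 0, 0, 0, 0, 0, 0, 0, ⟨0, 0⟩, 0⟩, 0, 0⟩ 0 0))) (.pos 36 .mp ⟨⟨1260461700, 0, 0, 0, 0, 0, 0, 0, 0, ⟨0, 0⟩, 0⟩, 0, 0⟩ 0 0)) (.cut .v 16908288 (.cut .s 14606336 (.cut .v 16842752 (.cut .s 14585856 (.cut .s 14575616 (.cut .d (-4096) (.cut .d (-6144) (.pos 43 .mp ⟨⟨1059409954, 0, 0, 0, 0, 453699740, 0, 0, 0, ⟨0, 0⟩, 0⟩, 0, 0⟩ 0 0) (.cut .l 153791 (.void 43 ⟨⟨0, 0, 0, 0, 0, 100000, 0, 0, 0, ⟨0, 0⟩, 0⟩, 0, 0⟩ 0 0) (.cut .s 14570496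 (.pos 43 .mp ⟨⟨1077904768, 0, 0, 0, 0, 383937031, 0, 0, 0, ⟨0, 0⟩, 0⟩, 0, 0⟩ 0 0) (.pos 43 .mp ⟨⟨1083075725, 0, 0, 0, 0, 385807895, 0, 0, 0, ⟨0, 0⟩, 0⟩, 0, 0⟩ 0 0)))) (.cut .v 16809984 (.cut .l 153791 (.cut .s 14570496 (.cut .d (-2048) (.pos 45 .mp ⟨⟨1067501362, 0, 0, 0, 0, 411923458, 0, 0, 0, ⟨0, 0⟩, 0⟩, 0, 0⟩ 0 0) (.cut .s 14567936 (.pos 45 .mp ⟨⟨1071529333, 0, 0, 0, 0, 393936621, 0, 0, 0, ⟨0, 0⟩, 0⟩, 0, 0⟩ 0 0) (.pos 45 .mp ⟨⟨1074110682, 0, 0, 0, 0, 394849913, 0, 0, 0, ⟨0, 0⟩, 0⟩, 0, 0⟩ 0 0))) (.cut .d (-2048) (.pos 45 .mp ⟨⟨1072478010, 0, 0, 0, 0, 414263765, 0, 0, 0, ⟨0, 0⟩, 0⟩, 0, 0⟩ 0 0) (.cut .s 14573056 (.pos 45 .mp ⟨⟨1076694707,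 0, 0, 0, 0, 395783820, 0, 0, 0, ⟨0, 0⟩, 0⟩, 0, 0⟩ 0 0) (.pos 45 .mp ⟨⟨1079281355, 0, 0, 0, 0, 396738520, 0, 0, 0, ⟨0, 0⟩, 0⟩, 0, 0⟩ 0 0)))) (.pos 45 .mp ⟨⟨1068902741, 0, 0, 0, 0, 392323360, 0, 0, 0, ⟨0, 0⟩, 0⟩, 0, 0⟩ 0 0)) (.pos 46 .mp ⟨⟨1271090179, 0, 0, 0, 0, 0, 0, 0, 0, ⟨0, 0⟩, 0⟩, 0, 0⟩ 0 0))) (.cut .d (-4096) (.cut .d (-6144) (.pos 43 .mp ⟨⟨1069592730, 0, 0, 0, 0, 458291752, 0, 0, 0, ⟨0, 0⟩, 0⟩, 0, 0⟩ 0 0) (.cut .l 153791 (.void 43 ⟨⟨0, 0, 0, 0, 0, 100000, 0, 0, 0, ⟨0, 0⟩, 0⟩, 0, 0⟩ 0 0) (.cut .s 14580736 (.pos 43 .mp ⟨⟨1088278530, 0, 0, 0, 0, 387713984, 0, 0, 0, ⟨0, 0⟩, 0⟩, 0, 0⟩ 0 0) (.pos 43 .mp ⟨⟨1093513404, 0, 0, 0, 0, 389655272,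 0, 0, 0, ⟨0, 0⟩, 0⟩, 0, 0⟩ 0 0)))) (.cut .v 16809984 (.cut .l 153791 (.cut .s 14580736 (.cut .d (-2048) (.pos 45 .mp ⟨⟨1077533241, 0, 0, 0, 0, 416534619, 0, 0, 0, ⟨0, 0⟩, 0⟩, 0, 0⟩ 0 0) (.cut .s 14578176 (.pos 45 .mp ⟨⟨1081870574, 0, 0, 0, 0, 397714193, 0, 0, 0, ⟨0, 0⟩, 0⟩, 0, 0⟩ 0 0) (.pos 45 .mp ⟨⟨1084462309, 0, 0, 0, 0, 398711021, 0, 0, 0, ⟨0, 0⟩, 0⟩, 0, 0⟩ 0 0))) (.cut .d (-2048) (.pos 45 .mp ⟨⟨1082668359, 0, 0, 0, 0, 418733532, 0, 0, 0, ⟨0, 0⟩, 0⟩, 0, 0⟩ 0 0) (.cut .s 14583296 (.pos 45 .mp ⟨⟨1087056506, 0, 0, 0, 0, 399729185, 0, 0, 0, ⟨0, 0⟩, 0⟩, 0, 0⟩ 0 0) (.pos 45 .mp ⟨⟨1089653111, 0, 0, 0, 0, 400768870, 0, 0, 0, ⟨0, 0⟩, 0⟩,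 0, 0⟩ 0 0)))) (.pos 45 .mp ⟨⟨1079126205, 0, 0, 0, 0, 396398039, 0, 0, 0, ⟨0, 0⟩, 0⟩, 0, 0⟩ 0 0)) (.pos 46 .mp ⟨⟨1283263196, 0, 0, 0, 0, 0, 0, 0, 0, ⟨0, 0⟩, 0⟩, 0, 0⟩ 0 0)))) (.cut .s 14596096 (.cut .d (-4096) (.cut .d (-6144) (.pos 43 .mp ⟨⟨1079900680, 0, 0, 0, 0, 463089785, 0, 0, 0, ⟨0, 0⟩, 0⟩, 0, 0⟩ 0 0) (.cut .l 153791 (.void 43 ⟨⟨0, 0, 0, 0, 0, 100000, 0, 0, 0, ⟨0, 0⟩, 0⟩, 0, 0⟩ 0 0) (.cut .s 14590976 (.pos 43 .mp ⟨⟨1098780567, 0, 0, 0, 0, 391631732, 0, 0, 0, ⟨0, 0⟩, 0⟩, 0, 0⟩ 0 0) (.pos 43 .mp ⟨⟨1104080243, 0, 0, 0, 0, 393643334, 0, 0, 0, ⟨0, 0⟩, 0⟩, 0, 0⟩ 0 0)))) (.cut .v 16809984 (.cut .l 153791 (.cut .s 14590976 (.cut .d (-2048)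 (.pos 45 .mp ⟨⟨1087884677, 0, 0, 0, 0, 420857996, 0, 0, 0, ⟨0, 0⟩, 0⟩, 0, 0⟩ 0 0) (.cut .s 14588416 (.pos 45 .mp ⟨⟨1092252067, 0, 0, 0, 0, 401830260, 0, 0, 0, ⟨0, 0⟩, 0⟩, 0, 0⟩ 0 0) (.pos 45 .mp ⟨⟨1094853319, 0, 0, 0, 0, 402913543, 0, 0, 0, ⟨0, 0⟩, 0⟩, 0, 0⟩ 0 0))) (.cut .d (-2048) (.pos 45 .mp ⟨⟨1093183521, 0, 0, 0, 0, 422905480, 0, 0, 0, ⟨0, 0⟩, 0⟩, 0, 0⟩ 0 0) (.cut .s 14593536 (.pos 45 .mp ⟨⟨1097456811, 0, 0, 0, 0, 404018905, 0, 0, 0, ⟨0, 0⟩, 0⟩, 0, 0⟩ 0 0) (.pos 45 .mp ⟨⟨1100062485, 0, 0, 0, 0, 405146537, 0, 0, 0, ⟨0, 0⟩, 0⟩, 0, 0⟩ 0 0)))) (.pos 45 .mp ⟨⟨1089471706, 0, 0, 0, 0, 400527603, 0, 0, 0, ⟨0, 0⟩, 0⟩, 0, 0⟩ 0 0)) (.pos 46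 .mp ⟨⟨1295656967, 0, 0, 0, 0, 0, 0, 0, 0, ⟨0, 0⟩, 0⟩, 0, 0⟩ 0 0))) (.cut .d (-4096) (.cut .l 153791 (.void 43 ⟨⟨0, 0, 0, 0, 0, 100000, 0, 0, 0, ⟨0, 0⟩, 0⟩, 0, 0⟩ 0 0) (.cut .s 14601216 (.pos 43 .mp ⟨⟨1086207644, 0, 0, 0, 0, 454785620, 0, 0, 0, ⟨0, 0⟩, 0⟩, 0, 0⟩ 0 0) (.pos 43 .mp ⟨⟨1091533089, 0, 0, 0, 0, 456970873, 0, 0, 0, ⟨0, 0⟩, 0⟩, 0, 0⟩ 0 0))) (.cut .v 16809984 (.cut .l 153791 (.cut .s 14601216 (.cut .d (-2048) (.pos 45 .mp ⟨⟨1098566228, 0, 0, 0, 0, 424873432, 0, 0, 0, ⟨0, 0⟩, 0⟩, 0, 0⟩ 0 0) (.cut .s 14598656 (.pos 45 .mp ⟨⟨1102670284, 0, 0, 0, 0, 406296629, 0, 0, 0, ⟨0, 0⟩, 0⟩, 0, 0⟩ 0 0) (.pos 45 .mp ⟨⟨1105280151, 0, 0, 0, 0,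 407469373, 0, 0, 0, ⟨0, 0⟩, 0⟩, 0, 0⟩ 0 0))) (.cut .d (-2048) (.pos 45 .mp ⟨⟨1104034142, 0, 0, 0, 0, 426759277, 0, 0, 0, ⟨0, 0⟩, 0⟩, 0, 0⟩ 0 0) (.cut .s 14603776 (.pos 45 .mp ⟨⟨1107892026, 0, 0, 0, 0, 408664961, 0, 0, 0, ⟨0, 0⟩, 0⟩, 0, 0⟩ 0 0) (.pos 45 .mp ⟨⟨1110505852, 0, 0, 0, 0, 409883590, 0, 0, 0, ⟨0, 0⟩, 0⟩, 0, 0⟩ 0 0)))) (.pos 45 .mp ⟨⟨1099940948, 0, 0, 0, 0, 404708029, 0, 0, 0, ⟨0, 0⟩, 0⟩, 0, 0⟩ 0 0)) (.pos 46 .mp ⟨⟨1308274493, 0, 0, 0, 0, 0, 0, 0, 0, ⟨0, 0⟩, 0⟩, 0, 0⟩ 0 0))))) (.pos 44 .mp ⟨⟨1312860880, 0, 0, 0, 0, 0, 0, 0, 0, ⟨0, 0⟩, 0⟩, 0, 0⟩ 0 0)) (.cut .v 16842752 (.cut .s 14626816 (.cut .s 14616576 (.cut .d (-4096) (.cut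 .l 153791 (.void 43 ⟨⟨0, 0, 0, 0, 0, 100000, 0, 0, 0, ⟨0, 0⟩, 0⟩, 0, 0⟩ 0 0) (.cut .s 14611456 (.pos 43 .mp ⟨⟨1096925028, 0, 0, 0, 0, 459106822, 0, 0, 0, ⟨0, 0⟩, 0⟩, 0, 0⟩ 0 0) (.pos 43 .mp ⟨⟨1102384414, 0, 0, 0, 0, 461191612, 0, 0, 0, ⟨0, 0⟩, 0⟩, 0, 0⟩ 0 0))) (.cut .v 16809984 (.cut .l 153791 (.cut .s 14611456 (.cut .d (-2048) (.pos 45 .mp ⟨⟨1109588624, 0, 0, 0, 0, 428560417, 0, 0, 0, ⟨0, 0⟩, 0⟩, 0, 0⟩ 0 0) (.cut .s 14608896 (.pos 45 .mp ⟨⟨1113121567, 0, 0, 0, 0, 411125455, 0, 0, 0, ⟨0, 0⟩, 0⟩, 0, 0⟩ 0 0) (.pos 45 .mp ⟨⟨1115739112, 0, 0, 0, 0, 412390754, 0, 0, 0, ⟨0, 0⟩, 0⟩, 0, 0⟩ 0 0))) (.cut .d (-2048) (.pos 45 .mp ⟨⟨1115231041,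 0, 0, 0, 0, 430274232, 0, 0, 0, ⟨0, 0⟩, 0⟩, 0, 0⟩ 0 0) (.cut .s 14614016 (.pos 45 .mp ⟨⟨1118358427, 0, 0, 0, 0, 413679685, 0, 0, 0, ⟨0, 0⟩, 0⟩, 0, 0⟩ 0 0) (.pos 45 .mp ⟨⟨1120979449, 0, 0, 0, 0, 414992450, 0, 0, 0, ⟨0, 0⟩, 0⟩, 0, 0⟩ 0 0)))) (.pos 45 .mp ⟨⟨1110535664, 0, 0, 0, 0, 408935231, 0, 0, 0, ⟨0, 0⟩, 0⟩, 0, 0⟩ 0 0)) (.pos 46 .mp ⟨⟨1321118835, 0, 0, 0, 0, 0, 0, 0, 0, ⟨0, 0⟩, 0⟩, 0, 0⟩ 0 0))) (.cut .d (-4096) (.cut .l 153791 (.void 43 ⟨⟨0, 0, 0, 0, 0, 100000, 0, 0, 0, ⟨0, 0⟩, 0⟩, 0, 0⟩ 0 0) (.cut .s 14621696 (.pos 43 .mp ⟨⟨1107912203, 0, 0, 0, 0, 463223375, 0, 0, 0, ⟨0, 0⟩, 0⟩, 0, 0⟩ 0 0) (.pos 43 .mp ⟨⟨1113509360, 0, 0, 0, 0, 465200226,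 0, 0, 0, ⟨0, 0⟩, 0⟩, 0, 0⟩ 0 0))) (.cut .v 16809984 (.cut .l 153791 (.cut .s 14621696 (.cut .d (-2048) (.pos 45 .mp ⟨⟨1120962774, 0, 0, 0, 0, 431898079, 0, 0, 0, ⟨0, 0⟩, 0⟩, 0, 0⟩ 0 0) (.cut .s 14619136 (.pos 45 .mp ⟨⟨1123602118, 0, 0, 0, 0, 416329250, 0, 0, 0, ⟨0, 0⟩, 0⟩, 0, 0⟩ 0 0) (.pos 45 .mp ⟨⟨1126226371, 0, 0, 0, 0, 417690289, 0, 0, 0, ⟨0, 0⟩, 0⟩, 0, 0⟩ 0 0))) (.cut .s 14624256 (.cut .s 14622976 (.pos 45 .mp ⟨⟨1135582760, 0, 0, 0, 0, 404307812, 0, 0, 0, ⟨0, 0⟩, 0⟩, 0, 0⟩ 0 0) (.pos 45 .mp ⟨⟨1136956520, 0, 0, 0, 0, 404860873, 0, 0, 0, ⟨0, 0⟩, 0⟩, 0, 0⟩ 0 0)) (.pos 45 .mp ⟨⟨1139710430, 0, 0, 0, 0, 404321766, 0, 0, 0, ⟨0, 0⟩, 0⟩,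 0, 0⟩ 0 0))) (.pos 45 .mp ⟨⟨1121257621, 0, 0, 0, 0, 413205061, 0, 0, 0, ⟨0, 0⟩, 0⟩, 0, 0⟩ 0 0)) (.pos 46 .mp ⟨⟨1334193111, 0, 0, 0, 0, 0, 0, 0, 0, ⟨0, 0⟩, 0⟩, 0, 0⟩ 0 0)))) (.cut .s 14637056 (.cut .d (-4096) (.cut .l 153791 (.void 43 ⟨⟨0, 0, 0, 0, 0, 100000, 0, 0, 0, ⟨0, 0⟩, 0⟩, 0, 0⟩ 0 0) (.cut .s 14631936 (.pos 43 .mp ⟨⟨1119176861, 0, 0, 0, 0, 467120263, 0, 0, 0, ⟨0, 0⟩, 0⟩, 0, 0⟩ 0 0) (.pos 43 .mp ⟨⟨1124915687, 0, 0, 0, 0, 468981568, 0, 0, 0, ⟨0, 0⟩, 0⟩, 0, 0⟩ 0 0))) (.cut .v 16809984 (.cut .l 153791 (.cut .s 14631936 (.cut .s 14629376 (.pos 45 .mp ⟨⟨1142472884, 0, 0, 0, 0, 405433623, 0, 0, 0, ⟨0, 0⟩, 0⟩, 0, 0⟩ 0 0) (.pos 45 .mp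 ⟨⟨1145243912, 0, 0, 0, 0, 406552284, 0, 0, 0, ⟨0, 0⟩, 0⟩, 0, 0⟩ 0 0)) (.cut .s 14634496 (.pos 45 .mp ⟨⟨1148023546, 0, 0, 0, 0, 407677723, 0, 0, 0, ⟨0, 0⟩, 0⟩, 0, 0⟩ 0 0) (.pos 45 .mp ⟨⟨1150811814, 0, 0, 0, 0, 408809914, 0, 0, 0, ⟨0, 0⟩, 0⟩, 0, 0⟩ 0 0))) (.pos 45 .mp ⟨⟨1132108621, 0, 0, 0, 0, 417513302, 0, 0, 0, ⟨0, 0⟩, 0⟩, 0, 0⟩ 0 0)) (.pos 46 .mp ⟨⟨1347500500, 0, 0, 0, 0, 0, 0, 0, 0, ⟨0, 0⟩, 0⟩, 0, 0⟩ 0 0))) (.cut .d (-4096) (.cut .v 16809984 (.pos 45 .mp ⟨⟨1122238367, 0, 0, 0, 0, 498047160, 0, 0, 0, ⟨0, 0⟩, 0⟩, 0, 0⟩ 0 0) (.cut .s 14642176 (.pos 46 .mp ⟨⟨1179001660, 0, 0, 0, 0, 375008399, 0, 0, 0, ⟨0, 0⟩, 0⟩, 0, 0⟩ 0 0) (.pos 46 .mp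 ⟨⟨1184784370, 0, 0, 0, 0, 377153729, 0, 0, 0, ⟨0, 0⟩, 0⟩, 0, 0⟩ 0 0))) (.cut .v 16809984 (.cut .l 153791 (.cut .s 14642176 (.cut .s 14639616 (.pos 45 .mp ⟨⟨1153608748, 0, 0, 0, 0, 409948829, 0, 0, 0, ⟨0, 0⟩, 0⟩, 0, 0⟩ 0 0) (.pos 45 .mp ⟨⟨1156414378, 0, 0, 0, 0, 411094442, 0, 0, 0, ⟨0, 0⟩, 0⟩, 0, 0⟩ 0 0)) (.cut .s 14644736 (.pos 45 .mp ⟨⟨1159228735, 0, 0, 0, 0, 412246724, 0, 0, 0, ⟨0, 0⟩, 0⟩, 0, 0⟩ 0 0) (.pos 45 .mp ⟨⟨1162051850, 0, 0, 0, 0, 413405648, 0, 0, 0, ⟨0, 0⟩, 0⟩, 0, 0⟩ 0 0))) (.pos 45 .mp ⟨⟨1143090498, 0, 0, 0, 0, 421855675, 0, 0, 0, ⟨0, 0⟩, 0⟩, 0, 0⟩ 0 0)) (.pos 46 .mp ⟨⟨1361044239, 0, 0, 0, 0, 0, 0, 0, 0, ⟨0, 0⟩, 0⟩, 0, 0⟩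 0 0))))) (.pos 44 .mp ⟨⟨1364918372, 0, 0, 0, 0, 0, 0, 0, 0, ⟨0, 0⟩, 0⟩, 0, 0⟩ 0 0))) (.pos 36 .mp ⟨⟨1360004660, 0, 0, 0, 0, 0, 0, 0, 0, ⟨0, 0⟩, 0⟩, 0, 0⟩ 0 0)))))))) (.pos 32 .mp ⟨⟨1519380828, 0, 0, 0, 0, 0, 0, 0, 0, ⟨0, 0⟩, 0⟩, 0, 0⟩ 0 0))) (.void 30 ⟨⟨100000, 0, 0, 0, 0, 0, 0, 0, 0, ⟨0, 0⟩, 0⟩, 0, 0⟩ 0 0)) (.void 28 ⟨⟨100000, 0, 0, 0, 0, 0, 0, 0, 0, ⟨0, 0⟩, 0⟩, 0, 0⟩ 0 0))) (.void 26 ⟨⟨100000, 0, 0, 0, 0, 0, 0, 0, 0, ⟨0, 0⟩, 0⟩, 0, 0⟩ 0 0)))) (.void 24 ⟨⟨100000, 0, 0, 0, 0, 0, 0, 0, 0, ⟨0, 0⟩, 0⟩, 0, 0⟩ 0 0))) (.void 22 ⟨⟨100000, 0, 0, 0, 0, 0, 0, 0, 0, ⟨0, 0⟩, 0⟩, 0, 0⟩ 0 0))) (.void 103 ⟨⟨100000, 0, 0, 0, 0, 0, 0, 0, 0, ⟨0, 0⟩,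 0⟩, 0, 0⟩ 0 0)) (.void 114 ⟨⟨100000, 0, 0, 0, 0, 0, 0, 0, 0, ⟨0, 0⟩, 0⟩, 0, 0⟩ 0 0)) (.void 125 ⟨⟨95760, 0, 0, 6138, 0, 0, 0, 0, 0, ⟨0, 0⟩, 0⟩, 0, 0⟩ 0 0))) (.cut .v 16777216 (.cut .v 8388608 (.cut .v 4194304 (.cut .v 2097152 (.cut .v 1048576 (.pos 119 .pm ⟨⟨0, 0, 37859654, 0, 0, 0, 0, 0, 0, ⟨0, 0⟩, 0⟩, 0, 1249⟩ 0 0) (.pos 120 .pm ⟨⟨0, 0, 65721016, 0, 0, 0, 0, 0, 0, ⟨0, 0⟩, 0⟩, 0, 3600⟩ 0 0)) (.pos 118 .pm ⟨⟨0, 0, 112593377, 0, 0, 0, 0, 0, 0, ⟨0, 0⟩, 0⟩, 0, 9145⟩ 0 0)) (.pos 5 .pm ⟨⟨0, 0, 351111315, 0, 0, 0, 0, 0, 0, ⟨0, 0⟩, 0⟩, 0, 16461⟩ 0 0)) (.pos 3 .pm ⟨⟨0, 0, 0, 0, 0, 0, 0, 0, 0, ⟨0, 0⟩, 0⟩, 0, 0⟩ 0 0)) (.cut .v 268435456 (.cut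 .v 67108864 (.cut .d 1328514 (.cut .v 33554432 (.cut .d 664257 (.cut .v 25165824 (.cut .d 332128 (.cut .d 166064 (.cut .v 20971520 (.cut .v 18874368 (.cut .d 83032 (.cut .d 41516 (.cut .v 17825792 (.cut .v 17301504 (.cut .s 14565376 (.pos 29 .pp ⟨⟨995260465, 0, 0, 0, 0, 0, 0, 0, 0, ⟨0, 0⟩, 0⟩, 26055322, 0⟩ 0 0) (.pos 29 .pp ⟨⟨1064733979, 0, 0, 0, 0, 0, 0, 0, 0, ⟨0, 0⟩, 0⟩, 29347721, 0⟩ 0 0)) (.pos 30 .pp ⟨⟨1299788534, 0, 0, 0, 0, 0, 0, 0, 0, ⟨0, 0⟩, 0⟩, 0, 0⟩ 0 0)) (.pos 28 .pp ⟨⟨1453924835, 0, 0, 0, 0, 0, 0, 0, 0, ⟨0, 0⟩, 0⟩, 0, 0⟩ 0 0)) (.pos 25 .pp ⟨⟨1110050577, 0, 0, 0, 0, 0, 0, 0, 0, ⟨0, 0⟩, 0⟩, 0, 2200⟩ 0 0)) (.pos 25 .pp ⟨⟨0,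 0, 0, 0, 0, 0, 0, 0, 0, ⟨0, 0⟩, 0⟩, 0, 43573⟩ 0 0)) (.cut .d 83032 (.cut .v 19922944 (.pos 53 .pp ⟨⟨1582680836, 0, 0, 0, 0, 0, 0, 0, 0, ⟨0, 0⟩, 0⟩, 0, 0⟩ 0 0) (.pos 54 .pp ⟨⟨1790444570, 0, 0, 0, 0, 0, 0, 0, 0, ⟨0, 0⟩, 0⟩, 0, 0⟩ 0 0)) (.pos 26 .pp ⟨⟨1396476933, 0, 0, 0, 0, 0, 0, 0, 0, ⟨0, 0⟩, 0⟩, 0, 0⟩ 0 0))) (.cut .d 83032 (.void 24 ⟨⟨0, 0, 0, 0, 0, 0, 0, 0, 0, ⟨0, 0⟩, 0⟩, 100000, 0⟩ 0 0) (.cut .v 23068672 (.cut .d 124548 (.pos 55 .pp ⟨⟨0, 0, 0, 0, 0, 0, 0, 0, 0, ⟨0, 0⟩, 0⟩, 237968733, 0⟩ 0 0) (.pos 55 .pp ⟨⟨0, 0, 0, 0, 0, 0, 3214, 0, 0, ⟨0, 0⟩, 0⟩, 206907941, 0⟩ 0 0)) (.pos 56 .pp ⟨⟨0, 0, 0, 0, 0, 0, 0, 0, 0, ⟨0, 0⟩, 0⟩, 274500367,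 0⟩ 0 0)))) (.cut .v 20971520 (.pos 23 .pp ⟨⟨0, 0, 0, 0, 0, 0, 0, 0, 0, ⟨0, 0⟩, 0⟩, 0, 45725⟩ 0 0) (.pos 24 .pp ⟨⟨0, 0, 0, 0, 0, 0, 7844, 0, 0, ⟨0, 0⟩, 0⟩, 197296131, 0⟩ 0 0))) (.pos 21 .pp ⟨⟨0, 0, 0, 0, 0, 0, 0, 0, 0, ⟨0, 0⟩, 0⟩, 0, 49383⟩ 0 0)) (.cut .d 332128 (.cut .d 166064 (.void 22 ⟨⟨0, 0, 0, 0, 0, 0, 0, 0, 0, ⟨0, 0⟩, 0⟩, 100000, 0⟩ 0 0) (.pos 22 .pp ⟨⟨0, 0, 0, 0, 0, 0, 0, 0, 0, ⟨0, 0⟩, 0⟩, 295677747, 0⟩ 0 0)) (.pos 22 .pp ⟨⟨0, 0, 0, 0, 0, 0, 2907, 0, 0, ⟨0, 0⟩, 0⟩, 208550317, 0⟩ 0 0))) (.pos 20 .pp ⟨⟨0, 0, 0, 0, 0, 0, 0, 0, 0, ⟨0, 0⟩, 0⟩, 0, 54870⟩ 0 0)) (.cut .d 664257 (.cut .v 50331648 (.pos 106 .pp ⟨⟨0, 0, 0, 0, 0, 0, 0, 0,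 0, ⟨0, 0⟩, 0⟩, 494285298, 0⟩ 0 0) (.void 107 ⟨⟨0, 0, 0, 0, 0, 0, 0, 0, 0, ⟨0, 0⟩, 0⟩, 100000, 0⟩ 0 0)) (.pos 103 .pp ⟨⟨0, 0, 0, 0, 0, 0, 0, 0, 0, ⟨0, 0⟩, 0⟩, 312486094, 0⟩ 0 0))) (.pos 102 .pp ⟨⟨0, 0, 0, 0, 0, 0, 0, 0, 0, ⟨0, 0⟩, 0⟩, 0, 41153⟩ 0 0)) (.void 114 ⟨⟨0, 0, 0, 49010, 0, 0, 0, 0, 0, ⟨0, 0⟩, 0⟩, 50990, 0⟩ 0 0)) (.void 125 ⟨⟨0, 0, 0, 0, 0, 0, 0, 0, 0, ⟨0, 0⟩, 0⟩, 100000, 0⟩ 0 0)))),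
    by decide +kernel⟩

def covers30 : cell.Covers Vale.Agent.P237.Petty.Cor.Grid.N12.table row30.1 :=
  ⟨(.cut .d 0 (.cut .v 16777216 (.cut .v 8388608 (.void 2 ⟨⟨0, 0, 100000, 0, 0, 0, 0, 0, 0, ⟨0, 0⟩, 0⟩, 0, 0⟩ 0 0) (.cut .d (-8388608) (.void 3 ⟨⟨100000, 0, 0, 0, 0, 0, 0, 0, 0, ⟨0, 0⟩, 0⟩, 0, 0⟩ 0 0) (.cut .d (-4194304) (.void 3 ⟨⟨100000, 0, 0, 0, 0, 0, 0, 0, 0, ⟨0, 0⟩, 0⟩, 0, 0⟩ 0 0) (.cut .d (-2097152) (.void 3 ⟨⟨100000, 0, 0, 0, 0, 0, 0, 0, 0, ⟨0, 0⟩, 0⟩, 0, 0⟩ 0 0) (.cut .d (-1048576) (.void 3 ⟨⟨100000, 0, 0, 0, 0, 0, 0, 0, 0, ⟨0, 0⟩, 0⟩, 0, 0⟩ 0 0) (.cut .d (-524288) (.void 3 ⟨⟨0, 0, 0, 0, 0, 100000, 0, 0, 0, ⟨0, 0⟩, 0⟩, 0, 0⟩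 0 0) (.cut .d (-262144) (.void 3 ⟨⟨0, 0, 0, 0, 0, 100000, 0, 0, 0, ⟨0, 0⟩, 0⟩, 0, 0⟩ 0 0) (.cut .s 14729216 (.pos 3 .mm ⟨⟨0, 0, 0, 0, 0, 2782325086, 0, 0, 0, ⟨0, 0⟩, 0⟩, 0, 0⟩ 0 0) (.pos 3 .mm ⟨⟨0, 0, 0, 0, 0, 3034634179, 0, 0, 0, ⟨0, 0⟩, 0⟩, 0, 0⟩ 0 0))))))))) (.cut .v 268435456 (.cut .v 67108864 (.cut .v 33554432 (.cut .d (-8388608) (.void 20 ⟨⟨100000, 0, 0, 0, 0, 0, 0, 0, 0, ⟨0, 0⟩, 0⟩, 0, 0⟩ 0 0) (.cut .v 25165824 (.cut .d (-4194304) (.void 21 ⟨⟨100000, 0, 0, 0, 0, 0, 0, 0, 0, ⟨0, 0⟩, 0⟩, 0, 0⟩ 0 0) (.cut .d (-2097152) (.void 21 ⟨⟨100000, 0, 0, 0, 0, 0, 0, 0, 0, ⟨0, 0⟩, 0⟩, 0, 0⟩ 0 0) (.cut .v 20971520 (.cut .d (-1048576) (.void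 23 ⟨⟨100000, 0, 0, 0, 0, 0, 0, 0, 0, ⟨0, 0⟩, 0⟩, 0, 0⟩ 0 0) (.cut .v 18874368 (.cut .d (-524288) (.void 25 ⟨⟨100000, 0, 0, 0, 0, 0, 0, 0, 0, ⟨0, 0⟩, 0⟩, 0, 0⟩ 0 0) (.cut .v 17825792 (.cut .v 17301504 (.cut .d (-262144) (.void 29 ⟨⟨100000, 0, 0, 0, 0, 0, 0, 0, 0, ⟨0, 0⟩, 0⟩, 0, 0⟩ 0 0) (.cut .v 17039360 (.cut .d (-131072) (.void 31 ⟨⟨100000, 0, 0, 0, 0, 0, 0, 0, 0, ⟨0, 0⟩, 0⟩, 0, 0⟩ 0 0) (.cut .d (-65536) (.void 31 ⟨⟨100000, 0, 0, 0, 0, 0, 0, 0, 0, ⟨0, 0⟩, 0⟩, 0, 0⟩ 0 0) (.cut .d (-32768) (.void 31 ⟨⟨100000, 0, 0, 0, 0, 0, 0, 0, 0, ⟨0, 0⟩, 0⟩, 0, 0⟩ 0 0) (.cut .d (-16384) (.void 31 ⟨⟨100000, 0, 0, 0, 0, 0, 0, 0, 0, ⟨0, 0⟩, 0⟩, 0, 0⟩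 0 0) (.cut .d (-8192) (.void 31 ⟨⟨0, 0, 0, 0, 0, 100000, 0, 0, 0, ⟨0, 0⟩, 0⟩, 0, 0⟩ 0 0) (.cut .s 14729216 (.cut .v 16908288 (.cut .s 14688256 (.cut .v 16842752 (.cut .s 14667776 (.cut .d (-4096) (.cut .l 153791 (.void 43 ⟨⟨0, 0, 0, 0, 0, 100000, 0, 0, 0, ⟨0, 0⟩, 0⟩, 0, 0⟩ 0 0) (.cut .d (-6144) (.pos 43 .mp ⟨⟨1144480594, 0, 0, 0, 0, 518047522, 0, 0, 0, ⟨0, 0⟩, 0⟩, 0, 0⟩ 0 0) (.cut .s 14657536 (.pos 43 .mp ⟨⟨1170312010, 0, 0, 0, 0, 411906757, 0, 0, 0, ⟨0, 0⟩, 0⟩, 0, 0⟩ 0 0) (.cut .s 14662656 (.pos 43 .mp ⟨⟨1176063762, 0, 0, 0, 0, 422274645, 0, 0, 0, ⟨0, 0⟩, 0⟩, 0, 0⟩ 0 0) (.pos 43 .mp ⟨⟨1159832229, 0, 0, 0, 0, 479846707, 0, 0, 0, ⟨0,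 0⟩, 0⟩, 0, 0⟩ 0 0))))) (.cut .l 153791 (.cut .v 16809984 (.cut .s 14657536 (.cut .s 14652416 (.cut .s 14649856 (.pos 45 .mp ⟨⟨1164887237, 0, 0, 0, 0, 414586080, 0, 0, 0, ⟨0, 0⟩, 0⟩, 0, 0⟩ 0 0) (.pos 45 .mp ⟨⟨1167728143, 0, 0, 0, 0, 415497176, 0, 0, 0, ⟨0, 0⟩, 0⟩, 0, 0⟩ 0 0)) (.cut .s 14654976 (.pos 45 .mp ⟨⟨1170578296, 0, 0, 0, 0, 416418733, 0, 0, 0, ⟨0, 0⟩, 0⟩, 0, 0⟩ 0 0) (.pos 45 .mp ⟨⟨1173437730, 0, 0, 0, 0, 417350727, 0, 0, 0, ⟨0, 0⟩, 0⟩, 0, 0⟩ 0 0))) (.cut .s 14662656 (.cut .s 14660096 (.pos 45 .mp ⟨⟨1176306478, 0, 0, 0, 0, 418293135, 0, 0, 0, ⟨0, 0⟩, 0⟩, 0, 0⟩ 0 0) (.pos 45 .mp ⟨⟨1179184573, 0, 0, 0, 0, 419245930, 0, 0, 0, ⟨0,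 0⟩, 0⟩, 0, 0⟩ 0 0)) (.cut .s 14665216 (.pos 45 .mp ⟨⟨1182072049, 0, 0, 0, 0, 420209088, 0, 0, 0, ⟨0, 0⟩, 0⟩, 0, 0⟩ 0 0) (.pos 45 .mp ⟨⟨1184968938, 0, 0, 0, 0, 421182584, 0, 0, 0, ⟨0, 0⟩, 0⟩, 0, 0⟩ 0 0)))) (.pos 46 .mp ⟨⟨1406975351, 0, 0, 0, 0, 0, 0, 0, 0, ⟨0, 0⟩, 0⟩, 0, 0⟩ 0 0)) (.pos 43 .mp ⟨⟨1174363319, 0, 0, 0, 0, 391494330, 0, 0, 0, ⟨0, 0⟩, 0⟩, 0, 0⟩ 0 0))) (.cut .d (-4096) (.cut .d (-6144) (.pos 43 .mp ⟨⟨1167137987, 0, 0, 0, 0, 531550802, 0, 0, 0, ⟨0, 0⟩, 0⟩, 0, 0⟩ 0 0) (.cut .l 153791 (.void 43 ⟨⟨0, 0, 0, 0, 0, 100000, 0, 0, 0, ⟨0, 0⟩, 0⟩, 0, 0⟩ 0 0) (.cut .l 230687 (.cut .s 14678016 (.pos 43 .mp ⟨⟨1170329826, 0, 0, 0, 0, 486471718,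 0, 0, 0, ⟨0, 0⟩, 0⟩, 0, 0⟩ 0 0) (.pos 43 .mp ⟨⟨1181510900, 0, 0, 0, 0, 492265255, 0, 0, 0, ⟨0, 0⟩, 0⟩, 0, 0⟩ 0 0)) (.pos 43 .mp ⟨⟨1197883730, 0, 0, 0, 0, 402137181, 0, 0, 0, ⟨0, 0⟩, 0⟩, 0, 0⟩ 0 0)))) (.cut .l 153791 (.cut .v 16809984 (.cut .s 14678016 (.cut .s 14672896 (.cut .s 14670336 (.pos 45 .mp ⟨⟨1187875276, 0, 0, 0, 0, 422166392, 0, 0, 0, ⟨0, 0⟩, 0⟩, 0, 0⟩ 0 0) (.cut .s 14671616 (.pos 45 .mp ⟨⟨1189331998, 0, 0, 0, 0, 424298613, 0, 0, 0, ⟨0, 0⟩, 0⟩, 0, 0⟩ 0 0) (.pos 45 .mp ⟨⟨1190791095, 0, 0, 0, 0, 424800506, 0, 0, 0, ⟨0, 0⟩, 0⟩, 0, 0⟩ 0 0))) (.cut .d (-2048) (.pos 45 .mp ⟨⟨1168460869, 0, 0, 0, 0, 493015350, 0, 0, 0, ⟨0, 0⟩, 0⟩,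 0, 0⟩ 0 0) (.cut .s 14675456 (.pos 45 .mp ⟨⟨1185138314, 0, 0, 0, 0, 440889550, 0, 0, 0, ⟨0, 0⟩, 0⟩, 0, 0⟩ 0 0) (.pos 45 .mp ⟨⟨1188151365, 0, 0, 0, 0, 441688784, 0, 0, 0, ⟨0, 0⟩, 0⟩, 0, 0⟩ 0 0)))) (.cut .s 14683136 (.cut .d (-2048) (.pos 45 .mp ⟨⟨1174193593, 0, 0, 0, 0, 495308833, 0, 0, 0, ⟨0, 0⟩, 0⟩, 0, 0⟩ 0 0) (.cut .s 14680576 (.pos 45 .mp ⟨⟨1191168475, 0, 0, 0, 0, 442512180, 0, 0, 0, ⟨0, 0⟩, 0⟩, 0, 0⟩ 0 0) (.pos 45 .mp ⟨⟨1194189573, 0, 0, 0, 0, 443359973, 0, 0, 0, ⟨0, 0⟩, 0⟩, 0, 0⟩ 0 0))) (.cut .d (-2048) (.pos 45 .mp ⟨⟨1179963437, 0, 0, 0, 0, 497666527, 0, 0, 0, ⟨0, 0⟩, 0⟩, 0, 0⟩ 0 0) (.cut .s 14685696 (.pos 45 .mp ⟨⟨1197214589,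 0, 0, 0, 0, 444232397, 0, 0, 0, ⟨0, 0⟩, 0⟩, 0, 0⟩ 0 0) (.pos 45 .mp ⟨⟨1200243451, 0, 0, 0, 0, 445129689, 0, 0, 0, ⟨0, 0⟩, 0⟩, 0, 0⟩ 0 0))))) (.pos 46 .mp ⟨⟨1434549620, 0, 0, 0, 0, 0, 0, 0, 0, ⟨0, 0⟩, 0⟩, 0, 0⟩ 0 0)) (.pos 43 .mp ⟨⟨1197674522, 0, 0, 0, 0, 399269532, 0, 0, 0, ⟨0, 0⟩, 0⟩, 0, 0⟩ 0 0)))) (.pos 44 .mp ⟨⟨1420270371, 0, 0, 0, 0, 0, 0, 0, 0, ⟨0, 0⟩, 0⟩, 0, 0⟩ 0 0)) (.cut .v 16842752 (.cut .s 14708736 (.cut .d (-4096) (.cut .l 153791 (.void 43 ⟨⟨0, 0, 0, 0, 0, 100000, 0, 0, 0, ⟨0, 0⟩, 0⟩, 0, 0⟩ 0 0) (.cut .d (-6144) (.pos 43 .mp ⟨⟨1190389290, 0, 0, 0, 0, 537726228, 0, 0, 0, ⟨0, 0⟩, 0⟩, 0, 0⟩ 0 0) (.cut .l 230687 (.cut .s 14698496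 (.pos 43 .mp ⟨⟨1192914493, 0, 0, 0, 0, 498031442, 0, 0, 0, ⟨0, 0⟩, 0⟩, 0, 0⟩ 0 0) (.pos 43 .mp ⟨⟨1204546973, 0, 0, 0, 0, 503757490, 0, 0, 0, ⟨0, 0⟩, 0⟩, 0, 0⟩ 0 0)) (.pos 43 .mp ⟨⟨1221858695, 0, 0, 0, 0, 409671793, 0, 0, 0, ⟨0, 0⟩, 0⟩, 0, 0⟩ 0 0)))) (.cut .l 153791 (.cut .v 16809984 (.cut .s 14698496 (.cut .s 14693376 (.cut .d (-2048) (.pos 45 .mp ⟨⟨1185770670, 0, 0, 0, 0, 500088925, 0, 0, 0, ⟨0, 0⟩, 0⟩, 0, 0⟩ 0 0) (.cut .s 14690816 (.pos 45 .mp ⟨⟨1203276090, 0, 0, 0, 0, 446052088, 0, 0, 0, ⟨0, 0⟩, 0⟩, 0, 0⟩ 0 0) (.pos 45 .mp ⟨⟨1206312431, 0, 0, 0, 0, 446999834, 0, 0, 0, ⟨0, 0⟩, 0⟩, 0, 0⟩ 0 0))) (.cut .d (-2048) (.pos 45 .mp ⟨⟨1191615562,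 0, 0, 0, 0, 502576524, 0, 0, 0, ⟨0, 0⟩, 0⟩, 0, 0⟩ 0 0) (.cut .s 14695936 (.pos 45 .mp ⟨⟨1209352401, 0, 0, 0, 0, 447973170, 0, 0, 0, ⟨0, 0⟩, 0⟩, 0, 0⟩ 0 0) (.pos 45 .mp ⟨⟨1212395928, 0, 0, 0, 0, 448972341, 0, 0, 0, ⟨0, 0⟩, 0⟩, 0, 0⟩ 0 0)))) (.cut .s 14703616 (.cut .d (-2048) (.pos 45 .mp ⟨⟨1197498387, 0, 0, 0, 0, 505129827, 0, 0, 0, ⟨0, 0⟩, 0⟩, 0, 0⟩ 0 0) (.cut .s 14701056 (.pos 45 .mp ⟨⟨1215442937, 0, 0, 0, 0, 449997592, 0, 0, 0, ⟨0, 0⟩, 0⟩, 0, 0⟩ 0 0) (.pos 45 .mp ⟨⟨1218493351, 0, 0, 0, 0, 451049172, 0, 0, 0, ⟨0, 0⟩, 0⟩, 0, 0⟩ 0 0))) (.cut .d (-2048) (.pos 45 .mp ⟨⟨1203419422, 0, 0, 0, 0, 507749340, 0, 0, 0, ⟨0, 0⟩, 0⟩, 0, 0⟩ 0 0)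 (.cut .s 14706176 (.pos 45 .mp ⟨⟨1221547096, 0, 0, 0, 0, 452127330, 0, 0, 0, ⟨0, 0⟩, 0⟩, 0, 0⟩ 0 0) (.pos 45 .mp ⟨⟨1224604094, 0, 0, 0, 0, 453232319, 0, 0, 0, ⟨0, 0⟩, 0⟩, 0, 0⟩ 0 0))))) (.pos 46 .mp ⟨⟨1462928708, 0, 0, 0, 0, 0, 0, 0, 0, ⟨0, 0⟩, 0⟩, 0, 0⟩ 0 0)) (.pos 43 .mp ⟨⟨1221599180, 0, 0, 0, 0, 407395573, 0, 0, 0, ⟨0, 0⟩, 0⟩, 0, 0⟩ 0 0))) (.cut .d (-4096) (.cut .l 153791 (.void 43 ⟨⟨0, 0, 0, 0, 0, 100000, 0, 0, 0, ⟨0, 0⟩, 0⟩, 0, 0⟩ 0 0) (.cut .d (-6144) (.pos 43 .mp ⟨⟨1214251847, 0, 0, 0, 0, 549098724, 0, 0, 0, ⟨0, 0⟩, 0⟩, 0, 0⟩ 0 0) (.cut .l 230687 (.cut .s 14718976 (.pos 43 .mp ⟨⟨1216414816, 0, 0, 0, 0, 509430389, 0, 0, 0, ⟨0,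 0⟩, 0⟩, 0, 0⟩ 0 0) (.pos 43 .mp ⟨⟨1228524612, 0, 0, 0, 0, 515036899, 0, 0, 0, ⟨0, 0⟩, 0⟩, 0, 0⟩ 0 0)) (.cut .s 14718976 (.pos 43 .mp ⟨⟨1233095446, 0, 0, 0, 0, 443642755, 0, 0, 0, ⟨0, 0⟩, 0⟩, 0, 0⟩ 0 0) (.pos 43 .mp ⟨⟨1245553710, 0, 0, 0, 0, 448040369, 0, 0, 0, ⟨0, 0⟩, 0⟩, 0, 0⟩ 0 0))))) (.cut .l 153791 (.cut .v 16809984 (.cut .s 14718976 (.cut .s 14713856 (.cut .d (-2048) (.pos 45 .mp ⟨⟨1209378947, 0, 0, 0, 0, 510435576, 0, 0, 0, ⟨0, 0⟩, 0⟩, 0, 0⟩ 0 0) (.cut .s 14711296 (.pos 45 .mp ⟨⟨1227664267, 0, 0, 0, 0, 454364392, 0, 0, 0, ⟨0, 0⟩, 0⟩, 0, 0⟩ 0 0) (.pos 45 .mp ⟨⟨1230727539, 0, 0, 0, 0, 455523806, 0, 0, 0, ⟨0, 0⟩, 0⟩, 0, 0⟩ 0 0)))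 (.cut .d (-2048) (.pos 45 .mp ⟨⟨1215377243, 0, 0, 0, 0, 513189052, 0, 0, 0, ⟨0, 0⟩, 0⟩, 0, 0⟩ 0 0) (.cut .s 14716416 (.pos 45 .mp ⟨⟨1233793829, 0, 0, 0, 0, 456710817, 0, 0, 0, ⟨0, 0⟩, 0⟩, 0, 0⟩ 0 0) (.pos 45 .mp ⟨⟨1236863057, 0, 0, 0, 0, 457925687, 0, 0, 0, ⟨0, 0⟩, 0⟩, 0, 0⟩ 0 0)))) (.cut .s 14724096 (.cut .d (-2048) (.pos 45 .mp ⟨⟨1221414594, 0, 0, 0, 0, 516010291, 0, 0, 0, ⟨0, 0⟩, 0⟩, 0, 0⟩ 0 0) (.cut .s 14721536 (.pos 45 .mp ⟨⟨1239935143, 0, 0, 0, 0, 459168677, 0, 0, 0, ⟨0, 0⟩, 0⟩, 0, 0⟩ 0 0) (.pos 45 .mp ⟨⟨1243010006, 0, 0, 0, 0, 460440051, 0, 0, 0, ⟨0, 0⟩, 0⟩, 0, 0⟩ 0 0))) (.cut .d (-2048) (.pos 45 .mp ⟨⟨1227491290, 0, 0, 0, 0,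 518899819, 0, 0, 0, ⟨0, 0⟩, 0⟩, 0, 0⟩ 0 0) (.cut .s 14726656 (.pos 45 .mp ⟨⟨1246087563, 0, 0, 0, 0, 461740075, 0, 0, 0, ⟨0, 0⟩, 0⟩, 0, 0⟩ 0 0) (.pos 45 .mp ⟨⟨1249167732, 0, 0, 0, 0, 463069017, 0, 0, 0, ⟨0, 0⟩, 0⟩, 0, 0⟩ 0 0))))) (.pos 46 .mp ⟨⟨1492105615, 0, 0, 0, 0, 0, 0, 0, 0, ⟨0, 0⟩, 0⟩, 0, 0⟩ 0 0)) (.pos 43 .mp ⟨⟨1246155397, 0, 0, 0, 0, 415829798, 0, 0, 0, ⟨0, 0⟩, 0⟩, 0, 0⟩ 0 0)))) (.pos 44 .mp ⟨⟨1477115028, 0, 0, 0, 0, 0, 0, 0, 0, ⟨0, 0⟩, 0⟩, 0, 0⟩ 0 0))) (.pos 36 .mp ⟨⟨1472747755, 0, 0, 0, 0, 0, 0, 0, 0, ⟨0, 0⟩, 0⟩, 0, 0⟩ 0 0)) (.cut .v 16908288 (.cut .s 14770176 (.cut .v 16842752 (.cut .s 14749696 (.cut .d (-4096) (.cut .l 153791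 (.void 43 ⟨⟨0, 0, 0, 0, 0, 100000, 0, 0, 0, ⟨0, 0⟩, 0⟩, 0, 0⟩ 0 0) (.cut .d (-6144) (.pos 43 .mp ⟨⟨1238743699, 0, 0, 0, 0, 561534864, 0, 0, 0, ⟨0, 0⟩, 0⟩, 0, 0⟩ 0 0) (.cut .v 16809984 (.pos 45 .mp ⟨⟨1138099993, 0, 0, 0, 0, 722490168, 0, 0, 0, ⟨0, 0⟩, 0⟩, 0, 0⟩ 0 0) (.cut .s 14739456 (.pos 46 .mp ⟨⟨1271425029, 0, 0, 0, 0, 446096546, 0, 0, 0, ⟨0, 0⟩, 0⟩, 0, 0⟩ 0 0) (.pos 46 .mp ⟨⟨1284282311, 0, 0, 0, 0, 451029400, 0, 0, 0, ⟨0, 0⟩, 0⟩, 0, 0⟩ 0 0))))) (.cut .l 153791 (.cut .v 16809984 (.cut .s 14739456 (.cut .s 14734336 (.cut .d (-2048) (.pos 45 .mp ⟨⟨1233607619, 0, 0, 0, 0, 521858170, 0, 0, 0, ⟨0, 0⟩, 0⟩, 0, 0⟩ 0 0) (.cut .s 14731776 (.pos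 45 .mp ⟨⟨1252250428, 0, 0, 0, 0, 464427146, 0, 0, 0, ⟨0, 0⟩, 0⟩, 0, 0⟩ 0 0) (.pos 45 .mp ⟨⟨1255335567, 0, 0, 0, 0, 465814737, 0, 0, 0, ⟨0, 0⟩, 0⟩, 0, 0⟩ 0 0))) (.cut .d (-2048) (.pos 45 .mp ⟨⟨1239763877, 0, 0, 0, 0, 524885882, 0, 0, 0, ⟨0, 0⟩, 0⟩, 0, 0⟩ 0 0) (.cut .s 14736896 (.pos 45 .mp ⟨⟨1258423064, 0, 0, 0, 0, 467232061, 0, 0, 0, ⟨0, 0⟩, 0⟩, 0, 0⟩ 0 0) (.pos 45 .mp ⟨⟨1261512831, 0, 0, 0, 0, 468679397, 0, 0, 0, ⟨0, 0⟩, 0⟩, 0, 0⟩ 0 0)))) (.cut .s 14744576 (.cut .d (-2048) (.pos 45 .mp ⟨⟨1245960358, 0, 0, 0, 0, 527983498, 0, 0, 0, ⟨0, 0⟩, 0⟩, 0, 0⟩ 0 0) (.cut .s 14742016 (.pos 45 .mp ⟨⟨1264604783, 0, 0, 0, 0, 470157023, 0, 0, 0, ⟨0,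 0⟩, 0⟩, 0, 0⟩ 0 0) (.pos 45 .mp ⟨⟨1267698830, 0, 0, 0, 0, 471665219, 0, 0, 0, ⟨0, 0⟩, 0⟩, 0, 0⟩ 0 0))) (.cut .d (-2048) (.pos 45 .mp ⟨⟨1252197364, 0, 0, 0, 0, 531151568, 0, 0, 0, ⟨0, 0⟩, 0⟩, 0, 0⟩ 0 0) (.cut .s 14747136 (.pos 45 .mp ⟨⟨1270794885, 0, 0, 0, 0, 473204269, 0, 0, 0, ⟨0, 0⟩, 0⟩, 0, 0⟩ 0 0) (.pos 45 .mp ⟨⟨1273892857, 0, 0, 0, 0, 474774458, 0, 0, 0, ⟨0, 0⟩, 0⟩, 0, 0⟩ 0 0))))) (.pos 46 .mp ⟨⟨1522073396, 0, 0, 0, 0, 0, 0, 0, 0, ⟨0, 0⟩, 0⟩, 0, 0⟩ 0 0)) (.pos 43 .mp ⟨⟨1271362011, 0, 0, 0, 0, 424528121, 0, 0, 0, ⟨0, 0⟩, 0⟩, 0, 0⟩ 0 0))) (.cut .d (-4096) (.cut .l 153791 (.void 43 ⟨⟨0, 0, 0, 0, 0, 100000, 0, 0, 0, ⟨0, 0⟩, 0⟩, 0, 0⟩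 0 0) (.cut .d (-6144) (.pos 43 .mp ⟨⟨1263883617, 0, 0, 0, 0, 575067340, 0, 0, 0, ⟨0, 0⟩, 0⟩, 0, 0⟩ 0 0) (.cut .l 230687 (.cut .s 14759936 (.pos 43 .mp ⟨⟨1266373411, 0, 0, 0, 0, 531322112, 0, 0, 0, ⟨0, 0⟩, 0⟩, 0, 0⟩ 0 0) (.pos 43 .mp ⟨⟨1279519320, 0, 0, 0, 0, 536525856, 0, 0, 0, ⟨0, 0⟩, 0⟩, 0, 0⟩ 0 0)) (.pos 43 .mp ⟨⟨1297766506, 0, 0, 0, 0, 435491072, 0, 0, 0, ⟨0, 0⟩, 0⟩, 0, 0⟩ 0 0)))) (.cut .l 153791 (.cut .v 16809984 (.cut .s 14759936 (.cut .s 14754816 (.cut .d (-2048) (.pos 45 .mp ⟨⟨1258475195, 0, 0, 0, 0, 534390646, 0, 0, 0, ⟨0, 0⟩, 0⟩, 0, 0⟩ 0 0) (.cut .s 14752256 (.pos 45 .mp ⟨⟨1276992655, 0, 0, 0, 0, 476376073, 0, 0, 0, ⟨0, 0⟩,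 0⟩, 0, 0⟩ 0 0) (.pos 45 .mp ⟨⟨1280094190, 0, 0, 0, 0, 478009404, 0, 0, 0, ⟨0, 0⟩, 0⟩, 0, 0⟩ 0 0))) (.cut .d (-2048) (.pos 45 .mp ⟨⟨1264794158, 0, 0, 0, 0, 537701292, 0, 0, 0, ⟨0, 0⟩, 0⟩, 0, 0⟩ 0 0) (.cut .s 14757376 (.pos 45 .mp ⟨⟨1283197367, 0, 0, 0, 0, 479674743, 0, 0, 0, ⟨0, 0⟩, 0⟩, 0, 0⟩ 0 0) (.pos 45 .mp ⟨⟨1286302093, 0, 0, 0, 0, 481372385, 0, 0, 0, ⟨0, 0⟩, 0⟩, 0, 0⟩ 0 0)))) (.cut .s 14765056 (.cut .d (-2048) (.pos 45 .mp ⟨⟨1271154561, 0, 0, 0, 0, 541084073, 0, 0, 0, ⟨0, 0⟩, 0⟩, 0, 0⟩ 0 0) (.cut .s 14762496 (.pos 45 .mp ⟨⟨1289408276, 0, 0, 0, 0, 483102624, 0, 0, 0, ⟨0, 0⟩, 0⟩, 0, 0⟩ 0 0) (.pos 45 .mp ⟨⟨1292515819, 0, 0, 0, 0, 484865762,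 0, 0, 0, ⟨0, 0⟩, 0⟩, 0, 0⟩ 0 0))) (.cut .s 14767616 (.cut .s 14766336 (.pos 45 .mp ⟨⟨1304020219, 0, 0, 0, 0, 468145255, 0, 0, 0, ⟨0, 0⟩, 0⟩, 0, 0⟩ 0 0) (.pos 45 .mp ⟨⟨1305667613, 0, 0, 0, 0, 468827267, 0, 0, 0, ⟨0, 0⟩, 0⟩, 0, 0⟩ 0 0)) (.pos 45 .mp ⟨⟨1308970584, 0, 0, 0, 0, 468275383, 0, 0, 0, ⟨0, 0⟩, 0⟩, 0, 0⟩ 0 0)))) (.pos 46 .mp ⟨⟨1552825168, 0, 0, 0, 0, 0, 0, 0, 0, ⟨0, 0⟩, 0⟩, 0, 0⟩ 0 0)) (.pos 43 .mp ⟨⟨1297238628, 0, 0, 0, 0, 433444948, 0, 0, 0, ⟨0, 0⟩, 0⟩, 0, 0⟩ 0 0)))) (.pos 44 .mp ⟨⟨1537828761, 0, 0, 0, 0, 0, 0, 0, 0, ⟨0, 0⟩, 0⟩, 0, 0⟩ 0 0)) (.cut .v 16842752 (.cut .s 14790656 (.cut .d (-4096) (.cut .l 153791 (.void 43 ⟨⟨0, 0,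 0, 0, 0, 100000, 0, 0, 0, ⟨0, 0⟩, 0⟩, 0, 0⟩ 0 0) (.cut .s 14780416 (.pos 43 .mp ⟨⟨1280993287, 0, 0, 0, 0, 562932264, 0, 0, 0, ⟨0, 0⟩, 0⟩, 0, 0⟩ 0 0) (.pos 43 .mp ⟨⟨1294018685, 0, 0, 0, 0, 569596041, 0, 0, 0, ⟨0, 0⟩, 0⟩, 0, 0⟩ 0 0))) (.cut .l 153791 (.cut .v 16809984 (.cut .s 14780416 (.cut .s 14775296 (.cut .s 14772736 (.pos 45 .mp ⟨⟨1312284497, 0, 0, 0, 0, 469647543, 0, 0, 0, ⟨0, 0⟩, 0⟩, 0, 0⟩ 0 0) (.pos 45 .mp ⟨⟨1315609395, 0, 0, 0, 0, 471028723, 0, 0, 0, ⟨0, 0⟩, 0⟩, 0, 0⟩ 0 0)) (.cut .s 14777856 (.pos 45 .mp ⟨⟨1318945318, 0, 0, 0, 0, 472418884, 0, 0, 0, ⟨0, 0⟩, 0⟩, 0, 0⟩ 0 0) (.pos 45 .mp ⟨⟨1322292310, 0, 0, 0, 0, 473817989, 0, 0,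 0, ⟨0, 0⟩, 0⟩, 0, 0⟩ 0 0))) (.cut .s 14785536 (.cut .s 14782976 (.pos 45 .mp ⟨⟨1325650412, 0, 0, 0, 0, 475225998, 0, 0, 0, ⟨0, 0⟩, 0⟩, 0, 0⟩ 0 0) (.pos 45 .mp ⟨⟨1329019666, 0, 0, 0, 0, 476642873, 0, 0, 0, ⟨0, 0⟩, 0⟩, 0, 0⟩ 0 0)) (.cut .s 14788096 (.pos 45 .mp ⟨⟨1332400114, 0, 0, 0, 0, 478068574, 0, 0, 0, ⟨0, 0⟩, 0⟩, 0, 0⟩ 0 0) (.pos 45 .mp ⟨⟨1335791800, 0, 0, 0, 0, 479503061, 0, 0, 0, ⟨0, 0⟩, 0⟩, 0, 0⟩ 0 0)))) (.pos 46 .mp ⟨⟨1584354102, 0, 0, 0, 0, 0, 0, 0, 0, ⟨0, 0⟩, 0⟩, 0, 0⟩ 0 0)) (.pos 43 .mp ⟨⟨1323805664, 0, 0, 0, 0, 442533101, 0, 0, 0, ⟨0, 0⟩, 0⟩, 0, 0⟩ 0 0))) (.cut .d (-4096) (.cut .l 153791 (.void 43 ⟨⟨0, 0, 0, 0, 0, 100000,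 0, 0, 0, ⟨0, 0⟩, 0⟩, 0, 0⟩ 0 0) (.cut .s 14800896 (.pos 43 .mp ⟨⟨1307652101, 0, 0, 0, 0, 575405851, 0, 0, 0, ⟨0, 0⟩, 0⟩, 0, 0⟩ 0 0) (.pos 43 .mp ⟨⟨1322365200, 0, 0, 0, 0, 579272706, 0, 0, 0, ⟨0, 0⟩, 0⟩, 0, 0⟩ 0 0))) (.cut .l 153791 (.cut .v 16809984 (.cut .s 14800896 (.cut .d (-2048) (.pos 45 .mp ⟨⟨1310204908, 0, 0, 0, 0, 574858089, 0, 0, 0, ⟨0, 0⟩, 0⟩, 0, 0⟩ 0 0) (.cut .l 76895 (.cut .d (-1024) (.pos 45 .mp ⟨⟨1330899039, 0, 0, 0, 0, 522220162, 0, 0, 0, ⟨0, 0⟩, 0⟩, 0, 0⟩ 0 0) (.cut .s 14795776 (.pos 45 .mp ⟨⟨1329020565, 0, 0, 0, 0, 503644241, 0, 0, 0, ⟨0, 0⟩, 0⟩, 0, 0⟩ 0 0) (.pos 45 .mp ⟨⟨1335547404, 0, 0, 0, 0, 507462296, 0, 0, 0,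 ⟨0, 0⟩, 0⟩, 0, 0⟩ 0 0))) (.pos 45 .mp ⟨⟨1331951966, 0, 0, 0, 0, 484014500, 0, 0, 0, ⟨0, 0⟩, 0⟩, 0, 0⟩ 0 0))) (.cut .d (-2048) (.pos 45 .mp ⟨⟨1323567724, 0, 0, 0, 0, 582950031, 0, 0, 0, ⟨0, 0⟩, 0⟩, 0, 0⟩ 0 0) (.cut .s 14806016 (.pos 45 .mp ⟨⟨1347187543, 0, 0, 0, 0, 501281116, 0, 0, 0, ⟨0, 0⟩, 0⟩, 0, 0⟩ 0 0) (.pos 45 .mp ⟨⟨1354070511, 0, 0, 0, 0, 504540943, 0, 0, 0, ⟨0, 0⟩, 0⟩, 0, 0⟩ 0 0)))) (.pos 46 .mp ⟨⟨1616653429, 0, 0, 0, 0, 0, 0, 0, 0, ⟨0, 0⟩, 0⟩, 0, 0⟩ 0 0)) (.pos 43 .mp ⟨⟨1351084386, 0, 0, 0, 0, 451743729, 0, 0, 0, ⟨0, 0⟩, 0⟩, 0, 0⟩ 0 0)))) (.pos 44 .mp ⟨⟨1602492688, 0, 0, 0, 0, 0, 0, 0, 0, ⟨0, 0⟩, 0⟩, 0, 0⟩ 0 0))) (.pos 36 .mp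 ⟨⟨1596155382, 0, 0, 0, 0, 0, 0, 0, 0, ⟨0, 0⟩, 0⟩, 0, 0⟩ 0 0)))))))) (.pos 32 .mp ⟨⟨1784463078, 0, 0, 0, 0, 0, 0, 0, 0, ⟨0, 0⟩, 0⟩, 0, 0⟩ 0 0))) (.void 30 ⟨⟨100000, 0, 0, 0, 0, 0, 0, 0, 0, ⟨0, 0⟩, 0⟩, 0, 0⟩ 0 0)) (.void 28 ⟨⟨100000, 0, 0, 0, 0, 0, 0, 0, 0, ⟨0, 0⟩, 0⟩, 0, 0⟩ 0 0))) (.void 26 ⟨⟨100000, 0, 0, 0, 0, 0, 0, 0, 0, ⟨0, 0⟩, 0⟩, 0, 0⟩ 0 0))) (.void 24 ⟨⟨100000, 0, 0, 0, 0, 0, 0, 0, 0, ⟨0, 0⟩, 0⟩, 0, 0⟩ 0 0)))) (.void 22 ⟨⟨100000, 0, 0, 0, 0, 0, 0, 0, 0, ⟨0, 0⟩, 0⟩, 0, 0⟩ 0 0))) (.void 103 ⟨⟨100000, 0, 0, 0, 0, 0, 0, 0, 0, ⟨0, 0⟩, 0⟩, 0, 0⟩ 0 0)) (.void 114 ⟨⟨100000, 0, 0, 0, 0, 0, 0, 0, 0, ⟨0, 0⟩, 0⟩, 0, 0⟩ 0 0)) (.void 125 ⟨⟨99860,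 0, 0, 7337, 0, 0, 0, 0, 0, ⟨0, 0⟩, 0⟩, 0, 0⟩ 0 0))) (.cut .v 16777216 (.cut .v 8388608 (.cut .v 4194304 (.cut .v 2097152 (.cut .v 1048576 (.pos 119 .pm ⟨⟨0, 0, 43003270, 0, 0, 0, 0, 0, 0, ⟨0, 0⟩, 0⟩, 0, 902⟩ 0 0) (.pos 120 .pm ⟨⟨0, 0, 80245467, 0, 0, 0, 0, 0, 0, ⟨0, 0⟩, 0⟩, 0, 2599⟩ 0 0)) (.pos 118 .pm ⟨⟨0, 0, 143520066, 0, 0, 0, 0, 0, 0, ⟨0, 0⟩, 0⟩, 0, 6795⟩ 0 0)) (.pos 5 .pm ⟨⟨0, 0, 448677089, 0, 0, 0, 0, 0, 0, ⟨0, 0⟩, 0⟩, 0, 12232⟩ 0 0)) (.pos 3 .pm ⟨⟨0, 0, 0, 0, 0, 0, 0, 0, 0, ⟨0, 0⟩, 0⟩, 0, 0⟩ 0 0)) (.cut .v 268435456 (.cut .v 67108864 (.cut .d 1219821 (.cut .v 33554432 (.cut .d 609910 (.cut .v 25165824 (.cut .d 304955 (.cut .d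 152477 (.cut .v 20971520 (.cut .v 18874368 (.cut .d 76238 (.cut .d 38119 (.cut .v 17825792 (.cut .v 17301504 (.cut .s 14729216 (.pos 29 .pp ⟨⟨1155592873, 0, 0, 0, 0, 0, 0, 0, 0, ⟨0, 0⟩, 0⟩, 30975834, 0⟩ 0 0) (.pos 29 .pp ⟨⟨1248220917, 0, 0, 0, 0, 0, 0, 0, 0, ⟨0, 0⟩, 0⟩, 33924646, 0⟩ 0 0)) (.pos 30 .pp ⟨⟨1517182066, 0, 0, 0, 0, 0, 0, 0, 0, ⟨0, 0⟩, 0⟩, 0, 0⟩ 0 0)) (.pos 28 .pp ⟨⟨1699280376, 0, 0, 0, 0, 0, 0, 0, 0, ⟨0, 0⟩, 0⟩, 0, 0⟩ 0 0)) (.pos 25 .pp ⟨⟨1289946217, 0, 0, 0, 0, 0, 0, 0, 0, ⟨0, 0⟩, 0⟩, 0, 1659⟩ 0 0)) (.pos 25 .pp ⟨⟨0, 0, 0, 0, 0, 0, 0, 0, 0, ⟨0, 0⟩, 0⟩, 0, 32378⟩ 0 0)) (.cut .d 76238 (.cut .v 19922944 (.pos 53 .pp ⟨⟨1848430104,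 0, 0, 0, 0, 0, 0, 0, 0, ⟨0, 0⟩, 0⟩, 0, 0⟩ 0 0) (.pos 54 .pp ⟨⟨2091466702, 0, 0, 0, 0, 0, 0, 0, 0, ⟨0, 0⟩, 0⟩, 0, 0⟩ 0 0)) (.pos 26 .pp ⟨⟨1624765971, 0, 0, 0, 0, 0, 0, 0, 0, ⟨0, 0⟩, 0⟩, 0, 0⟩ 0 0))) (.cut .d 76238 (.void 24 ⟨⟨0, 0, 0, 0, 0, 0, 0, 0, 0, ⟨0, 0⟩, 0⟩, 100000, 0⟩ 0 0) (.cut .v 23068672 (.cut .d 114357 (.pos 55 .pp ⟨⟨0, 0, 0, 0, 0, 0, 0, 0, 0, ⟨0, 0⟩, 0⟩, 277870312, 0⟩ 0 0) (.pos 55 .pp ⟨⟨0, 0, 0, 0, 0, 0, 2497, 0, 0, ⟨0, 0⟩, 0⟩, 240292233, 0⟩ 0 0)) (.pos 56 .pp ⟨⟨0, 0, 0, 0, 0, 0, 0, 0, 0, ⟨0, 0⟩, 0⟩, 320664207, 0⟩ 0 0)))) (.cut .v 20971520 (.pos 23 .pp ⟨⟨0, 0, 0, 0, 0, 0, 0, 0, 0, ⟨0, 0⟩, 0⟩, 0, 33977⟩ 0 0) (.pos 24 .pp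 ⟨⟨0, 0, 0, 0, 0, 0, 5715, 0, 0, ⟨0, 0⟩, 0⟩, 229837313, 0⟩ 0 0))) (.pos 21 .pp ⟨⟨0, 0, 0, 0, 0, 0, 0, 0, 0, ⟨0, 0⟩, 0⟩, 0, 36695⟩ 0 0)) (.cut .d 304955 (.cut .d 152477 (.void 22 ⟨⟨0, 0, 0, 0, 0, 0, 0, 0, 0, ⟨0, 0⟩, 0⟩, 100000, 0⟩ 0 0) (.pos 22 .pp ⟨⟨0, 0, 0, 0, 0, 0, 0, 0, 0, ⟨0, 0⟩, 0⟩, 345115853, 0⟩ 0 0)) (.pos 22 .pp ⟨⟨0, 0, 0, 0, 0, 0, 1637, 0, 0, ⟨0, 0⟩, 0⟩, 243974458, 0⟩ 0 0))) (.pos 20 .pp ⟨⟨0, 0, 0, 0, 0, 0, 0, 0, 0, ⟨0, 0⟩, 0⟩, 0, 40773⟩ 0 0)) (.cut .d 609910 (.cut .v 50331648 (.pos 106 .pp ⟨⟨0, 0, 0, 0, 0, 0, 0, 0, 0, ⟨0, 0⟩, 0⟩, 574456028, 0⟩ 0 0) (.void 107 ⟨⟨0, 0, 0, 0, 0, 0, 0, 0, 0, ⟨0, 0⟩, 0⟩, 100000, 0⟩ 0 0)) (.pos 103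 .pp ⟨⟨0, 0, 0, 0, 0, 0, 0, 0, 0, ⟨0, 0⟩, 0⟩, 369609167, 0⟩ 0 0))) (.pos 102 .pp ⟨⟨0, 0, 0, 0, 0, 0, 0, 0, 0, ⟨0, 0⟩, 0⟩, 0, 30580⟩ 0 0)) (.void 114 ⟨⟨0, 0, 0, 49237, 0, 0, 0, 0, 0, ⟨0, 0⟩, 0⟩, 50763, 0⟩ 0 0)) (.void 125 ⟨⟨0, 0, 0, 0, 0, 0, 0, 0, 0, ⟨0, 0⟩, 0⟩, 100000, 0⟩ 0 0)))),
    by decide +kernel⟩

def covers31 : cell.Covers Vale.Agent.P237.Petty.Cor.Grid.N12.table row31.1 :=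
  ⟨(.cut .d 0 (.cut .v 16777216 (.cut .v 8388608 (.void 2 ⟨⟨0, 0, 100000, 0, 0, 0, 0, 0, 0, ⟨0, 0⟩, 0⟩, 0, 0⟩ 0 0) (.cut .d (-8388608) (.void 3 ⟨⟨100000, 0, 0, 0, 0, 0, 0, 0, 0, ⟨0, 0⟩, 0⟩, 0, 0⟩ 0 0) (.cut .d (-4194304) (.void 3 ⟨⟨100000, 0, 0, 0, 0, 0, 0, 0, 0, ⟨0, 0⟩, 0⟩, 0, 0⟩ 0 0) (.cut .d (-2097152) (.void 3 ⟨⟨100000, 0, 0, 0, 0, 0, 0, 0, 0, ⟨0, 0⟩, 0⟩, 0, 0⟩ 0 0) (.cut .d (-1048576) (.void 3 ⟨⟨100000, 0, 0, 0, 0, 0, 0, 0, 0, ⟨0, 0⟩, 0⟩, 0, 0⟩ 0 0) (.cut .d (-524288) (.void 3 ⟨⟨0, 0, 0, 0, 0, 100000, 0, 0, 0, ⟨0, 0⟩, 0⟩, 0, 0⟩ 0 0) (.cut .d (-262144) (.void 3 ⟨⟨0, 0, 0, 0, 0, 100000, 0, 0, 0, ⟨0, 0⟩, 0⟩, 0, 0⟩ 0 0) (.cut .s 14876672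 (.pos 3 .mm ⟨⟨0, 0, 0, 0, 0, 3259508071, 0, 0, 0, ⟨0, 0⟩, 0⟩, 0, 0⟩ 0 0) (.pos 3 .mm ⟨⟨0, 0, 0, 0, 0, 3504324419, 0, 0, 0, ⟨0, 0⟩, 0⟩, 0, 0⟩ 0 0))))))))) (.cut .v 268435456 (.cut .v 67108864 (.cut .v 33554432 (.cut .d (-8388608) (.void 20 ⟨⟨100000, 0, 0, 0, 0, 0, 0, 0, 0, ⟨0, 0⟩, 0⟩, 0, 0⟩ 0 0) (.cut .v 25165824 (.cut .d (-4194304) (.void 21 ⟨⟨100000, 0, 0, 0, 0, 0, 0, 0, 0, ⟨0, 0⟩, 0⟩, 0, 0⟩ 0 0) (.cut .d (-2097152) (.void 21 ⟨⟨100000, 0, 0, 0, 0, 0, 0, 0, 0, ⟨0, 0⟩, 0⟩, 0, 0⟩ 0 0) (.cut .v 20971520 (.cut .d (-1048576) (.void 23 ⟨⟨100000, 0, 0, 0, 0, 0, 0, 0, 0, ⟨0, 0⟩, 0⟩, 0, 0⟩ 0 0) (.cut .v 18874368 (.cut .d (-524288) (.void 25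 ⟨⟨100000, 0, 0, 0, 0, 0, 0, 0, 0, ⟨0, 0⟩, 0⟩, 0, 0⟩ 0 0) (.cut .v 17825792 (.cut .d (-262144) (.void 27 ⟨⟨100000, 0, 0, 0, 0, 0, 0, 0, 0, ⟨0, 0⟩, 0⟩, 0, 0⟩ 0 0) (.cut .v 17301504 (.cut .v 17039360 (.cut .d (-131072) (.void 31 ⟨⟨100000, 0, 0, 0, 0, 0, 0, 0, 0, ⟨0, 0⟩, 0⟩, 0, 0⟩ 0 0) (.cut .d (-65536) (.void 31 ⟨⟨100000, 0, 0, 0, 0, 0, 0, 0, 0, ⟨0, 0⟩, 0⟩, 0, 0⟩ 0 0) (.cut .d (-32768) (.void 31 ⟨⟨100000, 0, 0, 0, 0, 0, 0, 0, 0, ⟨0, 0⟩, 0⟩, 0, 0⟩ 0 0) (.cut .d (-16384) (.void 31 ⟨⟨100000, 0, 0, 0, 0, 0, 0, 0, 0, ⟨0, 0⟩, 0⟩, 0, 0⟩ 0 0) (.cut .d (-8192) (.void 31 ⟨⟨0, 0, 0, 0, 0, 100000, 0, 0, 0, ⟨0, 0⟩, 0⟩, 0, 0⟩ 0 0) (.cut .v 16908288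 (.cut .s 14876672 (.cut .s 14843904 (.cut .v 16842752 (.cut .s 14827520 (.cut .d (-4096) (.cut .s 14819328 (.pos 43 .mp ⟨⟨1334131859, 0, 0, 0, 0, 600400072, 0, 0, 0, ⟨0, 0⟩, 0⟩, 0, 0⟩ 0 0) (.pos 43 .mp ⟨⟨1345133912, 0, 0, 0, 0, 604060130, 0, 0, 0, ⟨0, 0⟩, 0⟩, 0, 0⟩ 0 0)) (.cut .l 153791 (.cut .v 16809984 (.cut .s 14819328 (.cut .s 14815232 (.pos 45 .mp ⟨⟨1368928081, 0, 0, 0, 0, 491242852, 0, 0, 0, ⟨0, 0⟩, 0⟩, 0, 0⟩ 0 0) (.pos 45 .mp ⟨⟨1374558147, 0, 0, 0, 0, 492961409, 0, 0, 0, ⟨0, 0⟩, 0⟩, 0, 0⟩ 0 0)) (.cut .d (-2048) (.pos 45 .mp ⟨⟨1348082497, 0, 0, 0, 0, 590151036, 0, 0, 0, ⟨0, 0⟩, 0⟩, 0, 0⟩ 0 0) (.cut .s 14823424 (.pos 45 .mp ⟨⟨1369235846,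 0, 0, 0, 0, 516372811, 0, 0, 0, ⟨0, 0⟩, 0⟩, 0, 0⟩ 0 0) (.pos 45 .mp ⟨⟨1375360069, 0, 0, 0, 0, 517037209, 0, 0, 0, ⟨0, 0⟩, 0⟩, 0, 0⟩ 0 0)))) (.pos 46 .mp ⟨⟨1651541918, 0, 0, 0, 0, 0, 0, 0, 0, ⟨0, 0⟩, 0⟩, 0, 0⟩ 0 0)) (.pos 43 .mp ⟨⟨1373470977, 0, 0, 0, 0, 476171113, 0, 0, 0, ⟨0, 0⟩, 0⟩, 0, 0⟩ 0 0))) (.cut .d (-4096) (.cut .s 14835712 (.pos 43 .mp ⟨⟨1356257712, 0, 0, 0, 0, 607929805, 0, 0, 0, ⟨0, 0⟩, 0⟩, 0, 0⟩ 0 0) (.cut .s 14839808 (.pos 43 .mp ⟨⟨1367504778, 0, 0, 0, 0, 601610415, 0, 0, 0, ⟨0, 0⟩, 0⟩, 0, 0⟩ 0 0) (.pos 43 .mp ⟨⟨1373175017, 0, 0, 0, 0, 603648610, 0, 0, 0, ⟨0, 0⟩, 0⟩, 0, 0⟩ 0 0))) (.cut .l 153791 (.cut .v 16809984 (.cut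 .s 14835712 (.cut .d (-2048) (.pos 45 .mp ⟨⟨1359184357, 0, 0, 0, 0, 593999521, 0, 0, 0, ⟨0, 0⟩, 0⟩, 0, 0⟩ 0 0) (.cut .s 14831616 (.pos 45 .mp ⟨⟨1381498201, 0, 0, 0, 0, 517780069, 0, 0, 0, ⟨0, 0⟩, 0⟩, 0, 0⟩ 0 0) (.pos 45 .mp ⟨⟨1387649817, 0, 0, 0, 0, 518602765, 0, 0, 0, ⟨0, 0⟩, 0⟩, 0, 0⟩ 0 0))) (.cut .d (-2048) (.pos 45 .mp ⟨⟨1370409342, 0, 0, 0, 0, 598059664, 0, 0, 0, ⟨0, 0⟩, 0⟩, 0, 0⟩ 0 0) (.cut .s 14839808 (.pos 45 .mp ⟨⟨1393503995, 0, 0, 0, 0, 520206607, 0, 0, 0, ⟨0, 0⟩, 0⟩, 0, 0⟩ 0 0) (.pos 45 .mp ⟨⟨1399264286, 0, 0, 0, 0, 522133239, 0, 0, 0, ⟨0, 0⟩, 0⟩, 0, 0⟩ 0 0)))) (.pos 46 .mp ⟨⟨1678758594, 0, 0, 0, 0, 0, 0, 0, 0, ⟨0, 0⟩, 0⟩,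 0, 0⟩ 0 0)) (.pos 43 .mp ⟨⟨1396365556, 0, 0, 0, 0, 484140332, 0, 0, 0, ⟨0, 0⟩, 0⟩, 0, 0⟩ 0 0)))) (.pos 44 .mp ⟨⟨1664825668, 0, 0, 0, 0, 0, 0, 0, 0, ⟨0, 0⟩, 0⟩, 0, 0⟩ 0 0)) (.cut .v 16842752 (.cut .d (-4096) (.cut .l 153791 (.void 43 ⟨⟨0, 0, 0, 0, 0, 100000, 0, 0, 0, ⟨0, 0⟩, 0⟩, 0, 0⟩ 0 0) (.cut .d (-6144) (.pos 43 .mp ⟨⟨1391707695, 0, 0, 0, 0, 684997373, 0, 0, 0, ⟨0, 0⟩, 0⟩, 0, 0⟩ 0 0) (.cut .s 14860288 (.cut .s 14852096 (.pos 43 .mp ⟨⟨1384498925, 0, 0, 0, 0, 592138069, 0, 0, 0, ⟨0, 0⟩, 0⟩, 0, 0⟩ 0 0) (.pos 43 .mp ⟨⟨1395157767, 0, 0, 0, 0, 599005152, 0, 0, 0, ⟨0, 0⟩, 0⟩, 0, 0⟩ 0 0)) (.cut .s 14868480 (.pos 43 .mp ⟨⟨1406061789, 0, 0,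 0, 0, 605739851, 0, 0, 0, ⟨0, 0⟩, 0⟩, 0, 0⟩ 0 0) (.pos 43 .mp ⟨⟨1417217918, 0, 0, 0, 0, 612328636, 0, 0, 0, ⟨0, 0⟩, 0⟩, 0, 0⟩ 0 0))))) (.cut .l 153791 (.cut .v 16809984 (.cut .s 14860288 (.cut .s 14852096 (.cut .d (-2048) (.pos 45 .mp ⟨⟨1381758993, 0, 0, 0, 0, 602334264, 0, 0, 0, ⟨0, 0⟩, 0⟩, 0, 0⟩ 0 0) (.cut .s 14848000 (.pos 45 .mp ⟨⟨1405056707, 0, 0, 0, 0, 524099026, 0, 0, 0, ⟨0, 0⟩, 0⟩, 0, 0⟩ 0 0) (.cut .s 14850048 (.pos 45 .mp ⟨⟨1408186399, 0, 0, 0, 0, 529719506, 0, 0, 0, ⟨0, 0⟩, 0⟩, 0, 0⟩ 0 0) (.pos 45 .mp ⟨⟨1410836059, 0, 0, 0, 0, 531248838, 0, 0, 0, ⟨0, 0⟩, 0⟩, 0, 0⟩ 0 0)))) (.cut .d (-2048) (.pos 45 .mp ⟨⟨1393234878, 0, 0, 0,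 0, 606826168, 0, 0, 0, ⟨0, 0⟩, 0⟩, 0, 0⟩ 0 0) (.cut .v 16793600 (.cut .s 14856192 (.pos 47 .mp ⟨⟨1414265600, 0, 0, 0, 0, 533045079, 0, 0, 0, ⟨0, 0⟩, 0⟩, 0, 0⟩ 0 0) (.cut .s 14858240 (.pos 47 .mp ⟨⟨1424528536, 0, 0, 0, 0, 524339886, 0, 0, 0, ⟨0, 0⟩, 0⟩, 0, 0⟩ 0 0) (.pos 47 .mp ⟨⟨1427152241, 0, 0, 0, 0, 526032088, 0, 0, 0, ⟨0, 0⟩, 0⟩, 0, 0⟩ 0 0))) (.pos 48 .mp ⟨⟨1677492220, 0, 0, 0, 0, 0, 0, 0, 0, ⟨0, 0⟩, 0⟩, 0, 0⟩ 0 0)))) (.cut .s 14868480 (.cut .d (-2048) (.pos 45 .mp ⟨⟨1404838593, 0, 0, 0, 0, 611538272, 0, 0, 0, ⟨0, 0⟩, 0⟩, 0, 0⟩ 0 0) (.cut .l 76895 (.cut .d (-1024) (.pos 45 .mp ⟨⟨1424381837, 0, 0, 0, 0, 561489704, 0, 0, 0, ⟨0, 0⟩,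 0⟩, 0, 0⟩ 0 0) (.cut .s 14864384 (.pos 45 .mp ⟨⟨1423526462, 0, 0, 0, 0, 542049692, 0, 0, 0, ⟨0, 0⟩, 0⟩, 0, 0⟩ 0 0) (.pos 45 .mp ⟨⟨1429450427, 0, 0, 0, 0, 544274205, 0, 0, 0, ⟨0, 0⟩, 0⟩, 0, 0⟩ 0 0))) (.pos 45 .mp ⟨⟨1425532402, 0, 0, 0, 0, 528747672, 0, 0, 0, ⟨0, 0⟩, 0⟩, 0, 0⟩ 0 0))) (.cut .d (-2048) (.pos 45 .mp ⟨⟨1416571761, 0, 0, 0, 0, 616473519, 0, 0, 0, ⟨0, 0⟩, 0⟩, 0, 0⟩ 0 0) (.cut .l 76895 (.cut .d (-1024) (.pos 45 .mp ⟨⟨1435740730, 0, 0, 0, 0, 567594907, 0, 0, 0, ⟨0, 0⟩, 0⟩, 0, 0⟩ 0 0) (.cut .v 16793600 (.cut .s 14872576 (.pos 47 .mp ⟨⟨1432897560, 0, 0, 0, 0, 551511086, 0, 0, 0, ⟨0, 0⟩, 0⟩, 0, 0⟩ 0 0) (.pos 47 .mp ⟨⟨1438877706,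 0, 0, 0, 0, 553835500, 0, 0, 0, ⟨0, 0⟩, 0⟩, 0, 0⟩ 0 0)) (.pos 48 .mp ⟨⟨1706442417, 0, 0, 0, 0, 0, 0, 0, 0, ⟨0, 0⟩, 0⟩, 0, 0⟩ 0 0))) (.pos 45 .mp ⟨⟨1437470768, 0, 0, 0, 0, 533474378, 0, 0, 0, ⟨0, 0⟩, 0⟩, 0, 0⟩ 0 0))))) (.pos 46 .mp ⟨⟨1714828370, 0, 0, 0, 0, 0, 0, 0, 0, ⟨0, 0⟩, 0⟩, 0, 0⟩ 0 0)) (.cut .s 14860288 (.pos 43 .mp ⟨⟨1419774814, 0, 0, 0, 0, 492390358, 0, 0, 0, ⟨0, 0⟩, 0⟩, 0, 0⟩ 0 0) (.cut .s 14868480 (.pos 43 .mp ⟨⟨1431676530, 0, 0, 0, 0, 519180291, 0, 0, 0, ⟨0, 0⟩, 0⟩, 0, 0⟩ 0 0) (.pos 43 .mp ⟨⟨1443711869, 0, 0, 0, 0, 523742554, 0, 0, 0, ⟨0, 0⟩, 0⟩, 0, 0⟩ 0 0))))) (.pos 44 .mp ⟨⟨1720334805, 0, 0, 0, 0, 0, 0, 0, 0, ⟨0, 0⟩, 0⟩,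 0, 0⟩ 0 0))) (.cut .s 14909440 (.cut .v 16842752 (.cut .d (-4096) (.cut .d (-6144) (.pos 43 .mp ⟨⟨1437657415, 0, 0, 0, 0, 713031698, 0, 0, 0, ⟨0, 0⟩, 0⟩, 0, 0⟩ 0 0) (.cut .l 153791 (.void 43 ⟨⟨0, 0, 0, 0, 0, 100000, 0, 0, 0, ⟨0, 0⟩, 0⟩, 0, 0⟩ 0 0) (.cut .s 14893056 (.cut .s 14884864 (.pos 43 .mp ⟨⟨1428633187, 0, 0, 0, 0, 618757760, 0, 0, 0, ⟨0, 0⟩, 0⟩, 0, 0⟩ 0 0) (.pos 43 .mp ⟨⟨1440314737, 0, 0, 0, 0, 625013261, 0, 0, 0, ⟨0, 0⟩, 0⟩, 0, 0⟩ 0 0)) (.cut .s 14901248 (.pos 43 .mp ⟨⟨1452269818, 0, 0, 0, 0, 631080951, 0, 0, 0, ⟨0, 0⟩, 0⟩, 0, 0⟩ 0 0) (.pos 43 .mp ⟨⟨1464505794, 0, 0, 0, 0, 636946417, 0, 0, 0, ⟨0, 0⟩, 0⟩, 0, 0⟩ 0 0))))) (.cut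 .l 153791 (.cut .v 16809984 (.cut .s 14893056 (.cut .d (-2048) (.cut .s 14884864 (.pos 45 .mp ⟨⟨1428436033, 0, 0, 0, 0, 621634907, 0, 0, 0, ⟨0, 0⟩, 0⟩, 0, 0⟩ 0 0) (.pos 45 .mp ⟨⟨1440433087, 0, 0, 0, 0, 627025483, 0, 0, 0, ⟨0, 0⟩, 0⟩, 0, 0⟩ 0 0)) (.cut .l 76895 (.cut .v 16793600 (.cut .s 14884864 (.cut .d (-1024) (.pos 47 .mp ⟨⟨1429838900, 0, 0, 0, 0, 614581557, 0, 0, 0, ⟨0, 0⟩, 0⟩, 0, 0⟩ 0 0) (.cut .s 14880768 (.pos 47 .mp ⟨⟨1444891328, 0, 0, 0, 0, 556199410, 0, 0, 0, ⟨0, 0⟩, 0⟩, 0, 0⟩ 0 0) (.pos 47 .mp ⟨⟨1450938641, 0, 0, 0, 0, 558602776, 0, 0, 0, ⟨0, 0⟩, 0⟩, 0, 0⟩ 0 0))) (.cut .d (-1024) (.pos 47 .mp ⟨⟨1441824525, 0, 0, 0, 0, 619958793,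 0, 0, 0, ⟨0, 0⟩, 0⟩, 0, 0⟩ 0 0) (.cut .v 16785408 (.cut .s 14888960 (.pos 81 .mp ⟨⟨1455745035, 0, 0, 0, 0, 563572792, 0, 0, 0, ⟨0, 0⟩, 0⟩, 0, 0⟩ 0 0) (.pos 81 .mp ⟨⟨1461855144, 0, 0, 0, 0, 566065680, 0, 0, 0, ⟨0, 0⟩, 0⟩, 0, 0⟩ 0 0)) (.pos 82 .mp ⟨⟨1732584438, 0, 0, 0, 0, 0, 0, 0, 0, ⟨0, 0⟩, 0⟩, 0, 0⟩ 0 0)))) (.pos 48 .mp ⟨⟨1761561583, 0, 0, 0, 0, 0, 0, 0, 0, ⟨0, 0⟩, 0⟩, 0, 0⟩ 0 0)) (.pos 45 .mp ⟨⟨1461751172, 0, 0, 0, 0, 519685709, 0, 0, 0, ⟨0, 0⟩, 0⟩, 0, 0⟩ 0 0))) (.cut .d (-2048) (.cut .s 14901248 (.pos 45 .mp ⟨⟨1452564632, 0, 0, 0, 0, 632648346, 0, 0, 0, ⟨0, 0⟩, 0⟩, 0, 0⟩ 0 0) (.pos 45 .mp ⟨⟨1464832406, 0, 0, 0, 0, 638506652, 0, 0,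 0, ⟨0, 0⟩, 0⟩, 0, 0⟩ 0 0)) (.cut .l 76895 (.cut .v 16793600 (.cut .s 14901248 (.cut .d (-1024) (.pos 47 .mp ⟨⟨1453944565, 0, 0, 0, 0, 625567920, 0, 0, 0, ⟨0, 0⟩, 0⟩, 0, 0⟩ 0 0) (.cut .v 16785408 (.cut .l 38447 (.cut .d (-512) (.pos 81 .mp ⟨⟨1454636282, 0, 0, 0, 0, 622023609, 0, 0, 0, ⟨0, 0⟩, 0⟩, 0, 0⟩ 0 0) (.cut .s 14897152 (.pos 81 .mp ⟨⟨1464909554, 0, 0, 0, 0, 574712234, 0, 0, 0, ⟨0, 0⟩, 0⟩, 0, 0⟩ 0 0) (.pos 81 .mp ⟨⟨1471110335, 0, 0, 0, 0, 577229821, 0, 0, 0, ⟨0, 0⟩, 0⟩, 0, 0⟩ 0 0))) (.pos 81 .mp ⟨⟨1469544157, 0, 0, 0, 0, 555386007, 0, 0, 0, ⟨0, 0⟩, 0⟩, 0, 0⟩ 0 0)) (.pos 82 .mp ⟨⟨1747196440, 0, 0, 0, 0, 0, 0, 0, 0, ⟨0, 0⟩, 0⟩, 0,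 0⟩ 0 0))) (.cut .d (-1024) (.pos 47 .mp ⟨⟨1466200757, 0, 0, 0, 0, 631412086, 0, 0, 0, ⟨0, 0⟩, 0⟩, 0, 0⟩ 0 0) (.cut .v 16785408 (.cut .l 38447 (.cut .d (-512) (.pos 81 .mp ⟨⟨1466886697, 0, 0, 0, 0, 627860678, 0, 0, 0, ⟨0, 0⟩, 0⟩, 0, 0⟩ 0 0) (.cut .s 14905344 (.pos 81 .mp ⟨⟨1477315424, 0, 0, 0, 0, 579855338, 0, 0, 0, ⟨0, 0⟩, 0⟩, 0, 0⟩ 0 0) (.pos 81 .mp ⟨⟨1483524247, 0, 0, 0, 0, 582590546, 0, 0, 0, ⟨0, 0⟩, 0⟩, 0, 0⟩ 0 0))) (.pos 81 .mp ⟨⟨1481967088, 0, 0, 0, 0, 560428025, 0, 0, 0, ⟨0, 0⟩, 0⟩, 0, 0⟩ 0 0)) (.pos 82 .mp ⟨⟨1762052938, 0, 0, 0, 0, 0, 0, 0, 0, ⟨0, 0⟩, 0⟩, 0, 0⟩ 0 0)))) (.pos 48 .mp ⟨⟨1791368110, 0, 0, 0, 0, 0, 0, 0, 0, ⟨0, 0⟩,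 0⟩, 0, 0⟩ 0 0)) (.pos 45 .mp ⟨⟨1486581447, 0, 0, 0, 0, 528938030, 0, 0, 0, ⟨0, 0⟩, 0⟩, 0, 0⟩ 0 0)))) (.pos 46 .mp ⟨⟨1772782999, 0, 0, 0, 0, 0, 0, 0, 0, ⟨0, 0⟩, 0⟩, 0, 0⟩ 0 0)) (.cut .d (-2048) (.cut .l 230687 (.cut .d (-3072) (.cut .v 16809984 (.cut .s 14893056 (.pos 45 .mp ⟨⟨1424527775, 0, 0, 0, 0, 623140670, 0, 0, 0, ⟨0, 0⟩, 0⟩, 0, 0⟩ 0 0) (.pos 45 .mp ⟨⟨1448637930, 0, 0, 0, 0, 634040343, 0, 0, 0, ⟨0, 0⟩, 0⟩, 0, 0⟩ 0 0)) (.pos 46 .mp ⟨⟨1748337499, 0, 0, 0, 0, 0, 0, 0, 0, ⟨0, 0⟩, 0⟩, 0, 0⟩ 0 0)) (.pos 43 .mp ⟨⟨1478202011, 0, 0, 0, 0, 0, 0, 0, 0, ⟨0, 0⟩, 0⟩, 0, 0⟩ 0 0)) (.pos 43 .mp ⟨⟨1451578547, 0, 0, 0, 0, 0, 0, 0, 0, ⟨0, 0⟩, 0⟩,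 0, 0⟩ 0 0)) (.pos 43 .mp ⟨⟨0, 0, 0, 0, 0, 0, 0, 0, 0, ⟨0, 0⟩, 0⟩, 0, 0⟩ 0 0)))) (.pos 44 .mp ⟨⟨1778472372, 0, 0, 0, 0, 0, 0, 0, 0, ⟨0, 0⟩, 0⟩, 0, 0⟩ 0 0)) (.cut .v 16842752 (.cut .d (-4096) (.cut .d (-6144) (.pos 43 .mp ⟨⟨1485353542, 0, 0, 0, 0, 745969166, 0, 0, 0, ⟨0, 0⟩, 0⟩, 0, 0⟩ 0 0) (.cut .l 153791 (.void 43 ⟨⟨0, 0, 0, 0, 0, 100000, 0, 0, 0, ⟨0, 0⟩, 0⟩, 0, 0⟩ 0 0) (.cut .s 14925824 (.cut .s 14917632 (.pos 43 .mp ⟨⟨1477030146, 0, 0, 0, 0, 642595010, 0, 0, 0, ⟨0, 0⟩, 0⟩, 0, 0⟩ 0 0) (.pos 43 .mp ⟨⟨1489850472, 0, 0, 0, 0, 648011844, 0, 0, 0, ⟨0, 0⟩, 0⟩, 0, 0⟩ 0 0)) (.cut .s 14934016 (.pos 43 .mp ⟨⟨1502974490, 0, 0, 0, 0, 653181790,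 0, 0, 0, ⟨0, 0⟩, 0⟩, 0, 0⟩ 0 0) (.pos 43 .mp ⟨⟨1516410043, 0, 0, 0, 0, 658089470, 0, 0, 0, ⟨0, 0⟩, 0⟩, 0, 0⟩ 0 0))))) (.cut .l 153791 (.cut .v 16809984 (.cut .s 14925824 (.cut .d (-2048) (.cut .s 14917632 (.pos 45 .mp ⟨⟨1477238179, 0, 0, 0, 0, 644603609, 0, 0, 0, ⟨0, 0⟩, 0⟩, 0, 0⟩ 0 0) (.pos 45 .mp ⟨⟨1489783751, 0, 0, 0, 0, 650942483, 0, 0, 0, ⟨0, 0⟩, 0⟩, 0, 0⟩ 0 0)) (.cut .l 76895 (.cut .v 16793600 (.cut .s 14917632 (.cut .d (-1024) (.pos 47 .mp ⟨⟨1478594868, 0, 0, 0, 0, 637494495, 0, 0, 0, ⟨0, 0⟩, 0⟩, 0, 0⟩ 0 0) (.cut .v 16785408 (.cut .s 14913536 (.pos 81 .mp ⟨⟨1492924889, 0, 0, 0, 0, 579119799, 0, 0, 0, ⟨0, 0⟩, 0⟩, 0, 0⟩ 0 0) (.pos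 81 .mp ⟨⟨1499244259, 0, 0, 0, 0, 581848186, 0, 0, 0, ⟨0, 0⟩, 0⟩, 0, 0⟩ 0 0)) (.pos 82 .mp ⟨⟨1595574735, 0, 0, 0, 0, 384714623, 0, 0, 0, ⟨0, 0⟩, 0⟩, 0, 0⟩ 0 0))) (.cut .d (-1024) (.pos 47 .mp ⟨⟨1491128699, 0, 0, 0, 0, 643818408, 0, 0, 0, ⟨0, 0⟩, 0⟩, 0, 0⟩ 0 0) (.cut .s 14921728 (.cut .s 14919680 (.pos 47 .mp ⟨⟨1508184594, 0, 0, 0, 0, 577491613, 0, 0, 0, ⟨0, 0⟩, 0⟩, 0, 0⟩ 0 0) (.pos 47 .mp ⟨⟨1511496742, 0, 0, 0, 0, 578651503, 0, 0, 0, ⟨0, 0⟩, 0⟩, 0, 0⟩ 0 0)) (.pos 47 .mp ⟨⟨1513313286, 0, 0, 0, 0, 584795936, 0, 0, 0, ⟨0, 0⟩, 0⟩, 0, 0⟩ 0 0)))) (.pos 48 .mp ⟨⟨1821821533, 0, 0, 0, 0, 0, 0, 0, 0, ⟨0, 0⟩, 0⟩, 0, 0⟩ 0 0)) (.pos 45 .mp ⟨⟨1511975996,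 0, 0, 0, 0, 538353965, 0, 0, 0, ⟨0, 0⟩, 0⟩, 0, 0⟩ 0 0))) (.cut .d (-2048) (.cut .s 14934016 (.pos 45 .mp ⟨⟨1502470953, 0, 0, 0, 0, 657526599, 0, 0, 0, ⟨0, 0⟩, 0⟩, 0, 0⟩ 0 0) (.pos 45 .mp ⟨⟨1515301650, 0, 0, 0, 0, 664359339, 0, 0, 0, ⟨0, 0⟩, 0⟩, 0, 0⟩ 0 0)) (.cut .l 76895 (.cut .v 16793600 (.cut .s 14934016 (.cut .d (-1024) (.pos 47 .mp ⟨⟨1503804079, 0, 0, 0, 0, 650387143, 0, 0, 0, ⟨0, 0⟩, 0⟩, 0, 0⟩ 0 0) (.cut .s 14929920 (.pos 47 .mp ⟨⟨1519745895, 0, 0, 0, 0, 587629997, 0, 0, 0, ⟨0, 0⟩, 0⟩, 0, 0⟩ 0 0) (.pos 47 .mp ⟨⟨1526214919, 0, 0, 0, 0, 590502854, 0, 0, 0, ⟨0, 0⟩, 0⟩, 0, 0⟩ 0 0))) (.cut .d (-1024) (.pos 47 .mp ⟨⟨1516622873, 0, 0,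 0, 0, 657204076, 0, 0, 0, ⟨0, 0⟩, 0⟩, 0, 0⟩ 0 0) (.cut .s 14938112 (.pos 47 .mp ⟨⟨1532720598, 0, 0, 0, 0, 593414439, 0, 0, 0, ⟨0, 0⟩, 0⟩, 0, 0⟩ 0 0) (.pos 47 .mp ⟨⟨1539084078, 0, 0, 0, 0, 596768751, 0, 0, 0, ⟨0, 0⟩, 0⟩, 0, 0⟩ 0 0)))) (.pos 48 .mp ⟨⟨1852917398, 0, 0, 0, 0, 0, 0, 0, 0, ⟨0, 0⟩, 0⟩, 0, 0⟩ 0 0)) (.pos 45 .mp ⟨⟨1537949739, 0, 0, 0, 0, 547899490, 0, 0, 0, ⟨0, 0⟩, 0⟩, 0, 0⟩ 0 0)))) (.pos 46 .mp ⟨⟨1833322321, 0, 0, 0, 0, 0, 0, 0, 0, ⟨0, 0⟩, 0⟩, 0, 0⟩ 0 0)) (.cut .d (-2048) (.cut .d (-3072) (.cut .l 230687 (.cut .v 16809984 (.cut .s 14925824 (.pos 45 .mp ⟨⟨1473292412, 0, 0, 0, 0, 645572807, 0, 0, 0, ⟨0, 0⟩, 0⟩, 0, 0⟩ 0 0) (.pos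 45 .mp ⟨⟨1498505484, 0, 0, 0, 0, 657734583, 0, 0, 0, ⟨0, 0⟩, 0⟩, 0, 0⟩ 0 0)) (.pos 46 .mp ⟨⟨1758557020, 0, 0, 0, 0, 104900566, 0, 0, 0, ⟨0, 0⟩, 0⟩, 0, 0⟩ 0 0)) (.pos 43 .mp ⟨⟨1500161351, 0, 0, 0, 0, 0, 0, 0, 0, ⟨0, 0⟩, 0⟩, 0, 0⟩ 0 0)) (.pos 43 .mp ⟨⟨1528535209, 0, 0, 0, 0, 0, 0, 0, 0, ⟨0, 0⟩, 0⟩, 0, 0⟩ 0 0)) (.pos 43 .mp ⟨⟨0, 0, 0, 0, 0, 0, 0, 0, 0, ⟨0, 0⟩, 0⟩, 0, 0⟩ 0 0)))) (.pos 44 .mp ⟨⟨1839202441, 0, 0, 0, 0, 0, 0, 0, 0, ⟨0, 0⟩, 0⟩, 0, 0⟩ 0 0)))) (.pos 36 .mp ⟨⟨1802244907, 0, 0, 0, 0, 0, 0, 0, 0, ⟨0, 0⟩, 0⟩, 0, 0⟩ 0 0))))))) (.pos 32 .mp ⟨⟨2042643341, 0, 0, 0, 0, 0, 0, 0, 0, ⟨0, 0⟩, 0⟩, 0, 0⟩ 0 0)) (.void 30 ⟨⟨100000, 0, 0, 0, 0,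 0, 0, 0, 0, ⟨0, 0⟩, 0⟩, 0, 0⟩ 0 0))) (.void 28 ⟨⟨100000, 0, 0, 0, 0, 0, 0, 0, 0, ⟨0, 0⟩, 0⟩, 0, 0⟩ 0 0))) (.void 26 ⟨⟨100000, 0, 0, 0, 0, 0, 0, 0, 0, ⟨0, 0⟩, 0⟩, 0, 0⟩ 0 0))) (.void 24 ⟨⟨100000, 0, 0, 0, 0, 0, 0, 0, 0, ⟨0, 0⟩, 0⟩, 0, 0⟩ 0 0)))) (.void 22 ⟨⟨100000, 0, 0, 0, 0, 0, 0, 0, 0, ⟨0, 0⟩, 0⟩, 0, 0⟩ 0 0))) (.void 103 ⟨⟨100000, 0, 0, 0, 0, 0, 0, 0, 0, ⟨0, 0⟩, 0⟩, 0, 0⟩ 0 0)) (.void 114 ⟨⟨100000, 0, 0, 0, 0, 0, 0, 0, 0, ⟨0, 0⟩, 0⟩, 0, 0⟩ 0 0)) (.void 125 ⟨⟨93586, 0, 0, 6412, 0, 0, 0, 0, 0, ⟨0, 0⟩, 0⟩, 0, 0⟩ 0 0))) (.cut .v 16777216 (.cut .v 8388608 (.cut .v 4194304 (.cut .v 2097152 (.cut .v 1048576 (.pos 119 .pm ⟨⟨0, 0, 48977261,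 0, 0, 0, 0, 0, 0, ⟨0, 0⟩, 0⟩, 0, 675⟩ 0 0) (.pos 120 .pm ⟨⟨0, 0, 98373287, 0, 0, 0, 0, 0, 0, ⟨0, 0⟩, 0⟩, 0, 1946⟩ 0 0)) (.pos 118 .pm ⟨⟨0, 0, 185311476, 0, 0, 0, 0, 0, 0, ⟨0, 0⟩, 0⟩, 0, 4910⟩ 0 0)) (.pos 5 .pm ⟨⟨0, 0, 578396278, 0, 0, 0, 0, 0, 0, ⟨0, 0⟩, 0⟩, 0, 8839⟩ 0 0)) (.pos 3 .pm ⟨⟨0, 0, 0, 0, 0, 0, 0, 0, 0, ⟨0, 0⟩, 0⟩, 0, 0⟩ 0 0)) (.cut .v 268435456 (.cut .v 67108864 (.cut .d 1113533 (.cut .v 33554432 (.cut .d 556766 (.cut .v 25165824 (.cut .d 278383 (.cut .d 139191 (.cut .v 20971520 (.cut .v 18874368 (.cut .d 69595 (.cut .d 34797 (.cut .v 17825792 (.cut .s 14876672 (.pos 27 .pp ⟨⟨1488290371, 0, 0, 0, 0, 0, 0, 0, 0, ⟨0, 0⟩, 0⟩,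 19010566, 0⟩ 0 0) (.pos 27 .pp ⟨⟨1587382558, 0, 0, 0, 0, 0, 0, 0, 0, ⟨0, 0⟩, 0⟩, 20830195, 0⟩ 0 0)) (.pos 28 .pp ⟨⟨1954332536, 0, 0, 0, 0, 0, 0, 0, 0, ⟨0, 0⟩, 0⟩, 0, 0⟩ 0 0)) (.pos 25 .pp ⟨⟨1509384131, 0, 0, 0, 0, 0, 0, 0, 0, ⟨0, 0⟩, 0⟩, 0, 1283⟩ 0 0)) (.pos 25 .pp ⟨⟨0, 0, 0, 0, 0, 0, 0, 0, 0, ⟨0, 0⟩, 0⟩, 0, 23397⟩ 0 0)) (.cut .d 69595 (.cut .v 19922944 (.pos 53 .pp ⟨⟨2125551697, 0, 0, 0, 0, 0, 0, 0, 0, ⟨0, 0⟩, 0⟩, 0, 0⟩ 0 0) (.pos 54 .pp ⟨⟨2392707803, 0, 0, 0, 0, 0, 0, 0, 0, ⟨0, 0⟩, 0⟩, 0, 0⟩ 0 0)) (.pos 26 .pp ⟨⟨1902305083, 0, 0, 0, 0, 0, 0, 0, 0, ⟨0, 0⟩, 0⟩, 0, 0⟩ 0 0))) (.cut .v 23068672 (.cut .d 69595 (.void 55 ⟨⟨0, 0, 0, 0, 0,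 0, 0, 0, 0, ⟨0, 0⟩, 0⟩, 100000, 0⟩ 0 0) (.cut .d 104393 (.pos 55 .pp ⟨⟨0, 0, 0, 0, 0, 0, 0, 0, 0, ⟨0, 0⟩, 0⟩, 319918735, 0⟩ 0 0) (.pos 55 .pp ⟨⟨0, 0, 0, 0, 0, 0, 2232, 0, 0, ⟨0, 0⟩, 0⟩, 280047451, 0⟩ 0 0))) (.pos 56 .pp ⟨⟨0, 0, 0, 0, 0, 0, 0, 0, 0, ⟨0, 0⟩, 0⟩, 388724249, 0⟩ 0 0))) (.cut .v 20971520 (.pos 23 .pp ⟨⟨0, 0, 0, 0, 0, 0, 0, 0, 0, ⟨0, 0⟩, 0⟩, 0, 24552⟩ 0 0) (.pos 24 .pp ⟨⟨0, 0, 0, 0, 0, 0, 4419, 0, 0, ⟨0, 0⟩, 0⟩, 268490560, 0⟩ 0 0))) (.pos 21 .pp ⟨⟨0, 0, 0, 0, 0, 0, 0, 0, 0, ⟨0, 0⟩, 0⟩, 0, 26516⟩ 0 0)) (.cut .d 278383 (.cut .d 139191 (.void 22 ⟨⟨0, 0, 0, 0, 0, 0, 0, 0, 0, ⟨0, 0⟩, 0⟩, 100000, 0⟩ 0 0) (.pos 22 .pp ⟨⟨0, 0, 0,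 0, 0, 0, 0, 0, 0, ⟨0, 0⟩, 0⟩, 397684034, 0⟩ 0 0)) (.pos 22 .pp ⟨⟨0, 0, 0, 0, 0, 0, 1132, 0, 0, ⟨0, 0⟩, 0⟩, 286856149, 0⟩ 0 0))) (.pos 20 .pp ⟨⟨0, 0, 0, 0, 0, 0, 0, 0, 0, ⟨0, 0⟩, 0⟩, 0, 29462⟩ 0 0)) (.cut .d 556766 (.cut .v 50331648 (.pos 106 .pp ⟨⟨0, 0, 0, 0, 0, 0, 0, 0, 0, ⟨0, 0⟩, 0⟩, 654375032, 0⟩ 0 0) (.void 107 ⟨⟨0, 0, 0, 0, 0, 0, 0, 0, 0, ⟨0, 0⟩, 0⟩, 100000, 0⟩ 0 0)) (.pos 103 .pp ⟨⟨0, 0, 0, 0, 0, 0, 0, 0, 0, ⟨0, 0⟩, 0⟩, 437508307, 0⟩ 0 0))) (.pos 102 .pp ⟨⟨0, 0, 0, 0, 0, 0, 0, 0, 0, ⟨0, 0⟩, 0⟩, 3988299, 21795⟩ 0 0)) (.void 114 ⟨⟨0, 0, 0, 49418, 0, 0, 0, 0, 0, ⟨0, 0⟩, 0⟩, 50582, 0⟩ 0 0)) (.void 125 ⟨⟨0, 0, 0, 0, 0, 0, 0, 0, 0,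 ⟨0, 0⟩, 0⟩, 100000, 0⟩ 0 0)))),
    by decide +kernel⟩

def covers32 : cell.Covers Vale.Agent.P237.Petty.Cor.Grid.N12.table row32.1 :=
  ⟨(.cut .d 0 (.cut .v 16777216 (.cut .v 8388608 (.void 2 ⟨⟨0, 0, 100000, 0, 0, 0, 0, 0, 0, ⟨0, 0⟩, 0⟩, 0, 0⟩ 0 0) (.cut .d (-8388608) (.void 3 ⟨⟨100000, 0, 0, 0, 0, 0, 0, 0, 0, ⟨0, 0⟩, 0⟩, 0, 0⟩ 0 0) (.cut .d (-4194304) (.void 3 ⟨⟨100000, 0, 0, 0, 0, 0, 0, 0, 0, ⟨0, 0⟩, 0⟩, 0, 0⟩ 0 0) (.cut .d (-2097152) (.void 3 ⟨⟨100000, 0, 0, 0, 0, 0, 0, 0, 0, ⟨0, 0⟩, 0⟩, 0, 0⟩ 0 0) (.cut .d (-1048576) (.void 3 ⟨⟨100000, 0, 0, 0, 0, 0, 0, 0, 0, ⟨0, 0⟩, 0⟩, 0, 0⟩ 0 0) (.cut .d (-524288) (.void 3 ⟨⟨0, 0, 0, 0, 0, 100000,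 0, 0, 0, ⟨0, 0⟩, 0⟩, 0, 0⟩ 0 0) (.cut .d (-262144) (.void 3 ⟨⟨0, 0, 0, 0, 0, 100000, 0, 0, 0, ⟨0, 0⟩, 0⟩, 0, 0⟩ 0 0) (.cut .s 15007744 (.pos 3 .mm ⟨⟨0, 0, 0, 0, 0, 3773937321, 0, 0, 0, ⟨0, 0⟩, 0⟩, 0, 0⟩ 0 0) (.pos 3 .mm ⟨⟨0, 0, 0, 0, 0, 4071163196, 0, 0, 0, ⟨0, 0⟩, 0⟩, 0, 0⟩ 0 0))))))))) (.cut .v 268435456 (.cut .v 67108864 (.cut .v 33554432 (.cut .d (-8388608) (.void 20 ⟨⟨100010, 0, 0, 0, 0, 0, 0, 0, 0, ⟨0, 0⟩, 0⟩, 0, 0⟩ 0 0) (.cut .v 25165824 (.cut .d (-4194304) (.void 21 ⟨⟨100000, 0, 0, 0, 0, 0, 0, 0, 0, ⟨0, 0⟩, 0⟩, 0, 0⟩ 0 0) (.cut .d (-2097152) (.void 21 ⟨⟨100000, 0, 0, 0, 0, 0, 0, 0, 0, ⟨0, 0⟩, 0⟩, 0, 0⟩ 0 0) (.cut .v 20971520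 (.cut .d (-1048576) (.void 23 ⟨⟨100000, 0, 0, 0, 0, 0, 0, 0, 0, ⟨0, 0⟩, 0⟩, 0, 0⟩ 0 0) (.cut .v 18874368 (.cut .d (-524288) (.void 25 ⟨⟨100000, 0, 0, 0, 0, 0, 0, 0, 0, ⟨0, 0⟩, 0⟩, 0, 0⟩ 0 0) (.cut .v 17825792 (.cut .d (-262144) (.void 27 ⟨⟨100000, 0, 0, 0, 0, 0, 0, 0, 0, ⟨0, 0⟩, 0⟩, 0, 0⟩ 0 0) (.cut .v 17301504 (.cut .d (-131072) (.void 29 ⟨⟨100000, 0, 0, 0, 0, 0, 0, 0, 0, ⟨0, 0⟩, 0⟩, 0, 0⟩ 0 0) (.cut .v 17039360 (.cut .d (-65536) (.void 31 ⟨⟨100000, 0, 0, 0, 0, 0, 0, 0, 0, ⟨0, 0⟩, 0⟩, 0, 0⟩ 0 0) (.cut .d (-32768) (.void 31 ⟨⟨100000, 0, 0, 0, 0, 0, 0, 0, 0, ⟨0, 0⟩, 0⟩, 0, 0⟩ 0 0) (.cut .d (-16384) (.void 31 ⟨⟨100000, 0, 0, 0, 0, 0,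 0, 0, 0, ⟨0, 0⟩, 0⟩, 0, 0⟩ 0 0) (.cut .d (-8192) (.void 31 ⟨⟨0, 0, 0, 0, 0, 100000, 0, 0, 0, ⟨0, 0⟩, 0⟩, 0, 0⟩ 0 0) (.cut .s 15007744 (.cut .v 16908288 (.cut .s 14974976 (.cut .v 16842752 (.cut .d (-4096) (.cut .l 153791 (.void 43 ⟨⟨0, 0, 0, 0, 0, 100000, 0, 0, 0, ⟨0, 0⟩, 0⟩, 0, 0⟩ 0 0) (.cut .d (-6144) (.void 43 ⟨⟨0, 0, 0, 0, 0, 100000, 0, 0, 0, ⟨0, 0⟩, 0⟩, 0, 0⟩ 0 0) (.cut .v 16809984 (.pos 45 .mp ⟨⟨0, 0, 0, 0, 0, 3928684360, 0, 0, 0, ⟨0, 0⟩, 0⟩, 0, 0⟩ 0 0) (.cut .l 230687 (.pos 46 .mp ⟨⟨1616884267, 0, 0, 0, 0, 575360673, 0, 0, 0, ⟨0, 0⟩, 0⟩, 0, 0⟩ 0 0) (.cut .s 14958592 (.pos 46 .mp ⟨⟨1579150210, 0, 0, 0, 0, 565055521, 0, 0, 0, ⟨0,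 0⟩, 0⟩, 0, 0⟩ 0 0) (.pos 46 .mp ⟨⟨1606848073, 0, 0, 0, 0, 574008071, 0, 0, 0, ⟨0, 0⟩, 0⟩, 0, 0⟩ 0 0)))))) (.cut .s 14958592 (.cut .l 153791 (.cut .v 16809984 (.cut .d (-2048) (.cut .s 14950400 (.pos 45 .mp ⟨⟨1528281077, 0, 0, 0, 0, 671420997, 0, 0, 0, ⟨0, 0⟩, 0⟩, 0, 0⟩ 0 0) (.pos 45 .mp ⟨⟨1541415414, 0, 0, 0, 0, 676628758, 0, 0, 0, ⟨0, 0⟩, 0⟩, 0, 0⟩ 0 0)) (.cut .l 76895 (.cut .v 16793600 (.cut .s 14950400 (.cut .d (-1024) (.pos 47 .mp ⟨⟨1529590146, 0, 0, 0, 0, 664249853, 0, 0, 0, ⟨0, 0⟩, 0⟩, 0, 0⟩ 0 0) (.cut .s 14946304 (.pos 47 .mp ⟨⟨1545405444, 0, 0, 0, 0, 600350593, 0, 0, 0, ⟨0, 0⟩, 0⟩, 0, 0⟩ 0 0) (.pos 47 .mp ⟨⟨1552424081, 0, 0,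 0, 0, 601827278, 0, 0, 0, ⟨0, 0⟩, 0⟩, 0, 0⟩ 0 0))) (.cut .d (-1024) (.pos 47 .mp ⟨⟨1542707683, 0, 0, 0, 0, 669453015, 0, 0, 0, ⟨0, 0⟩, 0⟩, 0, 0⟩ 0 0) (.cut .s 14954496 (.pos 47 .mp ⟨⟨1559122268, 0, 0, 0, 0, 604166981, 0, 0, 0, ⟨0, 0⟩, 0⟩, 0, 0⟩ 0 0) (.pos 47 .mp ⟨⟨1565819294, 0, 0, 0, 0, 606649868, 0, 0, 0, ⟨0, 0⟩, 0⟩, 0, 0⟩ 0 0)))) (.pos 48 .mp ⟨⟨1886553005, 0, 0, 0, 0, 0, 0, 0, 0, ⟨0, 0⟩, 0⟩, 0, 0⟩ 0 0)) (.cut .s 14950400 (.pos 45 .mp ⟨⟨1551168118, 0, 0, 0, 0, 579820459, 0, 0, 0, ⟨0, 0⟩, 0⟩, 0, 0⟩ 0 0) (.pos 45 .mp ⟨⟨1564539769, 0, 0, 0, 0, 584998757, 0, 0, 0, ⟨0, 0⟩, 0⟩, 0, 0⟩ 0 0)))) (.pos 46 .mp ⟨⟨1889573244, 0, 0, 0, 0, 0, 0,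 0, 0, ⟨0, 0⟩, 0⟩, 0, 0⟩ 0 0)) (.cut .s 14950400 (.pos 43 .mp ⟨⟨1558350044, 0, 0, 0, 0, 568486028, 0, 0, 0, ⟨0, 0⟩, 0⟩, 0, 0⟩ 0 0) (.pos 43 .mp ⟨⟨1571838021, 0, 0, 0, 0, 573465056, 0, 0, 0, ⟨0, 0⟩, 0⟩, 0, 0⟩ 0 0))) (.cut .l 153791 (.cut .v 16809984 (.cut .d (-2048) (.cut .s 14966784 (.pos 45 .mp ⟨⟨1554704874, 0, 0, 0, 0, 682115745, 0, 0, 0, ⟨0, 0⟩, 0⟩, 0, 0⟩ 0 0) (.pos 45 .mp ⟨⟨1568151534, 0, 0, 0, 0, 687885888, 0, 0, 0, ⟨0, 0⟩, 0⟩, 0, 0⟩ 0 0)) (.cut .s 14966784 (.cut .l 76895 (.cut .d (-1024) (.pos 45 .mp ⟨⟨1575925380, 0, 0, 0, 0, 627580510, 0, 0, 0, ⟨0, 0⟩, 0⟩, 0, 0⟩ 0 0) (.cut .v 16793600 (.cut .v 16785408 (.cut .s 14962688 (.pos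 81 .mp ⟨⟨1566031791, 0, 0, 0, 0, 622843670, 0, 0, 0, ⟨0, 0⟩, 0⟩, 0, 0⟩ 0 0) (.cut .s 14964736 (.pos 81 .mp ⟨⟨1585837413, 0, 0, 0, 0, 596332950, 0, 0, 0, ⟨0, 0⟩, 0⟩, 0, 0⟩ 0 0) (.pos 81 .mp ⟨⟨1588976005, 0, 0, 0, 0, 598146561, 0, 0, 0, ⟨0, 0⟩, 0⟩, 0, 0⟩ 0 0))) (.pos 82 .mp ⟨⟨1683929889, 0, 0, 0, 0, 397836140, 0, 0, 0, ⟨0, 0⟩, 0⟩, 0, 0⟩ 0 0)) (.pos 48 .mp ⟨⟨1873829873, 0, 0, 0, 0, 0, 0, 0, 0, ⟨0, 0⟩, 0⟩, 0, 0⟩ 0 0))) (.pos 45 .mp ⟨⟨1578070063, 0, 0, 0, 0, 590282425, 0, 0, 0, ⟨0, 0⟩, 0⟩, 0, 0⟩ 0 0)) (.cut .v 16793600 (.cut .l 76895 (.cut .d (-1024) (.pos 47 .mp ⟨⟨1569409704, 0, 0, 0, 0, 680700054, 0, 0, 0, ⟨0, 0⟩, 0⟩, 0, 0⟩ 0 0) (.cut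 .v 16785408 (.cut .l 38447 (.cut .d (-512) (.pos 81 .mp ⟨⟨1570040674, 0, 0, 0, 0, 677102788, 0, 0, 0, ⟨0, 0⟩, 0⟩, 0, 0⟩ 0 0) (.cut .s 14970880 (.pos 81 .mp ⟨⟨1581619142, 0, 0, 0, 0, 623307934, 0, 0, 0, ⟨0, 0⟩, 0⟩, 0, 0⟩ 0 0) (.pos 81 .mp ⟨⟨1588623586, 0, 0, 0, 0, 625658230, 0, 0, 0, ⟨0, 0⟩, 0⟩, 0, 0⟩ 0 0))) (.pos 81 .mp ⟨⟨1567090475, 0, 0, 0, 0, 645406827, 0, 0, 0, ⟨0, 0⟩, 0⟩, 0, 0⟩ 0 0)) (.pos 82 .mp ⟨⟨1697045974, 0, 0, 0, 0, 404084841, 0, 0, 0, ⟨0, 0⟩, 0⟩, 0, 0⟩ 0 0))) (.pos 47 .mp ⟨⟨1563509137, 0, 0, 0, 0, 654522349, 0, 0, 0, ⟨0, 0⟩, 0⟩, 0, 0⟩ 0 0)) (.pos 48 .mp ⟨⟨1695771039, 0, 0, 0, 0, 409083108, 0, 0, 0, ⟨0, 0⟩, 0⟩, 0, 0⟩ 0 0))))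 (.pos 46 .mp ⟨⟨1922207438, 0, 0, 0, 0, 0, 0, 0, 0, ⟨0, 0⟩, 0⟩, 0, 0⟩ 0 0)) (.cut .s 14966784 (.pos 43 .mp ⟨⟨1585486423, 0, 0, 0, 0, 578546246, 0, 0, 0, ⟨0, 0⟩, 0⟩, 0, 0⟩ 0 0) (.pos 43 .mp ⟨⟨1599297410, 0, 0, 0, 0, 583724599, 0, 0, 0, ⟨0, 0⟩, 0⟩, 0, 0⟩ 0 0))))) (.pos 44 .mp ⟨⟨1906379149, 0, 0, 0, 0, 0, 0, 0, 0, ⟨0, 0⟩, 0⟩, 0, 0⟩ 0 0)) (.cut .v 16842752 (.cut .d (-4096) (.cut .d (-6144) (.void 43 ⟨⟨0, 0, 0, 0, 0, 100000, 0, 0, 0, ⟨0, 0⟩, 0⟩, 0, 0⟩ 0 0) (.cut .l 153791 (.void 43 ⟨⟨0, 0, 0, 0, 0, 100000, 0, 0, 0, ⟨0, 0⟩, 0⟩, 0, 0⟩ 0 0) (.cut .v 16809984 (.pos 45 .mp ⟨⟨0, 0, 0, 0, 0, 4071833028, 0, 0, 0, ⟨0, 0⟩, 0⟩, 0, 0⟩ 0 0) (.cut .l 230687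 (.pos 46 .mp ⟨⟨1674654727, 0, 0, 0, 0, 595500945, 0, 0, 0, ⟨0, 0⟩, 0⟩, 0, 0⟩ 0 0) (.cut .s 14991360 (.pos 46 .mp ⟨⟨1635212442, 0, 0, 0, 0, 583598463, 0, 0, 0, ⟨0, 0⟩, 0⟩, 0, 0⟩ 0 0) (.cut .s 14999552 (.pos 46 .mp ⟨⟨1649650249, 0, 0, 0, 0, 607557478, 0, 0, 0, ⟨0, 0⟩, 0⟩, 0, 0⟩ 0 0) (.pos 46 .mp ⟨⟨1664261585, 0, 0, 0, 0, 613067457, 0, 0, 0, ⟨0, 0⟩, 0⟩, 0, 0⟩ 0 0))))))) (.cut .s 14991360 (.cut .l 153791 (.cut .v 16809984 (.cut .d (-2048) (.cut .s 14983168 (.pos 45 .mp ⟨⟨1581757509, 0, 0, 0, 0, 693943187, 0, 0, 0, ⟨0, 0⟩, 0⟩, 0, 0⟩ 0 0) (.pos 45 .mp ⟨⟨1595524952, 0, 0, 0, 0, 700291716, 0, 0, 0, ⟨0, 0⟩, 0⟩, 0, 0⟩ 0 0)) (.cut .s 14983168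 (.cut .v 16793600 (.cut .l 76895 (.cut .d (-1024) (.pos 47 .mp ⟨⟨1582998375, 0, 0, 0, 0, 686751852, 0, 0, 0, ⟨0, 0⟩, 0⟩, 0, 0⟩ 0 0) (.cut .v 16785408 (.cut .l 38447 (.cut .d (-512) (.pos 81 .mp ⟨⟨1583620708, 0, 0, 0, 0, 683151808, 0, 0, 0, ⟨0, 0⟩, 0⟩, 0, 0⟩ 0 0) (.cut .s 14979072 (.pos 81 .mp ⟨⟨1595495467, 0, 0, 0, 0, 628450994, 0, 0, 0, ⟨0, 0⟩, 0⟩, 0, 0⟩ 0 0) (.pos 81 .mp ⟨⟨1602408110, 0, 0, 0, 0, 631295669, 0, 0, 0, ⟨0, 0⟩, 0⟩, 0, 0⟩ 0 0))) (.pos 81 .mp ⟨⟨1580631028, 0, 0, 0, 0, 651510589, 0, 0, 0, ⟨0, 0⟩, 0⟩, 0, 0⟩ 0 0)) (.pos 82 .mp ⟨⟨1710851978, 0, 0, 0, 0, 409491443, 0, 0, 0, ⟨0, 0⟩, 0⟩, 0, 0⟩ 0 0))) (.pos 47 .mp ⟨⟨1577018846,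 0, 0, 0, 0, 660709344, 0, 0, 0, ⟨0, 0⟩, 0⟩, 0, 0⟩ 0 0)) (.pos 48 .mp ⟨⟨1709565700, 0, 0, 0, 0, 414535768, 0, 0, 0, ⟨0, 0⟩, 0⟩, 0, 0⟩ 0 0)) (.cut .v 16793600 (.cut .l 76895 (.cut .d (-1024) (.pos 47 .mp ⟨⟨1596748340, 0, 0, 0, 0, 693094572, 0, 0, 0, ⟨0, 0⟩, 0⟩, 0, 0⟩ 0 0) (.cut .v 16785408 (.cut .l 38447 (.cut .d (-512) (.pos 81 .mp ⟨⟨1597361951, 0, 0, 0, 0, 689491595, 0, 0, 0, ⟨0, 0⟩, 0⟩, 0, 0⟩ 0 0) (.cut .l 19223 (.cut .v 16781312 (.cut .s 14987264 (.pos 83 .mp ⟨⟨1605831368, 0, 0, 0, 0, 641562881, 0, 0, 0, ⟨0, 0⟩, 0⟩, 0, 0⟩ 0 0) (.pos 83 .mp ⟨⟨1612647660, 0, 0, 0, 0, 644911633, 0, 0, 0, ⟨0, 0⟩, 0⟩, 0, 0⟩ 0 0)) (.pos 84 .mp ⟨⟨1961766950,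 0, 0, 0, 0, 0, 0, 0, 0, ⟨0, 0⟩, 0⟩, 0, 0⟩ 0 0)) (.pos 81 .mp ⟨⟨1613811223, 0, 0, 0, 0, 615966809, 0, 0, 0, ⟨0, 0⟩, 0⟩, 0, 0⟩ 0 0))) (.pos 81 .mp ⟨⟨1594332102, 0, 0, 0, 0, 657713864, 0, 0, 0, ⟨0, 0⟩, 0⟩, 0, 0⟩ 0 0)) (.pos 82 .mp ⟨⟨1725376543, 0, 0, 0, 0, 414002087, 0, 0, 0, ⟨0, 0⟩, 0⟩, 0, 0⟩ 0 0))) (.pos 47 .mp ⟨⟨1590688473, 0, 0, 0, 0, 666997296, 0, 0, 0, ⟨0, 0⟩, 0⟩, 0, 0⟩ 0 0)) (.pos 48 .mp ⟨⟨1724079289, 0, 0, 0, 0, 419092179, 0, 0, 0, ⟨0, 0⟩, 0⟩, 0, 0⟩ 0 0)))) (.pos 46 .mp ⟨⟨1955696007, 0, 0, 0, 0, 0, 0, 0, 0, ⟨0, 0⟩, 0⟩, 0, 0⟩ 0 0)) (.cut .s 14983168 (.pos 43 .mp ⟨⟨1613273179, 0, 0, 0, 0, 588995036, 0, 0, 0, ⟨0, 0⟩, 0⟩, 0, 0⟩ 0 0)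 (.pos 43 .mp ⟨⟨1627415966, 0, 0, 0, 0, 594352400, 0, 0, 0, ⟨0, 0⟩, 0⟩, 0, 0⟩ 0 0))) (.cut .l 153791 (.cut .v 16809984 (.cut .d (-2048) (.cut .s 14999552 (.pos 45 .mp ⟨⟨1609456057, 0, 0, 0, 0, 706935624, 0, 0, 0, ⟨0, 0⟩, 0⟩, 0, 0⟩ 0 0) (.pos 45 .mp ⟨⟨1623553057, 0, 0, 0, 0, 713879135, 0, 0, 0, ⟨0, 0⟩, 0⟩, 0, 0⟩ 0 0)) (.cut .s 14999552 (.cut .v 16793600 (.cut .l 76895 (.cut .d (-1024) (.pos 47 .mp ⟨⟨1610661792, 0, 0, 0, 0, 699732357, 0, 0, 0, ⟨0, 0⟩, 0⟩, 0, 0⟩ 0 0) (.cut .v 16785408 (.cut .l 38447 (.cut .d (-512) (.pos 81 .mp ⟨⟨1611266592, 0, 0, 0, 0, 696126289, 0, 0, 0, ⟨0, 0⟩, 0⟩, 0, 0⟩ 0 0) (.cut .l 19223 (.cut .v 16781312 (.cut .s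 14995456 (.cut .s 14993408 (.pos 83 .mp ⟨⟨1630461454, 0, 0, 0, 0, 622724987, 0, 0, 0, ⟨0, 0⟩, 0⟩, 0, 0⟩ 0 0) (.pos 83 .mp ⟨⟨1633997822, 0, 0, 0, 0, 624225473, 0, 0, 0, ⟨0, 0⟩, 0⟩, 0, 0⟩ 0 0)) (.cut .s 14997504 (.pos 83 .mp ⟨⟨1637562859, 0, 0, 0, 0, 625702717, 0, 0, 0, ⟨0, 0⟩, 0⟩, 0, 0⟩ 0 0) (.pos 83 .mp ⟨⟨1641156827, 0, 0, 0, 0, 627156252, 0, 0, 0, ⟨0, 0⟩, 0⟩, 0, 0⟩ 0 0))) (.pos 84 .mp ⟨⟨1978946124, 0, 0, 0, 0, 0, 0, 0, 0, ⟨0, 0⟩, 0⟩, 0, 0⟩ 0 0)) (.pos 81 .mp ⟨⟨1627903885, 0, 0, 0, 0, 621783206, 0, 0, 0, ⟨0, 0⟩, 0⟩, 0, 0⟩ 0 0))) (.pos 81 .mp ⟨⟨1608195877, 0, 0, 0, 0, 664011611, 0, 0, 0, ⟨0, 0⟩, 0⟩, 0, 0⟩ 0 0)) (.pos 82 .mp ⟨⟨1740648793,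 0, 0, 0, 0, 417561941, 0, 0, 0, ⟨0, 0⟩, 0⟩, 0, 0⟩ 0 0))) (.pos 47 .mp ⟨⟨1604520190, 0, 0, 0, 0, 673381178, 0, 0, 0, ⟨0, 0⟩, 0⟩, 0, 0⟩ 0 0)) (.pos 48 .mp ⟨⟨1739340955, 0, 0, 0, 0, 422697459, 0, 0, 0, ⟨0, 0⟩, 0⟩, 0, 0⟩ 0 0)) (.cut .v 16793600 (.cut .l 76895 (.cut .d (-1024) (.pos 47 .mp ⟨⟨1624740962, 0, 0, 0, 0, 706669428, 0, 0, 0, ⟨0, 0⟩, 0⟩, 0, 0⟩ 0 0) (.cut .v 16785408 (.cut .l 38447 (.cut .d (-512) (.pos 81 .mp ⟨⟨1625336863, 0, 0, 0, 0, 703060110, 0, 0, 0, ⟨0, 0⟩, 0⟩, 0, 0⟩ 0 0) (.cut .l 19223 (.cut .v 16781312 (.cut .s 15003648 (.cut .s 15001600 (.pos 83 .mp ⟨⟨1644779990, 0, 0, 0, 0, 628585611, 0, 0, 0, ⟨0, 0⟩, 0⟩, 0, 0⟩ 0 0) (.pos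 83 .mp ⟨⟨1648432612, 0, 0, 0, 0, 629990323, 0, 0, 0, ⟨0, 0⟩, 0⟩, 0, 0⟩ 0 0)) (.pos 83 .mp ⟨⟨1640975152, 0, 0, 0, 0, 657370962, 0, 0, 0, ⟨0, 0⟩, 0⟩, 0, 0⟩ 0 0)) (.pos 84 .mp ⟨⟨1996336472, 0, 0, 0, 0, 0, 0, 0, 0, ⟨0, 0⟩, 0⟩, 0, 0⟩ 0 0)) (.pos 81 .mp ⟨⟨1642164834, 0, 0, 0, 0, 627682011, 0, 0, 0, ⟨0, 0⟩, 0⟩, 0, 0⟩ 0 0))) (.pos 81 .mp ⟨⟨1622224574, 0, 0, 0, 0, 670398710, 0, 0, 0, ⟨0, 0⟩, 0⟩, 0, 0⟩ 0 0)) (.pos 82 .mp ⟨⟨1756698349, 0, 0, 0, 0, 420115176, 0, 0, 0, ⟨0, 0⟩, 0⟩, 0, 0⟩ 0 0))) (.pos 47 .mp ⟨⟨1618516211, 0, 0, 0, 0, 679855888, 0, 0, 0, ⟨0, 0⟩, 0⟩, 0, 0⟩ 0 0)) (.pos 48 .mp ⟨⟨1755380348, 0, 0, 0, 0, 425295730, 0, 0, 0, ⟨0, 0⟩, 0⟩,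 0, 0⟩ 0 0)))) (.pos 46 .mp ⟨⟨1990033143, 0, 0, 0, 0, 0, 0, 0, 0, ⟨0, 0⟩, 0⟩, 0, 0⟩ 0 0)) (.cut .s 14999552 (.pos 43 .mp ⟨⟨1641728052, 0, 0, 0, 0, 599791453, 0, 0, 0, ⟨0, 0⟩, 0⟩, 0, 0⟩ 0 0) (.pos 43 .mp ⟨⟨1656211756, 0, 0, 0, 0, 605306875, 0, 0, 0, ⟨0, 0⟩, 0⟩, 0, 0⟩ 0 0))))) (.pos 44 .mp ⟨⟨1973117883, 0, 0, 0, 0, 0, 0, 0, 0, ⟨0, 0⟩, 0⟩, 0, 0⟩ 0 0))) (.pos 36 .mp ⟨⟨1967307944, 0, 0, 0, 0, 0, 0, 0, 0, ⟨0, 0⟩, 0⟩, 0, 0⟩ 0 0)) (.cut .v 16908288 (.cut .s 15040512 (.cut .v 16842752 (.cut .d (-4096) (.cut .d (-6144) (.void 43 ⟨⟨0, 0, 0, 0, 0, 100000, 0, 0, 0, ⟨0, 0⟩, 0⟩, 0, 0⟩ 0 0) (.cut .l 153791 (.void 43 ⟨⟨0, 0, 0, 0, 0, 100000, 0, 0, 0,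 ⟨0, 0⟩, 0⟩, 0, 0⟩ 0 0) (.cut .l 230687 (.pos 43 .mp ⟨⟨1648268354, 0, 0, 0, 0, 835191802, 0, 0, 0, ⟨0, 0⟩, 0⟩, 0, 0⟩ 0 0) (.cut .v 16809984 (.pos 45 .mp ⟨⟨0, 0, 0, 0, 0, 3717300282, 0, 0, 0, ⟨0, 0⟩, 0⟩, 0, 0⟩ 0 0) (.cut .s 15024128 (.pos 46 .mp ⟨⟨1694014452, 0, 0, 0, 0, 604620838, 0, 0, 0, ⟨0, 0⟩, 0⟩, 0, 0⟩ 0 0) (.pos 46 .mp ⟨⟨1724490708, 0, 0, 0, 0, 616013913, 0, 0, 0, ⟨0, 0⟩, 0⟩, 0, 0⟩ 0 0)))))) (.cut .s 15024128 (.cut .l 153791 (.cut .v 16809984 (.cut .d (-2048) (.cut .s 15015936 (.pos 45 .mp ⟨⟨1637818227, 0, 0, 0, 0, 721126553, 0, 0, 0, ⟨0, 0⟩, 0⟩, 0, 0⟩ 0 0) (.pos 45 .mp ⟨⟨1652253884, 0, 0, 0, 0, 728682259, 0, 0, 0, ⟨0, 0⟩, 0⟩,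 0, 0⟩ 0 0)) (.cut .s 15015936 (.cut .v 16793600 (.cut .l 76895 (.cut .d (-1024) (.pos 47 .mp ⟨⟨1638988121, 0, 0, 0, 0, 713910082, 0, 0, 0, ⟨0, 0⟩, 0⟩, 0, 0⟩ 0 0) (.cut .v 16785408 (.cut .l 38447 (.cut .d (-512) (.pos 81 .mp ⟨⟨1639575033, 0, 0, 0, 0, 710297353, 0, 0, 0, ⟨0, 0⟩, 0⟩, 0, 0⟩ 0 0) (.cut .s 15011840 (.cut .s 15009792 (.pos 81 .mp ⟨⟨1656061114, 0, 0, 0, 0, 642092040, 0, 0, 0, ⟨0, 0⟩, 0⟩, 0, 0⟩ 0 0) (.pos 81 .mp ⟨⟨1659795351, 0, 0, 0, 0, 643483178, 0, 0, 0, ⟨0, 0⟩, 0⟩, 0, 0⟩ 0 0)) (.pos 81 .mp ⟨⟨1659210310, 0, 0, 0, 0, 655915028, 0, 0, 0, ⟨0, 0⟩, 0⟩, 0, 0⟩ 0 0))) (.pos 81 .mp ⟨⟨1636420454, 0, 0, 0, 0, 676869962, 0, 0, 0, ⟨0,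 0⟩, 0⟩, 0, 0⟩ 0 0)) (.pos 82 .mp ⟨⟨1773555336, 0, 0, 0, 0, 421604942, 0, 0, 0, ⟨0, 0⟩, 0⟩, 0, 0⟩ 0 0))) (.pos 47 .mp ⟨⟨1632678788, 0, 0, 0, 0, 686416243, 0, 0, 0, ⟨0, 0⟩, 0⟩, 0, 0⟩ 0 0)) (.pos 48 .mp ⟨⟨1772227620, 0, 0, 0, 0, 426830092, 0, 0, 0, ⟨0, 0⟩, 0⟩, 0, 0⟩ 0 0)) (.cut .v 16793600 (.cut .l 76895 (.cut .d (-1024) (.pos 47 .mp ⟨⟨1653405585, 0, 0, 0, 0, 721458698, 0, 0, 0, ⟨0, 0⟩, 0⟩, 0, 0⟩ 0 0) (.cut .v 16785408 (.cut .l 38447 (.cut .d (-512) (.pos 81 .mp ⟨⟨1653983417, 0, 0, 0, 0, 717842394, 0, 0, 0, ⟨0, 0⟩, 0⟩, 0, 0⟩ 0 0) (.cut .s 15020032 (.pos 81 .mp ⟨⟨1666502536, 0, 0, 0, 0, 659224221, 0, 0, 0, ⟨0, 0⟩, 0⟩, 0, 0⟩ 0 0) (.pos 81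 .mp ⟨⟨1673838402, 0, 0, 0, 0, 662584677, 0, 0, 0, ⟨0, 0⟩, 0⟩, 0, 0⟩ 0 0))) (.pos 81 .mp ⟨⟨1650785821, 0, 0, 0, 0, 683420084, 0, 0, 0, ⟨0, 0⟩, 0⟩, 0, 0⟩ 0 0)) (.pos 82 .mp ⟨⟨1791250399, 0, 0, 0, 0, 421973345, 0, 0, 0, ⟨0, 0⟩, 0⟩, 0, 0⟩ 0 0))) (.pos 47 .mp ⟨⟨1647010217, 0, 0, 0, 0, 693056977, 0, 0, 0, ⟨0, 0⟩, 0⟩, 0, 0⟩ 0 0)) (.pos 48 .mp ⟨⟨1789913445, 0, 0, 0, 0, 427242601, 0, 0, 0, ⟨0, 0⟩, 0⟩, 0, 0⟩ 0 0)))) (.pos 46 .mp ⟨⟨2025213075, 0, 0, 0, 0, 0, 0, 0, 0, ⟨0, 0⟩, 0⟩, 0, 0⟩ 0 0)) (.cut .s 15015936 (.pos 43 .mp ⟨⟨1670869444, 0, 0, 0, 0, 610893257, 0, 0, 0, ⟨0, 0⟩, 0⟩, 0, 0⟩ 0 0) (.pos 43 .mp ⟨⟨1685703524, 0, 0, 0, 0, 616545108, 0, 0,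 0, ⟨0, 0⟩, 0⟩, 0, 0⟩ 0 0))) (.cut .l 153791 (.cut .v 16809984 (.cut .d (-2048) (.cut .s 15032320 (.pos 45 .mp ⟨⟨1666862390, 0, 0, 0, 0, 736550718, 0, 0, 0, ⟨0, 0⟩, 0⟩, 0, 0⟩ 0 0) (.pos 45 .mp ⟨⟨1681646148, 0, 0, 0, 0, 744736477, 0, 0, 0, ⟨0, 0⟩, 0⟩, 0, 0⟩ 0 0)) (.cut .s 15032320 (.cut .v 16793600 (.cut .l 76895 (.cut .d (-1024) (.pos 47 .mp ⟨⟨1667995712, 0, 0, 0, 0, 729319735, 0, 0, 0, ⟨0, 0⟩, 0⟩, 0, 0⟩ 0 0) (.cut .v 16785408 (.cut .s 15028224 (.cut .s 15026176 (.pos 81 .mp ⟨⟨1692842294, 0, 0, 0, 0, 640145445, 0, 0, 0, ⟨0, 0⟩, 0⟩, 0, 0⟩ 0 0) (.pos 81 .mp ⟨⟨1696912266, 0, 0, 0, 0, 641148173, 0, 0, 0, ⟨0, 0⟩, 0⟩, 0, 0⟩ 0 0)) (.pos 81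 .mp ⟨⟨1685458562, 0, 0, 0, 0, 676828143, 0, 0, 0, ⟨0, 0⟩, 0⟩, 0, 0⟩ 0 0)) (.pos 82 .mp ⟨⟨1809814713, 0, 0, 0, 0, 421161423, 0, 0, 0, ⟨0, 0⟩, 0⟩, 0, 0⟩ 0 0))) (.pos 47 .mp ⟨⟨1661512835, 0, 0, 0, 0, 699772739, 0, 0, 0, ⟨0, 0⟩, 0⟩, 0, 0⟩ 0 0)) (.pos 48 .mp ⟨⟨1808469027, 0, 0, 0, 0, 426474243, 0, 0, 0, ⟨0, 0⟩, 0⟩, 0, 0⟩ 0 0)) (.cut .v 16793600 (.cut .l 76895 (.cut .d (-1024) (.pos 47 .mp ⟨⟨1682760904, 0, 0, 0, 0, 737497737, 0, 0, 0, ⟨0, 0⟩, 0⟩, 0, 0⟩ 0 0) (.cut .s 15036416 (.cut .s 15034368 (.pos 47 .mp ⟨⟨1702935015, 0, 0, 0, 0, 657032822, 0, 0, 0, ⟨0, 0⟩, 0⟩, 0, 0⟩ 0 0) (.pos 47 .mp ⟨⟨1706999240, 0, 0, 0, 0, 658199702, 0, 0, 0, ⟨0, 0⟩,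 0⟩, 0, 0⟩ 0 0)) (.pos 47 .mp ⟨⟨1708447433, 0, 0, 0, 0, 667098975, 0, 0, 0, ⟨0, 0⟩, 0⟩, 0, 0⟩ 0 0))) (.pos 47 .mp ⟨⟨1676189026, 0, 0, 0, 0, 706558092, 0, 0, 0, ⟨0, 0⟩, 0⟩, 0, 0⟩ 0 0)) (.pos 48 .mp ⟨⟨1827926113, 0, 0, 0, 0, 424464909, 0, 0, 0, ⟨0, 0⟩, 0⟩, 0, 0⟩ 0 0)))) (.pos 46 .mp ⟨⟨2061230071, 0, 0, 0, 0, 0, 0, 0, 0, ⟨0, 0⟩, 0⟩, 0, 0⟩ 0 0)) (.cut .s 15032320 (.pos 43 .mp ⟨⟨1700716450, 0, 0, 0, 0, 622256845, 0, 0, 0, ⟨0, 0⟩, 0⟩, 0, 0⟩ 0 0) (.pos 43 .mp ⟨⟨1715910721, 0, 0, 0, 0, 628022795, 0, 0, 0, ⟨0, 0⟩, 0⟩, 0, 0⟩ 0 0))))) (.pos 44 .mp ⟨⟨2043228098, 0, 0, 0, 0, 0, 0, 0, 0, ⟨0, 0⟩, 0⟩, 0, 0⟩ 0 0)) (.cut .v 16842752 (.cut .d (-4096) (.cut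 .l 153791 (.void 43 ⟨⟨0, 0, 0, 0, 0, 100000, 0, 0, 0, ⟨0, 0⟩, 0⟩, 0, 0⟩ 0 0) (.cut .s 15056896 (.cut .s 15048704 (.pos 43 .mp ⟨⟨1699266369, 0, 0, 0, 0, 743379987, 0, 0, 0, ⟨0, 0⟩, 0⟩, 0, 0⟩ 0 0) (.pos 43 .mp ⟨⟨1715629515, 0, 0, 0, 0, 748403284, 0, 0, 0, ⟨0, 0⟩, 0⟩, 0, 0⟩ 0 0)) (.pos 43 .mp ⟨⟨1724974414, 0, 0, 0, 0, 799936498, 0, 0, 0, ⟨0, 0⟩, 0⟩, 0, 0⟩ 0 0))) (.cut .s 15056896 (.cut .l 153791 (.cut .v 16809984 (.cut .d (-2048) (.cut .s 15048704 (.pos 45 .mp ⟨⟨1696607611, 0, 0, 0, 0, 753244172, 0, 0, 0, ⟨0, 0⟩, 0⟩, 0, 0⟩ 0 0) (.pos 45 .mp ⟨⟨1711749273, 0, 0, 0, 0, 762078521, 0, 0, 0, ⟨0, 0⟩, 0⟩, 0, 0⟩ 0 0)) (.cut .s 15048704 (.cut .l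 76895 (.cut .d (-1024) (.pos 45 .mp ⟨⟨1722084573, 0, 0, 0, 0, 686349850, 0, 0, 0, ⟨0, 0⟩, 0⟩, 0, 0⟩ 0 0) (.cut .s 15044608 (.pos 45 .mp ⟨⟨1719030399, 0, 0, 0, 0, 664687617, 0, 0, 0, ⟨0, 0⟩, 0⟩, 0, 0⟩ 0 0) (.pos 45 .mp ⟨⟨1726677286, 0, 0, 0, 0, 668267824, 0, 0, 0, ⟨0, 0⟩, 0⟩, 0, 0⟩ 0 0))) (.pos 45 .mp ⟨⟨1722587916, 0, 0, 0, 0, 647785468, 0, 0, 0, ⟨0, 0⟩, 0⟩, 0, 0⟩ 0 0)) (.cut .l 76895 (.cut .d (-1024) (.pos 45 .mp ⟨⟨1738716282, 0, 0, 0, 0, 690713315, 0, 0, 0, ⟨0, 0⟩, 0⟩, 0, 0⟩ 0 0) (.cut .s 15052800 (.pos 45 .mp ⟨⟨1734370307, 0, 0, 0, 0, 671898025, 0, 0, 0, ⟨0, 0⟩, 0⟩, 0, 0⟩ 0 0) (.pos 45 .mp ⟨⟨1741862840, 0, 0, 0, 0, 676200547, 0, 0,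 0, ⟨0, 0⟩, 0⟩, 0, 0⟩ 0 0))) (.pos 45 .mp ⟨⟨1738013179, 0, 0, 0, 0, 653883548, 0, 0, 0, ⟨0, 0⟩, 0⟩, 0, 0⟩ 0 0)))) (.pos 46 .mp ⟨⟨2098078436, 0, 0, 0, 0, 0, 0, 0, 0, ⟨0, 0⟩, 0⟩, 0, 0⟩ 0 0)) (.cut .s 15048704 (.pos 43 .mp ⟨⟨1731288886, 0, 0, 0, 0, 633837189, 0, 0, 0, ⟨0, 0⟩, 0⟩, 0, 0⟩ 0 0) (.pos 43 .mp ⟨⟨1746853541, 0, 0, 0, 0, 639694166, 0, 0, 0, ⟨0, 0⟩, 0⟩, 0, 0⟩ 0 0))) (.cut .l 153791 (.cut .v 16809984 (.cut .d (-2048) (.cut .s 15065088 (.pos 45 .mp ⟨⟨1727073681, 0, 0, 0, 0, 771244337, 0, 0, 0, ⟨0, 0⟩, 0⟩, 0, 0⟩ 0 0) (.pos 45 .mp ⟨⟨1742583427, 0, 0, 0, 0, 780746521, 0, 0, 0, ⟨0, 0⟩, 0⟩, 0, 0⟩ 0 0)) (.cut .l 76895 (.cut .v 16793600 (.cut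 .d (-1024) (.pos 47 .mp ⟨⟨1728131582, 0, 0, 0, 0, 796197368, 0, 0, 0, ⟨0, 0⟩, 0⟩, 0, 0⟩ 0 0) (.cut .l 38447 (.cut .v 16785408 (.cut .d (-512) (.pos 81 .mp ⟨⟨1728662604, 0, 0, 0, 0, 792544117, 0, 0, 0, ⟨0, 0⟩, 0⟩, 0, 0⟩ 0 0) (.cut .l 19223 (.cut .v 16781312 (.cut .s 15065088 (.cut .s 15060992 (.pos 83 .mp ⟨⟨1748939042, 0, 0, 0, 0, 680860794, 0, 0, 0, ⟨0, 0⟩, 0⟩, 0, 0⟩ 0 0) (.pos 83 .mp ⟨⟨1758092160, 0, 0, 0, 0, 682006419, 0, 0, 0, ⟨0, 0⟩, 0⟩, 0, 0⟩ 0 0)) (.cut .s 15069184 (.pos 83 .mp ⟨⟨1767397750, 0, 0, 0, 0, 682991435, 0, 0, 0, ⟨0, 0⟩, 0⟩, 0, 0⟩ 0 0) (.pos 83 .mp ⟨⟨1776858314, 0, 0, 0, 0, 683811326, 0, 0, 0, ⟨0, 0⟩, 0⟩, 0, 0⟩ 0 0)))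 (.pos 84 .mp ⟨⟨2129769817, 0, 0, 0, 0, 0, 0, 0, 0, ⟨0, 0⟩, 0⟩, 0, 0⟩ 0 0)) (.pos 81 .mp ⟨⟨1762598328, 0, 0, 0, 0, 648327791, 0, 0, 0, ⟨0, 0⟩, 0⟩, 0, 0⟩ 0 0))) (.pos 82 .mp ⟨⟨2130638851, 0, 0, 0, 0, 0, 0, 0, 0, ⟨0, 0⟩, 0⟩, 0, 0⟩ 0 0)) (.pos 47 .mp ⟨⟨1764873286, 0, 0, 0, 0, 644663927, 0, 0, 0, ⟨0, 0⟩, 0⟩, 0, 0⟩ 0 0))) (.pos 48 .mp ⟨⟨2132347999, 0, 0, 0, 0, 0, 0, 0, 0, ⟨0, 0⟩, 0⟩, 0, 0⟩ 0 0)) (.pos 45 .mp ⟨⟨1769427479, 0, 0, 0, 0, 637331135, 0, 0, 0, ⟨0, 0⟩, 0⟩, 0, 0⟩ 0 0))) (.pos 46 .mp ⟨⟨2135752513, 0, 0, 0, 0, 0, 0, 0, 0, ⟨0, 0⟩, 0⟩, 0, 0⟩ 0 0)) (.cut .s 15065088 (.pos 43 .mp ⟨⟨1762607331, 0, 0, 0, 0, 645587765, 0, 0, 0, ⟨0, 0⟩, 0⟩,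 0, 0⟩ 0 0) (.pos 43 .mp ⟨⟨1778552953, 0, 0, 0, 0, 651511924, 0, 0, 0, ⟨0, 0⟩, 0⟩, 0, 0⟩ 0 0))))) (.pos 44 .mp ⟨⟨2117034884, 0, 0, 0, 0, 0, 0, 0, 0, ⟨0, 0⟩, 0⟩, 0, 0⟩ 0 0))) (.pos 36 .mp ⟨⟨2112069570, 0, 0, 0, 0, 0, 0, 0, 0, ⟨0, 0⟩, 0⟩, 0, 0⟩ 0 0))))))) (.pos 32 .mp ⟨⟨2278020506, 0, 0, 0, 0, 0, 0, 0, 0, ⟨0, 0⟩, 0⟩, 0, 0⟩ 0 0))) (.void 30 ⟨⟨100000, 0, 0, 0, 0, 0, 0, 0, 0, ⟨0, 0⟩, 0⟩, 0, 0⟩ 0 0))) (.void 28 ⟨⟨100000, 0, 0, 0, 0, 0, 0, 0, 0, ⟨0, 0⟩, 0⟩, 0, 0⟩ 0 0))) (.void 26 ⟨⟨100000, 0, 0, 0, 0, 0, 0, 0, 0, ⟨0, 0⟩, 0⟩, 0, 0⟩ 0 0))) (.void 24 ⟨⟨100000, 0, 0, 0, 0, 0, 0, 0, 0, ⟨0, 0⟩, 0⟩, 0, 0⟩ 0 0)))) (.void 22 ⟨⟨100000, 0, 0, 0, 0, 0,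 0, 0, 0, ⟨0, 0⟩, 0⟩, 0, 0⟩ 0 0))) (.void 103 ⟨⟨100000, 0, 0, 0, 0, 0, 0, 0, 0, ⟨0, 0⟩, 0⟩, 0, 0⟩ 0 0)) (.void 114 ⟨⟨100000, 0, 0, 0, 0, 0, 0, 0, 0, ⟨0, 0⟩, 0⟩, 0, 0⟩ 0 0)) (.void 125 ⟨⟨93536, 0, 0, 6464, 0, 0, 0, 0, 0, ⟨0, 0⟩, 0⟩, 0, 0⟩ 0 0))) (.cut .v 16777216 (.cut .v 8388608 (.cut .v 4194304 (.cut .v 2097152 (.cut .v 1048576 (.pos 119 .pm ⟨⟨0, 0, 56004691, 0, 0, 0, 0, 0, 0, ⟨0, 0⟩, 0⟩, 0, 590⟩ 0 0) (.pos 120 .pm ⟨⟨0, 0, 118480674, 0, 0, 0, 0, 0, 0, ⟨0, 0⟩, 0⟩, 0, 1424⟩ 0 0)) (.pos 118 .pm ⟨⟨0, 0, 229585052, 0, 0, 0, 0, 0, 0, ⟨0, 0⟩, 0⟩, 0, 3675⟩ 0 0)) (.pos 5 .pm ⟨⟨0, 0, 713094173, 0, 0, 0, 0, 0, 0, ⟨0, 0⟩, 0⟩, 0, 6615⟩ 0 0)) (.pos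 3 .pm ⟨⟨0, 0, 0, 0, 0, 0, 0, 0, 0, ⟨0, 0⟩, 0⟩, 0, 0⟩ 0 0)) (.cut .v 268435456 (.cut .v 67108864 (.cut .d 1030181 (.cut .v 33554432 (.cut .d 515090 (.cut .v 25165824 (.cut .d 257545 (.cut .d 128772 (.cut .v 20971520 (.cut .v 18874368 (.cut .d 64386 (.cut .d 32193 (.cut .v 17825792 (.cut .s 15007744 (.pos 27 .pp ⟨⟨1703176559, 0, 0, 0, 0, 0, 0, 0, 0, ⟨0, 0⟩, 0⟩, 21795993, 0⟩ 0 0) (.pos 27 .pp ⟨⟨1830147235, 0, 0, 0, 0, 0, 0, 0, 0, ⟨0, 0⟩, 0⟩, 22800717, 0⟩ 0 0)) (.pos 28 .pp ⟨⟨2242033158, 0, 0, 0, 0, 0, 0, 0, 0, ⟨0, 0⟩, 0⟩, 0, 0⟩ 0 0)) (.pos 25 .pp ⟨⟨1723259145, 0, 0, 0, 0, 0, 0, 0, 0, ⟨0, 0⟩, 0⟩, 0, 952⟩ 0 0)) (.pos 25 .pp ⟨⟨0, 0, 0, 0,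 0, 0, 0, 0, 0, ⟨0, 0⟩, 0⟩, 0, 17511⟩ 0 0)) (.cut .d 64386 (.cut .v 19922944 (.pos 53 .pp ⟨⟨2437236431, 0, 0, 0, 0, 0, 0, 0, 0, ⟨0, 0⟩, 0⟩, 0, 0⟩ 0 0) (.pos 54 .pp ⟨⟨2744467079, 0, 0, 0, 0, 0, 0, 0, 0, ⟨0, 0⟩, 0⟩, 0, 0⟩ 0 0)) (.pos 26 .pp ⟨⟨2174334511, 0, 0, 0, 0, 0, 0, 0, 0, ⟨0, 0⟩, 0⟩, 0, 0⟩ 0 0))) (.cut .v 23068672 (.cut .d 64386 (.void 55 ⟨⟨0, 0, 0, 0, 0, 0, 0, 0, 0, ⟨0, 0⟩, 0⟩, 100000, 0⟩ 0 0) (.cut .d 96579 (.pos 55 .pp ⟨⟨0, 0, 0, 0, 0, 0, 0, 0, 0, ⟨0, 0⟩, 0⟩, 366834509, 0⟩ 0 0) (.pos 55 .pp ⟨⟨0, 0, 0, 0, 0, 0, 1635, 0, 0, ⟨0, 0⟩, 0⟩, 319835277, 0⟩ 0 0))) (.pos 56 .pp ⟨⟨0, 0, 0, 0, 0, 0, 0, 0, 0, ⟨0, 0⟩, 0⟩, 445825174, 0⟩ 0 0)))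 (.cut .v 20971520 (.pos 23 .pp ⟨⟨0, 0, 0, 0, 0, 0, 0, 0, 0, ⟨0, 0⟩, 0⟩, 0, 18375⟩ 0 0) (.pos 24 .pp ⟨⟨0, 0, 0, 0, 0, 0, 3197, 0, 0, ⟨0, 0⟩, 0⟩, 307254996, 0⟩ 0 0))) (.pos 21 .pp ⟨⟨0, 0, 0, 0, 0, 0, 0, 0, 0, ⟨0, 0⟩, 0⟩, 0, 19845⟩ 0 0)) (.cut .d 257545 (.cut .d 128772 (.void 22 ⟨⟨0, 0, 0, 0, 0, 0, 0, 0, 0, ⟨0, 0⟩, 0⟩, 100000, 0⟩ 0 0) (.pos 22 .pp ⟨⟨0, 0, 0, 0, 0, 0, 0, 0, 0, ⟨0, 0⟩, 0⟩, 456025636, 0⟩ 0 0)) (.pos 22 .pp ⟨⟨0, 0, 0, 0, 0, 0, 508, 0, 0, ⟨0, 0⟩, 0⟩, 329596415, 0⟩ 0 0))) (.pos 20 .pp ⟨⟨0, 0, 0, 0, 0, 0, 0, 0, 0, ⟨0, 0⟩, 0⟩, 0, 22050⟩ 0 0)) (.cut .d 515090 (.cut .v 50331648 (.pos 106 .pp ⟨⟨0, 0, 0, 0, 0, 0, 0, 0, 0, ⟨0, 0⟩,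 0⟩, 747743571, 0⟩ 0 0) (.void 107 ⟨⟨0, 0, 0, 0, 0, 0, 0, 0, 0, ⟨0, 0⟩, 0⟩, 100000, 0⟩ 0 0)) (.pos 103 .pp ⟨⟨0, 0, 0, 0, 0, 0, 0, 0, 0, ⟨0, 0⟩, 0⟩, 507654180, 0⟩ 0 0))) (.pos 102 .pp ⟨⟨0, 0, 0, 0, 0, 0, 0, 0, 0, ⟨0, 0⟩, 0⟩, 18951793, 15597⟩ 0 0)) (.void 114 ⟨⟨0, 0, 0, 49598, 0, 0, 0, 0, 0, ⟨0, 0⟩, 0⟩, 50402, 0⟩ 0 0)) (.void 125 ⟨⟨0, 0, 0, 0, 0, 0, 0, 0, 0, ⟨0, 0⟩, 0⟩, 100000, 0⟩ 0 0)))),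
    by decide +kernel⟩

def covers33 : cell.Covers Vale.Agent.P237.Petty.Cor.Grid.N12.table row33.1 :=
  ⟨(.cut .d 0 (.cut .v 16777216 (.cut .v 8388608 (.void 2 ⟨⟨0, 0, 100000, 0, 0, 0, 0, 0, 0, ⟨0, 0⟩, 0⟩, 0, 0⟩ 0 0) (.cut .d (-8388608) (.void 3 ⟨⟨100000, 0, 0, 0, 0, 0, 0, 0, 0, ⟨0, 0⟩, 0⟩, 0, 0⟩ 0 0) (.cut .d (-4194304) (.void 3 ⟨⟨100000, 0, 0, 0, 0, 0, 0, 0, 0, ⟨0, 0⟩, 0⟩, 0, 0⟩ 0 0) (.cut .d (-2097152) (.void 3 ⟨⟨100000, 0, 0, 0, 0, 0, 0, 0, 0, ⟨0, 0⟩, 0⟩, 0, 0⟩ 0 0) (.cut .d (-1048576) (.void 3 ⟨⟨100000, 0, 0, 0, 0, 0, 0, 0, 0, ⟨0, 0⟩, 0⟩, 0, 0⟩ 0 0) (.cut .d (-524288) (.void 3 ⟨⟨0, 0, 0, 0, 0, 100000, 0, 0, 0, ⟨0, 0⟩, 0⟩, 0, 0⟩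 0 0) (.cut .s 15122432 (.cut .d (-262144) (.void 3 ⟨⟨0, 0, 0, 0, 0, 100000, 0, 0, 0, ⟨0, 0⟩, 0⟩, 0, 0⟩ 0 0) (.pos 3 .mm ⟨⟨0, 0, 0, 0, 0, 4316577946, 0, 0, 0, ⟨0, 0⟩, 0⟩, 0, 0⟩ 0 0)) (.pos 3 .mm ⟨⟨0, 0, 0, 0, 0, 4819089905, 0, 0, 0, ⟨0, 0⟩, 0⟩, 0, 0⟩ 0 0)))))))) (.cut .v 268435456 (.cut .v 67108864 (.cut .v 33554432 (.cut .d (-8388608) (.void 20 ⟨⟨99838, 0, 0, 0, 0, 0, 0, 0, 0, ⟨0, 0⟩, 0⟩, 0, 0⟩ 0 0) (.cut .v 25165824 (.cut .d (-4194304) (.void 21 ⟨⟨100000, 0, 0, 0, 0, 0, 0, 0, 0, ⟨0, 0⟩, 0⟩, 0, 0⟩ 0 0) (.cut .d (-2097152) (.void 21 ⟨⟨100000, 0, 0, 0, 0, 0, 0, 0, 0, ⟨0, 0⟩, 0⟩, 0, 0⟩ 0 0) (.cut .v 20971520 (.cut .d (-1048576) (.void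 23 ⟨⟨100000, 0, 0, 0, 0, 0, 0, 0, 0, ⟨0, 0⟩, 0⟩, 0, 0⟩ 0 0) (.cut .v 18874368 (.cut .d (-524288) (.void 25 ⟨⟨100000, 0, 0, 0, 0, 0, 0, 0, 0, ⟨0, 0⟩, 0⟩, 0, 0⟩ 0 0) (.cut .v 17825792 (.cut .s 15122432 (.cut .d (-262144) (.void 27 ⟨⟨100000, 0, 0, 0, 0, 0, 0, 0, 0, ⟨0, 0⟩, 0⟩, 0, 0⟩ 0 0) (.cut .v 17301504 (.cut .s 15097856 (.cut .d (-131072) (.void 29 ⟨⟨100000, 0, 0, 0, 0, 0, 0, 0, 0, ⟨0, 0⟩, 0⟩, 0, 0⟩ 0 0) (.cut .v 17039360 (.cut .s 15085568 (.cut .d (-65536) (.void 31 ⟨⟨100000, 0, 0, 0, 0, 0, 0, 0, 0, ⟨0, 0⟩, 0⟩, 0, 0⟩ 0 0) (.cut .v 16908288 (.cut .s 15079424 (.cut .d (-32768) (.void 35 ⟨⟨100000, 0, 0, 0, 0, 0, 0, 0, 0, ⟨0, 0⟩, 0⟩, 0,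 0⟩ 0 0) (.cut .v 16842752 (.cut .s 15076352 (.cut .d (-16384) (.void 43 ⟨⟨100000, 0, 0, 0, 0, 0, 0, 0, 0, ⟨0, 0⟩, 0⟩, 0, 0⟩ 0 0) (.cut .s 15074816 (.cut .v 16809984 (.pos 45 .mp ⟨⟨1770893559, 0, 0, 0, 0, 720259643, 0, 0, 0, ⟨0, 0⟩, 0⟩, 0, 0⟩ 0 0) (.pos 46 .mp ⟨⟨1885773492, 0, 0, 0, 0, 507299763, 0, 0, 0, ⟨0, 0⟩, 0⟩, 0, 0⟩ 0 0)) (.pos 43 .mp ⟨⟨1900088712, 0, 0, 0, 0, 492728016, 0, 0, 0, ⟨0, 0⟩, 0⟩, 0, 0⟩ 0 0))) (.pos 43 .mp ⟨⟨1982757383, 0, 0, 0, 0, 372591403, 0, 0, 0, ⟨0, 0⟩, 0⟩, 0, 0⟩ 0 0)) (.pos 44 .mp ⟨⟨2183022479, 0, 0, 0, 0, 0, 0, 0, 0, ⟨0, 0⟩, 0⟩, 0, 0⟩ 0 0))) (.pos 35 .mp ⟨⟨2042860753, 0, 0, 0, 0, 336610999, 0, 0, 0, ⟨0, 0⟩,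 0⟩, 0, 0⟩ 0 0)) (.pos 36 .mp ⟨⟨2231674331, 0, 0, 0, 0, 0, 0, 0, 0, ⟨0, 0⟩, 0⟩, 0, 0⟩ 0 0))) (.pos 31 .mp ⟨⟨2117400065, 0, 0, 0, 0, 352833828, 0, 0, 0, ⟨0, 0⟩, 0⟩, 0, 0⟩ 0 0)) (.pos 32 .mp ⟨⟨2339354343, 0, 0, 0, 0, 0, 0, 0, 0, ⟨0, 0⟩, 0⟩, 0, 0⟩ 0 0))) (.pos 29 .mp ⟨⟨2214351067, 0, 0, 0, 0, 496744644, 0, 0, 0, ⟨0, 0⟩, 0⟩, 0, 0⟩ 0 0)) (.void 30 ⟨⟨100000, 0, 0, 0, 0, 0, 0, 0, 0, ⟨0, 0⟩, 0⟩, 0, 0⟩ 0 0))) (.pos 27 .mp ⟨⟨2368154181, 0, 0, 0, 0, 922062592, 0, 0, 0, ⟨0, 0⟩, 0⟩, 0, 0⟩ 0 0)) (.void 28 ⟨⟨100000, 0, 0, 0, 0, 0, 0, 0, 0, ⟨0, 0⟩, 0⟩, 0, 0⟩ 0 0))) (.void 26 ⟨⟨100000, 0, 0, 0, 0, 0, 0, 0, 0, ⟨0, 0⟩, 0⟩, 0, 0⟩ 0 0))) (.void 24 ⟨⟨100000,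 0, 0, 0, 0, 0, 0, 0, 0, ⟨0, 0⟩, 0⟩, 0, 0⟩ 0 0)))) (.void 22 ⟨⟨100000, 0, 0, 0, 0, 0, 0, 0, 0, ⟨0, 0⟩, 0⟩, 0, 0⟩ 0 0))) (.void 103 ⟨⟨100000, 0, 0, 0, 0, 0, 0, 0, 0, ⟨0, 0⟩, 0⟩, 0, 0⟩ 0 0)) (.void 114 ⟨⟨100000, 0, 0, 0, 0, 0, 0, 0, 0, ⟨0, 0⟩, 0⟩, 0, 0⟩ 0 0)) (.void 125 ⟨⟨93040, 0, 0, 6499, 0, 0, 0, 0, 0, ⟨0, 0⟩, 0⟩, 0, 0⟩ 0 0))) (.cut .v 16777216 (.cut .v 8388608 (.cut .v 4194304 (.cut .v 2097152 (.pos 117 .pm ⟨⟨0, 0, 103800022, 0, 0, 0, 0, 0, 0, ⟨0, 0⟩, 0⟩, 0, 968⟩ 0 0) (.pos 118 .pm ⟨⟨0, 0, 285294918, 0, 0, 0, 0, 0, 0, ⟨0, 0⟩, 0⟩, 0, 2689⟩ 0 0)) (.pos 5 .pm ⟨⟨0, 0, 884746062, 0, 0, 0, 0, 0, 0, ⟨0, 0⟩, 0⟩, 0, 4841⟩ 0 0)) (.pos 3 .pm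 ⟨⟨0, 0, 0, 0, 0, 0, 0, 0, 0, ⟨0, 0⟩, 0⟩, 0, 0⟩ 0 0)) (.cut .v 268435456 (.cut .v 67108864 (.cut .d 948278 (.cut .v 33554432 (.cut .d 474139 (.cut .v 25165824 (.cut .d 237069 (.cut .d 118534 (.cut .v 20971520 (.cut .v 18874368 (.cut .d 59267 (.cut .v 17825792 (.cut .s 15122432 (.pos 27 .pp ⟨⟨1897614469, 0, 0, 0, 0, 0, 0, 0, 0, ⟨0, 0⟩, 0⟩, 31689914, 0⟩ 0 0) (.pos 27 .pp ⟨⟨2231695722, 0, 0, 0, 0, 0, 0, 0, 0, ⟨0, 0⟩, 0⟩, 0, 3809⟩ 0 0)) (.pos 28 .pp ⟨⟨2432904410, 0, 0, 0, 0, 0, 0, 0, 0, ⟨0, 0⟩, 0⟩, 0, 0⟩ 0 0)) (.pos 25 .pp ⟨⟨0, 0, 0, 0, 0, 0, 0, 0, 0, ⟨0, 0⟩, 0⟩, 0, 12814⟩ 0 0)) (.cut .d 59267 (.cut .v 19922944 (.pos 53 .pp ⟨⟨2742949043,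 0, 0, 0, 0, 0, 0, 0, 0, ⟨0, 0⟩, 0⟩, 0, 0⟩ 0 0) (.pos 54 .pp ⟨⟨3070515622, 0, 0, 0, 0, 0, 0, 0, 0, ⟨0, 0⟩, 0⟩, 0, 0⟩ 0 0)) (.pos 26 .pp ⟨⟨2497824901, 0, 0, 0, 0, 0, 0, 0, 0, ⟨0, 0⟩, 0⟩, 0, 0⟩ 0 0))) (.cut .v 23068672 (.cut .d 59267 (.void 55 ⟨⟨0, 0, 0, 0, 0, 0, 0, 0, 0, ⟨0, 0⟩, 0⟩, 100000, 0⟩ 0 0) (.cut .d 88900 (.pos 55 .pp ⟨⟨0, 0, 0, 0, 0, 0, 0, 0, 0, ⟨0, 0⟩, 0⟩, 413424038, 0⟩ 0 0) (.pos 55 .pp ⟨⟨0, 0, 0, 0, 0, 0, 1436, 0, 0, ⟨0, 0⟩, 0⟩, 365660757, 0⟩ 0 0))) (.pos 56 .pp ⟨⟨0, 0, 0, 0, 0, 0, 0, 0, 0, ⟨0, 0⟩, 0⟩, 495891997, 0⟩ 0 0))) (.cut .v 20971520 (.pos 23 .pp ⟨⟨0, 0, 0, 0, 0, 0, 0, 0, 0, ⟨0, 0⟩, 0⟩, 0, 13447⟩ 0 0) (.pos 24 .pp ⟨⟨0,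 0, 0, 0, 0, 0, 2441, 0, 0, ⟨0, 0⟩, 0⟩, 352903507, 0⟩ 0 0))) (.pos 21 .pp ⟨⟨0, 0, 0, 0, 0, 0, 0, 0, 0, ⟨0, 0⟩, 0⟩, 0, 14523⟩ 0 0)) (.cut .d 237069 (.cut .d 118534 (.void 22 ⟨⟨0, 0, 0, 0, 0, 0, 0, 0, 0, ⟨0, 0⟩, 0⟩, 100000, 0⟩ 0 0) (.pos 22 .pp ⟨⟨0, 0, 0, 0, 0, 0, 0, 0, 0, ⟨0, 0⟩, 0⟩, 511857070, 0⟩ 0 0)) (.pos 22 .pp ⟨⟨0, 0, 0, 0, 0, 0, 363, 0, 0, ⟨0, 0⟩, 0⟩, 380040072, 0⟩ 0 0))) (.pos 20 .pp ⟨⟨0, 0, 0, 0, 0, 0, 0, 0, 0, ⟨0, 0⟩, 0⟩, 0, 16136⟩ 0 0)) (.cut .d 474139 (.cut .v 50331648 (.pos 106 .pp ⟨⟨0, 0, 0, 0, 0, 0, 0, 0, 0, ⟨0, 0⟩, 0⟩, 828559546, 0⟩ 0 0) (.void 107 ⟨⟨0, 0, 0, 0, 0, 0, 0, 0, 0, ⟨0, 0⟩, 0⟩, 100000, 0⟩ 0 0)) (.pos 103 .pp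 ⟨⟨0, 0, 0, 0, 0, 0, 0, 0, 0, ⟨0, 0⟩, 0⟩, 585153550, 0⟩ 0 0))) (.pos 102 .pp ⟨⟨0, 0, 0, 0, 0, 0, 0, 0, 0, ⟨0, 0⟩, 0⟩, 38690252, 10882⟩ 0 0)) (.void 114 ⟨⟨0, 0, 0, 49733, 0, 0, 0, 0, 0, ⟨0, 0⟩, 0⟩, 50267, 0⟩ 0 0)) (.void 125 ⟨⟨0, 0, 0, 0, 0, 0, 0, 0, 0, ⟨0, 0⟩, 0⟩, 100000, 0⟩ 0 0)))),
    by decide +kernel⟩

def covers34 : cell.Covers Vale.Agent.P237.Petty.Cor.Grid.N12.table row34.1 :=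
  ⟨(.cut .d 0 (.cut .v 16777216 (.cut .v 8388608 (.void 2 ⟨⟨0, 0, 100000, 0, 0, 0, 0, 0, 0, ⟨0, 0⟩, 0⟩, 0, 0⟩ 0 0) (.cut .d (-8388608) (.void 3 ⟨⟨100000, 0, 0, 0, 0, 0, 0, 0, 0, ⟨0, 0⟩, 0⟩, 0, 0⟩ 0 0) (.cut .d (-4194304) (.void 3 ⟨⟨100000, 0, 0, 0, 0, 0, 0, 0, 0, ⟨0, 0⟩, 0⟩, 0, 0⟩ 0 0) (.pos 3 .mm ⟨⟨0, 0, 0, 0, 0, 8993977616, 0, 0, 0, ⟨0, 0⟩, 0⟩, 0, 0⟩ 0 0)))) (.cut .v 268435456 (.cut .v 67108864 (.cut .v 33554432 (.cut .d (-8388608) (.void 20 ⟨⟨99998, 0, 0, 0, 0, 0, 0, 0, 0, ⟨0, 0⟩, 0⟩, 0, 0⟩ 0 0) (.cut .v 25165824 (.cut .d (-4194304) (.void 21 ⟨⟨100000, 0, 0, 0, 0, 0, 0, 0, 0, ⟨0, 0⟩, 0⟩, 0, 0⟩ 0 0) (.cut .d (-2097152) (.void 21 ⟨⟨100000,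 0, 0, 0, 0, 0, 0, 0, 0, ⟨0, 0⟩, 0⟩, 0, 0⟩ 0 0) (.cut .v 20971520 (.cut .d (-1048576) (.void 23 ⟨⟨100000, 0, 0, 0, 0, 0, 0, 0, 0, ⟨0, 0⟩, 0⟩, 0, 0⟩ 0 0) (.pos 23 .mp ⟨⟨3314615817, 0, 0, 0, 0, 1793101293, 0, 0, 0, ⟨0, 0⟩, 0⟩, 0, 0⟩ 0 0)) (.void 24 ⟨⟨100000, 0, 0, 0, 0, 0, 0, 0, 0, ⟨0, 0⟩, 0⟩, 0, 0⟩ 0 0)))) (.void 22 ⟨⟨100000, 0, 0, 0, 0, 0, 0, 0, 0, ⟨0, 0⟩, 0⟩, 0, 0⟩ 0 0))) (.void 103 ⟨⟨100000, 0, 0, 0, 0, 0, 0, 0, 0, ⟨0, 0⟩, 0⟩, 0, 0⟩ 0 0)) (.void 114 ⟨⟨99842, 0, 0, 0, 0, 0, 0, 0, 0, ⟨0, 0⟩, 0⟩, 0, 0⟩ 0 0)) (.void 125 ⟨⟨93457, 0, 0, 6543, 0, 0, 0, 0, 0, ⟨0, 0⟩, 0⟩, 0, 0⟩ 0 0))) (.cut .v 16777216 (.cut .v 8388608 (.cut .v 4194304 (.cut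 .v 2097152 (.pos 117 .pm ⟨⟨0, 0, 120147586, 0, 0, 0, 0, 0, 0, ⟨0, 0⟩, 0⟩, 0, 1051⟩ 0 0) (.pos 118 .pm ⟨⟨0, 0, 338636950, 0, 0, 0, 0, 0, 0, ⟨0, 0⟩, 0⟩, 0, 3783⟩ 0 0)) (.pos 5 .pm ⟨⟨0, 0, 1044686826, 0, 0, 0, 0, 0, 0, ⟨0, 0⟩, 0⟩, 0, 6809⟩ 0 0)) (.pos 3 .pm ⟨⟨0, 0, 0, 0, 0, 0, 0, 0, 0, ⟨0, 0⟩, 0⟩, 0, 0⟩ 0 0)) (.cut .v 268435456 (.cut .v 67108864 (.cut .d 887780 (.cut .v 33554432 (.cut .d 443890 (.cut .v 25165824 (.cut .d 221945 (.cut .d 110972 (.cut .v 20971520 (.cut .v 18874368 (.cut .d 55486 (.cut .v 17825792 (.cut .s 15220736 (.pos 27 .pp ⟨⟨2361140337, 0, 0, 0, 0, 0, 0, 0, 0, ⟨0, 0⟩, 0⟩, 0, 6768⟩ 0 0) (.pos 27 .pp ⟨⟨2500473167, 0, 0,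 0, 0, 0, 0, 0, 0, ⟨0, 0⟩, 0⟩, 0, 6011⟩ 0 0)) (.pos 28 .pp ⟨⟨2738427741, 0, 0, 0, 0, 0, 0, 0, 0, ⟨0, 0⟩, 0⟩, 0, 7083⟩ 0 0)) (.pos 25 .pp ⟨⟨0, 0, 0, 0, 0, 0, 0, 0, 0, ⟨0, 0⟩, 0⟩, 0, 18023⟩ 0 0)) (.cut .d 55486 (.pos 26 .pp ⟨⟨3315972228, 0, 0, 0, 0, 0, 0, 0, 0, ⟨0, 0⟩, 0⟩, 0, 5863⟩ 0 0) (.pos 26 .pp ⟨⟨2796009613, 0, 0, 0, 0, 0, 16510, 0, 0, ⟨0, 0⟩, 0⟩, 0, 0⟩ 0 0))) (.cut .v 23068672 (.cut .d 55486 (.void 55 ⟨⟨0, 0, 0, 0, 0, 0, 0, 0, 0, ⟨0, 0⟩, 0⟩, 100000, 0⟩ 0 0) (.cut .d 83229 (.pos 55 .pp ⟨⟨0, 0, 0, 0, 0, 0, 17081, 0, 0, ⟨0, 0⟩, 0⟩, 466173756, 0⟩ 0 0) (.pos 55 .pp ⟨⟨0, 0, 0, 0, 0, 0, 19525, 0, 0, ⟨0, 0⟩, 0⟩, 408339180, 0⟩ 0 0))) (.pos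 56 .pp ⟨⟨0, 0, 0, 0, 0, 0, 13700, 0, 0, ⟨0, 0⟩, 0⟩, 558680791, 0⟩ 0 0))) (.cut .v 20971520 (.pos 23 .pp ⟨⟨0, 0, 0, 0, 0, 0, 0, 0, 0, ⟨0, 0⟩, 0⟩, 0, 18913⟩ 0 0) (.pos 24 .pp ⟨⟨0, 0, 0, 0, 0, 0, 21016, 0, 0, ⟨0, 0⟩, 0⟩, 394153813, 0⟩ 0 0))) (.pos 21 .pp ⟨⟨0, 0, 0, 0, 0, 0, 0, 0, 0, ⟨0, 0⟩, 0⟩, 0, 20426⟩ 0 0)) (.cut .d 221945 (.cut .d 110972 (.void 22 ⟨⟨0, 0, 0, 0, 0, 0, 0, 0, 0, ⟨0, 0⟩, 0⟩, 100000, 0⟩ 0 0) (.pos 22 .pp ⟨⟨0, 0, 0, 0, 0, 0, 13246, 0, 0, ⟨0, 0⟩, 0⟩, 576763077, 0⟩ 0 0)) (.pos 22 .pp ⟨⟨0, 0, 0, 0, 0, 0, 23117, 0, 0, ⟨0, 0⟩, 0⟩, 426223306, 0⟩ 0 0))) (.pos 20 .pp ⟨⟨0, 0, 0, 0, 0, 0, 0, 0, 0, ⟨0, 0⟩, 0⟩, 0, 22695⟩ 0 0)) (.cut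 .d 443890 (.cut .v 50331648 (.pos 106 .pp ⟨⟨0, 0, 0, 0, 0, 0, 0, 0, 0, ⟨0, 0⟩, 0⟩, 928779464, 0⟩ 0 0) (.void 107 ⟨⟨0, 0, 0, 0, 0, 0, 0, 0, 0, ⟨0, 0⟩, 0⟩, 100000, 0⟩ 0 0)) (.pos 103 .pp ⟨⟨0, 0, 0, 0, 0, 0, 10124, 0, 0, ⟨0, 0⟩, 0⟩, 662987385, 0⟩ 0 0))) (.pos 102 .pp ⟨⟨0, 0, 0, 0, 0, 0, 0, 0, 0, ⟨0, 0⟩, 0⟩, 57606336, 15762⟩ 0 0)) (.void 114 ⟨⟨0, 0, 0, 49866, 0, 0, 0, 0, 0, ⟨0, 0⟩, 0⟩, 50134, 0⟩ 0 0)) (.void 125 ⟨⟨0, 0, 0, 0, 0, 0, 0, 0, 0, ⟨0, 0⟩, 0⟩, 100000, 0⟩ 0 0)))),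
    by decide +kernel⟩

def covers35 : cell.Covers Vale.Agent.P237.Petty.Cor.Grid.N12.table row35.1 :=
  ⟨(.cut .d 0 (.cut .v 16777216 (.cut .v 8388608 (.void 2 ⟨⟨0, 0, 100000, 0, 0, 0, 0, 0, 0, ⟨0, 0⟩, 0⟩, 0, 0⟩ 0 0) (.cut .d (-8388608) (.void 3 ⟨⟨100000, 0, 0, 0, 0, 0, 0, 0, 0, ⟨0, 0⟩, 0⟩, 0, 0⟩ 0 0) (.cut .d (-4194304) (.void 3 ⟨⟨100000, 0, 0, 0, 0, 0, 0, 0, 0, ⟨0, 0⟩, 0⟩, 0, 0⟩ 0 0) (.cut .d (-2097152) (.void 3 ⟨⟨100000, 0, 0, 0, 0, 0, 0, 0, 0, ⟨0, 0⟩, 0⟩, 0, 0⟩ 0 0) (.pos 3 .mm ⟨⟨0, 0, 0, 0, 0, 8291391779, 0, 0, 0, ⟨0, 0⟩, 0⟩, 0, 0⟩ 0 0))))) (.cut .v 268435456 (.cut .v 67108864 (.cut .v 33554432 (.cut .d (-8388608) (.void 20 ⟨⟨100000,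 0, 0, 0, 0, 0, 0, 0, 0, ⟨0, 0⟩, 0⟩, 0, 0⟩ 0 0) (.cut .v 25165824 (.cut .d (-4194304) (.void 21 ⟨⟨100000, 0, 0, 0, 0, 0, 0, 0, 0, ⟨0, 0⟩, 0⟩, 0, 0⟩ 0 0) (.cut .d (-2097152) (.void 21 ⟨⟨100000, 0, 0, 0, 0, 0, 0, 0, 0, ⟨0, 0⟩, 0⟩, 0, 0⟩ 0 0) (.cut .v 20971520 (.cut .d (-1048576) (.void 23 ⟨⟨100000, 0, 0, 0, 0, 0, 0, 0, 0, ⟨0, 0⟩, 0⟩, 0, 0⟩ 0 0) (.cut .v 18874368 (.pos 25 .mp ⟨⟨3298323138, 0, 0, 0, 0, 2181930019, 0, 0, 0, ⟨0, 0⟩, 0⟩, 0, 0⟩ 0 0) (.void 26 ⟨⟨100000, 0, 0, 0, 0, 0, 0, 0, 0, ⟨0, 0⟩, 0⟩, 0, 0⟩ 0 0))) (.void 24 ⟨⟨100000, 0, 0, 0, 0, 0, 0, 0, 0, ⟨0, 0⟩, 0⟩, 0, 0⟩ 0 0)))) (.void 22 ⟨⟨100000, 0, 0, 0, 0, 0, 0, 0, 0, ⟨0, 0⟩, 0⟩,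 0, 0⟩ 0 0))) (.void 103 ⟨⟨100000, 0, 0, 0, 0, 0, 0, 0, 0, ⟨0, 0⟩, 0⟩, 0, 0⟩ 0 0)) (.void 114 ⟨⟨99803, 0, 0, 0, 0, 0, 0, 0, 0, ⟨0, 0⟩, 0⟩, 0, 0⟩ 0 0)) (.void 125 ⟨⟨93404, 0, 0, 6596, 0, 0, 0, 0, 0, ⟨0, 0⟩, 0⟩, 0, 0⟩ 0 0))) (.cut .v 16777216 (.cut .v 8388608 (.cut .v 4194304 (.cut .v 2097152 (.pos 117 .pm ⟨⟨0, 0, 144641419, 0, 0, 0, 0, 0, 0, ⟨0, 0⟩, 0⟩, 0, 719⟩ 0 0) (.pos 118 .pm ⟨⟨0, 0, 407111680, 0, 0, 0, 0, 0, 0, ⟨0, 0⟩, 0⟩, 0, 2915⟩ 0 0)) (.pos 5 .pm ⟨⟨0, 0, 1238670667, 0, 0, 0, 0, 0, 0, ⟨0, 0⟩, 0⟩, 0, 5248⟩ 0 0)) (.pos 3 .pm ⟨⟨0, 0, 0, 0, 0, 0, 0, 0, 0, ⟨0, 0⟩, 0⟩, 0, 0⟩ 0 0)) (.cut .v 268435456 (.cut .v 67108864 (.cut .d 828061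 (.cut .v 33554432 (.cut .d 414030 (.cut .v 25165824 (.cut .d 207015 (.cut .d 103507 (.cut .v 20971520 (.cut .v 18874368 (.cut .d 51753 (.cut .d 25876 (.cut .v 17825792 (.cut .s 15335424 (.pos 27 .pp ⟨⟨2673993498, 0, 0, 0, 0, 0, 0, 0, 0, ⟨0, 0⟩, 0⟩, 0, 5355⟩ 0 0) (.pos 27 .pp ⟨⟨2899473699, 0, 0, 0, 0, 0, 0, 0, 0, ⟨0, 0⟩, 0⟩, 0, 4492⟩ 0 0)) (.pos 28 .pp ⟨⟨3339460555, 0, 0, 0, 0, 0, 0, 0, 0, ⟨0, 0⟩, 0⟩, 0, 4815⟩ 0 0)) (.pos 25 .pp ⟨⟨2481401178, 0, 0, 0, 0, 0, 0, 0, 0, ⟨0, 0⟩, 0⟩, 0, 6083⟩ 0 0)) (.pos 25 .pp ⟨⟨0, 0, 0, 0, 0, 0, 0, 0, 0, ⟨0, 0⟩, 0⟩, 0, 13891⟩ 0 0)) (.cut .d 51753 (.pos 26 .pp ⟨⟨3859625686, 0, 0, 0, 0, 0, 0, 0, 0, ⟨0, 0⟩,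 0⟩, 0, 4328⟩ 0 0) (.pos 26 .pp ⟨⟨3143182560, 0, 0, 0, 0, 0, 12970, 0, 0, ⟨0, 0⟩, 0⟩, 0, 0⟩ 0 0))) (.cut .v 23068672 (.cut .d 51753 (.void 55 ⟨⟨0, 0, 0, 0, 0, 0, 0, 0, 0, ⟨0, 0⟩, 0⟩, 100000, 0⟩ 0 0) (.cut .d 77630 (.pos 55 .pp ⟨⟨0, 0, 0, 0, 0, 0, 12234, 0, 0, ⟨0, 0⟩, 0⟩, 540848933, 0⟩ 0 0) (.pos 55 .pp ⟨⟨0, 0, 0, 0, 0, 0, 14111, 0, 0, ⟨0, 0⟩, 0⟩, 459617968, 0⟩ 0 0))) (.pos 56 .pp ⟨⟨0, 0, 0, 0, 0, 0, 10162, 0, 0, ⟨0, 0⟩, 0⟩, 653511233, 0⟩ 0 0))) (.cut .v 20971520 (.pos 23 .pp ⟨⟨0, 0, 0, 0, 0, 0, 0, 0, 0, ⟨0, 0⟩, 0⟩, 0, 14577⟩ 0 0) (.pos 24 .pp ⟨⟨0, 0, 0, 0, 0, 0, 16365, 0, 0, ⟨0, 0⟩, 0⟩, 445106984, 0⟩ 0 0))) (.pos 21 .pp ⟨⟨0, 0, 0, 0,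 0, 0, 0, 0, 0, ⟨0, 0⟩, 0⟩, 0, 15743⟩ 0 0)) (.cut .d 207015 (.cut .d 103507 (.void 22 ⟨⟨0, 0, 0, 0, 0, 0, 0, 0, 0, ⟨0, 0⟩, 0⟩, 100000, 0⟩ 0 0) (.pos 22 .pp ⟨⟨0, 0, 0, 0, 0, 0, 9785, 0, 0, ⟨0, 0⟩, 0⟩, 667513203, 0⟩ 0 0)) (.pos 22 .pp ⟨⟨0, 0, 0, 0, 0, 0, 17975, 0, 0, ⟨0, 0⟩, 0⟩, 482657392, 0⟩ 0 0))) (.pos 20 .pp ⟨⟨0, 0, 0, 0, 0, 0, 0, 0, 0, ⟨0, 0⟩, 0⟩, 0, 17493⟩ 0 0)) (.cut .v 50331648 (.cut .d 414030 (.pos 106 .pp ⟨⟨0, 0, 0, 0, 0, 0, 0, 0, 0, ⟨0, 0⟩, 0⟩, 1080203288, 0⟩ 0 0) (.pos 106 .pp ⟨⟨0, 0, 0, 0, 0, 0, 20446, 0, 0, ⟨0, 0⟩, 0⟩, 542252839, 0⟩ 0 0)) (.pos 107 .pp ⟨⟨0, 0, 0, 0, 0, 0, 0, 0, 0, ⟨0, 0⟩, 0⟩, 1553656418, 0⟩ 0 0))) (.pos 102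 .pp ⟨⟨0, 0, 0, 0, 0, 0, 0, 0, 0, ⟨0, 0⟩, 0⟩, 81079684, 11922⟩ 0 0)) (.void 114 ⟨⟨0, 0, 0, 49968, 0, 0, 0, 0, 0, ⟨0, 0⟩, 0⟩, 51220, 0⟩ 0 0)) (.void 125 ⟨⟨0, 0, 0, 0, 0, 0, 0, 0, 0, ⟨0, 0⟩, 0⟩, 100000, 0⟩ 0 0)))),
    by decide +kernel⟩

def covers36 : cell.Covers Vale.Agent.P237.Petty.Cor.Grid.N12.table row36.1 :=
  ⟨(.cut .d 0 (.cut .v 16777216 (.cut .v 8388608 (.void 2 ⟨⟨0, 0, 100000, 0, 0, 0, 0, 0, 0, ⟨0, 0⟩, 0⟩, 0, 0⟩ 0 0) (.cut .d (-8388608) (.void 3 ⟨⟨100000, 0, 0, 0, 0, 0, 0, 0, 0, ⟨0, 0⟩, 0⟩, 0, 0⟩ 0 0) (.cut .d (-4194304) (.void 3 ⟨⟨100000, 0, 0, 0, 0, 0, 0, 0, 0, ⟨0, 0⟩, 0⟩, 0, 0⟩ 0 0) (.cut .d (-2097152) (.void 3 ⟨⟨100000,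 0, 0, 0, 0, 0, 0, 0, 0, ⟨0, 0⟩, 0⟩, 0, 0⟩ 0 0) (.pos 3 .mm ⟨⟨0, 0, 0, 0, 0, 9987262288, 0, 0, 0, ⟨0, 0⟩, 0⟩, 0, 0⟩ 0 0))))) (.cut .v 268435456 (.cut .v 67108864 (.cut .v 33554432 (.cut .d (-8388608) (.void 20 ⟨⟨99988, 0, 0, 0, 0, 0, 0, 0, 0, ⟨0, 0⟩, 0⟩, 0, 0⟩ 0 0) (.cut .d (-4194304) (.void 20 ⟨⟨100000, 0, 0, 0, 0, 0, 0, 0, 0, ⟨0, 0⟩, 0⟩, 0, 0⟩ 0 0) (.cut .v 25165824 (.cut .d (-2097152) (.void 21 ⟨⟨100000, 0, 0, 0, 0, 0, 0, 0, 0, ⟨0, 0⟩, 0⟩, 0, 0⟩ 0 0) (.cut .v 20971520 (.cut .d (-1048576) (.void 23 ⟨⟨100000, 0, 0, 0, 0, 0, 0, 0, 0, ⟨0, 0⟩, 0⟩, 0, 0⟩ 0 0) (.pos 23 .mp ⟨⟨4619216081, 0, 0, 0, 0, 2584104572, 0, 0, 0, ⟨0, 0⟩, 0⟩, 0, 0⟩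 0 0)) (.void 24 ⟨⟨100000, 0, 0, 0, 0, 0, 0, 0, 0, ⟨0, 0⟩, 0⟩, 0, 0⟩ 0 0))) (.void 22 ⟨⟨100000, 0, 0, 0, 0, 0, 0, 0, 0, ⟨0, 0⟩, 0⟩, 0, 0⟩ 0 0)))) (.void 103 ⟨⟨100000, 0, 0, 0, 0, 0, 0, 0, 0, ⟨0, 0⟩, 0⟩, 0, 0⟩ 0 0)) (.void 114 ⟨⟨100084, 0, 0, 0, 0, 0, 0, 0, 0, ⟨0, 0⟩, 0⟩, 0, 0⟩ 0 0)) (.void 125 ⟨⟨93352, 0, 0, 6648, 0, 0, 0, 0, 0, ⟨0, 0⟩, 0⟩, 0, 0⟩ 0 0))) (.cut .v 16777216 (.cut .v 8388608 (.cut .v 4194304 (.cut .v 2097152 (.pos 117 .pm ⟨⟨0, 0, 169390347, 0, 0, 0, 0, 0, 0, ⟨0, 0⟩, 0⟩, 0, 0⟩ 0 0) (.pos 118 .pm ⟨⟨0, 0, 520774973, 0, 0, 0, 0, 0, 0, ⟨0, 0⟩, 0⟩, 0, 1995⟩ 0 0)) (.pos 5 .pm ⟨⟨0, 0, 1567069283, 0, 0, 0, 0, 0, 0, ⟨0, 0⟩, 0⟩, 0,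 3592⟩ 0 0)) (.pos 3 .pm ⟨⟨0, 0, 0, 0, 0, 0, 0, 0, 0, ⟨0, 0⟩, 0⟩, 0, 0⟩ 0 0)) (.cut .v 268435456 (.cut .v 67108864 (.cut .d 749621 (.cut .v 33554432 (.cut .d 374810 (.cut .v 25165824 (.cut .d 187405 (.cut .d 93702 (.cut .v 20971520 (.cut .v 18874368 (.cut .d 46851 (.cut .d 23425 (.cut .v 17825792 (.cut .s 15466496 (.pos 27 .pp ⟨⟨3153494750, 0, 0, 0, 0, 0, 0, 0, 0, ⟨0, 0⟩, 0⟩, 0, 3722⟩ 0 0) (.pos 27 .pp ⟨⟨3440189346, 0, 0, 0, 0, 0, 0, 0, 0, ⟨0, 0⟩, 0⟩, 0, 3055⟩ 0 0)) (.pos 28 .pp ⟨⟨3964301924, 0, 0, 0, 0, 0, 0, 0, 0, ⟨0, 0⟩, 0⟩, 0, 3242⟩ 0 0)) (.pos 25 .pp ⟨⟨2920300589, 0, 0, 0, 0, 0, 0, 0, 0, ⟨0, 0⟩, 0⟩, 0, 4101⟩ 0 0)) (.pos 25 .pp ⟨⟨0,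 0, 0, 0, 0, 0, 0, 0, 0, ⟨0, 0⟩, 0⟩, 0, 9508⟩ 0 0)) (.cut .d 46851 (.cut .v 19922944 (.pos 53 .pp ⟨⟨4272783042, 0, 0, 0, 0, 0, 0, 0, 0, ⟨0, 0⟩, 0⟩, 0, 3290⟩ 0 0) (.pos 54 .pp ⟨⟨4837353027, 0, 0, 0, 0, 0, 6720, 0, 0, ⟨0, 0⟩, 0⟩, 0, 0⟩ 0 0)) (.pos 26 .pp ⟨⟨3698354216, 0, 0, 0, 0, 0, 8900, 0, 0, ⟨0, 0⟩, 0⟩, 0, 0⟩ 0 0))) (.cut .v 23068672 (.cut .d 46851 (.void 55 ⟨⟨0, 0, 0, 0, 0, 0, 0, 0, 0, ⟨0, 0⟩, 0⟩, 100000, 0⟩ 0 0) (.cut .d 70276 (.pos 55 .pp ⟨⟨0, 0, 0, 0, 0, 0, 8258, 0, 0, ⟨0, 0⟩, 0⟩, 641278499, 0⟩ 0 0) (.pos 55 .pp ⟨⟨0, 0, 0, 0, 0, 0, 9670, 0, 0, ⟨0, 0⟩, 0⟩, 542524681, 0⟩ 0 0))) (.pos 56 .pp ⟨⟨0, 0, 0, 0, 0, 0, 7164, 0, 0, ⟨0, 0⟩,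 0⟩, 775704894, 0⟩ 0 0))) (.cut .v 20971520 (.pos 23 .pp ⟨⟨0, 0, 0, 0, 0, 0, 0, 0, 0, ⟨0, 0⟩, 0⟩, 0, 9977⟩ 0 0) (.pos 24 .pp ⟨⟨0, 0, 0, 0, 0, 0, 11434, 0, 0, ⟨0, 0⟩, 0⟩, 525196614, 0⟩ 0 0))) (.pos 21 .pp ⟨⟨0, 0, 0, 0, 0, 0, 0, 0, 0, ⟨0, 0⟩, 0⟩, 0, 10776⟩ 0 0)) (.cut .d 187405 (.cut .d 93702 (.void 22 ⟨⟨0, 0, 0, 0, 0, 0, 0, 0, 0, ⟨0, 0⟩, 0⟩, 100000, 0⟩ 0 0) (.pos 22 .pp ⟨⟨0, 0, 0, 0, 0, 0, 7015, 0, 0, ⟨0, 0⟩, 0⟩, 791640512, 0⟩ 0 0)) (.pos 22 .pp ⟨⟨0, 0, 0, 0, 0, 0, 12539, 0, 0, ⟨0, 0⟩, 0⟩, 572143010, 0⟩ 0 0))) (.pos 20 .pp ⟨⟨0, 0, 0, 0, 0, 0, 0, 0, 0, ⟨0, 0⟩, 0⟩, 0, 11973⟩ 0 0)) (.cut .v 50331648 (.cut .d 374810 (.pos 106 .pp ⟨⟨0, 0,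 0, 0, 0, 0, 0, 0, 0, ⟨0, 0⟩, 0⟩, 1277939699, 0⟩ 0 0) (.pos 106 .pp ⟨⟨0, 0, 0, 0, 0, 0, 14034, 0, 0, ⟨0, 0⟩, 0⟩, 652140072, 0⟩ 0 0)) (.pos 107 .pp ⟨⟨0, 0, 0, 0, 0, 0, 0, 0, 0, ⟨0, 0⟩, 0⟩, 1830208631, 0⟩ 0 0))) (.pos 102 .pp ⟨⟨0, 0, 0, 0, 0, 0, 0, 0, 0, ⟨0, 0⟩, 0⟩, 121374706, 7961⟩ 0 0)) (.void 114 ⟨⟨0, 0, 0, 49717, 0, 0, 2, 0, 0, ⟨0, 0⟩, 0⟩, 50272, 0⟩ 0 0)) (.void 125 ⟨⟨0, 0, 0, 0, 0, 0, 0, 0, 0, ⟨0, 0⟩, 0⟩, 100000, 0⟩ 0 0)))),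
    by decide +kernel⟩

def covers37 : cell.Covers Vale.Agent.P237.Petty.Cor.Grid.N12.table row37.1 :=
  ⟨(.cut .d 0 (.cut .v 16777216 (.cut .v 8388608 (.void 2 ⟨⟨0, 0, 100000, 0, 0, 0, 0, 0, 0, ⟨0, 0⟩, 0⟩, 0, 0⟩ 0 0) (.cut .d (-8388608) (.void 3 ⟨⟨100000, 0, 0, 0, 0, 0, 0, 0, 0, ⟨0, 0⟩, 0⟩, 0, 0⟩ 0 0) (.cut .d (-4194304) (.void 3 ⟨⟨100000, 0, 0, 0, 0, 0, 0, 0, 0, ⟨0, 0⟩, 0⟩, 0, 0⟩ 0 0) (.cut .d (-2097152) (.void 3 ⟨⟨100000, 0, 0, 0, 0, 0, 0, 0, 0, ⟨0, 0⟩, 0⟩, 0, 0⟩ 0 0) (.pos 3 .mm ⟨⟨0, 0, 0, 0, 0, 14741842781, 0, 0, 0, ⟨0, 0⟩, 0⟩, 0, 0⟩ 0 0))))) (.cut .v 268435456 (.cut .v 67108864 (.cut .v 33554432 (.cut .d (-8388608) (.void 20 ⟨⟨99981,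 0, 0, 0, 0, 0, 0, 0, 0, ⟨0, 0⟩, 0⟩, 0, 0⟩ 0 0) (.cut .d (-4194304) (.void 20 ⟨⟨100000, 0, 0, 0, 0, 0, 0, 0, 0, ⟨0, 0⟩, 0⟩, 0, 0⟩ 0 0) (.cut .v 25165824 (.cut .d (-2097152) (.void 21 ⟨⟨100000, 0, 0, 0, 0, 0, 0, 0, 0, ⟨0, 0⟩, 0⟩, 0, 0⟩ 0 0) (.cut .v 20971520 (.cut .d (-1048576) (.void 23 ⟨⟨100000, 0, 0, 0, 0, 0, 0, 0, 0, ⟨0, 0⟩, 0⟩, 0, 0⟩ 0 0) (.cut .s 15654912 (.pos 23 .mp ⟨⟨5525125068, 0, 0, 0, 0, 3089952765, 0, 0, 0, ⟨0, 0⟩, 0⟩, 0, 0⟩ 0 0) (.pos 23 .mp ⟨⟨6711382531, 0, 0, 0, 0, 3733795082, 0, 0, 0, ⟨0, 0⟩, 0⟩, 0, 0⟩ 0 0))) (.void 24 ⟨⟨100000, 0, 0, 0, 0, 0, 0, 0, 0, ⟨0, 0⟩, 0⟩, 0, 0⟩ 0 0))) (.void 22 ⟨⟨100000, 0, 0, 0, 0, 0, 0, 0,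 0, ⟨0, 0⟩, 0⟩, 0, 0⟩ 0 0)))) (.void 103 ⟨⟨100000, 0, 0, 0, 0, 0, 0, 0, 0, ⟨0, 0⟩, 0⟩, 0, 0⟩ 0 0)) (.void 114 ⟨⟨100000, 0, 0, 0, 0, 0, 0, 0, 0, ⟨0, 0⟩, 0⟩, 0, 0⟩ 0 0)) (.void 125 ⟨⟨93254, 0, 0, 6746, 0, 0, 0, 0, 0, ⟨0, 0⟩, 0⟩, 0, 0⟩ 0 0))) (.cut .v 16777216 (.cut .v 8388608 (.cut .v 4194304 (.cut .d 672505 (.pos 4 .pm ⟨⟨0, 0, 6297359985, 0, 0, 0, 0, 0, 0, ⟨0, 0⟩, 0⟩, 0, 643⟩ 0 0) (.cut .d 1008758 (.pos 4 .pm ⟨⟨0, 0, 1026323364, 0, 0, 0, 0, 0, 0, ⟨0, 0⟩, 0⟩, 0, 0⟩ 0 0) (.pos 4 .pm ⟨⟨0, 0, 39204320, 0, 0, 0, 0, 0, 0, ⟨0, 0⟩, 0⟩, 0, 0⟩ 0 0))) (.pos 5 .pm ⟨⟨0, 0, 1996913162, 0, 0, 0, 0, 0, 0, ⟨0, 0⟩, 0⟩, 0, 2273⟩ 0 0)) (.pos 3 .pm ⟨⟨0, 0,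 0, 0, 0, 0, 0, 0, 0, ⟨0, 0⟩, 0⟩, 0, 0⟩ 0 0)) (.cut .v 268435456 (.cut .v 67108864 (.cut .d 672505 (.cut .v 33554432 (.cut .d 336252 (.cut .d 168126 (.cut .v 25165824 (.cut .d 84063 (.cut .v 20971520 (.cut .d 42031 (.cut .v 18874368 (.cut .d 21015 (.cut .v 17825792 (.cut .d 10507 (.cut .v 17301504 (.cut .d 5253 (.cut .v 17039360 (.cut .d 2626 (.cut .v 16908288 (.cut .s 15654912 (.pos 35 .pp ⟨⟨3752812731, 0, 0, 0, 0, 0, 0, 0, 0, ⟨0, 0⟩, 0⟩, 0, 2118⟩ 0 0) (.cut .s 15716352 (.pos 35 .pp ⟨⟨4381262713, 0, 0, 0, 0, 0, 0, 0, 0, ⟨0, 0⟩, 0⟩, 0, 1573⟩ 0 0) (.pos 35 .pp ⟨⟨4835065819, 0, 0, 0, 0, 0, 0, 0, 0, ⟨0, 0⟩, 0⟩, 0, 1254⟩ 0 0))) (.pos 36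 .pp ⟨⟨4922015417, 0, 0, 0, 0, 0, 0, 0, 0, ⟨0, 0⟩, 0⟩, 0, 1260⟩ 0 0)) (.pos 31 .pp ⟨⟨3244277502, 0, 0, 0, 0, 0, 0, 0, 0, ⟨0, 0⟩, 0⟩, 0, 1647⟩ 0 0)) (.pos 32 .pp ⟨⟨4957992456, 0, 0, 0, 0, 0, 0, 0, 0, ⟨0, 0⟩, 0⟩, 0, 1267⟩ 0 0)) (.pos 29 .pp ⟨⟨3286584829, 0, 0, 0, 0, 0, 0, 0, 0, ⟨0, 0⟩, 0⟩, 0, 1699⟩ 0 0)) (.pos 30 .pp ⟨⟨5114069429, 0, 0, 0, 0, 0, 0, 0, 0, ⟨0, 0⟩, 0⟩, 0, 1304⟩ 0 0)) (.pos 27 .pp ⟨⟨3372400527, 0, 0, 0, 0, 0, 0, 0, 0, ⟨0, 0⟩, 0⟩, 0, 1806⟩ 0 0)) (.pos 28 .pp ⟨⟨5523860763, 0, 0, 0, 0, 0, 0, 0, 0, ⟨0, 0⟩, 0⟩, 0, 1345⟩ 0 0)) (.pos 25 .pp ⟨⟨3548588451, 0, 0, 0, 0, 0, 0, 0, 0, ⟨0, 0⟩, 0⟩, 0, 2034⟩ 0 0)) (.cut .v 19922944 (.cut .d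 21015 (.pos 53 .pp ⟨⟨12674381498, 0, 0, 0, 0, 0, 0, 0, 0, ⟨0, 0⟩, 0⟩, 0, 0⟩ 0 0) (.pos 53 .pp ⟨⟨5274544104, 0, 0, 0, 0, 0, 0, 0, 0, ⟨0, 0⟩, 0⟩, 0, 1490⟩ 0 0)) (.pos 54 .pp ⟨⟨6759915886, 0, 0, 0, 0, 0, 2977, 0, 0, ⟨0, 0⟩, 0⟩, 0, 0⟩ 0 0))) (.cut .v 18874368 (.pos 25 .pp ⟨⟨0, 0, 0, 0, 0, 0, 0, 0, 0, ⟨0, 0⟩, 0⟩, 0, 5916⟩ 0 0) (.cut .s 15654912 (.pos 26 .pp ⟨⟨4412685423, 0, 0, 0, 0, 0, 5821, 0, 0, ⟨0, 0⟩, 0⟩, 0, 0⟩ 0 0) (.pos 26 .pp ⟨⟨5151914664, 0, 0, 0, 0, 0, 4021, 0, 0, ⟨0, 0⟩, 0⟩, 0, 0⟩ 0 0)))) (.cut .d 42031 (.pos 24 .pp ⟨⟨14355021144, 0, 0, 0, 0, 0, 0, 0, 0, ⟨0, 0⟩, 0⟩, 0, 0⟩ 0 0) (.cut .v 23068672 (.cut .d 63047 (.cut .v 22020096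 (.pos 57 .pp ⟨⟨0, 0, 0, 0, 0, 0, 3546, 0, 0, ⟨0, 0⟩, 0⟩, 802930864, 0⟩ 0 0) (.pos 58 .pp ⟨⟨0, 0, 0, 0, 0, 0, 3297, 0, 0, ⟨0, 0⟩, 0⟩, 938488075, 0⟩ 0 0)) (.pos 55 .pp ⟨⟨0, 0, 0, 0, 0, 0, 6115, 0, 0, ⟨0, 0⟩, 0⟩, 682134038, 0⟩ 0 0)) (.pos 56 .pp ⟨⟨0, 0, 0, 0, 0, 0, 3361, 0, 0, ⟨0, 0⟩, 0⟩, 1008848092, 0⟩ 0 0)))) (.cut .v 20971520 (.pos 23 .pp ⟨⟨0, 0, 0, 0, 0, 0, 0, 0, 0, ⟨0, 0⟩, 0⟩, 0, 6313⟩ 0 0) (.pos 24 .pp ⟨⟨0, 0, 0, 0, 0, 0, 7127, 0, 0, ⟨0, 0⟩, 0⟩, 651732411, 0⟩ 0 0))) (.cut .d 84063 (.void 22 ⟨⟨0, 0, 0, 0, 0, 0, 0, 0, 0, ⟨0, 0⟩, 0⟩, 100000, 0⟩ 0 0) (.cut .v 29360128 (.pos 91 .pp ⟨⟨0, 0, 0, 0, 0, 0, 4160, 0, 0, ⟨0, 0⟩, 0⟩, 947773100,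 0⟩ 0 0) (.pos 92 .pp ⟨⟨0, 0, 0, 0, 0, 0, 0, 0, 0, ⟨0, 0⟩, 0⟩, 1589260133, 0⟩ 0 0)))) (.cut .v 25165824 (.pos 21 .pp ⟨⟨0, 0, 0, 0, 0, 0, 0, 0, 0, ⟨0, 0⟩, 0⟩, 0, 6818⟩ 0 0) (.pos 22 .pp ⟨⟨0, 0, 0, 0, 0, 0, 7802, 0, 0, ⟨0, 0⟩, 0⟩, 709354930, 0⟩ 0 0))) (.pos 20 .pp ⟨⟨0, 0, 0, 0, 0, 0, 0, 0, 0, ⟨0, 0⟩, 0⟩, 0, 7576⟩ 0 0)) (.cut .v 50331648 (.cut .d 336252 (.cut .d 168126 (.void 106 ⟨⟨0, 0, 0, 0, 0, 0, 0, 0, 0, ⟨0, 0⟩, 0⟩, 100000, 0⟩ 0 0) (.pos 106 .pp ⟨⟨0, 0, 0, 0, 0, 0, 0, 0, 0, ⟨0, 0⟩, 0⟩, 1426079138, 0⟩ 0 0)) (.pos 106 .pp ⟨⟨0, 0, 0, 0, 0, 0, 8585, 0, 0, ⟨0, 0⟩, 0⟩, 814011166, 0⟩ 0 0)) (.pos 107 .pp ⟨⟨0, 0, 0, 0, 0, 0, 0, 0, 0, ⟨0, 0⟩,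 0⟩, 2521195402, 0⟩ 0 0))) (.pos 102 .pp ⟨⟨0, 0, 0, 0, 0, 0, 0, 0, 0, ⟨0, 0⟩, 0⟩, 178109081, 4908⟩ 0 0)) (.void 114 ⟨⟨0, 0, 0, 51017, 0, 0, 0, 0, 0, ⟨0, 0⟩, 0⟩, 49602, 0⟩ 0 0)) (.void 125 ⟨⟨0, 0, 0, 0, 0, 0, 0, 0, 0, ⟨0, 0⟩, 0⟩, 100000, 0⟩ 0 0)))),
    by decide +kernel⟩

def covers38 : cell.Covers Vale.Agent.P237.Petty.Cor.Grid.N12.table row38.1 :=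
  ⟨(.cut .d 0 (.cut .v 16777216 (.cut .v 8388608 (.void 2 ⟨⟨0, 0, 100000, 0, 0, 0, 0, 0, 0, ⟨0, 0⟩, 0⟩, 0, 0⟩ 0 0) (.cut .d (-8388608) (.void 3 ⟨⟨100000, 0, 0, 0, 0, 0, 0, 0, 0, ⟨0, 0⟩, 0⟩, 0, 0⟩ 0 0) (.cut .d (-4194304) (.void 3 ⟨⟨100000, 0, 0, 0, 0, 0, 0, 0, 0, ⟨0, 0⟩, 0⟩, 0, 0⟩ 0 0) (.cut .d (-2097152) (.void 3 ⟨⟨100000, 0, 0, 0, 0, 0, 0, 0, 0, ⟨0, 0⟩, 0⟩, 0, 0⟩ 0 0) (.pos 3 .mm ⟨⟨0, 0, 0, 0, 0, 21249636875, 0, 0, 0, ⟨0, 0⟩, 0⟩, 0, 0⟩ 0 0))))) (.cut .v 268435456 (.cut .v 67108864 (.cut .v 33554432 (.cut .d (-8388608) (.void 20 ⟨⟨99600, 0, 0, 0, 0, 0, 0, 0, 0, ⟨0, 0⟩, 0⟩, 0, 0⟩ 0 0) (.cut .d (-4194304) (.void 20 ⟨⟨100000, 0, 0, 0,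 0, 0, 0, 0, 0, ⟨0, 0⟩, 0⟩, 0, 0⟩ 0 0) (.cut .v 25165824 (.cut .d (-2097152) (.void 21 ⟨⟨100000, 0, 0, 0, 0, 0, 0, 0, 0, ⟨0, 0⟩, 0⟩, 0, 0⟩ 0 0) (.cut .v 20971520 (.cut .d (-1048576) (.void 23 ⟨⟨100000, 0, 0, 0, 0, 0, 0, 0, 0, ⟨0, 0⟩, 0⟩, 0, 0⟩ 0 0) (.cut .s 15876096 (.pos 23 .mp ⟨⟨8005262821, 0, 0, 0, 0, 4318586006, 0, 0, 0, ⟨0, 0⟩, 0⟩, 0, 0⟩ 0 0) (.pos 23 .mp ⟨⟨9662446901, 0, 0, 0, 0, 5136747962, 0, 0, 0, ⟨0, 0⟩, 0⟩, 0, 0⟩ 0 0))) (.void 24 ⟨⟨100000, 0, 0, 0, 0, 0, 0, 0, 0, ⟨0, 0⟩, 0⟩, 0, 0⟩ 0 0))) (.void 22 ⟨⟨100000, 0, 0, 0, 0, 0, 0, 0, 0, ⟨0, 0⟩, 0⟩, 0, 0⟩ 0 0)))) (.void 103 ⟨⟨100000, 0, 0, 0, 0, 0, 0, 0, 0, ⟨0, 0⟩, 0⟩, 0, 0⟩ 0 0))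 (.void 114 ⟨⟨100707, 0, 0, 0, 0, 0, 0, 0, 0, ⟨0, 0⟩, 0⟩, 0, 0⟩ 0 0)) (.void 125 ⟨⟨93176, 0, 0, 6824, 0, 0, 0, 0, 0, ⟨0, 0⟩, 0⟩, 0, 0⟩ 0 0))) (.cut .v 16777216 (.cut .v 8388608 (.cut .d 531367 (.pos 2 .pm ⟨⟨0, 0, 3470624338, 0, 0, 0, 0, 0, 0, ⟨0, 0⟩, 0⟩, 0, 426⟩ 0 0) (.cut .d 797050 (.pos 2 .pm ⟨⟨0, 0, 1272937714, 0, 0, 0, 0, 0, 0, ⟨0, 0⟩, 0⟩, 0, 0⟩ 0 0) (.pos 2 .pm ⟨⟨0, 0, 21682550, 0, 930, 0, 0, 0, 0, ⟨0, 0⟩, 0⟩, 0, 0⟩ 0 0))) (.pos 3 .pm ⟨⟨0, 0, 0, 0, 0, 0, 0, 0, 0, ⟨0, 0⟩, 0⟩, 0, 0⟩ 0 0)) (.cut .v 268435456 (.cut .v 67108864 (.cut .d 531367 (.cut .v 33554432 (.cut .d 265683 (.cut .d 132841 (.cut .v 25165824 (.cut .d 66420 (.cut .v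 20971520 (.cut .d 33210 (.cut .v 18874368 (.cut .d 16605 (.cut .v 17825792 (.cut .d 8302 (.cut .v 17301504 (.cut .d 4151 (.cut .v 17039360 (.cut .s 15876096 (.pos 31 .pp ⟨⟨5461012724, 0, 0, 0, 0, 0, 0, 0, 0, ⟨0, 0⟩, 0⟩, 0, 835⟩ 0 0) (.cut .s 15925248 (.pos 31 .pp ⟨⟨6315070371, 0, 0, 0, 0, 0, 0, 0, 0, ⟨0, 0⟩, 0⟩, 0, 617⟩ 0 0) (.pos 31 .pp ⟨⟨6944556312, 0, 0, 0, 0, 0, 0, 0, 0, ⟨0, 0⟩, 0⟩, 0, 489⟩ 0 0))) (.pos 32 .pp ⟨⟨7117209467, 0, 0, 0, 0, 0, 0, 0, 0, ⟨0, 0⟩, 0⟩, 0, 498⟩ 0 0)) (.pos 29 .pp ⟨⟨4749203974, 0, 0, 0, 0, 0, 0, 0, 0, ⟨0, 0⟩, 0⟩, 0, 651⟩ 0 0)) (.pos 30 .pp ⟨⟨7325606810, 0, 0, 0, 0, 0, 0, 0, 0, ⟨0, 0⟩, 0⟩, 0, 511⟩ 0 0)) (.pos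 27 .pp ⟨⟨4874089303, 0, 0, 0, 0, 0, 0, 0, 0, ⟨0, 0⟩, 0⟩, 0, 689⟩ 0 0)) (.pos 28 .pp ⟨⟨7907468859, 0, 0, 0, 0, 0, 0, 0, 0, ⟨0, 0⟩, 0⟩, 0, 529⟩ 0 0)) (.pos 25 .pp ⟨⟨5130546275, 0, 0, 0, 0, 0, 0, 0, 0, ⟨0, 0⟩, 0⟩, 0, 770⟩ 0 0)) (.cut .v 19922944 (.cut .d 16605 (.pos 53 .pp ⟨⟨19140715217, 0, 0, 0, 0, 0, 0, 0, 0, ⟨0, 0⟩, 0⟩, 0, 0⟩ 0 0) (.pos 53 .pp ⟨⟨7581410079, 0, 0, 0, 0, 0, 1270, 0, 0, ⟨0, 0⟩, 0⟩, 0, 0⟩ 0 0)) (.pos 54 .pp ⟨⟨9661142628, 0, 0, 0, 0, 0, 1180, 0, 0, ⟨0, 0⟩, 0⟩, 0, 0⟩ 0 0))) (.cut .v 18874368 (.pos 25 .pp ⟨⟨0, 0, 0, 0, 0, 0, 0, 0, 0, ⟨0, 0⟩, 0⟩, 0, 2134⟩ 0 0) (.cut .s 15876096 (.pos 26 .pp ⟨⟨6407950951, 0, 0, 0, 0, 0, 2283,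 0, 0, ⟨0, 0⟩, 0⟩, 0, 0⟩ 0 0) (.pos 26 .pp ⟨⟨7441223703, 0, 0, 0, 0, 0, 1539, 0, 0, ⟨0, 0⟩, 0⟩, 0, 0⟩ 0 0)))) (.cut .d 33210 (.pos 24 .pp ⟨⟨21678799212, 0, 0, 0, 0, 0, 0, 0, 0, ⟨0, 0⟩, 0⟩, 0, 0⟩ 0 0) (.cut .v 23068672 (.cut .d 49815 (.cut .v 22020096 (.pos 57 .pp ⟨⟨0, 0, 0, 0, 0, 0, 1381, 0, 0, ⟨0, 0⟩, 0⟩, 1158205924, 0⟩ 0 0) (.pos 58 .pp ⟨⟨0, 0, 0, 0, 0, 0, 1301, 0, 0, ⟨0, 0⟩, 0⟩, 1347355427, 0⟩ 0 0)) (.pos 55 .pp ⟨⟨0, 0, 0, 0, 0, 0, 2274, 0, 0, ⟨0, 0⟩, 0⟩, 987448111, 0⟩ 0 0)) (.pos 56 .pp ⟨⟨0, 0, 0, 0, 0, 0, 1335, 0, 0, ⟨0, 0⟩, 0⟩, 1446988265, 0⟩ 0 0)))) (.cut .v 20971520 (.pos 23 .pp ⟨⟨0, 0, 0, 0, 0, 0, 0, 0, 0, ⟨0, 0⟩, 0⟩, 0, 2438⟩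 0 0) (.pos 24 .pp ⟨⟨0, 0, 0, 0, 0, 0, 2905, 0, 0, ⟨0, 0⟩, 0⟩, 944726959, 0⟩ 0 0))) (.cut .d 66420 (.void 22 ⟨⟨0, 0, 0, 0, 0, 0, 0, 0, 0, ⟨0, 0⟩, 0⟩, 100000, 0⟩ 0 0) (.cut .v 29360128 (.pos 91 .pp ⟨⟨0, 0, 0, 0, 0, 0, 1636, 0, 0, ⟨0, 0⟩, 0⟩, 1367732593, 0⟩ 0 0) (.pos 92 .pp ⟨⟨0, 0, 0, 0, 0, 0, 211, 0, 0, ⟨0, 0⟩, 0⟩, 2340239454, 0⟩ 0 0)))) (.cut .v 25165824 (.pos 21 .pp ⟨⟨0, 0, 0, 0, 0, 0, 0, 0, 0, ⟨0, 0⟩, 0⟩, 0, 2633⟩ 0 0) (.pos 22 .pp ⟨⟨0, 0, 0, 0, 0, 0, 3173, 0, 0, ⟨0, 0⟩, 0⟩, 1040257819, 0⟩ 0 0))) (.pos 20 .pp ⟨⟨0, 0, 0, 0, 0, 0, 0, 0, 0, ⟨0, 0⟩, 0⟩, 0, 2926⟩ 0 0)) (.cut .v 50331648 (.cut .d 265683 (.cut .d 132841 (.void 106 ⟨⟨0, 0,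 0, 0, 0, 0, 0, 0, 0, ⟨0, 0⟩, 0⟩, 100000, 0⟩ 0 0) (.pos 106 .pp ⟨⟨0, 0, 0, 0, 0, 0, 0, 0, 0, ⟨0, 0⟩, 0⟩, 2068102191, 0⟩ 0 0)) (.pos 106 .pp ⟨⟨0, 0, 0, 0, 0, 0, 3394, 0, 0, ⟨0, 0⟩, 0⟩, 1231752430, 0⟩ 0 0)) (.pos 107 .pp ⟨⟨0, 0, 0, 0, 0, 0, 0, 0, 0, ⟨0, 0⟩, 0⟩, 3571919088, 0⟩ 0 0))) (.pos 102 .pp ⟨⟨0, 0, 0, 0, 0, 0, 0, 0, 0, ⟨0, 0⟩, 0⟩, 343119133, 1819⟩ 0 0)) (.void 114 ⟨⟨0, 0, 0, 50810, 0, 0, 0, 0, 0, ⟨0, 0⟩, 0⟩, 49190, 0⟩ 0 0)) (.void 125 ⟨⟨0, 0, 0, 0, 0, 0, 0, 0, 0, ⟨0, 0⟩, 0⟩, 100000, 0⟩ 0 0)))),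
    by decide +kernel⟩

def covers39 : cell.Covers Vale.Agent.P237.Petty.Cor.Grid.N12.table row39.1 :=
  ⟨(.cut .d 0 (.cut .v 16777216 (.cut .v 8388608 (.void 2 ⟨⟨0, 0, 100000, 0, 0, 0, 0, 0, 0, ⟨0, 0⟩, 0⟩, 0, 0⟩ 0 0) (.cut .d (-8388608) (.void 3 ⟨⟨13490, 0, 0, 194, 0, 28444, 0, 58411, 0, ⟨(-1), 11447529⟩, 0⟩, 0, 0⟩ 0 124) (.cut .d (-4194304) (.void 3 ⟨⟨100000, 0, 0, 0, 0, 0, 0, 0, 0, ⟨0, 0⟩, 0⟩, 0, 0⟩ 0 0) (.cut .d (-2097152) (.void 3 ⟨⟨100000, 0, 0, 0, 0, 0, 0, 0, 0, ⟨0, 0⟩, 0⟩, 0, 0⟩ 0 0) (.pos 3 .mm ⟨⟨0, 0, 0, 0, 0, 30577161021, 0, 0, 0, ⟨0, 0⟩, 0⟩, 0, 0⟩ 0 0))))) (.cut .v 268435456 (.cut .v 67108864 (.cut .v 33554432 (.cut .d (-8388608)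 (.void 20 ⟨⟨100000, 0, 0, 0, 0, 0, 0, 0, 0, ⟨0, 0⟩, 0⟩, 0, 0⟩ 0 0) (.cut .d (-4194304) (.void 20 ⟨⟨100000, 0, 0, 0, 0, 0, 0, 0, 0, ⟨0, 0⟩, 0⟩, 0, 0⟩ 0 0) (.cut .v 25165824 (.cut .d (-2097152) (.void 21 ⟨⟨100000, 0, 0, 0, 0, 0, 0, 0, 0, ⟨0, 0⟩, 0⟩, 0, 0⟩ 0 0) (.cut .v 20971520 (.cut .s 16056320 (.pos 23 .mp ⟨⟨11324249564, 0, 0, 0, 0, 11596396402, 0, 0, 0, ⟨0, 0⟩, 0⟩, 0, 0⟩ 0 0) (.pos 23 .mp ⟨⟨13722508738, 0, 0, 0, 0, 13797767304, 0, 0, 0, ⟨0, 0⟩, 0⟩, 0, 0⟩ 0 0)) (.void 24 ⟨⟨100000, 0, 0, 0, 0, 0, 0, 0, 0, ⟨0, 0⟩, 0⟩, 0, 0⟩ 0 0))) (.void 22 ⟨⟨100000, 0, 0, 0, 0, 0, 0, 0, 0, ⟨0, 0⟩, 0⟩, 0, 0⟩ 0 0)))) (.void 103 ⟨⟨100000, 0, 0, 0, 0, 0,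 0, 0, 0, ⟨0, 0⟩, 0⟩, 0, 0⟩ 0 0)) (.void 114 ⟨⟨100617, 0, 0, 0, 0, 0, 0, 0, 0, ⟨0, 0⟩, 0⟩, 0, 0⟩ 0 0)) (.void 125 ⟨⟨152649, 0, 0, 7597, 0, 0, 0, 0, 0, ⟨0, 0⟩, 0⟩, 0, 0⟩ 0 0))) (.cut .v 16777216 (.cut .v 8388608 (.cut .d 421582 (.pos 2 .pm ⟨⟨0, 0, 5309020961, 0, 0, 0, 0, 0, 0, ⟨0, 0⟩, 0⟩, 0, 151⟩ 0 0) (.cut .d 632373 (.pos 2 .pm ⟨⟨0, 0, 3407369370, 0, 0, 0, 0, 0, 0, ⟨0, 0⟩, 0⟩, 0, 0⟩ 0 0) (.pos 2 .pm ⟨⟨0, 0, 21393249, 0, 518, 0, 0, 0, 0, ⟨0, 0⟩, 0⟩, 0, 0⟩ 0 0))) (.pos 3 .pm ⟨⟨0, 0, 0, 0, 0, 0, 0, 0, 0, ⟨0, 0⟩, 0⟩, 0, 0⟩ 0 0)) (.cut .v 268435456 (.cut .v 67108864 (.cut .d 421582 (.cut .v 33554432 (.cut .d 210791 (.cut .d 105395 (.cut .v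 25165824 (.cut .d 52697 (.cut .v 20971520 (.cut .d 26348 (.cut .v 18874368 (.cut .d 13174 (.cut .v 17825792 (.cut .d 6587 (.cut .v 17301504 (.cut .d 3293 (.cut .v 17039360 (.cut .s 16056320 (.pos 31 .pp ⟨⟨7818228796, 0, 0, 0, 0, 0, 0, 0, 0, ⟨0, 0⟩, 0⟩, 0, 317⟩ 0 0) (.cut .s 16097280 (.pos 31 .pp ⟨⟨9058147406, 0, 0, 0, 0, 0, 0, 0, 0, ⟨0, 0⟩, 0⟩, 0, 231⟩ 0 0) (.pos 31 .pp ⟨⟨9978860715, 0, 0, 0, 0, 0, 0, 0, 0, ⟨0, 0⟩, 0⟩, 0, 180⟩ 0 0))) (.pos 32 .pp ⟨⟨10210544798, 0, 0, 0, 0, 0, 0, 0, 0, ⟨0, 0⟩, 0⟩, 0, 184⟩ 0 0)) (.pos 29 .pp ⟨⟨6788946896, 0, 0, 0, 0, 0, 0, 0, 0, ⟨0, 0⟩, 0⟩, 0, 236⟩ 0 0)) (.pos 30 .pp ⟨⟨10514066475, 0, 0, 0, 0, 0, 0, 0,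 0, ⟨0, 0⟩, 0⟩, 0, 188⟩ 0 0)) (.pos 27 .pp ⟨⟨6968135739, 0, 0, 0, 0, 0, 0, 0, 0, ⟨0, 0⟩, 0⟩, 0, 250⟩ 0 0)) (.pos 28 .pp ⟨⟨11342870606, 0, 0, 0, 0, 0, 0, 0, 0, ⟨0, 0⟩, 0⟩, 0, 195⟩ 0 0)) (.pos 25 .pp ⟨⟨7336916031, 0, 0, 0, 0, 0, 0, 0, 0, ⟨0, 0⟩, 0⟩, 0, 279⟩ 0 0)) (.cut .v 19922944 (.cut .d 13174 (.pos 53 .pp ⟨⟨29035246913, 0, 0, 0, 0, 0, 0, 0, 0, ⟨0, 0⟩, 0⟩, 0, 0⟩ 0 0) (.pos 53 .pp ⟨⟨10834061422, 0, 0, 0, 0, 0, 466, 0, 0, ⟨0, 0⟩, 0⟩, 0, 0⟩ 0 0)) (.pos 54 .pp ⟨⟨13841754515, 0, 0, 0, 0, 0, 437, 0, 0, ⟨0, 0⟩, 0⟩, 0, 0⟩ 0 0))) (.cut .v 18874368 (.pos 25 .pp ⟨⟨0, 0, 0, 0, 0, 0, 0, 0, 0, ⟨0, 0⟩, 0⟩, 0, 746⟩ 0 0) (.cut .s 16056320 (.pos 26 .pp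 ⟨⟨9184218002, 0, 0, 0, 0, 0, 867, 0, 0, ⟨0, 0⟩, 0⟩, 0, 0⟩ 0 0) (.pos 26 .pp ⟨⟨10682281564, 0, 0, 0, 0, 0, 563, 0, 0, ⟨0, 0⟩, 0⟩, 0, 0⟩ 0 0)))) (.cut .d 26348 (.pos 24 .pp ⟨⟨32885358816, 0, 0, 0, 0, 0, 0, 0, 0, ⟨0, 0⟩, 0⟩, 0, 0⟩ 0 0) (.cut .v 23068672 (.cut .v 22020096 (.cut .d 39522 (.pos 57 .pp ⟨⟨0, 0, 0, 0, 0, 0, 508, 0, 0, ⟨0, 0⟩, 0⟩, 1652260638, 0⟩ 0 0) (.pos 57 .pp ⟨⟨0, 0, 0, 0, 0, 0, 1044, 0, 0, ⟨0, 0⟩, 0⟩, 1227731921, 0⟩ 0 0)) (.pos 58 .pp ⟨⟨0, 0, 0, 0, 0, 0, 503, 0, 0, ⟨0, 0⟩, 0⟩, 1815569895, 0⟩ 0 0)) (.pos 56 .pp ⟨⟨0, 0, 0, 0, 0, 0, 498, 0, 0, ⟨0, 0⟩, 0⟩, 2073366666, 0⟩ 0 0)))) (.cut .v 20971520 (.pos 23 .pp ⟨⟨0, 0, 0, 0, 0,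 0, 0, 0, 0, ⟨0, 0⟩, 0⟩, 0, 916⟩ 0 0) (.pos 24 .pp ⟨⟨0, 0, 0, 0, 0, 0, 1081, 0, 0, ⟨0, 0⟩, 0⟩, 1356930538, 0⟩ 0 0))) (.cut .d 52697 (.void 22 ⟨⟨0, 0, 0, 0, 0, 0, 0, 0, 0, ⟨0, 0⟩, 0⟩, 100000, 0⟩ 0 0) (.cut .v 29360128 (.pos 91 .pp ⟨⟨0, 0, 0, 0, 0, 0, 607, 0, 0, ⟨0, 0⟩, 0⟩, 1960782282, 0⟩ 0 0) (.pos 92 .pp ⟨⟨0, 0, 0, 0, 0, 0, 167, 0, 0, ⟨0, 0⟩, 0⟩, 3401563892, 0⟩ 0 0)))) (.cut .v 25165824 (.pos 21 .pp ⟨⟨0, 0, 0, 0, 0, 0, 0, 0, 0, ⟨0, 0⟩, 0⟩, 0, 989⟩ 0 0) (.pos 22 .pp ⟨⟨0, 0, 0, 0, 0, 0, 1244, 0, 0, ⟨0, 0⟩, 0⟩, 1507362379, 0⟩ 0 0))) (.pos 20 .pp ⟨⟨0, 0, 0, 0, 0, 0, 0, 0, 0, ⟨0, 0⟩, 0⟩, 0, 1099⟩ 0 0)) (.cut .v 50331648 (.cut .d 210791 (.cut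 .d 105395 (.void 106 ⟨⟨0, 0, 0, 0, 0, 0, 0, 0, 0, ⟨0, 0⟩, 0⟩, 100000, 0⟩ 0 0) (.pos 106 .pp ⟨⟨0, 0, 0, 0, 0, 0, 47, 0, 0, ⟨0, 0⟩, 0⟩, 2989046185, 0⟩ 0 0)) (.pos 106 .pp ⟨⟨0, 0, 0, 0, 0, 0, 1312, 0, 0, ⟨0, 0⟩, 0⟩, 1826350337, 0⟩ 0 0)) (.pos 107 .pp ⟨⟨0, 0, 0, 0, 0, 0, 0, 0, 0, ⟨0, 0⟩, 0⟩, 5082989564, 0⟩ 0 0))) (.pos 102 .pp ⟨⟨0, 0, 0, 0, 0, 0, 0, 0, 0, ⟨0, 0⟩, 0⟩, 587362972, 665⟩ 0 0)) (.void 114 ⟨⟨0, 0, 0, 52209, 0, 0, 0, 0, 0, ⟨0, 0⟩, 0⟩, 48639, 0⟩ 0 0)) (.void 125 ⟨⟨0, 0, 0, 0, 0, 0, 0, 0, 0, ⟨0, 0⟩, 0⟩, 100000, 0⟩ 0 0)))),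
    by decide +kernel⟩

def covers40 : cell.Covers Vale.Agent.P237.Petty.Cor.Grid.N12.table row40.1 :=
  ⟨(.cut .d 0 (.cut .v 16777216 (.cut .v 8388608 (.pos 2 .mm ⟨⟨0, 0, 1677721600000000, 0, 0, 0, 0, 0, 0, ⟨0, 0⟩, 0⟩, 0, 0⟩ 0 0) (.cut .d (-8388608) (.void 3 ⟨⟨99978, 0, 0, 0, 0, 0, 0, 0, 0, ⟨0, 0⟩, 0⟩, 0, 0⟩ 0 0) (.cut .d (-4194304) (.void 3 ⟨⟨100000, 0, 0, 0, 0, 0, 0, 0, 0, ⟨0, 0⟩, 0⟩, 0, 0⟩ 0 0) (.pos 3 .mm ⟨⟨0, 0, 0, 0, 0, 55528377384, 0, 0, 0, ⟨0, 0⟩, 0⟩, 0, 0⟩ 0 0)))) (.cut .v 268435456 (.cut .v 67108864 (.cut .v 33554432 (.cut .d (-8388608) (.void 20 ⟨⟨100000, 0, 0, 0, 0, 0, 0, 0, 0, ⟨0, 0⟩, 0⟩, 0, 0⟩ 0 0) (.cut .d (-4194304)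 (.void 20 ⟨⟨100000, 0, 0, 0, 0, 0, 0, 0, 0, ⟨0, 0⟩, 0⟩, 0, 0⟩ 0 0) (.cut .v 25165824 (.cut .d (-2097152) (.void 21 ⟨⟨100000, 0, 0, 0, 0, 0, 0, 0, 0, ⟨0, 0⟩, 0⟩, 0, 0⟩ 0 0) (.cut .v 20971520 (.cut .s 16203776 (.pos 23 .mp ⟨⟨16375423462, 0, 0, 0, 0, 15890666175, 0, 0, 0, ⟨0, 0⟩, 0⟩, 0, 0⟩ 0 0) (.pos 23 .mp ⟨⟨19804061079, 0, 0, 0, 0, 18733047960, 0, 0, 0, ⟨0, 0⟩, 0⟩, 0, 0⟩ 0 0)) (.void 24 ⟨⟨100000, 0, 0, 0, 0, 0, 0, 0, 0, ⟨0, 0⟩, 0⟩, 0, 0⟩ 0 0))) (.void 22 ⟨⟨100000, 0, 0, 0, 0, 0, 0, 0, 0, ⟨0, 0⟩, 0⟩, 0, 0⟩ 0 0)))) (.void 103 ⟨⟨100000, 0, 0, 0, 0, 0, 0, 0, 0, ⟨0, 0⟩, 0⟩, 0, 0⟩ 0 0)) (.void 114 ⟨⟨100018, 0, 0, 0, 0, 0, 0, 0, 0, ⟨0, 0⟩,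 0⟩, 0, 0⟩ 0 0)) (.void 125 ⟨⟨164551, 0, 0, 9751, 0, 0, 0, 0, 0, ⟨0, 0⟩, 0⟩, 0, 0⟩ 0 0))) (.cut .v 16777216 (.cut .v 8388608 (.cut .d 332139 (.pos 2 .pm ⟨⟨0, 0, 8020108398, 0, 0, 0, 0, 0, 0, ⟨0, 0⟩, 0⟩, 0, 52⟩ 0 0) (.pos 2 .pm ⟨⟨0, 0, 21666350, 0, 13, 0, 0, 0, 0, ⟨0, 0⟩, 0⟩, 0, 0⟩ 0 0)) (.pos 3 .pm ⟨⟨0, 0, 0, 0, 0, 0, 0, 0, 0, ⟨0, 0⟩, 0⟩, 0, 0⟩ 0 0)) (.cut .v 268435456 (.cut .v 67108864 (.cut .d 332139 (.cut .v 33554432 (.cut .d 166069 (.cut .v 25165824 (.cut .d 83034 (.cut .d 41517 (.cut .v 20971520 (.cut .d 20758 (.cut .v 18874368 (.cut .d 10379 (.cut .v 17825792 (.cut .d 5189 (.cut .v 17301504 (.cut .d 2594 (.cut .v 17039360 (.cut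 .s 16203776 (.pos 31 .pp ⟨⟨11227216017, 0, 0, 0, 0, 0, 0, 0, 0, ⟨0, 0⟩, 0⟩, 0, 115⟩ 0 0) (.cut .s 16236544 (.pos 31 .pp ⟨⟨12994894189, 0, 0, 0, 0, 0, 0, 0, 0, ⟨0, 0⟩, 0⟩, 0, 83⟩ 0 0) (.pos 31 .pp ⟨⟨14299236245, 0, 0, 0, 0, 0, 0, 0, 0, ⟨0, 0⟩, 0⟩, 0, 65⟩ 0 0))) (.pos 32 .pp ⟨⟨14631988461, 0, 0, 0, 0, 0, 0, 0, 0, ⟨0, 0⟩, 0⟩, 0, 66⟩ 0 0)) (.pos 29 .pp ⟨⟨9747709992, 0, 0, 0, 0, 0, 0, 0, 0, ⟨0, 0⟩, 0⟩, 0, 83⟩ 0 0)) (.pos 30 .pp ⟨⟨15053204039, 0, 0, 0, 0, 0, 0, 0, 0, ⟨0, 0⟩, 0⟩, 0, 67⟩ 0 0)) (.pos 27 .pp ⟨⟨10006248127, 0, 0, 0, 0, 0, 0, 0, 0, ⟨0, 0⟩, 0⟩, 0, 88⟩ 0 0)) (.pos 28 .pp ⟨⟨16233211364, 0, 0, 0, 0, 0, 0, 0, 0, ⟨0, 0⟩, 0⟩, 0, 70⟩ 0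 0)) (.pos 25 .pp ⟨⟨10538576039, 0, 0, 0, 0, 0, 0, 0, 0, ⟨0, 0⟩, 0⟩, 0, 98⟩ 0 0)) (.cut .v 19922944 (.cut .d 10379 (.pos 53 .pp ⟨⟨43676142560, 0, 0, 0, 0, 0, 0, 0, 0, ⟨0, 0⟩, 0⟩, 0, 0⟩ 0 0) (.pos 53 .pp ⟨⟨15523408107, 0, 0, 0, 0, 0, 166, 0, 0, ⟨0, 0⟩, 0⟩, 0, 0⟩ 0 0)) (.pos 54 .pp ⟨⟨19792113742, 0, 0, 0, 0, 0, 157, 0, 0, ⟨0, 0⟩, 0⟩, 0, 0⟩ 0 0))) (.cut .v 18874368 (.pos 25 .pp ⟨⟨0, 0, 0, 0, 0, 0, 0, 0, 0, ⟨0, 0⟩, 0⟩, 0, 251⟩ 0 0) (.cut .s 16203776 (.pos 26 .pp ⟨⟨13228291258, 0, 0, 0, 0, 0, 311, 0, 0, ⟨0, 0⟩, 0⟩, 0, 0⟩ 0 0) (.pos 26 .pp ⟨⟨15355215720, 0, 0, 0, 0, 0, 198, 0, 0, ⟨0, 0⟩, 0⟩, 0, 0⟩ 0 0)))) (.cut .d 20758 (.pos 24 .pp ⟨⟨49467656469,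 0, 0, 0, 0, 0, 0, 0, 0, ⟨0, 0⟩, 0⟩, 0, 0⟩ 0 0) (.cut .v 23068672 (.cut .v 22020096 (.cut .d 31137 (.pos 57 .pp ⟨⟨0, 0, 0, 0, 0, 0, 181, 0, 0, ⟨0, 0⟩, 0⟩, 2367196349, 0⟩ 0 0) (.pos 57 .pp ⟨⟨0, 0, 0, 0, 0, 0, 355, 0, 0, ⟨0, 0⟩, 0⟩, 1778590442, 0⟩ 0 0)) (.pos 58 .pp ⟨⟨0, 0, 0, 0, 0, 0, 180, 0, 0, ⟨0, 0⟩, 0⟩, 2601406237, 0⟩ 0 0)) (.pos 56 .pp ⟨⟨0, 0, 0, 0, 0, 0, 180, 0, 0, ⟨0, 0⟩, 0⟩, 2970106752, 0⟩ 0 0)))) (.cut .v 20971520 (.pos 23 .pp ⟨⟨0, 0, 0, 0, 0, 0, 0, 0, 0, ⟨0, 0⟩, 0⟩, 0, 325⟩ 0 0) (.pos 24 .pp ⟨⟨0, 0, 0, 0, 0, 0, 371, 0, 0, ⟨0, 0⟩, 0⟩, 1953721066, 0⟩ 0 0))) (.pos 21 .pp ⟨⟨0, 0, 0, 0, 0, 0, 0, 0, 0, ⟨0, 0⟩, 0⟩, 0, 351⟩ 0 0)) (.cut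 .d 83034 (.cut .d 41517 (.void 22 ⟨⟨0, 0, 0, 0, 0, 0, 0, 0, 0, ⟨0, 0⟩, 0⟩, 100000, 0⟩ 0 0) (.cut .v 29360128 (.pos 91 .pp ⟨⟨0, 0, 0, 0, 0, 0, 218, 0, 0, ⟨0, 0⟩, 0⟩, 2817184256, 0⟩ 0 0) (.pos 92 .pp ⟨⟨0, 0, 0, 0, 0, 0, 97, 0, 0, ⟨0, 0⟩, 0⟩, 4883918853, 0⟩ 0 0))) (.pos 22 .pp ⟨⟨0, 0, 0, 0, 0, 0, 461, 0, 0, ⟨0, 0⟩, 0⟩, 2186182785, 0⟩ 0 0))) (.pos 20 .pp ⟨⟨0, 0, 0, 0, 0, 0, 0, 0, 0, ⟨0, 0⟩, 0⟩, 0, 390⟩ 0 0)) (.cut .v 50331648 (.cut .d 166069 (.cut .d 83034 (.void 106 ⟨⟨0, 0, 0, 0, 0, 0, 0, 0, 0, ⟨0, 0⟩, 0⟩, 100000, 0⟩ 0 0) (.pos 106 .pp ⟨⟨0, 0, 0, 0, 0, 0, 74, 0, 0, ⟨0, 0⟩, 0⟩, 4309493027, 0⟩ 0 0)) (.pos 106 .pp ⟨⟨0, 0, 0, 0, 0, 0, 484,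 0, 0, ⟨0, 0⟩, 0⟩, 2696635903, 0⟩ 0 0)) (.pos 107 .pp ⟨⟨0, 0, 0, 0, 0, 0, 0, 0, 0, ⟨0, 0⟩, 0⟩, 7234374108, 0⟩ 0 0))) (.pos 102 .pp ⟨⟨0, 0, 0, 0, 0, 0, 0, 0, 0, ⟨0, 0⟩, 0⟩, 956319642, 232⟩ 0 0)) (.pos 114 .pp ⟨⟨0, 0, 0, 858937146821280, 0, 0, 0, 0, 0, ⟨0, 0⟩, 0⟩, 818784453178719, 0⟩ 0 0)) (.void 125 ⟨⟨0, 0, 0, 0, 0, 0, 0, 0, 0, ⟨0, 0⟩, 0⟩, 100000, 0⟩ 0 0)))),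
    by decide +kernel⟩

def covers41 : cell.Covers Vale.Agent.P237.Petty.Cor.Grid.N12.table row41.1 :=
  ⟨(.cut .d 0 (.cut .v 16777216 (.cut .v 8388608 (.pos 2 .mm ⟨⟨0, 0, 1677721600000000, 0, 0, 0, 0, 0, 0, ⟨0, 0⟩, 0⟩, 0, 0⟩ 0 0) (.cut .d (-8388608) (.void 3 ⟨⟨100000, 0, 0, 0, 0, 0, 0, 0, 0, ⟨0, 0⟩, 0⟩, 0, 0⟩ 0 0) (.cut .d (-4194304) (.void 3 ⟨⟨100000, 0, 0, 0, 0, 0, 0, 0, 0, ⟨0, 0⟩, 0⟩, 0, 0⟩ 0 0) (.pos 3 .mm ⟨⟨0, 0, 0, 0, 0, 75937602346, 0, 0, 0, ⟨0, 0⟩, 0⟩, 0, 0⟩ 0 0)))) (.cut .v 4294967296 (.cut .v 268435456 (.cut .v 67108864 (.cut .v 33554432 (.cut .d (-8388608) (.void 20 ⟨⟨100092, 0, 0, 0, 0, 0, 0, 0, 0, ⟨0, 0⟩, 0⟩, 0, 0⟩ 0 0)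 (.cut .d (-4194304) (.void 20 ⟨⟨100000, 0, 0, 0, 0, 0, 0, 0, 0, ⟨0, 0⟩, 0⟩, 0, 0⟩ 0 0) (.cut .v 25165824 (.cut .d (-2097152) (.void 21 ⟨⟨100000, 0, 0, 0, 0, 0, 0, 0, 0, ⟨0, 0⟩, 0⟩, 0, 0⟩ 0 0) (.cut .v 20971520 (.cut .s 16318464 (.pos 23 .mp ⟨⟨23376319282, 0, 0, 0, 0, 21126027048, 0, 0, 0, ⟨0, 0⟩, 0⟩, 0, 0⟩ 0 0) (.pos 23 .mp ⟨⟨27864645843, 0, 0, 0, 0, 24448834445, 0, 0, 0, ⟨0, 0⟩, 0⟩, 0, 0⟩ 0 0)) (.void 24 ⟨⟨100000, 0, 0, 0, 0, 0, 0, 0, 0, ⟨0, 0⟩, 0⟩, 0, 0⟩ 0 0))) (.void 22 ⟨⟨100000, 0, 0, 0, 0, 0, 0, 0, 0, ⟨0, 0⟩, 0⟩, 0, 0⟩ 0 0)))) (.void 103 ⟨⟨100000, 0, 0, 0, 0, 0, 0, 0, 0, ⟨0, 0⟩, 0⟩, 0, 0⟩ 0 0)) (.void 114 ⟨⟨100000, 0, 0, 0, 0,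 0, 0, 0, 0, ⟨0, 0⟩, 0⟩, 0, 0⟩ 0 0)) (.void 125 ⟨⟨94145, 0, 0, 7086, 0, 0, 0, 0, 0, ⟨0, 0⟩, 0⟩, 0, 0⟩ 0 0)) (.void 134 ⟨⟨93019, 0, 0, 6981, 0, 0, 0, 0, 0, ⟨0, 0⟩, 0⟩, 0, 0⟩ 0 0))) (.cut .v 16777216 (.cut .v 8388608 (.cut .d 261881 (.pos 2 .pm ⟨⟨0, 0, 11763828925, 0, 0, 0, 0, 0, 0, ⟨0, 0⟩, 0⟩, 0, 19⟩ 0 0) (.pos 2 .pm ⟨⟨0, 0, 21354819, 0, 18, 0, 0, 0, 0, ⟨0, 0⟩, 0⟩, 0, 0⟩ 0 0)) (.pos 3 .pm ⟨⟨0, 0, 0, 0, 0, 0, 0, 0, 0, ⟨0, 0⟩, 0⟩, 0, 0⟩ 0 0)) (.cut .v 4294967296 (.cut .v 268435456 (.cut .v 67108864 (.cut .d 261881 (.cut .v 33554432 (.cut .d 130940 (.cut .v 25165824 (.cut .d 65470 (.cut .d 32735 (.cut .v 20971520 (.cut .d 16367 (.cut .v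 18874368 (.cut .d 8183 (.cut .v 17825792 (.cut .d 4091 (.cut .v 17301504 (.cut .d 2045 (.cut .v 17039360 (.cut .s 16318464 (.cut .s 16293888 (.pos 31 .pp ⟨⟨15586740526, 0, 0, 0, 0, 0, 0, 0, 0, ⟨0, 0⟩, 0⟩, 0, 52⟩ 0 0) (.pos 31 .pp ⟨⟨16861325187, 0, 0, 0, 0, 0, 0, 0, 0, ⟨0, 0⟩, 0⟩, 0, 40⟩ 0 0)) (.pos 31 .pp ⟨⟨18862555681, 0, 0, 0, 0, 0, 0, 0, 0, ⟨0, 0⟩, 0⟩, 0, 25⟩ 0 0)) (.pos 32 .pp ⟨⟨20570498527, 0, 0, 0, 0, 0, 0, 0, 0, ⟨0, 0⟩, 0⟩, 0, 25⟩ 0 0)) (.pos 29 .pp ⟨⟨13893276434, 0, 0, 0, 0, 0, 0, 0, 0, ⟨0, 0⟩, 0⟩, 0, 30⟩ 0 0)) (.pos 30 .pp ⟨⟨21080079705, 0, 0, 0, 0, 0, 0, 0, 0, ⟨0, 0⟩, 0⟩, 0, 25⟩ 0 0)) (.pos 27 .pp ⟨⟨14263961100, 0, 0, 0, 0,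 0, 0, 0, 0, ⟨0, 0⟩, 0⟩, 0, 32⟩ 0 0)) (.pos 28 .pp ⟨⟨22728859089, 0, 0, 0, 0, 0, 0, 0, 0, ⟨0, 0⟩, 0⟩, 0, 26⟩ 0 0)) (.pos 25 .pp ⟨⟨15027657327, 0, 0, 0, 0, 0, 0, 0, 0, ⟨0, 0⟩, 0⟩, 0, 35⟩ 0 0)) (.cut .v 19922944 (.cut .d 8183 (.pos 53 .pp ⟨⟨63512558307, 0, 0, 0, 0, 0, 0, 0, 0, ⟨0, 0⟩, 0⟩, 0, 0⟩ 0 0) (.pos 53 .pp ⟨⟨21982103622, 0, 0, 0, 0, 0, 0, 0, 0, ⟨0, 0⟩, 0⟩, 0, 28⟩ 0 0)) (.pos 54 .pp ⟨⟨27689124422, 0, 0, 0, 0, 0, 59, 0, 0, ⟨0, 0⟩, 0⟩, 0, 0⟩ 0 0))) (.cut .v 18874368 (.pos 25 .pp ⟨⟨0, 0, 0, 0, 0, 0, 0, 0, 0, ⟨0, 0⟩, 0⟩, 0, 86⟩ 0 0) (.pos 26 .pp ⟨⟨19193966821, 0, 0, 0, 0, 0, 86, 0, 0, ⟨0, 0⟩, 0⟩, 0, 0⟩ 0 0))) (.cut .d 16367 (.pos 24 .pp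 ⟨⟨71934407016, 0, 0, 0, 0, 0, 0, 0, 0, ⟨0, 0⟩, 0⟩, 0, 0⟩ 0 0) (.cut .v 23068672 (.cut .d 24551 (.cut .v 22020096 (.pos 57 .pp ⟨⟨0, 0, 0, 0, 0, 0, 67, 0, 0, ⟨0, 0⟩, 0⟩, 3361722703, 0⟩ 0 0) (.pos 58 .pp ⟨⟨0, 0, 0, 0, 0, 0, 65, 0, 0, ⟨0, 0⟩, 0⟩, 3898262474, 0⟩ 0 0)) (.pos 55 .pp ⟨⟨0, 0, 0, 0, 0, 0, 100, 0, 0, ⟨0, 0⟩, 0⟩, 2901718539, 0⟩ 0 0)) (.pos 56 .pp ⟨⟨0, 0, 0, 0, 0, 0, 67, 0, 0, ⟨0, 0⟩, 0⟩, 4177844271, 0⟩ 0 0)))) (.cut .v 20971520 (.pos 23 .pp ⟨⟨0, 0, 0, 0, 0, 0, 0, 0, 0, ⟨0, 0⟩, 0⟩, 0, 114⟩ 0 0) (.pos 24 .pp ⟨⟨0, 0, 0, 0, 0, 0, 127, 0, 0, ⟨0, 0⟩, 0⟩, 2782800716, 0⟩ 0 0))) (.pos 21 .pp ⟨⟨0, 0, 0, 0, 0, 0, 0, 0, 0, ⟨0, 0⟩, 0⟩, 0, 123⟩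 0 0)) (.cut .d 65470 (.cut .d 32735 (.void 22 ⟨⟨0, 0, 0, 0, 0, 0, 0, 0, 0, ⟨0, 0⟩, 0⟩, 100000, 0⟩ 0 0) (.cut .v 29360128 (.pos 91 .pp ⟨⟨0, 0, 0, 0, 0, 0, 81, 0, 0, ⟨0, 0⟩, 0⟩, 3997480530, 0⟩ 0 0) (.pos 92 .pp ⟨⟨0, 0, 0, 0, 0, 0, 45, 0, 0, ⟨0, 0⟩, 0⟩, 6716351386, 0⟩ 0 0))) (.pos 22 .pp ⟨⟨0, 0, 0, 0, 0, 0, 168, 0, 0, ⟨0, 0⟩, 0⟩, 3132110764, 0⟩ 0 0))) (.pos 20 .pp ⟨⟨0, 0, 0, 0, 0, 0, 0, 0, 0, ⟨0, 0⟩, 0⟩, 0, 137⟩ 0 0)) (.cut .v 50331648 (.cut .d 130940 (.cut .d 65470 (.void 106 ⟨⟨0, 0, 0, 0, 0, 0, 0, 0, 0, ⟨0, 0⟩, 0⟩, 100000, 0⟩ 0 0) (.pos 106 .pp ⟨⟨0, 0, 0, 0, 0, 0, 49, 0, 0, ⟨0, 0⟩, 0⟩, 6090244639, 0⟩ 0 0)) (.pos 106 .pp ⟨⟨0, 0, 0, 0,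 0, 0, 178, 0, 0, ⟨0, 0⟩, 0⟩, 3914488904, 0⟩ 0 0)) (.pos 107 .pp ⟨⟨0, 0, 0, 0, 0, 0, 0, 0, 0, ⟨0, 0⟩, 0⟩, 10093712844, 0⟩ 0 0))) (.pos 102 .pp ⟨⟨0, 0, 0, 0, 0, 0, 0, 0, 0, ⟨0, 0⟩, 0⟩, 1488398903, 80⟩ 0 0)) (.pos 114 .pp ⟨⟨0, 0, 0, 861080601939056, 0, 0, 0, 0, 0, ⟨0, 0⟩, 0⟩, 816640998060945, 0⟩ 0 0)) (.void 125 ⟨⟨0, 0, 0, 0, 0, 0, 0, 0, 0, ⟨0, 0⟩, 0⟩, 100000, 0⟩ 0 0)) (.void 134 ⟨⟨0, 0, 0, 0, 0, 0, 0, 0, 0, ⟨0, 0⟩, 0⟩, 100000, 0⟩ 0 0)))),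
    by decide +kernel⟩

def covers42 : cell.Covers Vale.Agent.P237.Petty.Cor.Grid.N12.table row42.1 :=
  ⟨(.cut .d 0 (.cut .v 16777216 (.cut .v 8388608 (.pos 2 .mm ⟨⟨0, 0, 1677721600000000, 0, 0, 0, 0, 0, 0, ⟨0, 0⟩, 0⟩, 0, 0⟩ 0 0) (.cut .d (-8388608) (.void 3 ⟨⟨0, 0, 2743, 5326, 0, 76987, 0, 15150, 0, ⟨(-1), 11325364⟩, 0⟩, 0, 0⟩ 0 126) (.cut .d (-4194304) (.void 3 ⟨⟨100000, 0, 0, 0, 0, 0, 0, 0, 0, ⟨0, 0⟩, 0⟩, 0, 0⟩ 0 0) (.pos 3 .mm ⟨⟨0, 0, 0, 0, 0, 104330317823, 0, 0, 0, ⟨0, 0⟩, 0⟩, 0, 0⟩ 0 0)))) (.cut .d (-8388608) (.void 133 ⟨⟨99999, 0, 0, 0, 0, 0, 0, 0, 0, ⟨0, 0⟩, 0⟩, 0, 0⟩ 0 0) (.cut .v 4294967296 (.cut .v 268435456 (.cut .v 67108864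 (.cut .v 33554432 (.cut .v 25165824 (.cut .d (-4194304) (.void 21 ⟨⟨100000, 0, 0, 0, 0, 0, 0, 0, 0, ⟨0, 0⟩, 0⟩, 0, 0⟩ 0 0) (.cut .d (-2097152) (.void 21 ⟨⟨100000, 0, 0, 0, 0, 0, 0, 0, 0, ⟨0, 0⟩, 0⟩, 0, 0⟩ 0 0) (.cut .v 20971520 (.pos 23 .mp ⟨⟨38458080908, 0, 0, 0, 0, 33887303967, 0, 0, 0, ⟨0, 0⟩, 0⟩, 0, 0⟩ 0 0) (.void 24 ⟨⟨100000, 0, 0, 0, 0, 0, 0, 0, 0, ⟨0, 0⟩, 0⟩, 0, 0⟩ 0 0)))) (.void 22 ⟨⟨100000, 0, 0, 0, 0, 0, 0, 0, 0, ⟨0, 0⟩, 0⟩, 0, 0⟩ 0 0)) (.void 103 ⟨⟨100000, 0, 0, 0, 0, 0, 0, 0, 0, ⟨0, 0⟩, 0⟩, 0, 0⟩ 0 0)) (.void 114 ⟨⟨100000, 0, 0, 0, 0, 0, 0, 0, 0, ⟨0, 0⟩, 0⟩, 0, 0⟩ 0 0)) (.void 125 ⟨⟨89837, 0, 0, 10163, 0, 0, 0, 0, 0, ⟨0,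 0⟩, 0⟩, 0, 0⟩ 0 0)) (.void 134 ⟨⟨0, 0, 0, 100000, 0, 0, 0, 0, 0, ⟨0, 0⟩, 0⟩, 0, 0⟩ 0 0)))) (.cut .v 16777216 (.cut .v 8388608 (.cut .d 209926 (.pos 2 .pm ⟨⟨0, 0, 16945426526, 0, 0, 0, 0, 0, 0, ⟨0, 0⟩, 0⟩, 0, 7⟩ 0 0) (.pos 2 .pm ⟨⟨0, 0, 21132864, 0, 10, 0, 0, 0, 0, ⟨0, 0⟩, 0⟩, 0, 0⟩ 0 0)) (.pos 3 .pm ⟨⟨0, 0, 0, 0, 0, 0, 0, 0, 0, ⟨0, 0⟩, 0⟩, 0, 0⟩ 0 0)) (.cut .v 4294967296 (.cut .v 268435456 (.cut .v 67108864 (.cut .d 209926 (.cut .v 33554432 (.cut .d 104963 (.cut .v 25165824 (.cut .d 52481 (.cut .d 26240 (.cut .v 20971520 (.cut .d 13120 (.cut .v 18874368 (.cut .d 6560 (.cut .v 17825792 (.cut .d 3280 (.cut .v 17301504 (.cut .d 1640 (.cut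 .v 17039360 (.cut .s 16408576 (.cut .s 16388096 (.pos 31 .pp ⟨⟨21729691140, 0, 0, 0, 0, 0, 38, 0, 0, ⟨0, 0⟩, 0⟩, 0, 0⟩ 0 0) (.pos 31 .pp ⟨⟨23549549990, 0, 0, 0, 0, 0, 29, 0, 0, ⟨0, 0⟩, 0⟩, 0, 0⟩ 0 0)) (.pos 31 .pp ⟨⟨26453007950, 0, 0, 0, 0, 0, 0, 0, 0, ⟨0, 0⟩, 0⟩, 0, 9⟩ 0 0)) (.pos 32 .pp ⟨⟨28819151683, 0, 0, 0, 0, 0, 0, 0, 0, ⟨0, 0⟩, 0⟩, 0, 9⟩ 0 0)) (.pos 29 .pp ⟨⟨19362108988, 0, 0, 0, 0, 0, 0, 0, 0, ⟨0, 0⟩, 0⟩, 0, 11⟩ 0 0)) (.pos 30 .pp ⟨⟨29567674833, 0, 0, 0, 0, 0, 0, 0, 0, ⟨0, 0⟩, 0⟩, 0, 9⟩ 0 0)) (.pos 27 .pp ⟨⟨19880336330, 0, 0, 0, 0, 0, 0, 0, 0, ⟨0, 0⟩, 0⟩, 0, 11⟩ 0 0)) (.pos 28 .pp ⟨⟨31872338071, 0, 0, 0, 0, 0, 0, 0, 0, ⟨0, 0⟩,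 0⟩, 0, 9⟩ 0 0)) (.pos 25 .pp ⟨⟨20947559949, 0, 0, 0, 0, 0, 0, 0, 0, ⟨0, 0⟩, 0⟩, 0, 12⟩ 0 0)) (.cut .v 19922944 (.cut .d 6560 (.pos 53 .pp ⟨⟨92994826898, 0, 0, 0, 0, 0, 0, 0, 0, ⟨0, 0⟩, 0⟩, 0, 0⟩ 0 0) (.pos 53 .pp ⟨⟨30689196280, 0, 0, 0, 0, 0, 22, 0, 0, ⟨0, 0⟩, 0⟩, 0, 0⟩ 0 0)) (.pos 54 .pp ⟨⟨38818162707, 0, 0, 0, 0, 0, 21, 0, 0, ⟨0, 0⟩, 0⟩, 0, 0⟩ 0 0))) (.cut .v 18874368 (.pos 25 .pp ⟨⟨0, 0, 0, 0, 0, 0, 0, 0, 0, ⟨0, 0⟩, 0⟩, 0, 30⟩ 0 0) (.cut .s 16408576 (.pos 26 .pp ⟨⟨26419956950, 0, 0, 0, 0, 0, 41, 0, 0, ⟨0, 0⟩, 0⟩, 0, 0⟩ 0 0) (.pos 26 .pp ⟨⟨30464072187, 0, 0, 0, 0, 0, 26, 0, 0, ⟨0, 0⟩, 0⟩, 0, 0⟩ 0 0)))) (.cut .d 13120 (.pos 24 .pp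 ⟨⟨105326063172, 0, 0, 0, 0, 0, 0, 0, 0, ⟨0, 0⟩, 0⟩, 0, 0⟩ 0 0) (.cut .v 23068672 (.cut .v 22020096 (.cut .d 19680 (.pos 57 .pp ⟨⟨0, 0, 0, 0, 0, 0, 24, 0, 0, ⟨0, 0⟩, 0⟩, 4687574422, 0⟩ 0 0) (.pos 57 .pp ⟨⟨0, 0, 0, 0, 0, 0, 43, 0, 0, ⟨0, 0⟩, 0⟩, 3582239140, 0⟩ 0 0)) (.pos 58 .pp ⟨⟨0, 0, 0, 0, 0, 0, 24, 0, 0, ⟨0, 0⟩, 0⟩, 5136352834, 0⟩ 0 0)) (.pos 56 .pp ⟨⟨0, 0, 0, 0, 0, 0, 24, 0, 0, ⟨0, 0⟩, 0⟩, 5852050112, 0⟩ 0 0)))) (.cut .v 20971520 (.pos 23 .pp ⟨⟨0, 0, 0, 0, 0, 0, 0, 0, 0, ⟨0, 0⟩, 0⟩, 0, 41⟩ 0 0) (.pos 24 .pp ⟨⟨0, 0, 0, 0, 0, 0, 45, 0, 0, ⟨0, 0⟩, 0⟩, 3890131046, 0⟩ 0 0))) (.pos 21 .pp ⟨⟨0, 0, 0, 0, 0, 0, 0, 0, 0, ⟨0, 0⟩, 0⟩, 0, 45⟩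 0 0)) (.cut .d 52481 (.cut .d 26240 (.void 22 ⟨⟨0, 0, 0, 0, 0, 0, 0, 0, 0, ⟨0, 0⟩, 0⟩, 100000, 0⟩ 0 0) (.cut .v 29360128 (.pos 91 .pp ⟨⟨0, 0, 0, 0, 0, 0, 29, 0, 0, ⟨0, 0⟩, 0⟩, 5590275187, 0⟩ 0 0) (.pos 92 .pp ⟨⟨0, 0, 0, 0, 0, 0, 17, 0, 0, ⟨0, 0⟩, 0⟩, 9539740079, 0⟩ 0 0))) (.pos 22 .pp ⟨⟨0, 0, 0, 0, 0, 0, 63, 0, 0, ⟨0, 0⟩, 0⟩, 4394704098, 0⟩ 0 0))) (.pos 20 .pp ⟨⟨0, 0, 0, 0, 0, 0, 0, 0, 0, ⟨0, 0⟩, 0⟩, 0, 50⟩ 0 0)) (.cut .v 50331648 (.cut .d 104963 (.cut .d 52481 (.void 106 ⟨⟨0, 0, 0, 0, 0, 0, 0, 0, 0, ⟨0, 0⟩, 0⟩, 100000, 0⟩ 0 0) (.pos 106 .pp ⟨⟨0, 0, 0, 0, 0, 0, 22, 0, 0, ⟨0, 0⟩, 0⟩, 8560414778, 0⟩ 0 0)) (.pos 106 .pp ⟨⟨0, 0, 0, 0, 0,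 0, 67, 0, 0, ⟨0, 0⟩, 0⟩, 5542473578, 0⟩ 0 0)) (.pos 107 .pp ⟨⟨0, 0, 0, 0, 0, 0, 0, 0, 0, ⟨0, 0⟩, 0⟩, 14123023276, 0⟩ 0 0))) (.pos 102 .pp ⟨⟨0, 0, 0, 0, 0, 0, 0, 0, 0, ⟨0, 0⟩, 0⟩, 2194333275, 29⟩ 0 0)) (.void 114 ⟨⟨0, 0, 0, 51431, 0, 0, 0, 0, 0, ⟨0, 0⟩, 0⟩, 48569, 0⟩ 0 0)) (.void 125 ⟨⟨0, 0, 0, 0, 0, 0, 0, 0, 0, ⟨0, 0⟩, 0⟩, 100000, 0⟩ 0 0)) (.void 134 ⟨⟨0, 0, 0, 0, 0, 0, 0, 0, 0, ⟨0, 0⟩, 0⟩, 100000, 0⟩ 0 0)))),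
    by decide +kernel⟩

def covers43 : cell.Covers Vale.Agent.P237.Petty.Cor.Grid.N12.table row43.1 :=
  ⟨(.cut .d 0 (.cut .v 16777216 (.cut .v 8388608 (.pos 2 .mm ⟨⟨0, 0, 1677721600000000, 0, 0, 0, 0, 0, 0, ⟨0, 0⟩, 0⟩, 0, 0⟩ 0 0) (.cut .d (-8388608) (.void 3 ⟨⟨46793, 0, 0, 0, 0, 0, 0, 0, 0, ⟨0, 0⟩, 0⟩, 0, 0⟩ 0 0) (.cut .d (-4194304) (.void 3 ⟨⟨100000, 0, 0, 0, 0, 0, 0, 0, 0, ⟨0, 0⟩, 0⟩, 0, 0⟩ 0 0) (.pos 3 .mm ⟨⟨0, 0, 0, 0, 0, 142594956462, 0, 0, 0, ⟨0, 0⟩, 0⟩, 0, 0⟩ 0 0)))) (.cut .d (-8388608) (.void 133 ⟨⟨99709, 0, 1, 0, 0, 0, 0, 0, 0, ⟨0, 0⟩, 0⟩, 0, 0⟩ 0 0) (.cut .v 4294967296 (.cut .v 268435456 (.cut .v 67108864 (.cut .v 33554432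 (.cut .v 25165824 (.cut .d (-4194304) (.void 21 ⟨⟨100000, 0, 0, 0, 0, 0, 0, 0, 0, ⟨0, 0⟩, 0⟩, 0, 0⟩ 0 0) (.cut .d (-2097152) (.void 21 ⟨⟨100000, 0, 0, 0, 0, 0, 0, 0, 0, ⟨0, 0⟩, 0⟩, 0, 0⟩ 0 0) (.cut .v 20971520 (.pos 23 .mp ⟨⟨54395748728, 0, 0, 0, 0, 44052535004, 0, 0, 0, ⟨0, 0⟩, 0⟩, 0, 0⟩ 0 0) (.void 24 ⟨⟨100000, 0, 0, 0, 0, 0, 0, 0, 0, ⟨0, 0⟩, 0⟩, 0, 0⟩ 0 0)))) (.void 22 ⟨⟨100000, 0, 0, 0, 0, 0, 0, 0, 0, ⟨0, 0⟩, 0⟩, 0, 0⟩ 0 0)) (.void 103 ⟨⟨100000, 0, 0, 0, 0, 0, 0, 0, 0, ⟨0, 0⟩, 0⟩, 0, 0⟩ 0 0)) (.void 114 ⟨⟨100000, 0, 0, 0, 0, 0, 0, 0, 0, ⟨0, 0⟩, 0⟩, 0, 0⟩ 0 0)) (.void 125 ⟨⟨89800, 0, 0, 10200, 0, 0, 0, 0, 0, ⟨0, 0⟩, 0⟩, 0, 0⟩ 0 0))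 (.void 134 ⟨⟨0, 0, 0, 100000, 0, 0, 0, 0, 0, ⟨0, 0⟩, 0⟩, 0, 0⟩ 0 0)))) (.cut .v 16777216 (.cut .v 8388608 (.cut .d 167105 (.pos 2 .pm ⟨⟨0, 0, 24332328238, 0, 0, 0, 0, 0, 0, ⟨0, 0⟩, 0⟩, 0, 2⟩ 0 0) (.cut .d 250657 (.pos 2 .pm ⟨⟨0, 0, 22776150252, 0, 0, 0, 0, 0, 0, ⟨0, 0⟩, 0⟩, 0, 0⟩ 0 0) (.pos 2 .pm ⟨⟨0, 0, 20679498, 0, 9, 0, 0, 0, 0, ⟨0, 0⟩, 0⟩, 0, 0⟩ 0 0))) (.pos 3 .pm ⟨⟨0, 0, 0, 0, 0, 0, 0, 0, 0, ⟨0, 0⟩, 0⟩, 0, 0⟩ 0 0)) (.cut .v 4294967296 (.cut .v 268435456 (.cut .v 67108864 (.cut .d 167105 (.cut .v 33554432 (.cut .d 83552 (.cut .v 25165824 (.cut .d 41776 (.cut .d 20888 (.cut .v 20971520 (.cut .d 10444 (.cut .v 18874368 (.cut .d 5222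 (.cut .v 17825792 (.cut .d 2611 (.cut .v 17301504 (.cut .d 1305 (.cut .v 17039360 (.cut .s 16482304 (.cut .s 16465920 (.cut .s 16457728 (.pos 31 .pp ⟨⟨30183474821, 0, 0, 0, 0, 0, 15, 0, 0, ⟨0, 0⟩, 0⟩, 0, 0⟩ 0 0) (.pos 31 .pp ⟨⟨31382955470, 0, 0, 0, 0, 0, 13, 0, 0, ⟨0, 0⟩, 0⟩, 0, 0⟩ 0 0)) (.pos 31 .pp ⟨⟨33091162926, 0, 0, 0, 0, 0, 10, 0, 0, ⟨0, 0⟩, 0⟩, 0, 0⟩ 0 0)) (.pos 31 .pp ⟨⟨37124479440, 0, 0, 0, 0, 0, 6, 0, 0, ⟨0, 0⟩, 0⟩, 0, 0⟩ 0 0)) (.pos 32 .pp ⟨⟨40454175819, 0, 0, 0, 0, 0, 6, 0, 0, ⟨0, 0⟩, 0⟩, 0, 0⟩ 0 0)) (.pos 29 .pp ⟨⟨27200296197, 0, 0, 0, 0, 0, 8, 0, 0, ⟨0, 0⟩, 0⟩, 0, 0⟩ 0 0)) (.pos 30 .pp ⟨⟨41482781499, 0, 0, 0, 0, 0, 6,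 0, 0, ⟨0, 0⟩, 0⟩, 0, 0⟩ 0 0)) (.pos 27 .pp ⟨⟨27928182314, 0, 0, 0, 0, 0, 8, 0, 0, ⟨0, 0⟩, 0⟩, 0, 0⟩ 0 0)) (.pos 28 .pp ⟨⟨44709246143, 0, 0, 0, 0, 0, 7, 0, 0, ⟨0, 0⟩, 0⟩, 0, 0⟩ 0 0)) (.pos 25 .pp ⟨⟨29431201297, 0, 0, 0, 0, 0, 9, 0, 0, ⟨0, 0⟩, 0⟩, 0, 0⟩ 0 0)) (.cut .v 19922944 (.cut .d 5222 (.pos 53 .pp ⟨⟨135343832211, 0, 0, 0, 0, 0, 0, 0, 0, ⟨0, 0⟩, 0⟩, 0, 0⟩ 0 0) (.pos 53 .pp ⟨⟨43078816099, 0, 0, 0, 0, 0, 8, 0, 0, ⟨0, 0⟩, 0⟩, 0, 0⟩ 0 0)) (.pos 54 .pp ⟨⟨54437568341, 0, 0, 0, 0, 0, 7, 0, 0, ⟨0, 0⟩, 0⟩, 0, 0⟩ 0 0))) (.cut .v 18874368 (.pos 25 .pp ⟨⟨0, 0, 0, 0, 0, 0, 21, 0, 0, ⟨0, 0⟩, 0⟩, 0, 0⟩ 0 0) (.cut .s 16482304 (.pos 26 .pp ⟨⟨37171537826,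 0, 0, 0, 0, 0, 14, 0, 0, ⟨0, 0⟩, 0⟩, 0, 0⟩ 0 0) (.pos 26 .pp ⟨⟨42823035178, 0, 0, 0, 0, 0, 9, 0, 0, ⟨0, 0⟩, 0⟩, 0, 0⟩ 0 0)))) (.cut .d 10444 (.pos 24 .pp ⟨⟨153290602251, 0, 0, 0, 0, 0, 0, 0, 0, ⟨0, 0⟩, 0⟩, 0, 0⟩ 0 0) (.cut .v 23068672 (.cut .v 22020096 (.cut .s 16482304 (.pos 57 .pp ⟨⟨0, 0, 0, 0, 0, 0, 14, 0, 0, ⟨0, 0⟩, 0⟩, 5927447970, 0⟩ 0 0) (.pos 57 .pp ⟨⟨0, 0, 0, 0, 0, 0, 8, 0, 0, ⟨0, 0⟩, 0⟩, 6809600752, 0⟩ 0 0)) (.pos 58 .pp ⟨⟨0, 0, 0, 0, 0, 0, 8, 0, 0, ⟨0, 0⟩, 0⟩, 7210528242, 0⟩ 0 0)) (.pos 56 .pp ⟨⟨0, 0, 0, 0, 0, 0, 9, 0, 0, ⟨0, 0⟩, 0⟩, 8214435280, 0⟩ 0 0)))) (.cut .v 20971520 (.pos 23 .pp ⟨⟨0, 0, 0, 0, 0, 0, 0, 0, 0, ⟨0, 0⟩,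 0⟩, 0, 14⟩ 0 0) (.pos 24 .pp ⟨⟨0, 0, 0, 0, 0, 0, 16, 0, 0, ⟨0, 0⟩, 0⟩, 5471150079, 0⟩ 0 0))) (.pos 21 .pp ⟨⟨0, 0, 0, 0, 0, 0, 0, 0, 0, ⟨0, 0⟩, 0⟩, 0, 16⟩ 0 0)) (.cut .d 41776 (.cut .d 20888 (.void 22 ⟨⟨0, 0, 0, 0, 0, 0, 0, 0, 0, ⟨0, 0⟩, 0⟩, 100000, 0⟩ 0 0) (.cut .v 29360128 (.pos 91 .pp ⟨⟨0, 0, 0, 0, 0, 0, 10, 0, 0, ⟨0, 0⟩, 0⟩, 7857435969, 0⟩ 0 0) (.pos 92 .pp ⟨⟨0, 0, 0, 0, 0, 0, 6, 0, 0, ⟨0, 0⟩, 0⟩, 13405952567, 0⟩ 0 0))) (.pos 22 .pp ⟨⟨0, 0, 0, 0, 0, 0, 23, 0, 0, ⟨0, 0⟩, 0⟩, 6199572197, 0⟩ 0 0))) (.pos 20 .pp ⟨⟨0, 0, 0, 0, 0, 0, 0, 0, 0, ⟨0, 0⟩, 0⟩, 0, 17⟩ 0 0)) (.cut .v 50331648 (.cut .d 83552 (.cut .d 41776 (.void 106 ⟨⟨0, 0, 0,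 0, 0, 0, 0, 0, 0, ⟨0, 0⟩, 0⟩, 100000, 0⟩ 0 0) (.pos 106 .pp ⟨⟨0, 0, 0, 0, 0, 0, 9, 0, 0, ⟨0, 0⟩, 0⟩, 12047913846, 0⟩ 0 0)) (.pos 106 .pp ⟨⟨0, 0, 0, 0, 0, 0, 24, 0, 0, ⟨0, 0⟩, 0⟩, 7873234201, 0⟩ 0 0)) (.pos 107 .pp ⟨⟨0, 0, 0, 0, 0, 0, 0, 0, 0, ⟨0, 0⟩, 0⟩, 19783875121, 0⟩ 0 0))) (.pos 102 .pp ⟨⟨0, 0, 0, 0, 0, 0, 0, 0, 0, ⟨0, 0⟩, 0⟩, 3215287777, 10⟩ 0 0)) (.void 114 ⟨⟨0, 0, 0, 51516, 0, 0, 0, 0, 0, ⟨0, 0⟩, 0⟩, 48484, 0⟩ 0 0)) (.void 125 ⟨⟨0, 0, 0, 0, 0, 0, 0, 0, 0, ⟨0, 0⟩, 0⟩, 100000, 0⟩ 0 0)) (.void 134 ⟨⟨0, 0, 0, 0, 0, 0, 0, 0, 0, ⟨0, 0⟩, 0⟩, 100000, 0⟩ 0 0)))),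
    by decide +kernel⟩

def covers44 : cell.Covers Vale.Agent.P237.Petty.Cor.Grid.N12.table row44.1 :=
  ⟨(.cut .d 0 (.cut .v 16777216 (.cut .v 8388608 (.pos 2 .mm ⟨⟨0, 0, 1677721600000000, 0, 0, 0, 0, 0, 0, ⟨0, 0⟩, 0⟩, 0, 0⟩ 0 0) (.cut .d (-8388608) (.void 3 ⟨⟨100001, 0, 0, 0, 0, 0, 0, 0, 0, ⟨0, 0⟩, 0⟩, 0, 0⟩ 0 0) (.pos 3 .mm ⟨⟨0, 0, 0, 0, 0, 259573280440, 0, 0, 0, ⟨0, 0⟩, 0⟩, 0, 0⟩ 0 0))) (.cut .d (-8388608) (.void 133 ⟨⟨99808, 0, 1, 0, 0, 0, 0, 0, 0, ⟨0, 0⟩, 0⟩, 0, 0⟩ 0 0) (.cut .v 4294967296 (.cut .v 268435456 (.cut .v 67108864 (.cut .v 33554432 (.cut .v 25165824 (.cut .d (-4194304) (.void 21 ⟨⟨100000, 0, 0, 0, 0, 0, 0, 0, 0, ⟨0,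 0⟩, 0⟩, 0, 0⟩ 0 0) (.cut .v 20971520 (.cut .d (-2097152) (.void 23 ⟨⟨100000, 0, 0, 0, 0, 0, 0, 0, 0, ⟨0, 0⟩, 0⟩, 0, 0⟩ 0 0) (.pos 23 .mp ⟨⟨75252512344, 0, 0, 0, 0, 55295980342, 0, 0, 0, ⟨0, 0⟩, 0⟩, 0, 0⟩ 0 0)) (.void 24 ⟨⟨100000, 0, 0, 0, 0, 0, 0, 0, 0, ⟨0, 0⟩, 0⟩, 0, 0⟩ 0 0))) (.void 22 ⟨⟨100000, 0, 0, 0, 0, 0, 0, 0, 0, ⟨0, 0⟩, 0⟩, 0, 0⟩ 0 0)) (.void 103 ⟨⟨100000, 0, 0, 0, 0, 0, 0, 0, 0, ⟨0, 0⟩, 0⟩, 0, 0⟩ 0 0)) (.void 114 ⟨⟨100000, 0, 0, 0, 0, 0, 0, 0, 0, ⟨0, 0⟩, 0⟩, 0, 0⟩ 0 0)) (.void 125 ⟨⟨89710, 0, 0, 10238, 0, 0, 0, 0, 0, ⟨0, 0⟩, 0⟩, 0, 0⟩ 0 0)) (.void 134 ⟨⟨89773, 0, 0, 10227, 0, 0, 0, 0, 0, ⟨0, 0⟩, 0⟩, 0, 0⟩ 0 0)))) (.cut .v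 16777216 (.cut .v 8388608 (.cut .d 133154 (.pos 2 .pm ⟨⟨0, 0, 34498354911, 0, 0, 0, 0, 0, 0, ⟨0, 0⟩, 0⟩, 0, 1⟩ 0 0) (.pos 2 .pm ⟨⟨0, 0, 20790910, 0, 1, 0, 0, 0, 0, ⟨0, 0⟩, 0⟩, 0, 0⟩ 0 0)) (.pos 3 .pm ⟨⟨0, 0, 0, 0, 0, 0, 0, 0, 0, ⟨0, 0⟩, 0⟩, 0, 0⟩ 0 0)) (.cut .v 4294967296 (.cut .v 268435456 (.cut .v 67108864 (.cut .d 133154 (.cut .v 33554432 (.cut .d 66577 (.cut .v 25165824 (.cut .d 33288 (.cut .d 16644 (.cut .v 20971520 (.cut .d 8322 (.cut .v 18874368 (.cut .d 4161 (.cut .v 17825792 (.cut .d 2080 (.cut .v 17301504 (.cut .d 1040 (.cut .v 17039360 (.cut .s 16539648 (.cut .s 16527360 (.pos 31 .pp ⟨⟨42804188883, 0, 0, 0, 0, 0, 0, 0, 0,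 ⟨0, 0⟩, 0⟩, 0, 2⟩ 0 0) (.cut .s 16533504 (.pos 31 .pp ⟨⟨45584796263, 0, 0, 0, 0, 0, 0, 0, 0, ⟨0, 0⟩, 0⟩, 0, 2⟩ 0 0) (.cut .s 16536576 (.pos 31 .pp ⟨⟨47132278278, 0, 0, 0, 0, 0, 0, 0, 0, ⟨0, 0⟩, 0⟩, 0, 2⟩ 0 0) (.cut .l 153791 (.cut .l 76895 (.cut .l 38447 (.cut .l 19223 (.pos 31 .pp ⟨⟨48082488384, 0, 0, 0, 0, 0, 0, 0, 0, ⟨0, 0⟩, 0⟩, 0, 1⟩ 0 0) (.pos 31 .pp ⟨⟨11244610926, 0, 0, 0, 0, 0, 0, 0, 0, ⟨0, 0⟩, 0⟩, 5621482171, 0⟩ 0 0)) (.pos 31 .pp ⟨⟨9997860388, 0, 0, 0, 0, 0, 0, 0, 0, ⟨0, 0⟩, 0⟩, 5799222726, 0⟩ 0 0)) (.pos 31 .pp ⟨⟨7551950376, 0, 0, 0, 0, 0, 0, 0, 0, ⟨0, 0⟩, 0⟩, 6147919109, 0⟩ 0 0)) (.pos 31 .pp ⟨⟨3860017826, 0, 0, 0, 0, 0,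 0, 0, 0, ⟨0, 0⟩, 0⟩, 6674252260, 0⟩ 0 0))))) (.pos 31 .pp ⟨⟨51128706544, 0, 0, 0, 0, 0, 0, 0, 0, ⟨0, 0⟩, 0⟩, 0, 1⟩ 0 0)) (.pos 32 .pp ⟨⟨55828451940, 0, 0, 0, 0, 0, 0, 0, 0, ⟨0, 0⟩, 0⟩, 0, 1⟩ 0 0)) (.pos 29 .pp ⟨⟨38024747856, 0, 0, 0, 0, 0, 0, 0, 0, ⟨0, 0⟩, 0⟩, 0, 1⟩ 0 0)) (.pos 30 .pp ⟨⟨57049745163, 0, 0, 0, 0, 0, 0, 0, 0, ⟨0, 0⟩, 0⟩, 0, 1⟩ 0 0)) (.pos 27 .pp ⟨⟨39049103955, 0, 0, 0, 0, 0, 0, 0, 0, ⟨0, 0⟩, 0⟩, 0, 1⟩ 0 0)) (.pos 28 .pp ⟨⟨61486003540, 0, 0, 0, 0, 0, 0, 0, 0, ⟨0, 0⟩, 0⟩, 0, 1⟩ 0 0)) (.cut .v 17825792 (.pos 27 .pp ⟨⟨0, 0, 0, 0, 0, 0, 0, 0, 0, ⟨0, 0⟩, 0⟩, 0, 3⟩ 0 0) (.pos 28 .pp ⟨⟨47434581812, 0, 0, 0, 0, 0, 0, 0, 0, ⟨0,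 0⟩, 0⟩, 0, 1⟩ 0 0))) (.cut .v 19922944 (.cut .d 4161 (.pos 53 .pp ⟨⟨191027720748, 0, 0, 0, 0, 0, 0, 0, 0, ⟨0, 0⟩, 0⟩, 0, 0⟩ 0 0) (.pos 53 .pp ⟨⟨59873376032, 0, 0, 0, 0, 0, 0, 0, 0, ⟨0, 0⟩, 0⟩, 0, 1⟩ 0 0)) (.pos 54 .pp ⟨⟨74818827870, 0, 0, 0, 0, 0, 0, 0, 0, ⟨0, 0⟩, 0⟩, 0, 1⟩ 0 0))) (.cut .v 18874368 (.pos 25 .pp ⟨⟨0, 0, 0, 0, 0, 0, 0, 0, 0, ⟨0, 0⟩, 0⟩, 0, 4⟩ 0 0) (.cut .s 16539648 (.pos 26 .pp ⟨⟨52124224253, 0, 0, 0, 0, 0, 0, 0, 0, ⟨0, 0⟩, 0⟩, 0, 2⟩ 0 0) (.pos 26 .pp ⟨⟨59506720346, 0, 0, 0, 0, 0, 0, 0, 0, ⟨0, 0⟩, 0⟩, 0, 1⟩ 0 0)))) (.cut .d 8322 (.pos 24 .pp ⟨⟨216358247596, 0, 0, 0, 0, 0, 0, 0, 0, ⟨0, 0⟩, 0⟩, 0, 0⟩ 0 0) (.cut .v 23068672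 (.cut .d 12483 (.cut .v 22020096 (.pos 57 .pp ⟨⟨0, 0, 0, 0, 0, 0, 0, 0, 0, ⟨0, 0⟩, 0⟩, 9170055398, 1⟩ 0 0) (.pos 58 .pp ⟨⟨0, 0, 0, 0, 0, 0, 0, 0, 0, ⟨0, 0⟩, 0⟩, 10601481656, 1⟩ 0 0)) (.pos 55 .pp ⟨⟨0, 0, 0, 0, 0, 0, 0, 0, 0, ⟨0, 0⟩, 0⟩, 7957230523, 2⟩ 0 0)) (.pos 56 .pp ⟨⟨0, 0, 0, 0, 0, 0, 0, 0, 0, ⟨0, 0⟩, 0⟩, 11340298092, 1⟩ 0 0)))) (.cut .v 20971520 (.pos 23 .pp ⟨⟨0, 0, 0, 0, 0, 0, 0, 0, 0, ⟨0, 0⟩, 0⟩, 0, 5⟩ 0 0) (.pos 24 .pp ⟨⟨0, 0, 0, 0, 0, 0, 0, 0, 0, ⟨0, 0⟩, 0⟩, 7635653387, 2⟩ 0 0))) (.pos 21 .pp ⟨⟨0, 0, 0, 0, 0, 0, 0, 0, 0, ⟨0, 0⟩, 0⟩, 0, 5⟩ 0 0)) (.cut .d 33288 (.cut .d 16644 (.void 22 ⟨⟨0, 0, 0, 0, 0, 0, 0, 0, 0, ⟨0, 0⟩, 0⟩,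 100000, 0⟩ 0 0) (.cut .v 29360128 (.pos 91 .pp ⟨⟨0, 0, 0, 0, 0, 0, 0, 0, 0, ⟨0, 0⟩, 0⟩, 10929575017, 1⟩ 0 0) (.pos 92 .pp ⟨⟨0, 0, 0, 0, 0, 0, 0, 0, 0, ⟨0, 0⟩, 0⟩, 18076180185, 1⟩ 0 0))) (.pos 22 .pp ⟨⟨0, 0, 0, 0, 0, 0, 0, 0, 0, ⟨0, 0⟩, 0⟩, 8673607673, 3⟩ 0 0))) (.pos 20 .pp ⟨⟨0, 0, 0, 0, 0, 0, 0, 0, 0, ⟨0, 0⟩, 0⟩, 0, 6⟩ 0 0)) (.cut .v 50331648 (.cut .d 66577 (.cut .d 33288 (.void 106 ⟨⟨0, 0, 0, 0, 0, 0, 0, 0, 0, ⟨0, 0⟩, 0⟩, 100000, 0⟩ 0 0) (.pos 106 .pp ⟨⟨0, 0, 0, 0, 0, 0, 0, 0, 0, ⟨0, 0⟩, 0⟩, 16665757991, 1⟩ 0 0)) (.pos 106 .pp ⟨⟨0, 0, 0, 0, 0, 0, 0, 0, 0, ⟨0, 0⟩, 0⟩, 11068960801, 3⟩ 0 0)) (.pos 107 .pp ⟨⟨0, 0, 0, 0, 0, 0, 0, 0, 0,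 ⟨0, 0⟩, 0⟩, 27182281807, 0⟩ 0 0))) (.pos 102 .pp ⟨⟨0, 0, 0, 0, 0, 0, 0, 0, 0, ⟨0, 0⟩, 0⟩, 4639603505, 4⟩ 0 0)) (.void 114 ⟨⟨9893, 0, 0, 15226, 0, 68455, 0, 0, 0, ⟨0, 0⟩, 0⟩, 8000, 0⟩ 0 0)) (.void 125 ⟨⟨0, 0, 0, 0, 0, 0, 0, 0, 0, ⟨0, 0⟩, 0⟩, 100000, 0⟩ 0 0)) (.void 134 ⟨⟨0, 0, 0, 0, 0, 0, 0, 0, 0, ⟨0, 0⟩, 0⟩, 100000, 0⟩ 0 0)))),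
    by decide +kernel⟩

def covers45 : cell.Covers Vale.Agent.P237.Petty.Cor.Grid.N12.table row45.1 :=
  ⟨(.cut .d 0 (.cut .v 16777216 (.cut .v 8388608 (.void 2 ⟨⟨0, 0, 100000, 0, 0, 0, 0, 0, 0, ⟨0, 0⟩, 0⟩, 0, 0⟩ 0 0) (.cut .d (-8388608) (.void 3 ⟨⟨1126, 0, 0, 0, 0, 39354, 0, 59391, 0, ⟨(-1), 11264518⟩, 0⟩, 0, 0⟩ 0 127) (.pos 3 .mm ⟨⟨0, 0, 0, 0, 0, 366250699692, 0, 0, 0, ⟨0, 0⟩, 0⟩, 0, 0⟩ 0 0))) (.cut .v 4294967296 (.cut .v 268435456 (.cut .v 67108864 (.cut .v 33554432 (.cut .d (-8388608) (.void 20 ⟨⟨100000, 0, 0, 0, 0, 0, 0, 0, 0, ⟨0, 0⟩, 0⟩, 0, 0⟩ 0 0) (.cut .v 25165824 (.cut .d (-4194304) (.void 21 ⟨⟨100000, 0, 0, 0, 0, 0, 0, 0,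 0, ⟨0, 0⟩, 0⟩, 0, 0⟩ 0 0) (.cut .v 20971520 (.cut .d (-2097152) (.void 23 ⟨⟨100000, 0, 0, 0, 0, 0, 0, 0, 0, ⟨0, 0⟩, 0⟩, 0, 0⟩ 0 0) (.pos 23 .mp ⟨⟨111182483593, 0, 0, 0, 0, 76923414555, 0, 0, 0, ⟨0, 0⟩, 0⟩, 0, 0⟩ 0 0)) (.void 24 ⟨⟨100000, 0, 0, 0, 0, 0, 0, 0, 0, ⟨0, 0⟩, 0⟩, 0, 0⟩ 0 0))) (.void 22 ⟨⟨100000, 0, 0, 0, 0, 0, 0, 0, 0, ⟨0, 0⟩, 0⟩, 0, 0⟩ 0 0))) (.void 103 ⟨⟨100028, 0, 0, 0, 0, 0, 0, 0, 0, ⟨0, 0⟩, 0⟩, 0, 0⟩ 0 0)) (.pos 114 .mp ⟨⟨1677721600002962, 0, 0, 0, 0, 0, 0, 0, 0, ⟨0, 0⟩, 0⟩, 0, 0⟩ 0 0)) (.void 125 ⟨⟨92925, 0, 0, 7077, 0, 0, 0, 0, 0, ⟨0, 0⟩, 0⟩, 0, 0⟩ 0 0)) (.cut .v 68719476736 (.void 135 ⟨⟨92922, 0, 0, 7078, 0, 0, 0,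 0, 0, ⟨0, 0⟩, 0⟩, 0, 0⟩ 0 0) (.void 136 ⟨⟨0, 0, 0, 100000, 0, 0, 0, 0, 0, ⟨0, 0⟩, 0⟩, 0, 0⟩ 0 0)))) (.cut .v 16777216 (.cut .v 8388608 (.cut .d 107866 (.pos 2 .pm ⟨⟨0, 0, 49648718425, 0, 0, 0, 0, 0, 0, ⟨0, 0⟩, 0⟩, 0, 0⟩ 0 0) (.pos 2 .pm ⟨⟨0, 0, 20690962, 0, 0, 0, 0, 0, 0, ⟨0, 0⟩, 0⟩, 0, 0⟩ 0 0)) (.pos 3 .pm ⟨⟨0, 0, 0, 0, 0, 0, 0, 0, 0, ⟨0, 0⟩, 0⟩, 0, 0⟩ 0 0)) (.cut .v 4294967296 (.cut .v 268435456 (.cut .v 67108864 (.cut .d 107866 (.cut .v 33554432 (.cut .d 53933 (.cut .d 26966 (.cut .v 25165824 (.cut .d 13483 (.cut .v 20971520 (.cut .d 6741 (.cut .v 18874368 (.cut .d 3370 (.cut .v 17825792 (.cut .d 1685 (.cut .v 17301504 (.cut .d 842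 (.cut .v 17039360 (.cut .d 421 (.cut .v 16908288 (.cut .d 210 (.cut .d 105 (.cut .v 16842752 (.cut .v 16809984 (.cut .l 153791 (.cut .l 76895 (.cut .l 38447 (.cut .l 19223 (.cut .l 9611 (.cut .l 4805 (.cut .l 2402 (.cut .s 16588800 (.cut .l 1201 (.cut .s 16576512 (.cut .l 600 (.pos 45 .pp ⟨⟨58674700871, 0, 0, 0, 0, 0, 0, 0, 0, ⟨0, 0⟩, 0⟩, 0, 0⟩ 0 0) (.pos 45 .pp ⟨⟨28172091723, 0, 0, 0, 0, 0, 0, 0, 0, ⟨0, 0⟩, 0⟩, 4661274772, 0⟩ 0 0)) (.pos 45 .pp ⟨⟨64298859886, 0, 0, 0, 0, 0, 0, 0, 0, ⟨0, 0⟩, 0⟩, 0, 0⟩ 0 0)) (.pos 45 .pp ⟨⟨50271400770, 0, 0, 0, 0, 0, 0, 0, 0, ⟨0, 0⟩, 0⟩, 1510046566, 0⟩ 0 0)) (.cut .s 16601088 (.pos 45 .pp ⟨⟨71064737524,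 0, 0, 0, 0, 0, 0, 0, 0, ⟨0, 0⟩, 0⟩, 0, 0⟩ 0 0) (.pos 45 .pp ⟨⟨79038584866, 0, 0, 0, 0, 0, 0, 0, 0, ⟨0, 0⟩, 0⟩, 0, 0⟩ 0 0))) (.pos 45 .pp ⟨⟨63798763046, 0, 0, 0, 0, 0, 0, 0, 0, ⟨0, 0⟩, 0⟩, 0, 0⟩ 0 0)) (.pos 45 .pp ⟨⟨62249573776, 0, 0, 0, 0, 0, 0, 0, 0, ⟨0, 0⟩, 0⟩, 0, 0⟩ 0 0)) (.pos 45 .pp ⟨⟨40819499012, 0, 0, 0, 0, 0, 0, 0, 0, ⟨0, 0⟩, 0⟩, 2857830760, 0⟩ 0 0)) (.pos 45 .pp ⟨⟨6853610604, 0, 0, 0, 0, 0, 0, 0, 0, ⟨0, 0⟩, 0⟩, 7701161624, 0⟩ 0 0)) (.pos 45 .pp ⟨⟨0, 0, 0, 0, 0, 0, 0, 0, 0, ⟨0, 0⟩, 0⟩, 0, 0⟩ 0 0)) (.pos 45 .pp ⟨⟨0, 0, 0, 0, 0, 0, 0, 0, 0, ⟨0, 0⟩, 0⟩, 0, 0⟩ 0 0)) (.pos 45 .pp ⟨⟨0, 0, 0, 0, 0, 0, 0, 0, 0, ⟨0, 0⟩, 0⟩, 0, 0⟩ 0 0))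 (.pos 46 .pp ⟨⟨79536219651, 0, 0, 0, 0, 0, 0, 0, 0, ⟨0, 0⟩, 0⟩, 0, 0⟩ 0 0)) (.pos 44 .pp ⟨⟨172616585749, 0, 0, 0, 0, 0, 0, 0, 0, ⟨0, 0⟩, 0⟩, 0, 0⟩ 0 0)) (.pos 35 .pp ⟨⟨60590916689, 0, 0, 0, 0, 0, 0, 0, 0, ⟨0, 0⟩, 0⟩, 0, 0⟩ 0 0)) (.pos 35 .pp ⟨⟨51524870745, 0, 0, 0, 0, 0, 0, 0, 0, ⟨0, 0⟩, 0⟩, 0, 0⟩ 0 0)) (.pos 36 .pp ⟨⟨79919699015, 0, 0, 0, 0, 0, 0, 0, 0, ⟨0, 0⟩, 0⟩, 0, 0⟩ 0 0)) (.pos 31 .pp ⟨⟨51849636855, 0, 0, 0, 0, 0, 0, 0, 0, ⟨0, 0⟩, 0⟩, 0, 0⟩ 0 0)) (.pos 32 .pp ⟨⟨80478586662, 0, 0, 0, 0, 0, 0, 0, 0, ⟨0, 0⟩, 0⟩, 0, 0⟩ 0 0)) (.pos 29 .pp ⟨⟨52543119455, 0, 0, 0, 0, 0, 0, 0, 0, ⟨0, 0⟩, 0⟩, 0, 0⟩ 0 0)) (.pos 30 .pp ⟨⟨83157425062, 0,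 0, 0, 0, 0, 0, 0, 0, ⟨0, 0⟩, 0⟩, 0, 0⟩ 0 0)) (.pos 27 .pp ⟨⟨53943844502, 0, 0, 0, 0, 0, 0, 0, 0, ⟨0, 0⟩, 0⟩, 0, 0⟩ 0 0)) (.cut .d 1685 (.pos 28 .pp ⟨⟨274399863024, 0, 0, 0, 0, 0, 0, 0, 0, ⟨0, 0⟩, 0⟩, 0, 0⟩ 0 0) (.pos 28 .pp ⟨⟨82285417448, 0, 0, 0, 0, 0, 0, 0, 0, ⟨0, 0⟩, 0⟩, 0, 0⟩ 0 0))) (.pos 25 .pp ⟨⟨56843183216, 0, 0, 0, 0, 0, 0, 0, 0, ⟨0, 0⟩, 0⟩, 0, 0⟩ 0 0)) (.cut .v 19922944 (.cut .d 3370 (.pos 53 .pp ⟨⟨293576194783, 0, 0, 0, 0, 0, 0, 0, 0, ⟨0, 0⟩, 0⟩, 0, 0⟩ 0 0) (.pos 53 .pp ⟨⟨84003494447, 0, 0, 0, 0, 0, 0, 0, 0, ⟨0, 0⟩, 0⟩, 0, 0⟩ 0 0)) (.pos 54 .pp ⟨⟨109043296887, 0, 0, 0, 0, 0, 0, 0, 0, ⟨0, 0⟩, 0⟩, 0, 0⟩ 0 0))) (.cut .v 18874368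 (.pos 25 .pp ⟨⟨0, 0, 0, 0, 0, 0, 0, 0, 0, ⟨0, 0⟩, 0⟩, 0, 1⟩ 0 0) (.cut .s 16588800 (.cut .v 19922944 (.pos 53 .pp ⟨⟨0, 0, 0, 0, 0, 0, 0, 0, 0, ⟨0, 0⟩, 0⟩, 0, 1⟩ 0 0) (.cut .d 10112 (.cut .d 8426 (.cut .s 16576512 (.pos 54 .pp ⟨⟨80294585110, 0, 0, 0, 0, 0, 0, 0, 0, ⟨0, 0⟩, 0⟩, 0, 1⟩ 0 0) (.cut .l 153791 (.pos 54 .pp ⟨⟨85345124245, 0, 0, 0, 0, 0, 0, 0, 0, ⟨0, 0⟩, 0⟩, 0, 1⟩ 0 0) (.pos 54 .pp ⟨⟨82997233509, 0, 0, 0, 0, 0, 0, 0, 0, ⟨0, 0⟩, 0⟩, 0, 0⟩ 0 0))) (.pos 54 .pp ⟨⟨69457295187, 0, 0, 0, 0, 0, 2, 0, 0, ⟨0, 0⟩, 0⟩, 0, 0⟩ 0 0)) (.pos 54 .pp ⟨⟨0, 0, 0, 0, 0, 0, 0, 0, 0, ⟨0, 0⟩, 0⟩, 0, 2⟩ 0 0))) (.pos 26 .pp ⟨⟨84069396500, 0, 0, 0, 0, 0,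 1, 0, 0, ⟨0, 0⟩, 0⟩, 0, 0⟩ 0 0)))) (.cut .d 6741 (.cut .v 23068672 (.cut .l 153791 (.pos 55 .pp ⟨⟨62816265969, 0, 0, 0, 0, 0, 1, 0, 0, ⟨0, 0⟩, 0⟩, 8808339669, 0⟩ 0 0) (.pos 55 .pp ⟨⟨77635781333, 0, 0, 0, 0, 0, 0, 0, 0, ⟨0, 0⟩, 0⟩, 6968290102, 0⟩ 0 0)) (.void 56 ⟨⟨0, 0, 0, 0, 0, 0, 0, 0, 0, ⟨0, 0⟩, 0⟩, 100000, 0⟩ 0 0)) (.cut .v 23068672 (.cut .d 10112 (.cut .v 22020096 (.cut .v 21495808 (.pos 110 .pp ⟨⟨0, 0, 0, 0, 0, 0, 1, 0, 0, ⟨0, 0⟩, 0⟩, 12517188518, 0⟩ 0 0) (.pos 111 .pp ⟨⟨0, 0, 0, 0, 0, 0, 1, 0, 0, ⟨0, 0⟩, 0⟩, 13308389144, 0⟩ 0 0)) (.pos 58 .pp ⟨⟨0, 0, 0, 0, 0, 0, 1, 0, 0, ⟨0, 0⟩, 0⟩, 15002369767, 0⟩ 0 0)) (.pos 55 .pp ⟨⟨0, 0, 0,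 0, 0, 0, 1, 0, 0, ⟨0, 0⟩, 0⟩, 11096889881, 0⟩ 0 0)) (.pos 56 .pp ⟨⟨0, 0, 0, 0, 0, 0, 1, 0, 0, ⟨0, 0⟩, 0⟩, 16292136148, 0⟩ 0 0)))) (.cut .v 20971520 (.pos 23 .pp ⟨⟨0, 0, 0, 0, 0, 0, 0, 0, 0, ⟨0, 0⟩, 0⟩, 0, 2⟩ 0 0) (.cut .v 23068672 (.pos 55 .pp ⟨⟨0, 0, 0, 0, 0, 0, 2, 0, 0, ⟨0, 0⟩, 0⟩, 9284907109, 0⟩ 0 0) (.pos 56 .pp ⟨⟨0, 0, 0, 0, 0, 0, 2, 0, 0, ⟨0, 0⟩, 0⟩, 12103996711, 0⟩ 0 0)))) (.cut .d 13483 (.pos 22 .pp ⟨⟨0, 0, 0, 0, 0, 0, 0, 0, 0, ⟨0, 0⟩, 0⟩, 46518957614, 0⟩ 0 0) (.cut .v 29360128 (.pos 91 .pp ⟨⟨0, 0, 0, 0, 0, 0, 1, 0, 0, ⟨0, 0⟩, 0⟩, 15358348477, 0⟩ 0 0) (.pos 92 .pp ⟨⟨0, 0, 0, 0, 0, 0, 1, 0, 0, ⟨0, 0⟩, 0⟩, 20934671687, 0⟩ 0 0))))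 (.cut .v 25165824 (.pos 21 .pp ⟨⟨0, 0, 0, 0, 0, 0, 0, 0, 0, ⟨0, 0⟩, 0⟩, 0, 2⟩ 0 0) (.pos 22 .pp ⟨⟨0, 0, 0, 0, 0, 0, 0, 0, 0, ⟨0, 0⟩, 0⟩, 12126733279, 1⟩ 0 0))) (.pos 20 .pp ⟨⟨0, 0, 0, 0, 0, 0, 0, 0, 0, ⟨0, 0⟩, 0⟩, 0, 2⟩ 0 0)) (.cut .v 50331648 (.cut .d 53933 (.cut .d 26966 (.void 106 ⟨⟨0, 0, 0, 0, 0, 0, 0, 0, 0, ⟨0, 0⟩, 0⟩, 100000, 0⟩ 0 0) (.pos 106 .pp ⟨⟨0, 0, 0, 0, 0, 0, 1, 0, 0, ⟨0, 0⟩, 0⟩, 24015328188, 0⟩ 0 0)) (.pos 106 .pp ⟨⟨0, 0, 0, 0, 0, 0, 3, 0, 0, ⟨0, 0⟩, 0⟩, 15542046819, 0⟩ 0 0)) (.pos 107 .pp ⟨⟨0, 0, 0, 0, 0, 0, 0, 0, 0, ⟨0, 0⟩, 0⟩, 39562162330, 0⟩ 0 0))) (.pos 102 .pp ⟨⟨0, 0, 0, 0, 0, 0, 0, 0, 0, ⟨0, 0⟩, 0⟩, 6502786869,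 1⟩ 0 0)) (.void 114 ⟨⟨0, 0, 0, 51642, 0, 0, 0, 0, 0, ⟨0, 0⟩, 0⟩, 48358, 0⟩ 0 0)) (.void 125 ⟨⟨0, 0, 0, 0, 0, 0, 0, 0, 0, ⟨0, 0⟩, 0⟩, 100000, 0⟩ 0 0)) (.void 134 ⟨⟨0, 0, 0, 0, 0, 0, 0, 0, 0, ⟨0, 0⟩, 0⟩, 100000, 0⟩ 0 0)))),
    by decide +kernel⟩

def covers46 : cell.Covers Vale.Agent.P237.Petty.Cor.Grid.N12.table row46.1 :=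
  ⟨(.cut .d 0 (.cut .v 16777216 (.cut .v 8388608 (.void 2 ⟨⟨0, 0, 93569, 0, 0, 0, 0, 0, 0, ⟨0, 0⟩, 0⟩, 0, 0⟩ 0 0) (.cut .d (-8388608) (.void 3 ⟨⟨99991, 0, 0, 0, 0, 0, 0, 0, 0, ⟨0, 0⟩, 0⟩, 0, 0⟩ 0 0) (.pos 3 .mm ⟨⟨0, 0, 0, 0, 0, 489676358598, 0, 0, 0, ⟨0, 0⟩, 0⟩, 0, 0⟩ 0 0))) (.cut .d (-8388608) (.void 133 ⟨⟨100000, 0, 0, 0, 0, 0, 0, 0, 0, ⟨0, 0⟩, 0⟩, 0, 0⟩ 0 0) (.cut .v 4294967296 (.cut .v 268435456 (.cut .v 67108864 (.cut .v 33554432 (.cut .v 25165824 (.cut .d (-4194304) (.void 21 ⟨⟨100000, 0, 0, 0, 0, 0, 0, 0, 0, ⟨0, 0⟩, 0⟩, 0, 0⟩ 0 0) (.cut .v 20971520 (.pos 23 .mp ⟨⟨153838116047, 0, 0, 0, 0, 196619477541, 0, 0, 0, ⟨0, 0⟩, 0⟩, 0,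 0⟩ 0 0) (.void 24 ⟨⟨100000, 0, 0, 0, 0, 0, 0, 0, 0, ⟨0, 0⟩, 0⟩, 0, 0⟩ 0 0))) (.void 22 ⟨⟨100000, 0, 0, 0, 0, 0, 0, 0, 0, ⟨0, 0⟩, 0⟩, 0, 0⟩ 0 0)) (.void 103 ⟨⟨100000, 0, 0, 0, 0, 0, 0, 0, 0, ⟨0, 0⟩, 0⟩, 0, 0⟩ 0 0)) (.void 114 ⟨⟨100012, 0, 0, 0, 0, 0, 0, 0, 0, ⟨0, 0⟩, 0⟩, 0, 0⟩ 0 0)) (.void 125 ⟨⟨89728, 0, 0, 10272, 0, 0, 0, 0, 0, ⟨0, 0⟩, 0⟩, 0, 0⟩ 0 0)) (.cut .d (-4194304) (.void 134 ⟨⟨100047, 0, 28, 0, 0, 0, 0, 0, 0, ⟨0, 0⟩, 0⟩, 0, 0⟩ 0 0) (.void 134 ⟨⟨0, 0, 0, 100000, 0, 0, 0, 0, 0, ⟨0, 0⟩, 0⟩, 0, 0⟩ 0 0))))) (.cut .v 16777216 (.cut .v 8388608 (.cut .d 82729 (.pos 2 .pm ⟨⟨0, 0, 74097391428, 0, 0, 0, 0, 0, 0, ⟨0, 0⟩, 0⟩, 0, 0⟩ 0 0)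 (.pos 2 .pm ⟨⟨0, 0, 20570774, 0, 0, 0, 0, 0, 0, ⟨0, 0⟩, 0⟩, 0, 0⟩ 0 0)) (.pos 3 .pm ⟨⟨0, 0, 0, 0, 0, 0, 0, 0, 0, ⟨0, 0⟩, 0⟩, 0, 0⟩ 0 0)) (.cut .v 4294967296 (.cut .v 268435456 (.cut .v 67108864 (.cut .d 82729 (.cut .v 33554432 (.cut .d 41364 (.cut .v 25165824 (.cut .d 20682 (.cut .d 10341 (.cut .v 20971520 (.cut .d 5170 (.cut .v 18874368 (.cut .d 2585 (.cut .v 17825792 (.cut .d 1292 (.cut .v 17301504 (.cut .s 16629760 (.pos 29 .pp ⟨⟨90412512143, 0, 0, 0, 0, 0, 0, 0, 0, ⟨0, 0⟩, 0⟩, 0, 0⟩ 0 0) (.cut .s 16637952 (.pos 29 .pp ⟨⟨102775434756, 0, 0, 0, 0, 0, 0, 0, 0, ⟨0, 0⟩, 0⟩, 0, 0⟩ 0 0) (.pos 29 .pp ⟨⟨112382138243, 0, 0, 0, 0, 0, 0, 0,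 0, ⟨0, 0⟩, 0⟩, 0, 0⟩ 0 0))) (.pos 30 .pp ⟨⟨117774915396, 0, 0, 0, 0, 0, 0, 0, 0, ⟨0, 0⟩, 0⟩, 0, 0⟩ 0 0)) (.pos 27 .pp ⟨⟨79425173356, 0, 0, 0, 0, 0, 0, 0, 0, ⟨0, 0⟩, 0⟩, 0, 0⟩ 0 0)) (.pos 28 .pp ⟨⟨126894038214, 0, 0, 0, 0, 0, 0, 0, 0, ⟨0, 0⟩, 0⟩, 0, 0⟩ 0 0)) (.pos 25 .pp ⟨⟨83710974104, 0, 0, 0, 0, 0, 0, 0, 0, ⟨0, 0⟩, 0⟩, 0, 0⟩ 0 0)) (.cut .v 19922944 (.cut .d 2585 (.pos 53 .pp ⟨⟨421502118674, 0, 0, 0, 0, 0, 0, 0, 0, ⟨0, 0⟩, 0⟩, 0, 0⟩ 0 0) (.pos 53 .pp ⟨⟨122383625806, 0, 0, 0, 0, 0, 0, 0, 0, ⟨0, 0⟩, 0⟩, 0, 0⟩ 0 0)) (.pos 54 .pp ⟨⟨154458004229, 0, 0, 0, 0, 0, 0, 0, 0, ⟨0, 0⟩, 0⟩, 0, 0⟩ 0 0))) (.cut .v 18874368 (.pos 25 .pp ⟨⟨0, 0, 0, 0,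 0, 0, 1, 0, 0, ⟨0, 0⟩, 0⟩, 0, 0⟩ 0 0) (.pos 26 .pp ⟨⟨107400889804, 0, 0, 0, 0, 0, 0, 0, 0, ⟨0, 0⟩, 0⟩, 0, 0⟩ 0 0))) (.cut .d 5170 (.pos 24 .pp ⟨⟨477393853612, 0, 0, 0, 0, 0, 0, 0, 0, ⟨0, 0⟩, 0⟩, 0, 0⟩ 0 0) (.cut .v 23068672 (.cut .v 22020096 (.cut .v 21495808 (.pos 110 .pp ⟨⟨0, 0, 0, 0, 0, 0, 0, 0, 0, ⟨0, 0⟩, 0⟩, 17035126632, 0⟩ 0 0) (.pos 111 .pp ⟨⟨0, 0, 0, 0, 0, 0, 0, 0, 0, ⟨0, 0⟩, 0⟩, 18387052756, 0⟩ 0 0)) (.pos 58 .pp ⟨⟨0, 0, 0, 0, 0, 0, 0, 0, 0, ⟨0, 0⟩, 0⟩, 20492526167, 0⟩ 0 0)) (.pos 56 .pp ⟨⟨0, 0, 0, 0, 0, 0, 0, 0, 0, ⟨0, 0⟩, 0⟩, 23345914351, 0⟩ 0 0)))) (.cut .v 20971520 (.pos 23 .pp ⟨⟨0, 0, 0, 0, 0, 0, 1, 0, 0, ⟨0, 0⟩, 0⟩, 0,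 0⟩ 0 0) (.cut .v 23068672 (.cut .s 16629760 (.pos 55 .pp ⟨⟨0, 0, 0, 0, 0, 0, 1, 0, 0, ⟨0, 0⟩, 0⟩, 13779191816, 0⟩ 0 0) (.pos 55 .pp ⟨⟨0, 0, 0, 0, 0, 0, 1, 0, 0, ⟨0, 0⟩, 0⟩, 0, 0⟩ 0 0)) (.pos 56 .pp ⟨⟨0, 0, 0, 0, 0, 0, 0, 0, 0, ⟨0, 0⟩, 0⟩, 17836705055, 0⟩ 0 0)))) (.pos 21 .pp ⟨⟨0, 0, 0, 0, 0, 0, 1, 0, 0, ⟨0, 0⟩, 0⟩, 0, 0⟩ 0 0)) (.cut .d 20682 (.cut .d 10341 (.void 22 ⟨⟨0, 0, 0, 0, 0, 0, 0, 0, 0, ⟨0, 0⟩, 0⟩, 100000, 0⟩ 0 0) (.cut .v 29360128 (.pos 91 .pp ⟨⟨0, 0, 0, 0, 0, 0, 0, 0, 0, ⟨0, 0⟩, 0⟩, 22377520395, 0⟩ 0 0) (.pos 92 .pp ⟨⟨0, 0, 0, 0, 0, 0, 0, 0, 0, ⟨0, 0⟩, 0⟩, 38218710609, 0⟩ 0 0))) (.pos 22 .pp ⟨⟨0, 0, 0, 0, 0, 0, 1, 0, 0, ⟨0,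 0⟩, 0⟩, 17757184546, 0⟩ 0 0))) (.pos 20 .pp ⟨⟨0, 0, 0, 0, 0, 0, 2, 0, 0, ⟨0, 0⟩, 0⟩, 0, 0⟩ 0 0)) (.cut .v 50331648 (.cut .d 41364 (.cut .d 20682 (.void 106 ⟨⟨0, 0, 0, 0, 0, 0, 0, 0, 0, ⟨0, 0⟩, 0⟩, 100000, 0⟩ 0 0) (.pos 106 .pp ⟨⟨0, 0, 0, 0, 0, 0, 0, 0, 0, ⟨0, 0⟩, 0⟩, 34392038489, 0⟩ 0 0)) (.pos 106 .pp ⟨⟨0, 0, 0, 0, 0, 0, 1, 0, 0, ⟨0, 0⟩, 0⟩, 22818562160, 0⟩ 0 0)) (.pos 107 .pp ⟨⟨0, 0, 0, 0, 0, 0, 0, 0, 0, ⟨0, 0⟩, 0⟩, 56062646012, 0⟩ 0 0))) (.pos 102 .pp ⟨⟨0, 0, 0, 0, 0, 0, 0, 0, 0, ⟨0, 0⟩, 0⟩, 9785703863, 0⟩ 0 0)) (.pos 114 .pp ⟨⟨0, 0, 0, 867079726791963, 0, 0, 0, 0, 0, ⟨0, 0⟩, 0⟩, 810641873208037, 0⟩ 0 0)) (.void 125 ⟨⟨0, 0, 0, 0,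 0, 0, 0, 0, 0, ⟨0, 0⟩, 0⟩, 100000, 0⟩ 0 0)) (.void 134 ⟨⟨0, 0, 0, 0, 0, 0, 0, 0, 0, ⟨0, 0⟩, 0⟩, 100000, 0⟩ 0 0)))),
    by decide +kernel⟩

def covers47 : cell.Covers Vale.Agent.P237.Petty.Cor.Grid.N12.table row47.1 :=
  ⟨(.cut .d 0 (.cut .v 16777216 (.cut .v 8388608 (.pos 2 .mm ⟨⟨0, 0, 1677721600000000, 0, 0, 0, 0, 0, 0, ⟨0, 0⟩, 0⟩, 0, 0⟩ 0 0) (.cut .d (-8388608) (.void 3 ⟨⟨99854, 0, 0, 0, 0, 0, 0, 0, 0, ⟨0, 0⟩, 0⟩, 0, 0⟩ 0 0) (.pos 3 .mm ⟨⟨0, 0, 0, 0, 0, 582317925407, 0, 0, 0, ⟨0, 0⟩, 0⟩, 0, 0⟩ 0 0))) (.cut .d (-8388608) (.void 133 ⟨⟨2478, 0, 0, 0, 0, 38285, 0, 59232, 0, ⟨(-1), 11203838⟩, 0⟩, 0, 0⟩ 0 128) (.cut .v 4294967296 (.cut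 .d (-4194304) (.cut .s 16654336 (.void 124 ⟨⟨100000, 0, 0, 0, 0, 0, 0, 0, 0, ⟨0, 0⟩, 0⟩, 0, 0⟩ 0 0) (.void 124 ⟨⟨100000, 0, 0, 0, 0, 0, 0, 0, 0, ⟨0, 0⟩, 0⟩, 0, 0⟩ 0 0)) (.cut .v 268435456 (.cut .v 67108864 (.cut .v 33554432 (.cut .v 25165824 (.pos 21 .mp ⟨⟨260046608313, 0, 0, 0, 0, 216410090019, 0, 0, 0, ⟨0, 0⟩, 0⟩, 0, 0⟩ 0 0) (.void 22 ⟨⟨100000, 0, 0, 0, 0, 0, 0, 0, 0, ⟨0, 0⟩, 0⟩, 0, 0⟩ 0 0)) (.void 103 ⟨⟨100000, 0, 0, 0, 0, 0, 0, 0, 0, ⟨0, 0⟩, 0⟩, 0, 0⟩ 0 0)) (.void 114 ⟨⟨100000, 0, 0, 0, 0, 0, 0, 0, 0, ⟨0, 0⟩, 0⟩, 0, 0⟩ 0 0)) (.void 125 ⟨⟨100000, 0, 0, 0, 0, 0, 0, 0, 0, ⟨0, 0⟩, 0⟩, 0, 0⟩ 0 0))) (.void 134 ⟨⟨100000, 0, 0, 0, 0, 0,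 0, 0, 0, ⟨0, 0⟩, 0⟩, 0, 0⟩ 0 0)))) (.cut .v 16777216 (.cut .v 8388608 (.cut .d 66053 (.pos 2 .pm ⟨⟨0, 0, 104652761494, 0, 0, 0, 0, 0, 0, ⟨0, 0⟩, 0⟩, 0, 0⟩ 0 0) (.pos 2 .pm ⟨⟨0, 0, 20484114, 0, 0, 0, 0, 0, 0, ⟨0, 0⟩, 0⟩, 0, 0⟩ 0 0)) (.pos 3 .pm ⟨⟨0, 0, 0, 0, 0, 0, 0, 0, 0, ⟨0, 0⟩, 0⟩, 0, 0⟩ 0 0)) (.cut .v 4294967296 (.cut .v 268435456 (.cut .v 67108864 (.cut .d 66053 (.cut .v 33554432 (.cut .d 33026 (.cut .v 25165824 (.cut .d 16513 (.cut .d 8256 (.cut .v 20971520 (.cut .v 18874368 (.cut .d 4128 (.cut .d 2064 (.cut .v 17825792 (.cut .s 16654336 (.pos 27 .pp ⟨⟨125829750955, 0, 0, 0, 0, 0, 0, 0, 0, ⟨0, 0⟩, 0⟩, 0, 0⟩ 0 0) (.pos 27 .pp ⟨⟨139154029011,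 0, 0, 0, 0, 0, 0, 0, 0, ⟨0, 0⟩, 0⟩, 0, 0⟩ 0 0)) (.pos 28 .pp ⟨⟨159620761600, 0, 0, 0, 0, 0, 0, 0, 0, ⟨0, 0⟩, 0⟩, 0, 0⟩ 0 0)) (.pos 25 .pp ⟨⟨115571785008, 0, 0, 0, 0, 0, 0, 0, 0, ⟨0, 0⟩, 0⟩, 0, 0⟩ 0 0)) (.pos 25 .pp ⟨⟨0, 0, 0, 0, 0, 0, 0, 0, 0, ⟨0, 0⟩, 0⟩, 0, 0⟩ 0 0)) (.cut .d 4128 (.cut .v 19922944 (.pos 53 .pp ⟨⟨171358394534, 0, 0, 0, 0, 0, 0, 0, 0, ⟨0, 0⟩, 0⟩, 0, 0⟩ 0 0) (.pos 54 .pp ⟨⟨193062952282, 0, 0, 0, 0, 0, 0, 0, 0, ⟨0, 0⟩, 0⟩, 0, 0⟩ 0 0)) (.pos 26 .pp ⟨⟨148562944407, 0, 0, 0, 0, 0, 0, 0, 0, ⟨0, 0⟩, 0⟩, 0, 0⟩ 0 0))) (.cut .v 23068672 (.cut .d 4128 (.void 55 ⟨⟨0, 0, 0, 0, 0, 0, 0, 0, 0, ⟨0, 0⟩, 0⟩, 100000, 0⟩ 0 0) (.cut .d 6192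 (.pos 55 .pp ⟨⟨0, 0, 0, 0, 0, 0, 0, 0, 0, ⟨0, 0⟩, 0⟩, 25813096922, 0⟩ 0 0) (.pos 55 .pp ⟨⟨0, 0, 0, 0, 0, 0, 0, 0, 0, ⟨0, 0⟩, 0⟩, 21784371324, 0⟩ 0 0))) (.pos 56 .pp ⟨⟨0, 0, 0, 0, 0, 0, 0, 0, 0, ⟨0, 0⟩, 0⟩, 31059391508, 0⟩ 0 0))) (.cut .v 20971520 (.pos 23 .pp ⟨⟨0, 0, 0, 0, 0, 0, 0, 0, 0, ⟨0, 0⟩, 0⟩, 0, 0⟩ 0 0) (.pos 24 .pp ⟨⟨0, 0, 0, 0, 0, 0, 0, 0, 0, ⟨0, 0⟩, 0⟩, 21254501796, 0⟩ 0 0))) (.pos 21 .pp ⟨⟨0, 0, 0, 0, 0, 0, 0, 0, 0, ⟨0, 0⟩, 0⟩, 0, 0⟩ 0 0)) (.cut .d 16513 (.cut .v 29360128 (.cut .d 8256 (.void 91 ⟨⟨0, 0, 0, 0, 0, 0, 0, 0, 0, ⟨0, 0⟩, 0⟩, 100000, 0⟩ 0 0) (.pos 91 .pp ⟨⟨0, 0, 0, 0, 0, 0, 0, 0, 0, ⟨0, 0⟩, 0⟩, 29636668197, 0⟩ 0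 0)) (.pos 92 .pp ⟨⟨0, 0, 0, 0, 0, 0, 0, 0, 0, ⟨0, 0⟩, 0⟩, 42338145215, 0⟩ 0 0)) (.pos 22 .pp ⟨⟨0, 0, 0, 0, 0, 0, 0, 0, 0, ⟨0, 0⟩, 0⟩, 24255888227, 0⟩ 0 0))) (.pos 20 .pp ⟨⟨0, 0, 0, 0, 0, 0, 1, 0, 0, ⟨0, 0⟩, 0⟩, 0, 0⟩ 0 0)) (.cut .v 50331648 (.cut .d 33026 (.pos 106 .pp ⟨⟨0, 0, 0, 0, 0, 0, 0, 0, 0, ⟨0, 0⟩, 0⟩, 50287095392, 0⟩ 0 0) (.pos 106 .pp ⟨⟨0, 0, 0, 0, 0, 0, 0, 0, 0, ⟨0, 0⟩, 0⟩, 31179979005, 0⟩ 0 0)) (.pos 107 .pp ⟨⟨0, 0, 0, 0, 0, 0, 0, 0, 0, ⟨0, 0⟩, 0⟩, 70202909581, 0⟩ 0 0))) (.pos 102 .pp ⟨⟨0, 0, 0, 0, 0, 0, 0, 0, 0, ⟨0, 0⟩, 0⟩, 13765124475, 0⟩ 0 0)) (.void 114 ⟨⟨0, 0, 0, 52550, 0, 0, 0, 0, 0, ⟨0, 0⟩, 0⟩, 48234, 0⟩ 0 0)) (.void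 125 ⟨⟨0, 0, 0, 0, 0, 0, 0, 0, 0, ⟨0, 0⟩, 0⟩, 100000, 0⟩ 0 0)) (.void 134 ⟨⟨0, 0, 0, 0, 0, 0, 0, 0, 0, ⟨0, 0⟩, 0⟩, 100000, 0⟩ 0 0)))),
    by decide +kernel⟩

def covers48 : cell.Covers Vale.Agent.P237.Petty.Cor.Grid.N12.table row48.1 :=
  ⟨(.cut .d 0 (.cut .v 16777216 (.cut .v 8388608 (.pos 2 .mm ⟨⟨0, 0, 1677721600000000, 0, 0, 0, 0, 0, 0, ⟨0, 0⟩, 0⟩, 0, 0⟩ 0 0) (.cut .d (-8388608) (.void 3 ⟨⟨100000, 0, 0, 0, 0, 0, 0, 0, 0, ⟨0, 0⟩, 0⟩, 0, 0⟩ 0 0) (.pos 3 .mm ⟨⟨0, 0, 0, 0, 0, 905196745083, 0, 0, 0, ⟨0, 0⟩, 0⟩, 0, 0⟩ 0 0))) (.cut .v 4294967296 (.cut .v 268435456 (.cut .v 67108864 (.cut .v 33554432 (.cut .d (-8388608) (.void 20 ⟨⟨81531,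 0, 5518, 3132, 0, 0, 0, 9820, 0, ⟨(-1), 11203838⟩, 0⟩, 0, 0⟩ 0 128) (.cut .v 25165824 (.cut .d (-4194304) (.void 21 ⟨⟨100000, 0, 0, 0, 0, 0, 0, 0, 0, ⟨0, 0⟩, 0⟩, 0, 0⟩ 0 0) (.cut .s 16678912 (.pos 21 .mp ⟨⟨327697103099, 0, 0, 0, 0, 258382824924, 0, 0, 0, ⟨0, 0⟩, 0⟩, 0, 0⟩ 0 0) (.pos 21 .mp ⟨⟨430326756295, 0, 0, 0, 0, 314316574619, 0, 0, 0, ⟨0, 0⟩, 0⟩, 0, 0⟩ 0 0))) (.void 22 ⟨⟨100000, 0, 0, 0, 0, 0, 0, 0, 0, ⟨0, 0⟩, 0⟩, 0, 0⟩ 0 0))) (.void 103 ⟨⟨100000, 0, 0, 0, 0, 0, 0, 0, 0, ⟨0, 0⟩, 0⟩, 0, 0⟩ 0 0)) (.pos 114 .mp ⟨⟨1677721599980543, 0, 0, 0, 0, 0, 0, 0, 0, ⟨0, 0⟩, 0⟩, 0, 0⟩ 0 0)) (.pos 125 .mp ⟨⟨1573306946257263, 0, 0, 104414653742149,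 0, 0, 0, 0, 0, ⟨0, 0⟩, 0⟩, 0, 0⟩ 0 0)) (.void 134 ⟨⟨9377640165432, 0, 0, 622359834565, 0, 0, 0, 0, 0, ⟨0, 0⟩, 0⟩, 0, 0⟩ 0 0))) (.cut .v 16777216 (.cut .v 8388608 (.cut .d 57740 (.pos 2 .pm ⟨⟨0, 0, 136212166159, 0, 0, 0, 0, 0, 0, ⟨0, 0⟩, 0⟩, 0, 0⟩ 0 0) (.pos 2 .pm ⟨⟨0, 0, 20285544, 0, 0, 0, 0, 0, 0, ⟨0, 0⟩, 0⟩, 0, 0⟩ 0 0)) (.pos 3 .pm ⟨⟨0, 0, 0, 0, 0, 0, 0, 0, 0, ⟨0, 0⟩, 0⟩, 0, 0⟩ 0 0)) (.cut .v 4294967296 (.cut .v 268435456 (.cut .v 67108864 (.cut .d 57740 (.cut .v 33554432 (.cut .d 28870 (.cut .d 14435 (.cut .v 25165824 (.cut .d 7217 (.cut .v 20971520 (.cut .d 3608 (.cut .v 18874368 (.cut .d 1804 (.cut .v 17825792 (.cut .d 902 (.cut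 .l 153791 (.cut .l 76895 (.cut .v 17301504 (.cut .d 451 (.cut .v 17039360 (.cut .d 225 (.cut .v 16908288 (.cut .d 112 (.cut .v 16842752 (.cut .d 56 (.cut .v 16809984 (.cut .l 38447 (.cut .l 19223 (.cut .l 9611 (.cut .l 4805 (.cut .l 2402 (.cut .s 16678912 (.cut .s 16670720 (.pos 45 .pp ⟨⟨149376542855, 0, 0, 0, 0, 0, 0, 0, 0, ⟨0, 0⟩, 0⟩, 0, 0⟩ 0 0) (.pos 45 .pp ⟨⟨167210110541, 0, 0, 0, 0, 0, 0, 0, 0, ⟨0, 0⟩, 0⟩, 0, 0⟩ 0 0)) (.cut .s 16687104 (.pos 45 .pp ⟨⟨190001181086, 0, 0, 0, 0, 0, 0, 0, 0, ⟨0, 0⟩, 0⟩, 0, 0⟩ 0 0) (.pos 45 .pp ⟨⟨218123193306, 0, 0, 0, 0, 0, 0, 0, 0, ⟨0, 0⟩, 0⟩, 0, 0⟩ 0 0))) (.pos 45 .pp ⟨⟨166938321682, 0, 0, 0, 0,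 0, 0, 0, 0, ⟨0, 0⟩, 0⟩, 0, 0⟩ 0 0)) (.pos 45 .pp ⟨⟨161732157772, 0, 0, 0, 0, 0, 0, 0, 0, ⟨0, 0⟩, 0⟩, 0, 0⟩ 0 0)) (.pos 45 .pp ⟨⟨126053029763, 0, 0, 0, 0, 0, 0, 0, 0, ⟨0, 0⟩, 0⟩, 3962984269, 0⟩ 0 0)) (.pos 45 .pp ⟨⟨18222208575, 0, 0, 0, 0, 0, 0, 0, 0, ⟨0, 0⟩, 0⟩, 19352228927, 0⟩ 0 0)) (.pos 45 .pp ⟨⟨0, 0, 0, 0, 0, 0, 0, 0, 0, ⟨0, 0⟩, 0⟩, 0, 0⟩ 0 0)) (.pos 46 .pp ⟨⟨216108808203, 0, 0, 0, 0, 0, 0, 0, 0, ⟨0, 0⟩, 0⟩, 0, 0⟩ 0 0)) (.pos 43 .pp ⟨⟨132482865368, 0, 0, 0, 0, 0, 0, 0, 0, ⟨0, 0⟩, 0⟩, 0, 0⟩ 0 0)) (.pos 44 .pp ⟨⟨216523113441, 0, 0, 0, 0, 0, 0, 0, 0, ⟨0, 0⟩, 0⟩, 0, 0⟩ 0 0)) (.pos 35 .pp ⟨⟨132926964024, 0, 0, 0, 0, 0, 0, 0, 0, ⟨0, 0⟩,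 0⟩, 0, 0⟩ 0 0)) (.pos 36 .pp ⟨⟨216920088991, 0, 0, 0, 0, 0, 0, 0, 0, ⟨0, 0⟩, 0⟩, 0, 0⟩ 0 0)) (.pos 31 .pp ⟨⟨133701865651, 0, 0, 0, 0, 0, 0, 0, 0, ⟨0, 0⟩, 0⟩, 0, 0⟩ 0 0)) (.pos 32 .pp ⟨⟨220472860713, 0, 0, 0, 0, 0, 0, 0, 0, ⟨0, 0⟩, 0⟩, 0, 0⟩ 0 0)) (.pos 29 .pp ⟨⟨135422935928, 0, 0, 0, 0, 0, 0, 0, 0, ⟨0, 0⟩, 0⟩, 0, 0⟩ 0 0)) (.cut .d 451 (.pos 30 .pp ⟨⟨805887739016, 0, 0, 0, 0, 0, 0, 0, 0, ⟨0, 0⟩, 0⟩, 0, 0⟩ 0 0) (.pos 30 .pp ⟨⟨202301470106, 0, 0, 0, 0, 0, 0, 0, 0, ⟨0, 0⟩, 0⟩, 0, 0⟩ 0 0))) (.pos 27 .pp ⟨⟨181899947510, 0, 0, 0, 0, 0, 0, 0, 0, ⟨0, 0⟩, 0⟩, 0, 0⟩ 0 0)) (.pos 27 .pp ⟨⟨172090699747, 0, 0, 0, 0, 0, 0, 0, 0, ⟨0, 0⟩, 0⟩, 0, 0⟩ 0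 0)) (.pos 27 .pp ⟨⟨139036094618, 0, 0, 0, 0, 0, 0, 0, 0, ⟨0, 0⟩, 0⟩, 0, 0⟩ 0 0)) (.cut .d 902 (.pos 28 .pp ⟨⟨834827589487, 0, 0, 0, 0, 0, 0, 0, 0, ⟨0, 0⟩, 0⟩, 0, 0⟩ 0 0) (.pos 28 .pp ⟨⟨220035973827, 0, 0, 0, 0, 0, 0, 0, 0, ⟨0, 0⟩, 0⟩, 0, 0⟩ 0 0))) (.pos 25 .pp ⟨⟨146490382102, 0, 0, 0, 0, 0, 0, 0, 0, ⟨0, 0⟩, 0⟩, 0, 0⟩ 0 0)) (.cut .d 1804 (.pos 26 .pp ⟨⟨327237147443, 0, 0, 0, 0, 0, 0, 0, 0, ⟨0, 0⟩, 0⟩, 0, 0⟩ 0 0) (.cut .l 153791 (.cut .v 19922944 (.cut .s 16678912 (.pos 53 .pp ⟨⟨200233787301, 0, 0, 0, 0, 0, 0, 0, 0, ⟨0, 0⟩, 0⟩, 0, 0⟩ 0 0) (.pos 53 .pp ⟨⟨242533967515, 0, 0, 0, 0, 0, 0, 0, 0, ⟨0, 0⟩, 0⟩, 0, 0⟩ 0 0)) (.cut .s 16678912 (.pos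 54 .pp ⟨⟨238084642022, 0, 0, 0, 0, 0, 0, 0, 0, ⟨0, 0⟩, 0⟩, 0, 0⟩ 0 0) (.pos 54 .pp ⟨⟨299965752379, 0, 0, 0, 0, 0, 0, 0, 0, ⟨0, 0⟩, 0⟩, 0, 0⟩ 0 0))) (.pos 26 .pp ⟨⟨238193350794, 0, 0, 0, 0, 0, 0, 0, 0, ⟨0, 0⟩, 0⟩, 0, 0⟩ 0 0)))) (.cut .v 18874368 (.pos 25 .pp ⟨⟨0, 0, 0, 0, 0, 0, 0, 0, 0, ⟨0, 0⟩, 0⟩, 0, 0⟩ 0 0) (.cut .s 16678912 (.pos 26 .pp ⟨⟨182417239869, 0, 0, 0, 0, 0, 0, 0, 0, ⟨0, 0⟩, 0⟩, 0, 0⟩ 0 0) (.pos 26 .pp ⟨⟨222125725556, 0, 0, 0, 0, 0, 0, 0, 0, ⟨0, 0⟩, 0⟩, 0, 0⟩ 0 0)))) (.cut .d 3608 (.pos 24 .pp ⟨⟨7650056501, 0, 0, 0, 0, 0, 0, 0, 0, ⟨0, 0⟩, 0⟩, 49150522296, 0⟩ 0 0) (.cut .v 23068672 (.cut .d 5412 (.cut .s 16678912 (.pos 55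 .pp ⟨⟨0, 0, 0, 0, 0, 0, 0, 0, 0, ⟨0, 0⟩, 0⟩, 32003724637, 0⟩ 0 0) (.cut .v 22020096 (.pos 57 .pp ⟨⟨0, 0, 0, 0, 0, 0, 0, 0, 0, ⟨0, 0⟩, 0⟩, 35610525110, 0⟩ 0 0) (.pos 58 .pp ⟨⟨0, 0, 0, 0, 0, 0, 0, 0, 0, ⟨0, 0⟩, 0⟩, 43173052729, 0⟩ 0 0))) (.pos 55 .pp ⟨⟨0, 0, 0, 0, 0, 0, 0, 0, 0, ⟨0, 0⟩, 0⟩, 29060184976, 0⟩ 0 0)) (.cut .s 16678912 (.pos 56 .pp ⟨⟨0, 0, 0, 0, 0, 0, 0, 0, 0, ⟨0, 0⟩, 0⟩, 36721555019, 0⟩ 0 0) (.pos 56 .pp ⟨⟨0, 0, 0, 0, 0, 0, 0, 0, 0, ⟨0, 0⟩, 0⟩, 46230520534, 0⟩ 0 0))))) (.cut .v 20971520 (.pos 23 .pp ⟨⟨0, 0, 0, 0, 0, 0, 0, 0, 0, ⟨0, 0⟩, 0⟩, 0, 0⟩ 0 0) (.pos 24 .pp ⟨⟨0, 0, 0, 0, 0, 0, 0, 0, 0, ⟨0, 0⟩, 0⟩, 27652848524, 0⟩ 0 0)))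 (.cut .d 7217 (.pos 22 .pp ⟨⟨0, 0, 0, 0, 0, 0, 0, 0, 0, ⟨0, 0⟩, 0⟩, 62657214396, 0⟩ 0 0) (.cut .v 29360128 (.cut .v 27262976 (.pos 93 .pp ⟨⟨0, 0, 0, 0, 0, 0, 0, 0, 0, ⟨0, 0⟩, 0⟩, 36793172555, 0⟩ 0 0) (.pos 94 .pp ⟨⟨0, 0, 0, 0, 0, 0, 0, 0, 0, ⟨0, 0⟩, 0⟩, 45847996422, 0⟩ 0 0)) (.pos 92 .pp ⟨⟨0, 0, 0, 0, 0, 0, 0, 0, 0, ⟨0, 0⟩, 0⟩, 56286279669, 0⟩ 0 0)))) (.cut .v 25165824 (.pos 21 .pp ⟨⟨0, 0, 0, 0, 0, 0, 0, 0, 0, ⟨0, 0⟩, 0⟩, 0, 0⟩ 0 0) (.pos 22 .pp ⟨⟨0, 0, 0, 0, 0, 0, 0, 0, 0, ⟨0, 0⟩, 0⟩, 31998530057, 0⟩ 0 0))) (.pos 20 .pp ⟨⟨0, 0, 0, 0, 0, 0, 0, 0, 0, ⟨0, 0⟩, 0⟩, 0, 0⟩ 0 0)) (.cut .v 50331648 (.cut .d 28870 (.cut .d 14435 (.void 106 ⟨⟨0,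 0, 0, 0, 0, 0, 0, 0, 0, ⟨0, 0⟩, 0⟩, 100000, 0⟩ 0 0) (.cut .v 41943040 (.pos 108 .pp ⟨⟨0, 0, 0, 0, 0, 0, 0, 0, 0, ⟨0, 0⟩, 0⟩, 54839744501, 0⟩ 0 0) (.pos 109 .pp ⟨⟨0, 0, 0, 0, 0, 0, 0, 0, 0, ⟨0, 0⟩, 0⟩, 105501320137, 0⟩ 0 0))) (.pos 106 .pp ⟨⟨0, 0, 0, 0, 0, 0, 0, 0, 0, ⟨0, 0⟩, 0⟩, 41307434395, 0⟩ 0 0)) (.pos 107 .pp ⟨⟨0, 0, 0, 0, 0, 0, 0, 0, 0, ⟨0, 0⟩, 0⟩, 108448627058, 0⟩ 0 0))) (.pos 102 .pp ⟨⟨0, 0, 0, 0, 0, 0, 0, 0, 0, ⟨0, 0⟩, 0⟩, 17184224308, 0⟩ 0 0)) (.void 114 ⟨⟨0, 0, 0, 51747, 0, 0, 0, 0, 0, ⟨0, 0⟩, 0⟩, 48253, 0⟩ 0 0)) (.void 125 ⟨⟨0, 0, 0, 0, 0, 0, 0, 0, 0, ⟨0, 0⟩, 0⟩, 100000, 0⟩ 0 0)) (.void 134 ⟨⟨0, 0, 0, 0, 0, 0, 0, 0, 0, ⟨0,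 0⟩, 0⟩, 100000, 0⟩ 0 0)))),
    by decide +kernel⟩

def covers49 : cell.Covers Vale.Agent.P237.Petty.Cor.Grid.N12.table row49.1 :=
  ⟨(.cut .d 0 (.cut .v 16777216 (.cut .v 8388608 (.pos 2 .mm ⟨⟨0, 0, 1677721600000000, 0, 0, 0, 0, 0, 0, ⟨0, 0⟩, 0⟩, 0, 0⟩ 0 0) (.pos 3 .mm ⟨⟨0, 0, 0, 0, 0, 1706927460189, 0, 0, 0, ⟨0, 0⟩, 0⟩, 0, 0⟩ 0 0)) (.cut .d (-8388608) (.void 133 ⟨⟨132, 0, 0, 0, 0, 40009, 0, 59872, 0, ⟨(-1), 11203838⟩, 0⟩, 0, 0⟩ 0 128) (.cut .d (-4194304) (.void 133 ⟨⟨99999, 0, 0, 7, 0, 0, 0, 0, 0, ⟨0, 0⟩, 0⟩, 0, 0⟩ 0 0) (.cut .v 4294967296 (.cut .v 268435456 (.cut .v 67108864 (.cut .v 33554432 (.cut .v 25165824 (.pos 21 .mp ⟨⟨599887520700,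 0, 0, 0, 0, 398615936065, 0, 0, 0, ⟨0, 0⟩, 0⟩, 0, 0⟩ 0 0) (.void 22 ⟨⟨100000, 0, 0, 0, 0, 0, 0, 0, 0, ⟨0, 0⟩, 0⟩, 0, 0⟩ 0 0)) (.void 103 ⟨⟨100000, 0, 0, 0, 0, 0, 0, 0, 0, ⟨0, 0⟩, 0⟩, 0, 0⟩ 0 0)) (.void 114 ⟨⟨100000, 0, 0, 0, 0, 0, 0, 0, 0, ⟨0, 0⟩, 0⟩, 0, 0⟩ 0 0)) (.void 125 ⟨⟨100000, 0, 0, 0, 0, 0, 0, 0, 0, ⟨0, 0⟩, 0⟩, 0, 0⟩ 0 0)) (.void 134 ⟨⟨84780, 0, 0, 11405, 0, 0, 0, 0, 0, ⟨0, 0⟩, 0⟩, 0, 0⟩ 0 0))))) (.cut .v 16777216 (.cut .v 8388608 (.cut .d 41162 (.pos 2 .pm ⟨⟨0, 0, 217391943664, 0, 0, 0, 0, 0, 0, ⟨0, 0⟩, 0⟩, 0, 0⟩ 0 0) (.pos 2 .pm ⟨⟨0, 0, 20384488, 0, 0, 0, 0, 0, 0, ⟨0, 0⟩, 0⟩, 0, 0⟩ 0 0)) (.pos 3 .pm ⟨⟨0, 0, 0, 0, 0, 0, 0,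 0, 0, ⟨0, 0⟩, 0⟩, 0, 0⟩ 0 0)) (.cut .v 4294967296 (.cut .v 268435456 (.cut .v 67108864 (.cut .d 41162 (.cut .v 33554432 (.cut .d 20581 (.cut .v 25165824 (.cut .d 10290 (.cut .d 5145 (.cut .v 20971520 (.cut .d 2572 (.cut .v 18874368 (.cut .d 1286 (.cut .v 17825792 (.cut .d 643 (.cut .v 17301504 (.cut .s 16703488 (.pos 29 .pp ⟨⟨255564031706, 0, 0, 0, 0, 0, 0, 0, 0, ⟨0, 0⟩, 0⟩, 0, 0⟩ 0 0) (.cut .s 16707584 (.pos 29 .pp ⟨⟨290522855786, 0, 0, 0, 0, 0, 0, 0, 0, ⟨0, 0⟩, 0⟩, 0, 0⟩ 0 0) (.pos 29 .pp ⟨⟨317609651177, 0, 0, 0, 0, 0, 0, 0, 0, ⟨0, 0⟩, 0⟩, 0, 0⟩ 0 0))) (.pos 30 .pp ⟨⟨332690548497, 0, 0, 0, 0, 0, 0, 0, 0, ⟨0, 0⟩, 0⟩, 0, 0⟩ 0 0)) (.pos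 27 .pp ⟨⟨224374158433, 0, 0, 0, 0, 0, 0, 0, 0, ⟨0, 0⟩, 0⟩, 0, 0⟩ 0 0)) (.pos 28 .pp ⟨⟨358433016195, 0, 0, 0, 0, 0, 0, 0, 0, ⟨0, 0⟩, 0⟩, 0, 0⟩ 0 0)) (.pos 25 .pp ⟨⟨236513624531, 0, 0, 0, 0, 0, 0, 0, 0, ⟨0, 0⟩, 0⟩, 0, 0⟩ 0 0)) (.cut .v 19922944 (.cut .d 1286 (.pos 53 .pp ⟨⟨1271730102954, 0, 0, 0, 0, 0, 0, 0, 0, ⟨0, 0⟩, 0⟩, 0, 0⟩ 0 0) (.pos 53 .pp ⟨⟨345746445563, 0, 0, 0, 0, 0, 0, 0, 0, ⟨0, 0⟩, 0⟩, 0, 0⟩ 0 0)) (.pos 54 .pp ⟨⟨436312301492, 0, 0, 0, 0, 0, 0, 0, 0, ⟨0, 0⟩, 0⟩, 0, 0⟩ 0 0))) (.cut .v 18874368 (.pos 25 .pp ⟨⟨0, 0, 0, 0, 0, 0, 0, 0, 0, ⟨0, 0⟩, 0⟩, 0, 0⟩ 0 0) (.pos 26 .pp ⟨⟨303794135509, 0, 0, 0, 0, 0, 0, 0, 0, ⟨0, 0⟩, 0⟩, 0,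 0⟩ 0 0))) (.cut .d 2572 (.pos 24 .pp ⟨⟨1440363186104, 0, 0, 0, 0, 0, 0, 0, 0, ⟨0, 0⟩, 0⟩, 0, 0⟩ 0 0) (.cut .v 23068672 (.cut .v 22020096 (.cut .s 16703488 (.pos 57 .pp ⟨⟨0, 0, 0, 0, 0, 0, 0, 0, 0, ⟨0, 0⟩, 0⟩, 47792734080, 0⟩ 0 0) (.pos 57 .pp ⟨⟨0, 0, 0, 0, 0, 0, 0, 0, 0, ⟨0, 0⟩, 0⟩, 54841864106, 0⟩ 0 0)) (.pos 58 .pp ⟨⟨0, 0, 0, 0, 0, 0, 0, 0, 0, ⟨0, 0⟩, 0⟩, 57915801156, 0⟩ 0 0)) (.pos 56 .pp ⟨⟨0, 0, 0, 0, 0, 0, 0, 0, 0, ⟨0, 0⟩, 0⟩, 65991037076, 0⟩ 0 0)))) (.cut .v 20971520 (.pos 23 .pp ⟨⟨0, 0, 0, 0, 0, 0, 0, 0, 0, ⟨0, 0⟩, 0⟩, 0, 0⟩ 0 0) (.pos 24 .pp ⟨⟨0, 0, 0, 0, 0, 0, 0, 0, 0, ⟨0, 0⟩, 0⟩, 44072845048, 0⟩ 0 0))) (.pos 21 .pp ⟨⟨0, 0,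 0, 0, 0, 0, 0, 0, 0, ⟨0, 0⟩, 0⟩, 0, 0⟩ 0 0)) (.cut .d 10290 (.cut .d 5145 (.void 22 ⟨⟨0, 0, 0, 0, 0, 0, 0, 0, 0, ⟨0, 0⟩, 0⟩, 100000, 0⟩ 0 0) (.cut .v 29360128 (.pos 91 .pp ⟨⟨0, 0, 0, 0, 0, 0, 0, 0, 0, ⟨0, 0⟩, 0⟩, 63290183546, 0⟩ 0 0) (.pos 92 .pp ⟨⟨0, 0, 0, 0, 0, 0, 0, 0, 0, ⟨0, 0⟩, 0⟩, 108256057737, 0⟩ 0 0))) (.pos 22 .pp ⟨⟨0, 0, 0, 0, 0, 0, 0, 0, 0, ⟨0, 0⟩, 0⟩, 50304633188, 0⟩ 0 0))) (.pos 20 .pp ⟨⟨0, 0, 0, 0, 0, 0, 0, 0, 0, ⟨0, 0⟩, 0⟩, 0, 0⟩ 0 0)) (.cut .v 50331648 (.cut .d 20581 (.cut .d 10290 (.void 106 ⟨⟨0, 0, 0, 0, 0, 0, 0, 0, 0, ⟨0, 0⟩, 0⟩, 100000, 0⟩ 0 0) (.pos 106 .pp ⟨⟨0, 0, 0, 0, 0, 0, 0, 0, 0, ⟨0, 0⟩, 0⟩, 97362938087, 0⟩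 0 0)) (.pos 106 .pp ⟨⟨0, 0, 0, 0, 0, 0, 0, 0, 0, ⟨0, 0⟩, 0⟩, 64929517948, 0⟩ 0 0)) (.pos 107 .pp ⟨⟨0, 0, 0, 0, 0, 0, 0, 0, 0, ⟨0, 0⟩, 0⟩, 158296663945, 0⟩ 0 0))) (.pos 102 .pp ⟨⟨0, 0, 0, 0, 0, 0, 0, 0, 0, ⟨0, 0⟩, 0⟩, 28302110362, 0⟩ 0 0)) (.void 114 ⟨⟨0, 0, 0, 51768, 0, 0, 0, 0, 0, ⟨0, 0⟩, 0⟩, 48232, 0⟩ 0 0)) (.void 125 ⟨⟨0, 0, 0, 0, 0, 0, 0, 0, 0, ⟨0, 0⟩, 0⟩, 100000, 0⟩ 0 0)) (.void 134 ⟨⟨0, 0, 0, 0, 0, 0, 0, 0, 0, ⟨0, 0⟩, 0⟩, 100000, 0⟩ 0 0)))),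
    by decide +kernel⟩

def covers50 : cell.Covers Vale.Agent.P237.Petty.Cor.Grid.N12.table row50.1 :=
  ⟨(.cut .d 0 (.cut .v 16777216 (.cut .v 8388608 (.void 2 ⟨⟨0, 0, 100000, 0, 0, 0, 0, 0, 0, ⟨0, 0⟩, 0⟩, 0, 0⟩ 0 0) (.pos 3 .mm ⟨⟨0, 0, 0, 0, 0, 2439248641569, 0, 0, 0, ⟨0, 0⟩, 0⟩, 0, 0⟩ 0 0)) (.cut .v 4294967296 (.cut .v 268435456 (.cut .v 67108864 (.cut .v 33554432 (.cut .d (-8388608) (.void 20 ⟨⟨8999970289, 0, 0, 0, 0, 20121655965, 0, 0, 0, ⟨0, 0⟩, 0⟩, 0, 0⟩ 0 0) (.cut .v 25165824 (.cut .d (-4194304) (.void 21 ⟨⟨100000, 0, 0, 0, 0, 0, 0, 0, 0, ⟨0, 0⟩, 0⟩, 0, 0⟩ 0 0) (.cut .s 16719872 (.pos 21 .mp ⟨⟨741575159037, 0, 0, 0, 0, 446462500203,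 0, 0, 0, ⟨0, 0⟩, 0⟩, 0, 0⟩ 0 0) (.pos 21 .mp ⟨⟨933588778312, 0, 0, 0, 0, 524983539172, 0, 0, 0, ⟨0, 0⟩, 0⟩, 0, 0⟩ 0 0))) (.void 22 ⟨⟨100000, 0, 0, 0, 0, 0, 0, 0, 0, ⟨0, 0⟩, 0⟩, 0, 0⟩ 0 0))) (.void 103 ⟨⟨100000, 0, 0, 0, 0, 0, 0, 0, 0, ⟨0, 0⟩, 0⟩, 0, 0⟩ 0 0)) (.void 114 ⟨⟨100000, 0, 0, 0, 0, 0, 0, 0, 0, ⟨0, 0⟩, 0⟩, 0, 0⟩ 0 0)) (.pos 125 .mp ⟨⟨1605030113898549, 0, 0, 72691486101452, 0, 0, 0, 0, 0, ⟨0, 0⟩, 0⟩, 0, 0⟩ 0 0)) (.void 134 ⟨⟨85201, 0, 7424, 6926, 0, 0, 0, 826, 0, ⟨(-1), 5962322⟩, 0⟩, 0, 0⟩ 0 349))) (.cut .v 16777216 (.cut .v 8388608 (.cut .d 32898 (.pos 2 .pm ⟨⟨0, 0, 307419400954, 0, 0, 0, 0, 0, 0, ⟨0, 0⟩, 0⟩, 0, 0⟩ 0 0) (.pos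 2 .pm ⟨⟨0, 0, 20245414, 0, 0, 0, 0, 0, 0, ⟨0, 0⟩, 0⟩, 0, 0⟩ 0 0)) (.pos 3 .pm ⟨⟨0, 0, 0, 0, 0, 0, 0, 0, 0, ⟨0, 0⟩, 0⟩, 0, 0⟩ 0 0)) (.cut .v 4294967296 (.cut .v 268435456 (.cut .v 67108864 (.cut .d 32898 (.cut .v 33554432 (.cut .d 16449 (.cut .d 8224 (.cut .v 25165824 (.cut .d 4112 (.cut .v 20971520 (.cut .d 2056 (.cut .v 18874368 (.cut .d 1028 (.cut .l 153791 (.cut .v 17825792 (.cut .d 514 (.cut .v 17301504 (.cut .d 257 (.cut .v 17039360 (.cut .d 128 (.cut .v 16908288 (.cut .d 64 (.cut .v 16842752 (.cut .s 16719872 (.pos 43 .pp ⟨⟨355638398169, 0, 0, 0, 0, 0, 0, 0, 0, ⟨0, 0⟩, 0⟩, 0, 0⟩ 0 0) (.cut .s 16723968 (.pos 43 .pp ⟨⟨424244064289,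 0, 0, 0, 0, 0, 0, 0, 0, ⟨0, 0⟩, 0⟩, 0, 0⟩ 0 0) (.pos 43 .pp ⟨⟨476734710342, 0, 0, 0, 0, 0, 0, 0, 0, ⟨0, 0⟩, 0⟩, 0, 0⟩ 0 0))) (.pos 44 .pp ⟨⟨477729563814, 0, 0, 0, 0, 0, 0, 0, 0, ⟨0, 0⟩, 0⟩, 0, 0⟩ 0 0)) (.pos 35 .pp ⟨⟨303179647965, 0, 0, 0, 0, 0, 0, 0, 0, ⟨0, 0⟩, 0⟩, 0, 0⟩ 0 0)) (.pos 36 .pp ⟨⟨479408765746, 0, 0, 0, 0, 0, 0, 0, 0, ⟨0, 0⟩, 0⟩, 0, 0⟩ 0 0)) (.pos 31 .pp ⟨⟨305210662421, 0, 0, 0, 0, 0, 0, 0, 0, ⟨0, 0⟩, 0⟩, 0, 0⟩ 0 0)) (.pos 32 .pp ⟨⟨482145193202, 0, 0, 0, 0, 0, 0, 0, 0, ⟨0, 0⟩, 0⟩, 0, 0⟩ 0 0)) (.pos 29 .pp ⟨⟨309069165710, 0, 0, 0, 0, 0, 0, 0, 0, ⟨0, 0⟩, 0⟩, 0, 0⟩ 0 0)) (.pos 30 .pp ⟨⟨500757541390, 0, 0, 0, 0, 0, 0, 0, 0,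 ⟨0, 0⟩, 0⟩, 0, 0⟩ 0 0)) (.pos 27 .pp ⟨⟨317332901110, 0, 0, 0, 0, 0, 0, 0, 0, ⟨0, 0⟩, 0⟩, 0, 0⟩ 0 0)) (.cut .s 16719872 (.pos 28 .pp ⟨⟨449976319966, 0, 0, 0, 0, 0, 0, 0, 0, ⟨0, 0⟩, 0⟩, 0, 0⟩ 0 0) (.pos 28 .pp ⟨⟨554330790963, 0, 0, 0, 0, 0, 0, 0, 0, ⟨0, 0⟩, 0⟩, 0, 0⟩ 0 0))) (.pos 25 .pp ⟨⟨427434514429, 0, 0, 0, 0, 0, 0, 0, 0, ⟨0, 0⟩, 0⟩, 0, 0⟩ 0 0)) (.pos 25 .pp ⟨⟨334379026427, 0, 0, 0, 0, 0, 0, 0, 0, ⟨0, 0⟩, 0⟩, 0, 0⟩ 0 0)) (.cut .d 1028 (.pos 26 .pp ⟨⟨1997657727377, 0, 0, 0, 0, 0, 0, 0, 0, ⟨0, 0⟩, 0⟩, 0, 0⟩ 0 0) (.cut .v 19922944 (.pos 53 .pp ⟨⟨495846679595, 0, 0, 0, 0, 0, 0, 0, 0, ⟨0, 0⟩, 0⟩, 0, 0⟩ 0 0) (.pos 54 .pp ⟨⟨629978381250,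 0, 0, 0, 0, 0, 0, 0, 0, ⟨0, 0⟩, 0⟩, 0, 0⟩ 0 0)))) (.cut .v 18874368 (.pos 25 .pp ⟨⟨0, 0, 0, 0, 0, 0, 0, 0, 0, ⟨0, 0⟩, 0⟩, 0, 0⟩ 0 0) (.cut .s 16719872 (.pos 26 .pp ⟨⟨420554605126, 0, 0, 0, 0, 0, 0, 0, 0, ⟨0, 0⟩, 0⟩, 0, 0⟩ 0 0) (.pos 26 .pp ⟨⟨499798272956, 0, 0, 0, 0, 0, 0, 0, 0, ⟨0, 0⟩, 0⟩, 0, 0⟩ 0 0)))) (.cut .d 2056 (.pos 24 .pp ⟨⟨394468676903, 0, 0, 0, 0, 0, 0, 0, 0, ⟨0, 0⟩, 0⟩, 61409863977, 0⟩ 0 0) (.cut .v 23068672 (.cut .d 3084 (.cut .v 22020096 (.pos 57 .pp ⟨⟨0, 0, 0, 0, 0, 0, 0, 0, 0, ⟨0, 0⟩, 0⟩, 74707701357, 0⟩ 0 0) (.pos 58 .pp ⟨⟨0, 0, 0, 0, 0, 0, 0, 0, 0, ⟨0, 0⟩, 0⟩, 88721883486, 0⟩ 0 0)) (.pos 55 .pp ⟨⟨0, 0, 0, 0, 0, 0,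 0, 0, 0, ⟨0, 0⟩, 0⟩, 65688271341, 0⟩ 0 0)) (.pos 56 .pp ⟨⟨0, 0, 0, 0, 0, 0, 0, 0, 0, ⟨0, 0⟩, 0⟩, 97324547187, 0⟩ 0 0)))) (.cut .v 20971520 (.pos 23 .pp ⟨⟨0, 0, 0, 0, 0, 0, 0, 0, 0, ⟨0, 0⟩, 0⟩, 0, 0⟩ 0 0) (.pos 24 .pp ⟨⟨0, 0, 0, 0, 0, 0, 0, 0, 0, ⟨0, 0⟩, 0⟩, 63208475033, 0⟩ 0 0))) (.cut .d 4112 (.pos 22 .pp ⟨⟨0, 0, 0, 0, 0, 0, 0, 0, 0, ⟨0, 0⟩, 0⟩, 316541194406, 0⟩ 0 0) (.cut .v 29360128 (.pos 91 .pp ⟨⟨0, 0, 0, 0, 0, 0, 0, 0, 0, ⟨0, 0⟩, 0⟩, 90924840876, 0⟩ 0 0) (.pos 92 .pp ⟨⟨0, 0, 0, 0, 0, 0, 0, 0, 0, ⟨0, 0⟩, 0⟩, 125396927364, 0⟩ 0 0)))) (.cut .v 25165824 (.pos 21 .pp ⟨⟨0, 0, 0, 0, 0, 0, 0, 0, 0, ⟨0, 0⟩, 0⟩, 0, 0⟩ 0 0) (.pos 22 .pp ⟨⟨0,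 0, 0, 0, 0, 0, 0, 0, 0, ⟨0, 0⟩, 0⟩, 72119958670, 0⟩ 0 0))) (.pos 20 .pp ⟨⟨0, 0, 0, 0, 0, 0, 0, 0, 0, ⟨0, 0⟩, 0⟩, 0, 0⟩ 0 0)) (.cut .v 50331648 (.cut .d 16449 (.cut .d 8224 (.void 106 ⟨⟨0, 0, 0, 0, 0, 0, 0, 0, 0, ⟨0, 0⟩, 0⟩, 100000, 0⟩ 0 0) (.pos 106 .pp ⟨⟨0, 0, 0, 0, 0, 0, 0, 0, 0, ⟨0, 0⟩, 0⟩, 144147886564, 0⟩ 0 0)) (.pos 106 .pp ⟨⟨0, 0, 0, 0, 0, 0, 0, 0, 0, ⟨0, 0⟩, 0⟩, 93257945241, 0⟩ 0 0)) (.pos 107 .pp ⟨⟨0, 0, 0, 0, 0, 0, 0, 0, 0, ⟨0, 0⟩, 0⟩, 237930909208, 0⟩ 0 0))) (.pos 102 .pp ⟨⟨0, 0, 0, 0, 0, 0, 0, 0, 0, ⟨0, 0⟩, 0⟩, 39897040316, 0⟩ 0 0)) (.void 114 ⟨⟨0, 0, 0, 51796, 0, 0, 0, 0, 0, ⟨0, 0⟩, 0⟩, 48222, 0⟩ 0 0)) (.void 125 ⟨⟨0, 0,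 0, 0, 0, 0, 0, 0, 0, ⟨0, 0⟩, 0⟩, 100000, 0⟩ 0 0)) (.void 134 ⟨⟨0, 0, 0, 0, 0, 0, 0, 0, 0, ⟨0, 0⟩, 0⟩, 100000, 0⟩ 0 0)))),
    by decide +kernel⟩

end Vale.Agent.P237.Petty.Cor.Grid.Tiny.N12
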