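import Vale.Agent.P237.Petty.Cor.Grid.Tiny.N12.Cert

/-!
# P237: a cell down to zero in dimension 12, subdivisions
-/

namespace Vale.Agent.P237.Petty.Cor.Grid.Tiny.N12

def covers0 : cell.Covers Vale.Agent.P237.Petty.Cor.Grid.N12.table row0.1 :=
  ⟨(.cut .d 0 (.cut .v 16777216 (.cut .v 8388608 (.cut .v 4194304 (.pos 4 .mm ⟨⟨0, 0, 24888561, 0, 0, 0, 0, 0, 0, ⟨0, 0⟩, 0⟩, 0, 0⟩ 0 0) (.pos 5 .mm ⟨⟨0, 0, 0, 0, 0, 0, 0, 0, 0, ⟨0, 0⟩, 0⟩, 0, 0⟩ 0 0)) (.cut .v 12582912 (.cut .d (-8388608) (.pos 6 .mm ⟨⟨0, 0, 0, 0, 0, 0, 0, 0, 0, ⟨0, 0⟩, 0⟩, 0, 0⟩ 0 0) (.cut .d (-4194304) (.cut .d (-6291456) (.pos 6 .mm ⟨⟨0, 0, 0, 0, 0, 0, 0, 0, 0, ⟨0, 0⟩,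 0⟩, 0, 0⟩ 0 0) (.pos 6 .mm ⟨⟨0, 0, 0, 0, 0, 0, 0, 0, 0, ⟨0, 0⟩, 0⟩, 0, 0⟩ 0 0)) (.pos 6 .mm ⟨⟨0, 0, 0, 0, 0, 0, 0, 0, 0, ⟨0, 0⟩, 0⟩, 0, 0⟩ 0 0))) (.cut .d (-8388608) (.pos 7 .mm ⟨⟨0, 0, 0, 0, 0, 0, 0, 0, 0, ⟨0, 0⟩, 0⟩, 0, 0⟩ 0 0) (.cut .d (-4194304) (.cut .v 14680064 (.cut .v 13631488 (.pos 12 .mm ⟨⟨0, 0, 0, 0, 0, 0, 0, 0, 0, ⟨0, 0⟩, 0⟩, 0, 0⟩ 0 0) (.pos 13 .mm ⟨⟨0, 0, 0, 0, 0, 0, 0, 0, 0, ⟨0, 0⟩, 0⟩, 0, 0⟩ 0 0)) (.pos 11 .mm ⟨⟨0, 0, 0, 0, 0, 0, 0, 0, 0, ⟨0, 0⟩, 0⟩, 0, 0⟩ 0 0)) (.cut .v 14680064 (.cut .d (-2097152) (.cut .s 851968 (.cut .v 13631488 (.cut .d (-3145728) (.pos 12 .mm ⟨⟨0, 0, 0, 0, 0, 0, 0, 0, 0, ⟨0, 0⟩, 0⟩, 0, 0⟩ 0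 0) (.pos 12 .mm ⟨⟨0, 0, 0, 0, 0, 0, 0, 0, 0, ⟨0, 0⟩, 0⟩, 0, 0⟩ 0 0)) (.cut .d (-3145728) (.pos 13 .mm ⟨⟨0, 0, 0, 0, 0, 0, 0, 0, 0, ⟨0, 0⟩, 0⟩, 0, 0⟩ 0 0) (.cut .d (-2621440) (.pos 13 .mm ⟨⟨0, 0, 0, 0, 0, 0, 0, 0, 0, ⟨0, 0⟩, 0⟩, 0, 0⟩ 0 0) (.pos 13 .mm ⟨⟨0, 0, 0, 0, 0, 0, 0, 0, 0, ⟨0, 0⟩, 0⟩, 0, 0⟩ 0 0)))) (.void 10 ⟨⟨0, 0, 0, 0, 0, 100000, 0, 0, 0, ⟨0, 0⟩, 0⟩, 0, 0⟩ 0 0)) (.pos 10 .mm ⟨⟨0, 0, 0, 0, 0, 0, 0, 0, 0, ⟨0, 0⟩, 0⟩, 0, 0⟩ 0 0)) (.cut .d (-2097152) (.pos 11 .mm ⟨⟨0, 0, 0, 0, 0, 0, 0, 0, 0, ⟨0, 0⟩, 0⟩, 0, 0⟩ 0 0) (.cut .d (-1048576) (.cut .v 15728640 (.pos 18 .mm ⟨⟨0, 0, 0, 0, 0, 0, 0, 0, 0, ⟨0, 0⟩, 0⟩, 0, 0⟩ 0 0) (.pos 19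 .mm ⟨⟨0, 0, 0, 0, 0, 0, 0, 0, 0, ⟨0, 0⟩, 0⟩, 0, 0⟩ 0 0)) (.pos 11 .mm ⟨⟨0, 0, 0, 0, 0, 517741, 0, 0, 0, ⟨0, 0⟩, 0⟩, 0, 0⟩ 0 0)))))))) (.cut .v 25165824 (.cut .v 20971520 (.cut .v 18874368 (.pos 25 .mp ⟨⟨1151431, 0, 0, 0, 0, 23389, 9047, 0, 0, ⟨0, 0⟩, 0⟩, 0, 0⟩ 0 0) (.void 26 ⟨⟨0, 0, 0, 0, 0, 0, 100000, 0, 0, ⟨0, 0⟩, 0⟩, 0, 0⟩ 0 0)) (.void 24 ⟨⟨0, 0, 0, 0, 0, 0, 100000, 0, 0, ⟨0, 0⟩, 0⟩, 0, 0⟩ 0 0)) (.void 22 ⟨⟨0, 0, 0, 0, 0, 0, 100000, 0, 0, ⟨0, 0⟩, 0⟩, 0, 0⟩ 0 0))) (.cut .v 16777216 (.cut .v 8388608 (.cut .v 4194304 (.pos 4 .pm ⟨⟨0, 0, 25181117, 0, 0, 0, 0, 0, 0, ⟨0, 0⟩, 0⟩, 0, 0⟩ 0 0) (.pos 5 .pm ⟨⟨0, 0, 0, 0, 667738, 0, 0, 0,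 0, ⟨0, 0⟩, 0⟩, 0, 0⟩ 0 0)) (.cut .v 12582912 (.pos 6 .pm ⟨⟨0, 0, 0, 0, 575518, 0, 0, 0, 0, ⟨0, 0⟩, 0⟩, 0, 0⟩ 0 0) (.pos 7 .pm ⟨⟨0, 0, 0, 0, 0, 0, 0, 0, 0, ⟨0, 0⟩, 0⟩, 0, 930302⟩ 0 0))) (.cut .v 25165824 (.cut .v 20971520 (.cut .v 18874368 (.cut .v 17825792 (.cut .v 17301504 (.cut .d 330423 (.cut .s 851968 (.pos 29 .pp ⟨⟨111936, 0, 0, 0, 0, 0, 634306, 0, 0, ⟨0, 0⟩, 0⟩, 0, 421937⟩ 0 0) (.cut .s 1277952 (.pos 29 .pp ⟨⟨1217065, 0, 0, 0, 0, 0, 0, 0, 0, ⟨0, 0⟩, 0⟩, 0, 476563⟩ 0 0) (.cut .s 1490944 (.pos 29 .pp ⟨⟨1134294, 0, 0, 0, 0, 0, 0, 0, 0, ⟨0, 0⟩, 0⟩, 0, 487671⟩ 0 0) (.pos 29 .pp ⟨⟨1090004, 0, 0, 0, 0, 0, 0, 0, 0, ⟨0, 0⟩, 0⟩, 0,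 469017⟩ 0 0)))) (.pos 29 .pp ⟨⟨667824, 0, 0, 0, 0, 0, 463802, 0, 0, ⟨0, 0⟩, 0⟩, 0, 12350810⟩ 0 0)) (.void 30 ⟨⟨90616, 0, 0, 0, 0, 0, 0, 0, 0, ⟨0, 0⟩, 0⟩, 0, 9384⟩ 0 0)) (.void 28 ⟨⟨0, 0, 0, 0, 0, 0, 100000, 0, 0, ⟨0, 0⟩, 0⟩, 0, 0⟩ 0 0)) (.void 26 ⟨⟨0, 0, 0, 0, 0, 0, 0, 0, 0, ⟨0, 0⟩, 0⟩, 100000, 0⟩ 0 0)) (.void 24 ⟨⟨0, 0, 0, 0, 0, 0, 0, 0, 0, ⟨0, 0⟩, 0⟩, 100000, 0⟩ 0 0)) (.void 22 ⟨⟨0, 0, 0, 0, 0, 0, 0, 0, 0, ⟨0, 0⟩, 0⟩, 100000, 0⟩ 0 0)))),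
    by decide +kernel⟩

def covers1 : cell.Covers Vale.Agent.P237.Petty.Cor.Grid.N12.table row1.1 :=
  ⟨(.cut .d 0 (.cut .v 16777216 (.cut .v 8388608 (.void 2 ⟨⟨0, 0, 0, 0, 50000, 50000, 0, 0, 0, ⟨0, 0⟩, 0⟩, 0, 0⟩ 0 0) (.cut .v 12582912 (.void 6 ⟨⟨0, 0, 0, 0, 50000, 50000, 0, 0, 0, ⟨0, 0⟩, 0⟩, 0, 0⟩ 0 0) (.cut .v 14680064 (.pos 10 .mm ⟨⟨0, 0, 0, 0, 664049, 21592307, 0, 0, 9644743, ⟨0, 0⟩, 15100357⟩, 0, 0⟩ 0 0) (.cut .v 15728640 (.pos 18 .mm ⟨⟨0, 0, 0, 0, 0, 3140490, 0, 0, 0, ⟨0, 0⟩, 0⟩, 0, 0⟩ 0 0) (.cut .v 16252928 (.pos 33 .mm ⟨⟨0, 0, 0, 0, 0, 1465926, 0, 0, 0, ⟨0, 0⟩, 0⟩, 0, 0⟩ 0 0) (.pos 34 .mm ⟨⟨0, 0, 0, 0, 0, 432812, 0, 0,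 0, ⟨0, 0⟩, 0⟩, 0, 0⟩ 0 0)))))) (.cut .v 25165824 (.cut .v 20971520 (.cut .v 18874368 (.pos 25 .mp ⟨⟨1130785, 0, 0, 0, 0, 0, 0, 0, 0, ⟨0, 0⟩, 0⟩, 0, 0⟩ 0 0) (.void 26 ⟨⟨0, 0, 0, 0, 0, 0, 100000, 0, 0, ⟨0, 0⟩, 0⟩, 0, 0⟩ 0 0)) (.void 24 ⟨⟨0, 0, 0, 0, 0, 0, 100000, 0, 0, ⟨0, 0⟩, 0⟩, 0, 0⟩ 0 0)) (.void 22 ⟨⟨0, 0, 0, 0, 0, 0, 100000, 0, 0, ⟨0, 0⟩, 0⟩, 0, 0⟩ 0 0))) (.cut .v 16777216 (.cut .v 8388608 (.void 2 ⟨⟨0, 0, 0, 0, 100000, 0, 0, 0, 0, ⟨0, 0⟩, 0⟩, 0, 0⟩ 0 0) (.cut .v 12582912 (.void 6 ⟨⟨0, 0, 0, 0, 100000, 0, 0, 0, 0, ⟨0, 0⟩, 0⟩, 0, 0⟩ 0 0) (.cut .v 14680064 (.void 10 ⟨⟨0, 0, 0, 0, 0, 0, 0, 0, 100000, ⟨0, 0⟩, 15100357⟩, 0, 0⟩ 0 0)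 (.pos 11 .pm ⟨⟨0, 0, 0, 0, 0, 0, 0, 0, 0, ⟨0, 0⟩, 0⟩, 0, 570044⟩ 0 0)))) (.cut .v 25165824 (.cut .v 20971520 (.cut .v 18874368 (.cut .d 691553 (.cut .v 17825792 (.cut .v 17301504 (.cut .d 345776 (.cut .v 17039360 (.cut .l 153791 (.cut .d 172888 (.cut .s 2359296 (.pos 31 .pp ⟨⟨881669, 0, 0, 0, 0, 0, 0, 0, 0, ⟨0, 0⟩, 0⟩, 0, 523235⟩ 0 0) (.pos 31 .pp ⟨⟨737696, 0, 0, 0, 0, 0, 0, 0, 0, ⟨0, 0⟩, 0⟩, 0, 497429⟩ 0 0)) (.pos 31 .pp ⟨⟨549983, 0, 0, 0, 0, 0, 0, 0, 0, ⟨0, 0⟩, 0⟩, 0, 2840681⟩ 0 0)) (.pos 31 .pp ⟨⟨756952, 0, 0, 0, 0, 0, 0, 0, 0, ⟨0, 0⟩, 0⟩, 0, 489977⟩ 0 0)) (.pos 32 .pp ⟨⟨940424, 0, 0, 0, 0, 0, 0, 0, 0, ⟨0, 0⟩, 0⟩, 0, 588721⟩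 0 0)) (.pos 29 .pp ⟨⟨647735, 0, 0, 0, 0, 0, 0, 0, 0, ⟨0, 0⟩, 0⟩, 0, 3011378⟩ 0 0)) (.void 30 ⟨⟨84503, 0, 0, 0, 0, 0, 0, 0, 0, ⟨0, 0⟩, 0⟩, 0, 15497⟩ 0 0)) (.void 28 ⟨⟨0, 0, 0, 0, 0, 0, 100000, 0, 0, ⟨0, 0⟩, 0⟩, 0, 0⟩ 0 0)) (.void 25 ⟨⟨0, 0, 0, 0, 0, 0, 721, 0, 0, ⟨0, 0⟩, 0⟩, 0, 99279⟩ 0 0)) (.void 26 ⟨⟨0, 0, 0, 0, 0, 0, 100000, 0, 0, ⟨0, 0⟩, 0⟩, 0, 0⟩ 0 0)) (.void 24 ⟨⟨0, 0, 0, 0, 0, 0, 0, 0, 0, ⟨0, 0⟩, 0⟩, 100000, 0⟩ 0 0)) (.void 22 ⟨⟨0, 0, 0, 0, 0, 0, 0, 0, 0, ⟨0, 0⟩, 0⟩, 100000, 0⟩ 0 0)))),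
    by decide +kernel⟩

def covers2 : cell.Covers Vale.Agent.P237.Petty.Cor.Grid.N12.table row2.1 :=
  ⟨(.cut .d 0 (.cut .v 16777216 (.cut .v 8388608 (.void 2 ⟨⟨0, 0, 0, 0, 50000, 50000, 0, 0, 0, ⟨0, 0⟩, 0⟩, 0, 0⟩ 0 0) (.cut .v 12582912 (.void 6 ⟨⟨0, 0, 0, 0, 3298, 60288, 0, 0, 36413, ⟨0, 0⟩, 13128881⟩, 0, 0⟩ 0 0) (.cut .d (-8388608) (.void 7 ⟨⟨0, 0, 0, 0, 0, 100000, 0, 0, 0, ⟨0, 0⟩, 0⟩, 0, 0⟩ 0 0) (.cut .d (-4194304) (.void 7 ⟨⟨0, 0, 0, 0, 0, 100000, 0, 0, 0, ⟨0, 0⟩, 0⟩, 0, 0⟩ 0 0) (.cut .v 14680064 (.pos 10 .mm ⟨⟨0, 0, 0, 0, 0, 1886112, 0, 0, 0, ⟨0, 0⟩, 0⟩, 0, 0⟩ 0 0) (.cut .d (-2097152) (.void 11 ⟨⟨0, 0, 0, 0, 0, 100000, 0, 0,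 0, ⟨0, 0⟩, 0⟩, 0, 0⟩ 0 0) (.pos 11 .mm ⟨⟨0, 0, 0, 0, 0, 978719, 0, 0, 0, ⟨0, 0⟩, 0⟩, 0, 0⟩ 0 0))))))) (.cut .v 25165824 (.cut .d (-8388608) (.void 21 ⟨⟨0, 0, 0, 0, 0, 100000, 0, 0, 0, ⟨0, 0⟩, 0⟩, 0, 0⟩ 0 0) (.cut .v 20971520 (.cut .d (-4194304) (.void 23 ⟨⟨0, 0, 0, 0, 0, 100000, 0, 0, 0, ⟨0, 0⟩, 0⟩, 0, 0⟩ 0 0) (.cut .d (-2097152) (.void 23 ⟨⟨0, 0, 0, 0, 0, 100000, 0, 0, 0, ⟨0, 0⟩, 0⟩, 0, 0⟩ 0 0) (.cut .v 18874368 (.pos 25 .mp ⟨⟨895479, 0, 0, 0, 0, 556417, 0, 0, 0, ⟨0, 0⟩, 0⟩, 0, 0⟩ 0 0) (.void 26 ⟨⟨100000, 0, 0, 0, 0, 0, 0, 0, 0, ⟨0, 0⟩, 0⟩, 0, 0⟩ 0 0)))) (.void 24 ⟨⟨0, 0, 0, 0, 0, 0, 100000, 0, 0, ⟨0, 0⟩, 0⟩, 0, 0⟩ 0 0))) (.void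 22 ⟨⟨0, 0, 0, 0, 0, 0, 100000, 0, 0, ⟨0, 0⟩, 0⟩, 0, 0⟩ 0 0))) (.cut .v 16777216 (.cut .v 8388608 (.void 2 ⟨⟨0, 0, 0, 0, 100000, 0, 0, 0, 0, ⟨0, 0⟩, 0⟩, 0, 0⟩ 0 0) (.cut .v 12582912 (.void 6 ⟨⟨0, 0, 0, 0, 0, 0, 0, 0, 100000, ⟨0, 0⟩, 13128881⟩, 0, 0⟩ 0 0) (.cut .v 14680064 (.void 10 ⟨⟨0, 0, 0, 0, 0, 0, 0, 0, 100000, ⟨0, 0⟩, 15100357⟩, 0, 0⟩ 0 0) (.cut .d 1037280 (.cut .d 518640 (.pos 11 .pm ⟨⟨0, 0, 0, 0, 0, 0, 0, 0, 0, ⟨0, 0⟩, 0⟩, 0, 459484⟩ 0 0) (.void 11 ⟨⟨0, 0, 0, 0, 0, 0, 0, 0, 0, ⟨0, 0⟩, 0⟩, 0, 100000⟩ 0 0)) (.void 11 ⟨⟨0, 0, 0, 0, 0, 0, 0, 0, 0, ⟨0, 0⟩, 0⟩, 0, 100000⟩ 0 0))))) (.cut .v 25165824 (.cut .v 20971520 (.cut .v 18874368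 (.cut .d 1037280 (.cut .v 17825792 (.cut .d 518640 (.cut .v 17301504 (.cut .d 259320 (.cut .v 17039360 (.cut .l 153791 (.cut .d 129660 (.cut .s 3407872 (.pos 31 .pp ⟨⟨510399, 0, 0, 0, 0, 0, 0, 0, 0, ⟨0, 0⟩, 0⟩, 0, 456135⟩ 0 0) (.pos 31 .pp ⟨⟨369150, 0, 0, 0, 0, 0, 0, 0, 0, ⟨0, 0⟩, 0⟩, 0, 400531⟩ 0 0)) (.pos 31 .pp ⟨⟨266291, 0, 0, 0, 0, 0, 0, 0, 0, ⟨0, 0⟩, 0⟩, 0, 674691⟩ 0 0)) (.pos 31 .pp ⟨⟨185702, 0, 0, 0, 0, 0, 0, 0, 0, ⟨0, 0⟩, 0⟩, 0, 403396⟩ 0 0)) (.pos 32 .pp ⟨⟨648997, 0, 0, 0, 0, 0, 0, 112662, 0, ⟨465404, 13236066⟩, 0⟩, 0, 393579⟩ 46 59)) (.cut .s 3407872 (.pos 29 .pp ⟨⟨368501, 0, 0, 0, 0, 0, 0, 0, 0, ⟨0, 0⟩, 0⟩, 0, 656189⟩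 0 0) (.pos 29 .pp ⟨⟨250434, 0, 0, 0, 0, 0, 0, 0, 0, ⟨0, 0⟩, 0⟩, 0, 564350⟩ 0 0))) (.pos 30 .pp ⟨⟨970448, 0, 0, 0, 0, 0, 0, 0, 0, ⟨0, 0⟩, 0⟩, 0, 605587⟩ 0 0)) (.void 27 ⟨⟨0, 0, 0, 0, 0, 0, 1669, 0, 0, ⟨0, 0⟩, 0⟩, 0, 98331⟩ 0 0)) (.void 28 ⟨⟨81066, 0, 0, 0, 0, 0, 0, 0, 0, ⟨0, 0⟩, 0⟩, 0, 18934⟩ 0 0)) (.void 25 ⟨⟨0, 0, 0, 0, 0, 0, 1669, 0, 0, ⟨0, 0⟩, 0⟩, 0, 98331⟩ 0 0)) (.void 26 ⟨⟨0, 0, 0, 0, 0, 0, 100000, 0, 0, ⟨0, 0⟩, 0⟩, 0, 0⟩ 0 0)) (.void 24 ⟨⟨0, 0, 0, 0, 0, 0, 0, 0, 0, ⟨0, 0⟩, 0⟩, 21370, 78630⟩ 0 0)) (.void 22 ⟨⟨0, 0, 0, 0, 0, 0, 0, 0, 0, ⟨0, 0⟩, 0⟩, 100000, 0⟩ 0 0)))),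
    by decide +kernel⟩

def covers3 : cell.Covers Vale.Agent.P237.Petty.Cor.Grid.N12.table row3.1 :=
  ⟨(.cut .d 0 (.cut .v 16777216 (.cut .v 8388608 (.void 2 ⟨⟨0, 0, 0, 0, 50000, 50000, 0, 0, 0, ⟨0, 0⟩, 0⟩, 0, 0⟩ 0 0) (.cut .v 12582912 (.void 6 ⟨⟨0, 0, 0, 0, 0, 61015, 0, 0, 38985, ⟨0, 0⟩, 13128881⟩, 0, 0⟩ 0 0) (.cut .d (-8388608) (.void 7 ⟨⟨0, 0, 0, 0, 0, 100000, 0, 0, 0, ⟨0, 0⟩, 0⟩, 0, 0⟩ 0 0) (.cut .d (-4194304) (.void 7 ⟨⟨0, 0, 0, 0, 0, 100000, 0, 0, 0, ⟨0, 0⟩, 0⟩, 0, 0⟩ 0 0) (.cut .d (-2097152) (.void 7 ⟨⟨0, 0, 0, 0, 0, 100000, 0, 0, 0, ⟨0, 0⟩, 0⟩, 0, 0⟩ 0 0) (.cut .v 14680064 (.pos 10 .mm ⟨⟨0, 0, 0, 0, 0, 2043573, 0, 0, 0,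 ⟨0, 0⟩, 0⟩, 0, 0⟩ 0 0) (.cut .d (-1048576) (.void 11 ⟨⟨0, 0, 0, 0, 0, 100000, 0, 0, 0, ⟨0, 0⟩, 0⟩, 0, 0⟩ 0 0) (.cut .s 4161536 (.pos 11 .mm ⟨⟨0, 0, 0, 0, 0, 883865, 0, 0, 0, ⟨0, 0⟩, 0⟩, 0, 0⟩ 0 0) (.cut .d (-524288) (.void 11 ⟨⟨0, 0, 0, 0, 0, 100000, 0, 0, 0, ⟨0, 0⟩, 0⟩, 0, 0⟩ 0 0) (.cut .v 15728640 (.pos 18 .mm ⟨⟨0, 0, 0, 0, 0, 556182, 0, 0, 0, ⟨0, 0⟩, 0⟩, 0, 0⟩ 0 0) (.pos 19 .mm ⟨⟨0, 0, 0, 0, 0, 903251, 0, 0, 0, ⟨0, 0⟩, 0⟩, 0, 0⟩ 0 0))))))))))) (.cut .v 25165824 (.cut .d (-8388608) (.void 21 ⟨⟨0, 0, 0, 0, 0, 100000, 0, 0, 0, ⟨0, 0⟩, 0⟩, 0, 0⟩ 0 0) (.cut .d (-4194304) (.void 21 ⟨⟨0, 0, 0, 0, 0, 100000, 0, 0, 0, ⟨0, 0⟩, 0⟩, 0, 0⟩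 0 0) (.cut .v 20971520 (.cut .d (-2097152) (.void 23 ⟨⟨0, 0, 0, 0, 0, 100000, 0, 0, 0, ⟨0, 0⟩, 0⟩, 0, 0⟩ 0 0) (.cut .d (-1048576) (.void 23 ⟨⟨0, 0, 0, 0, 0, 100000, 0, 0, 0, ⟨0, 0⟩, 0⟩, 0, 0⟩ 0 0) (.cut .d (-524288) (.void 23 ⟨⟨0, 0, 0, 0, 0, 100000, 0, 0, 0, ⟨0, 0⟩, 0⟩, 0, 0⟩ 0 0) (.cut .v 18874368 (.cut .d (-262144) (.pos 25 .mp ⟨⟨726873, 0, 0, 0, 0, 4168305, 0, 0, 0, ⟨0, 0⟩, 0⟩, 0, 0⟩ 0 0) (.pos 25 .mp ⟨⟨751596, 0, 0, 0, 0, 230246, 0, 0, 0, ⟨0, 0⟩, 0⟩, 0, 0⟩ 0 0)) (.void 26 ⟨⟨100000, 0, 0, 0, 0, 0, 0, 0, 0, ⟨0, 0⟩, 0⟩, 0, 0⟩ 0 0))))) (.void 24 ⟨⟨0, 0, 0, 0, 0, 0, 100000, 0, 0, ⟨0, 0⟩, 0⟩, 0, 0⟩ 0 0)))) (.void 22 ⟨⟨0, 0, 0, 0,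 0, 0, 100000, 0, 0, ⟨0, 0⟩, 0⟩, 0, 0⟩ 0 0))) (.cut .v 16777216 (.cut .v 8388608 (.void 2 ⟨⟨0, 0, 0, 0, 100000, 0, 0, 0, 0, ⟨0, 0⟩, 0⟩, 0, 0⟩ 0 0) (.cut .v 12582912 (.void 6 ⟨⟨0, 0, 0, 0, 0, 0, 0, 0, 100000, ⟨0, 0⟩, 13128881⟩, 0, 0⟩ 0 0) (.cut .d 1401339 (.cut .v 14680064 (.pos 10 .pm ⟨⟨0, 0, 0, 0, 0, 0, 0, 0, 1008527, ⟨0, 0⟩, 15100357⟩, 0, 0⟩ 0 0) (.cut .d 700669 (.cut .v 15728640 (.cut .d 350334 (.pos 18 .pm ⟨⟨0, 0, 0, 0, 0, 0, 0, 0, 0, ⟨0, 0⟩, 0⟩, 0, 255414⟩ 0 0) (.pos 18 .pm ⟨⟨0, 0, 0, 0, 0, 0, 0, 0, 0, ⟨0, 0⟩, 0⟩, 0, 679921⟩ 0 0)) (.cut .d 350334 (.cut .s 4161536 (.pos 19 .pm ⟨⟨0, 0, 0, 0, 0, 0, 0, 0, 0, ⟨0, 0⟩, 0⟩, 0, 341293⟩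 0 0) (.pos 19 .pm ⟨⟨0, 0, 0, 0, 0, 0, 0, 0, 0, ⟨0, 0⟩, 0⟩, 0, 255909⟩ 0 0)) (.cut .d 525501 (.pos 19 .pm ⟨⟨0, 0, 0, 0, 0, 0, 0, 0, 0, ⟨0, 0⟩, 0⟩, 0, 552460⟩ 0 0) (.void 19 ⟨⟨0, 0, 0, 0, 0, 0, 0, 0, 0, ⟨0, 0⟩, 0⟩, 0, 100000⟩ 0 0)))) (.void 11 ⟨⟨0, 0, 0, 0, 0, 0, 0, 0, 0, ⟨0, 0⟩, 0⟩, 0, 100000⟩ 0 0))) (.void 7 ⟨⟨0, 0, 0, 0, 0, 0, 0, 0, 0, ⟨0, 0⟩, 0⟩, 0, 100000⟩ 0 0)))) (.cut .v 25165824 (.cut .v 20971520 (.cut .d 1401339 (.cut .v 18874368 (.cut .d 700669 (.cut .v 17825792 (.cut .d 350334 (.cut .v 17301504 (.cut .d 175167 (.cut .s 4161536 (.cut .s 3981312 (.pos 29 .pp ⟨⟨288800, 0, 0, 0, 0, 0, 0, 0, 0, ⟨0, 0⟩, 0⟩, 0, 342791⟩ 0 0) (.pos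 29 .pp ⟨⟨240134, 0, 0, 0, 0, 0, 0, 0, 0, ⟨0, 0⟩, 0⟩, 0, 292894⟩ 0 0)) (.pos 29 .pp ⟨⟨173802, 0, 0, 0, 0, 0, 0, 0, 0, ⟨0, 0⟩, 0⟩, 0, 218123⟩ 0 0)) (.cut .s 4161536 (.pos 29 .pp ⟨⟨133170, 0, 0, 0, 0, 0, 0, 0, 0, ⟨0, 0⟩, 0⟩, 0, 415189⟩ 0 0) (.pos 29 .pp ⟨⟨61780, 0, 0, 0, 0, 0, 0, 0, 0, ⟨0, 0⟩, 0⟩, 0, 322130⟩ 0 0))) (.pos 30 .pp ⟨⟨1505116, 0, 0, 0, 0, 0, 0, 0, 0, ⟨0, 0⟩, 0⟩, 0, 0⟩ 0 0)) (.cut .v 17301504 (.pos 29 .pp ⟨⟨0, 0, 0, 0, 0, 0, 0, 0, 0, ⟨0, 0⟩, 0⟩, 0, 579360⟩ 0 0) (.pos 30 .pp ⟨⟨75163, 0, 0, 0, 0, 0, 0, 0, 0, ⟨0, 0⟩, 0⟩, 0, 598444⟩ 0 0))) (.void 28 ⟨⟨78422, 0, 0, 0, 0, 0, 0, 0, 0, ⟨0, 0⟩, 0⟩, 0, 21578⟩ 0 0)) (.void 25 ⟨⟨0,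 0, 0, 0, 0, 0, 2525, 0, 0, ⟨0, 0⟩, 0⟩, 0, 97475⟩ 0 0)) (.void 26 ⟨⟨0, 0, 0, 0, 0, 0, 100000, 0, 0, ⟨0, 0⟩, 0⟩, 0, 0⟩ 0 0)) (.void 23 ⟨⟨0, 0, 0, 0, 0, 0, 2525, 0, 0, ⟨0, 0⟩, 0⟩, 0, 97475⟩ 0 0)) (.void 24 ⟨⟨0, 0, 0, 0, 0, 0, 0, 0, 0, ⟨0, 0⟩, 0⟩, 21706, 78294⟩ 0 0)) (.void 22 ⟨⟨0, 0, 0, 0, 0, 0, 0, 0, 0, ⟨0, 0⟩, 0⟩, 100000, 0⟩ 0 0)))),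
    by decide +kernel⟩

def covers4 : cell.Covers Vale.Agent.P237.Petty.Cor.Grid.N12.table row4.1 :=
  ⟨(.cut .d 0 (.cut .v 16777216 (.cut .v 8388608 (.void 2 ⟨⟨0, 0, 0, 0, 50000, 50000, 0, 0, 0, ⟨0, 0⟩, 0⟩, 0, 0⟩ 0 0) (.cut .v 12582912 (.void 6 ⟨⟨0, 0, 0, 0, 0, 61015, 0, 0, 38985, ⟨0, 0⟩, 13128881⟩, 0, 0⟩ 0 0) (.cut .d (-8388608) (.void 7 ⟨⟨0, 0, 0, 0, 0, 100000, 0, 0, 0, ⟨0, 0⟩, 0⟩, 0, 0⟩ 0 0) (.cut .d (-4194304) (.void 7 ⟨⟨0, 0, 0, 0, 0, 100000, 0, 0, 0, ⟨0, 0⟩, 0⟩, 0, 0⟩ 0 0) (.cut .d (-2097152) (.void 7 ⟨⟨0, 0, 0, 0, 0, 100000, 0, 0, 0, ⟨0, 0⟩, 0⟩, 0, 0⟩ 0 0) (.cut .d (-1048576) (.void 7 ⟨⟨0, 0, 0, 0, 0, 100000, 0, 0, 0, ⟨0,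 0⟩, 0⟩, 0, 0⟩ 0 0) (.cut .v 14680064 (.pos 10 .mm ⟨⟨0, 0, 0, 0, 0, 2056038, 0, 0, 0, ⟨0, 0⟩, 0⟩, 0, 0⟩ 0 0) (.cut .d (-524288) (.void 11 ⟨⟨0, 0, 0, 0, 0, 100000, 0, 0, 0, ⟨0, 0⟩, 0⟩, 0, 0⟩ 0 0) (.cut .d (-262144) (.void 11 ⟨⟨0, 0, 0, 0, 0, 100000, 0, 0, 0, ⟨0, 0⟩, 0⟩, 0, 0⟩ 0 0) (.cut .v 15728640 (.pos 18 .mm ⟨⟨0, 0, 0, 0, 0, 1139331, 0, 0, 0, ⟨0, 0⟩, 0⟩, 0, 0⟩ 0 0) (.cut .d (-131072) (.pos 19 .mm ⟨⟨0, 0, 0, 0, 0, 1822519, 0, 0, 0, ⟨0, 0⟩, 0⟩, 0, 0⟩ 0 0) (.cut .d (-65536) (.pos 19 .mm ⟨⟨0, 0, 0, 0, 0, 1433365, 0, 0, 0, ⟨0, 0⟩, 0⟩, 0, 0⟩ 0 0) (.cut .v 16252928 (.pos 33 .mm ⟨⟨0, 0, 0, 0, 0, 887867, 0, 0, 0, ⟨0, 0⟩, 0⟩, 0, 0⟩ 0 0)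 (.cut .s 4882432 (.pos 34 .mm ⟨⟨0, 0, 0, 0, 0, 770196, 0, 0, 0, ⟨0, 0⟩, 0⟩, 0, 0⟩ 0 0) (.pos 34 .mm ⟨⟨0, 0, 0, 0, 0, 1329112, 0, 0, 0, ⟨0, 0⟩, 0⟩, 0, 0⟩ 0 0))))))))))))))) (.cut .v 25165824 (.cut .d (-8388608) (.void 21 ⟨⟨0, 0, 0, 0, 0, 100000, 0, 0, 0, ⟨0, 0⟩, 0⟩, 0, 0⟩ 0 0) (.cut .d (-4194304) (.void 21 ⟨⟨0, 0, 0, 0, 0, 100000, 0, 0, 0, ⟨0, 0⟩, 0⟩, 0, 0⟩ 0 0) (.cut .d (-2097152) (.void 21 ⟨⟨0, 0, 0, 0, 0, 100000, 0, 0, 0, ⟨0, 0⟩, 0⟩, 0, 0⟩ 0 0) (.cut .v 20971520 (.cut .d (-1048576) (.void 23 ⟨⟨0, 0, 0, 0, 0, 100000, 0, 0, 0, ⟨0, 0⟩, 0⟩, 0, 0⟩ 0 0) (.cut .d (-524288) (.void 23 ⟨⟨0, 0, 0, 0, 0, 100000, 0, 0, 0, ⟨0, 0⟩, 0⟩, 0, 0⟩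 0 0) (.cut .v 18874368 (.cut .d (-262144) (.void 25 ⟨⟨0, 0, 0, 0, 0, 100000, 0, 0, 0, ⟨0, 0⟩, 0⟩, 0, 0⟩ 0 0) (.cut .v 17825792 (.cut .v 17301504 (.cut .d (-131072) (.pos 29 .mp ⟨⟨399990, 0, 0, 0, 0, 1565721, 0, 0, 0, ⟨0, 0⟩, 0⟩, 0, 0⟩ 0 0) (.cut .s 4882432 (.pos 29 .mp ⟨⟨187396, 0, 0, 0, 0, 822894, 0, 0, 0, ⟨0, 0⟩, 0⟩, 0, 0⟩ 0 0) (.cut .s 5062656 (.pos 29 .mp ⟨⟨215969, 0, 0, 0, 0, 1077961, 0, 0, 0, ⟨0, 0⟩, 0⟩, 0, 0⟩ 0 0) (.pos 29 .mp ⟨⟨274179, 0, 0, 0, 0, 1277760, 0, 0, 0, ⟨0, 0⟩, 0⟩, 0, 0⟩ 0 0)))) (.void 30 ⟨⟨100000, 0, 0, 0, 0, 0, 0, 0, 0, ⟨0, 0⟩, 0⟩, 0, 0⟩ 0 0)) (.void 28 ⟨⟨100000, 0, 0, 0, 0, 0, 0, 0, 0, ⟨0, 0⟩, 0⟩, 0, 0⟩ 0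 0))) (.void 26 ⟨⟨100000, 0, 0, 0, 0, 0, 0, 0, 0, ⟨0, 0⟩, 0⟩, 0, 0⟩ 0 0)))) (.void 24 ⟨⟨100000, 0, 0, 0, 0, 0, 0, 0, 0, ⟨0, 0⟩, 0⟩, 0, 0⟩ 0 0))))) (.void 22 ⟨⟨0, 0, 0, 0, 0, 0, 100000, 0, 0, ⟨0, 0⟩, 0⟩, 0, 0⟩ 0 0))) (.cut .v 16777216 (.cut .v 8388608 (.void 2 ⟨⟨0, 0, 0, 0, 100000, 0, 0, 0, 0, ⟨0, 0⟩, 0⟩, 0, 0⟩ 0 0) (.cut .v 12582912 (.void 6 ⟨⟨0, 0, 0, 0, 0, 0, 0, 0, 100000, ⟨0, 0⟩, 13128881⟩, 0, 0⟩ 0 0) (.cut .d 1876099 (.cut .d 938049 (.cut .d 469024 (.cut .v 14680064 (.pos 10 .pm ⟨⟨0, 0, 0, 0, 0, 0, 0, 0, 0, ⟨0, 0⟩, 0⟩, 0, 380692⟩ 0 0) (.cut .v 15728640 (.cut .s 4882432 (.pos 18 .pm ⟨⟨0, 0, 0, 0, 0, 0, 0, 0, 0, ⟨0, 0⟩, 0⟩, 0,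 308164⟩ 0 0) (.pos 18 .pm ⟨⟨0, 0, 0, 0, 0, 0, 0, 0, 0, ⟨0, 0⟩, 0⟩, 0, 249699⟩ 0 0)) (.cut .d 234512 (.cut .d 117256 (.cut .d 58628 (.cut .d 29314 (.cut .v 16252928 (.pos 33 .pm ⟨⟨0, 0, 0, 0, 0, 0, 0, 0, 0, ⟨0, 0⟩, 0⟩, 0, 0⟩ 0 0) (.cut .s 4882432 (.pos 34 .pm ⟨⟨0, 0, 0, 0, 0, 0, 0, 0, 0, ⟨0, 0⟩, 0⟩, 0, 19128⟩ 0 0) (.pos 34 .pm ⟨⟨0, 0, 0, 0, 0, 0, 0, 0, 0, ⟨0, 0⟩, 0⟩, 0, 0⟩ 0 0))) (.pos 19 .pm ⟨⟨0, 0, 0, 0, 0, 0, 0, 0, 0, ⟨0, 0⟩, 0⟩, 0, 262103⟩ 0 0)) (.pos 19 .pm ⟨⟨0, 0, 0, 0, 0, 0, 0, 0, 0, ⟨0, 0⟩, 0⟩, 0, 262103⟩ 0 0)) (.pos 19 .pm ⟨⟨0, 0, 0, 0, 0, 0, 0, 0, 0, ⟨0, 0⟩, 0⟩, 0, 262103⟩ 0 0)) (.pos 19 .pm ⟨⟨0, 0, 0, 0, 0, 0, 0, 0, 0,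 ⟨0, 0⟩, 0⟩, 0, 445643⟩ 0 0)))) (.void 7 ⟨⟨0, 0, 0, 0, 0, 0, 0, 0, 0, ⟨0, 0⟩, 0⟩, 0, 100000⟩ 0 0)) (.void 7 ⟨⟨0, 0, 0, 0, 0, 0, 0, 0, 0, ⟨0, 0⟩, 0⟩, 0, 100000⟩ 0 0)) (.void 7 ⟨⟨0, 0, 0, 0, 0, 0, 0, 0, 0, ⟨0, 0⟩, 0⟩, 0, 100000⟩ 0 0)))) (.cut .v 25165824 (.cut .v 20971520 (.cut .d 1876099 (.cut .d 938049 (.cut .v 18874368 (.cut .d 469024 (.cut .v 17825792 (.cut .d 234512 (.pos 27 .pp ⟨⟨290554, 0, 0, 0, 0, 0, 0, 0, 0, ⟨0, 0⟩, 0⟩, 0, 177932⟩ 0 0) (.pos 27 .pp ⟨⟨0, 0, 0, 0, 0, 0, 0, 0, 0, ⟨0, 0⟩, 0⟩, 0, 329903⟩ 0 0)) (.void 28 ⟨⟨100000, 0, 0, 0, 0, 0, 0, 0, 0, ⟨0, 0⟩, 0⟩, 0, 0⟩ 0 0)) (.pos 25 .pp ⟨⟨486857, 0, 0, 0, 0, 0, 0, 0, 0, ⟨0,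 0⟩, 0⟩, 0, 4817354⟩ 0 0)) (.void 26 ⟨⟨0, 0, 0, 0, 0, 0, 100000, 0, 0, ⟨0, 0⟩, 0⟩, 0, 0⟩ 0 0)) (.void 23 ⟨⟨0, 0, 0, 0, 0, 0, 3601, 0, 0, ⟨0, 0⟩, 0⟩, 0, 96399⟩ 0 0)) (.void 23 ⟨⟨0, 0, 0, 0, 0, 0, 0, 0, 0, ⟨0, 0⟩, 0⟩, 0, 100000⟩ 0 0)) (.void 24 ⟨⟨0, 0, 0, 0, 0, 0, 0, 0, 0, ⟨0, 0⟩, 0⟩, 21592, 78408⟩ 0 0)) (.void 22 ⟨⟨0, 0, 0, 0, 0, 0, 0, 0, 0, ⟨0, 0⟩, 0⟩, 21592, 78408⟩ 0 0)))),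
    by decide +kernel⟩

def covers5 : cell.Covers Vale.Agent.P237.Petty.Cor.Grid.N12.table row5.1 :=
  ⟨(.cut .d 0 (.cut .v 16777216 (.cut .v 8388608 (.void 2 ⟨⟨0, 0, 0, 0, 50000, 50000, 0, 0, 0, ⟨0, 0⟩, 0⟩, 0, 0⟩ 0 0) (.cut .d (-8388608) (.void 3 ⟨⟨0, 0, 0, 0, 0, 100000, 0, 0, 0, ⟨0, 0⟩, 0⟩, 0, 0⟩ 0 0) (.cut .d (-4194304) (.void 3 ⟨⟨0, 0, 0, 0, 0, 100000, 0, 0, 0, ⟨0, 0⟩, 0⟩, 0, 0⟩ 0 0) (.cut .v 12582912 (.pos 6 .mm ⟨⟨0, 0, 0, 0, 0, 9328089, 0, 0, 0, ⟨0, 0⟩, 0⟩, 0, 0⟩ 0 0) (.cut .d (-2097152) (.void 7 ⟨⟨0, 0, 0, 0, 0, 100000, 0, 0, 0, ⟨0, 0⟩, 0⟩, 0, 0⟩ 0 0) (.cut .d (-1048576) (.void 7 ⟨⟨0, 0, 0, 0, 0, 100000, 0, 0, 0, ⟨0, 0⟩,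 0⟩, 0, 0⟩ 0 0) (.cut .d (-524288) (.void 7 ⟨⟨0, 0, 0, 0, 0, 100000, 0, 0, 0, ⟨0, 0⟩, 0⟩, 0, 0⟩ 0 0) (.cut .v 14680064 (.pos 10 .mm ⟨⟨0, 0, 0, 0, 0, 2456238, 0, 0, 0, ⟨0, 0⟩, 0⟩, 0, 0⟩ 0 0) (.cut .d (-262144) (.void 11 ⟨⟨0, 0, 0, 0, 0, 100000, 0, 0, 0, ⟨0, 0⟩, 0⟩, 0, 0⟩ 0 0) (.cut .v 15728640 (.cut .s 5636096 (.pos 18 .mm ⟨⟨0, 0, 0, 0, 0, 1753241, 0, 0, 0, ⟨0, 0⟩, 0⟩, 0, 0⟩ 0 0) (.pos 18 .mm ⟨⟨0, 0, 0, 0, 0, 2511461, 0, 0, 0, ⟨0, 0⟩, 0⟩, 0, 0⟩ 0 0)) (.cut .d (-131072) (.cut .s 5636096 (.pos 19 .mm ⟨⟨0, 0, 0, 0, 0, 2700039, 0, 0, 0, ⟨0, 0⟩, 0⟩, 0, 0⟩ 0 0) (.pos 19 .mm ⟨⟨0, 0, 0, 0, 0, 3799023, 0, 0, 0, ⟨0, 0⟩, 0⟩, 0, 0⟩ 0 0)) (.cut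 .s 5636096 (.cut .v 16252928 (.pos 33 .mm ⟨⟨0, 0, 0, 0, 0, 1721550, 0, 0, 0, ⟨0, 0⟩, 0⟩, 0, 0⟩ 0 0) (.cut .s 5439488 (.pos 34 .mm ⟨⟨0, 0, 0, 0, 0, 1816529, 0, 0, 0, ⟨0, 0⟩, 0⟩, 0, 0⟩ 0 0) (.cut .s 5537792 (.pos 34 .mm ⟨⟨0, 0, 0, 0, 0, 2088753, 0, 0, 0, ⟨0, 0⟩, 0⟩, 0, 0⟩ 0 0) (.pos 34 .mm ⟨⟨0, 0, 0, 0, 0, 2323522, 0, 0, 0, ⟨0, 0⟩, 0⟩, 0, 0⟩ 0 0)))) (.cut .v 16252928 (.pos 33 .mm ⟨⟨0, 0, 0, 0, 0, 2469891, 0, 0, 0, ⟨0, 0⟩, 0⟩, 0, 0⟩ 0 0) (.cut .v 16515072 (.pos 39 .mm ⟨⟨0, 0, 0, 0, 0, 2720607, 0, 0, 0, ⟨0, 0⟩, 0⟩, 0, 0⟩ 0 0) (.cut .s 5832704 (.cut .s 5734400 (.pos 40 .mm ⟨⟨0, 0, 0, 0, 0, 2540180, 0, 0, 0, ⟨0, 0⟩, 0⟩, 0, 0⟩ 0 0) (.pos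 40 .mm ⟨⟨0, 0, 0, 0, 0, 2805457, 0, 0, 0, ⟨0, 0⟩, 0⟩, 0, 0⟩ 0 0)) (.cut .s 5931008 (.pos 40 .mm ⟨⟨0, 0, 0, 0, 0, 3084685, 0, 0, 0, ⟨0, 0⟩, 0⟩, 0, 0⟩ 0 0) (.pos 40 .mm ⟨⟨0, 0, 0, 0, 0, 3377181, 0, 0, 0, ⟨0, 0⟩, 0⟩, 0, 0⟩ 0 0))))))))))))))))) (.cut .v 25165824 (.cut .d (-8388608) (.void 21 ⟨⟨0, 0, 0, 0, 0, 100000, 0, 0, 0, ⟨0, 0⟩, 0⟩, 0, 0⟩ 0 0) (.cut .d (-4194304) (.void 21 ⟨⟨0, 0, 0, 0, 0, 100000, 0, 0, 0, ⟨0, 0⟩, 0⟩, 0, 0⟩ 0 0) (.cut .d (-2097152) (.void 21 ⟨⟨0, 0, 0, 0, 0, 100000, 0, 0, 0, ⟨0, 0⟩, 0⟩, 0, 0⟩ 0 0) (.cut .v 20971520 (.cut .d (-1048576) (.void 23 ⟨⟨0, 0, 0, 0, 0, 100000, 0, 0, 0, ⟨0, 0⟩, 0⟩, 0, 0⟩ 0 0) (.cut .d (-524288)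 (.void 23 ⟨⟨0, 0, 0, 0, 0, 100000, 0, 0, 0, ⟨0, 0⟩, 0⟩, 0, 0⟩ 0 0) (.cut .v 18874368 (.cut .d (-262144) (.void 25 ⟨⟨0, 0, 0, 0, 0, 100000, 0, 0, 0, ⟨0, 0⟩, 0⟩, 0, 0⟩ 0 0) (.cut .v 17825792 (.cut .v 17301504 (.cut .v 17039360 (.cut .d (-131072) (.cut .s 5636096 (.pos 31 .mp ⟨⟨195904, 0, 0, 0, 0, 2892484, 0, 0, 0, ⟨0, 0⟩, 0⟩, 0, 0⟩ 0 0) (.pos 31 .mp ⟨⟨377492, 0, 0, 0, 0, 3928882, 0, 0, 0, ⟨0, 0⟩, 0⟩, 0, 0⟩ 0 0)) (.cut .s 5636096 (.cut .v 16908288 (.cut .s 5439488 (.cut .s 5341184 (.pos 35 .mp ⟨⟨335809, 0, 0, 0, 0, 1444575, 0, 0, 0, ⟨0, 0⟩, 0⟩, 0, 0⟩ 0 0) (.pos 35 .mp ⟨⟨310579, 0, 0, 0, 0, 1642663, 0, 0, 0, ⟨0, 0⟩, 0⟩, 0, 0⟩ 0 0))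 (.cut .s 5537792 (.pos 35 .mp ⟨⟨339418, 0, 0, 0, 0, 1814203, 0, 0, 0, ⟨0, 0⟩, 0⟩, 0, 0⟩ 0 0) (.pos 35 .mp ⟨⟨399185, 0, 0, 0, 0, 1977840, 0, 0, 0, ⟨0, 0⟩, 0⟩, 0, 0⟩ 0 0))) (.pos 36 .mp ⟨⟨2475631, 0, 0, 0, 0, 0, 0, 0, 0, ⟨0, 0⟩, 0⟩, 0, 0⟩ 0 0)) (.cut .v 16908288 (.cut .s 5832704 (.cut .d (-65536) (.pos 35 .mp ⟨⟨255710, 0, 0, 0, 0, 2716608, 0, 0, 0, ⟨0, 0⟩, 0⟩, 0, 0⟩ 0 0) (.cut .s 5734400 (.pos 35 .mp ⟨⟨525349, 0, 0, 0, 0, 2038917, 0, 0, 0, ⟨0, 0⟩, 0⟩, 0, 0⟩ 0 0) (.pos 35 .mp ⟨⟨589446, 0, 0, 0, 0, 2229651, 0, 0, 0, ⟨0, 0⟩, 0⟩, 0, 0⟩ 0 0))) (.cut .d (-65536) (.pos 35 .mp ⟨⟨381348, 0, 0, 0, 0, 3188966, 0, 0, 0, ⟨0, 0⟩, 0⟩, 0, 0⟩ 0 0)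 (.cut .s 5931008 (.pos 35 .mp ⟨⟨676464, 0, 0, 0, 0, 2418808, 0, 0, 0, ⟨0, 0⟩, 0⟩, 0, 0⟩ 0 0) (.pos 35 .mp ⟨⟨788771, 0, 0, 0, 0, 2603689, 0, 0, 0, ⟨0, 0⟩, 0⟩, 0, 0⟩ 0 0)))) (.pos 36 .mp ⟨⟨3489213, 0, 0, 0, 0, 0, 0, 0, 0, ⟨0, 0⟩, 0⟩, 0, 0⟩ 0 0)))) (.pos 32 .mp ⟨⟨4463236, 0, 0, 0, 0, 0, 0, 0, 0, ⟨0, 0⟩, 0⟩, 0, 0⟩ 0 0)) (.void 30 ⟨⟨100000, 0, 0, 0, 0, 0, 0, 0, 0, ⟨0, 0⟩, 0⟩, 0, 0⟩ 0 0)) (.void 28 ⟨⟨100000, 0, 0, 0, 0, 0, 0, 0, 0, ⟨0, 0⟩, 0⟩, 0, 0⟩ 0 0))) (.void 26 ⟨⟨100000, 0, 0, 0, 0, 0, 0, 0, 0, ⟨0, 0⟩, 0⟩, 0, 0⟩ 0 0)))) (.void 24 ⟨⟨100000, 0, 0, 0, 0, 0, 0, 0, 0, ⟨0, 0⟩, 0⟩, 0, 0⟩ 0 0))))) (.void 22 ⟨⟨100000, 0, 0, 0, 0, 0, 0, 0,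 0, ⟨0, 0⟩, 0⟩, 0, 0⟩ 0 0))) (.cut .v 16777216 (.cut .v 8388608 (.void 2 ⟨⟨0, 0, 0, 0, 100000, 0, 0, 0, 0, ⟨0, 0⟩, 0⟩, 0, 0⟩ 0 0) (.cut .d 2434266 (.cut .d 1217133 (.cut .v 12582912 (.pos 6 .pm ⟨⟨0, 0, 0, 0, 0, 0, 0, 0, 507391, ⟨0, 0⟩, 13128881⟩, 0, 500639⟩ 0 0) (.cut .d 608566 (.cut .v 14680064 (.pos 10 .pm ⟨⟨0, 0, 0, 0, 0, 0, 0, 0, 0, ⟨0, 0⟩, 0⟩, 0, 389063⟩ 0 0) (.cut .v 15728640 (.pos 18 .pm ⟨⟨0, 0, 0, 0, 0, 0, 0, 0, 0, ⟨0, 0⟩, 0⟩, 0, 341617⟩ 0 0) (.cut .v 16252928 (.pos 33 .pm ⟨⟨0, 0, 0, 0, 0, 0, 0, 0, 0, ⟨0, 0⟩, 0⟩, 0, 250226⟩ 0 0) (.pos 34 .pm ⟨⟨0, 0, 0, 0, 0, 0, 0, 0, 0, ⟨0, 0⟩, 0⟩, 0, 166510⟩ 0 0)))) (.void 7 ⟨⟨0, 0, 0, 0,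 0, 0, 0, 0, 0, ⟨0, 0⟩, 0⟩, 0, 100000⟩ 0 0))) (.void 3 ⟨⟨0, 0, 0, 0, 0, 0, 0, 0, 0, ⟨0, 0⟩, 0⟩, 0, 100000⟩ 0 0)) (.void 3 ⟨⟨0, 0, 0, 0, 0, 0, 0, 0, 0, ⟨0, 0⟩, 0⟩, 0, 100000⟩ 0 0))) (.cut .v 25165824 (.cut .v 20971520 (.cut .d 2434266 (.cut .d 1217133 (.cut .v 18874368 (.cut .d 608566 (.cut .d 304283 (.cut .s 5636096 (.pos 25 .pp ⟨⟨1121244, 0, 0, 0, 0, 0, 0, 0, 0, ⟨0, 0⟩, 0⟩, 0, 110544⟩ 0 0) (.pos 25 .pp ⟨⟨1659862, 0, 0, 0, 0, 0, 0, 0, 0, ⟨0, 0⟩, 0⟩, 0, 75948⟩ 0 0)) (.pos 25 .pp ⟨⟨302505, 0, 0, 0, 0, 0, 0, 0, 0, ⟨0, 0⟩, 0⟩, 0, 287493⟩ 0 0)) (.void 25 ⟨⟨7141, 0, 0, 0, 0, 0, 0, 0, 0, ⟨0, 0⟩, 0⟩, 0, 92859⟩ 0 0)) (.void 26 ⟨⟨72864, 0,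 0, 0, 0, 0, 0, 0, 0, ⟨0, 0⟩, 0⟩, 0, 27136⟩ 0 0)) (.void 23 ⟨⟨0, 0, 0, 0, 0, 0, 0, 0, 0, ⟨0, 0⟩, 0⟩, 778, 99222⟩ 0 0)) (.void 23 ⟨⟨0, 0, 0, 0, 0, 0, 0, 0, 0, ⟨0, 0⟩, 0⟩, 0, 100000⟩ 0 0)) (.void 24 ⟨⟨0, 0, 0, 0, 0, 0, 0, 0, 0, ⟨0, 0⟩, 0⟩, 21154, 78846⟩ 0 0)) (.void 22 ⟨⟨0, 0, 0, 0, 0, 0, 0, 0, 0, ⟨0, 0⟩, 0⟩, 21154, 78846⟩ 0 0)))),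
    by decide +kernel⟩

def covers6 : cell.Covers Vale.Agent.P237.Petty.Cor.Grid.N12.table row6.1 :=
  ⟨(.cut .d 0 (.cut .v 16777216 (.cut .d (-8388608) (.void 1 ⟨⟨0, 0, 0, 0, 0, 100000, 0, 0, 0, ⟨0, 0⟩, 0⟩, 0, 0⟩ 0 0) (.cut .d (-4194304) (.void 1 ⟨⟨0, 0, 0, 0, 0, 100000, 0, 0, 0, ⟨0, 0⟩, 0⟩, 0, 0⟩ 0 0) (.cut .d (-2097152) (.void 1 ⟨⟨0, 0, 0, 0, 0, 100000, 0, 0, 0, ⟨0, 0⟩, 0⟩, 0, 0⟩ 0 0) (.cut .d (-1048576) (.void 1 ⟨⟨0, 0, 0, 0, 0, 100000, 0, 0, 0, ⟨0, 0⟩, 0⟩, 0, 0⟩ 0 0) (.cut .d (-524288) (.void 1 ⟨⟨0, 0, 0, 0, 0, 100000, 0, 0, 0, ⟨0, 0⟩, 0⟩, 0, 0⟩ 0 0) (.cut .d (-262144) (.void 1 ⟨⟨0, 0, 0, 0, 0, 100000, 0, 0, 0, ⟨0, 0⟩, 0⟩,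 0, 0⟩ 0 0) (.cut .d (-131072) (.void 1 ⟨⟨0, 0, 0, 0, 0, 100000, 0, 0, 0, ⟨0, 0⟩, 0⟩, 0, 0⟩ 0 0) (.cut .v 8388608 (.cut .v 4194304 (.void 4 ⟨⟨0, 0, 100000, 0, 0, 0, 0, 0, 0, ⟨0, 0⟩, 0⟩, 0, 0⟩ 0 0) (.void 5 ⟨⟨0, 0, 0, 0, 0, 0, 0, 0, 100000, ⟨0, 0⟩, 9975792⟩, 0, 0⟩ 0 0)) (.cut .v 12582912 (.pos 6 .mm ⟨⟨0, 0, 0, 0, 0, 1669298, 0, 0, 0, ⟨0, 0⟩, 0⟩, 0, 0⟩ 0 0) (.cut .v 14680064 (.pos 10 .mm ⟨⟨0, 0, 0, 0, 0, 1866191, 0, 0, 0, ⟨0, 0⟩, 0⟩, 0, 0⟩ 0 0) (.cut .v 15728640 (.pos 18 .mm ⟨⟨0, 0, 0, 0, 0, 2633196, 0, 0, 0, ⟨0, 0⟩, 0⟩, 0, 0⟩ 0 0) (.cut .v 16252928 (.pos 33 .mm ⟨⟨0, 0, 0, 0, 0, 3947181, 0, 0, 0, ⟨0, 0⟩, 0⟩, 0, 0⟩ 0 0) (.cut .s 6422528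 (.cut .d (-65536) (.pos 34 .mm ⟨⟨0, 0, 0, 0, 0, 4619043, 0, 0, 0, ⟨0, 0⟩, 0⟩, 0, 0⟩ 0 0) (.cut .s 6225920 (.pos 34 .mm ⟨⟨0, 0, 0, 0, 0, 3790576, 0, 0, 0, ⟨0, 0⟩, 0⟩, 0, 0⟩ 0 0) (.pos 34 .mm ⟨⟨0, 0, 0, 0, 0, 4401734, 0, 0, 0, ⟨0, 0⟩, 0⟩, 0, 0⟩ 0 0))) (.cut .d (-65536) (.pos 34 .mm ⟨⟨0, 0, 0, 0, 0, 6261150, 0, 0, 0, ⟨0, 0⟩, 0⟩, 0, 0⟩ 0 0) (.cut .s 6619136 (.pos 34 .mm ⟨⟨0, 0, 0, 0, 0, 5148666, 0, 0, 0, ⟨0, 0⟩, 0⟩, 0, 0⟩ 0 0) (.pos 34 .mm ⟨⟨0, 0, 0, 0, 0, 6033240, 0, 0, 0, ⟨0, 0⟩, 0⟩, 0, 0⟩ 0 0)))))))))))))))) (.cut .v 25165824 (.cut .d (-8388608) (.void 21 ⟨⟨0, 0, 0, 0, 0, 100000, 0, 0, 0, ⟨0, 0⟩, 0⟩, 0, 0⟩ 0 0) (.cut .d (-4194304)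 (.void 21 ⟨⟨0, 0, 0, 0, 0, 100000, 0, 0, 0, ⟨0, 0⟩, 0⟩, 0, 0⟩ 0 0) (.cut .d (-2097152) (.void 21 ⟨⟨0, 0, 0, 0, 0, 100000, 0, 0, 0, ⟨0, 0⟩, 0⟩, 0, 0⟩ 0 0) (.cut .v 20971520 (.cut .d (-1048576) (.void 23 ⟨⟨0, 0, 0, 0, 0, 100000, 0, 0, 0, ⟨0, 0⟩, 0⟩, 0, 0⟩ 0 0) (.cut .d (-524288) (.void 23 ⟨⟨0, 0, 0, 0, 0, 100000, 0, 0, 0, ⟨0, 0⟩, 0⟩, 0, 0⟩ 0 0) (.cut .d (-262144) (.void 23 ⟨⟨0, 0, 0, 0, 0, 100000, 0, 0, 0, ⟨0, 0⟩, 0⟩, 0, 0⟩ 0 0) (.cut .v 18874368 (.cut .d (-131072) (.void 25 ⟨⟨0, 0, 0, 0, 0, 100000, 0, 0, 0, ⟨0, 0⟩, 0⟩, 0, 0⟩ 0 0) (.cut .v 17825792 (.cut .v 17301504 (.cut .v 17039360 (.cut .s 6422528 (.cut .v 16908288 (.cut .d (-65536)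 (.cut .s 6225920 (.pos 35 .mp ⟨⟨544172, 0, 0, 0, 0, 3725583, 0, 0, 0, ⟨0, 0⟩, 0⟩, 0, 0⟩ 0 0) (.pos 35 .mp ⟨⟨756203, 0, 0, 0, 0, 4201295, 0, 0, 0, ⟨0, 0⟩, 0⟩, 0, 0⟩ 0 0)) (.cut .v 16842752 (.cut .l 153791 (.cut .s 6225920 (.cut .s 6127616 (.pos 43 .mp ⟨⟨994858, 0, 0, 0, 0, 2696976, 0, 0, 0, ⟨0, 0⟩, 0⟩, 0, 0⟩ 0 0) (.pos 43 .mp ⟨⟨989330, 0, 0, 0, 0, 2977403, 0, 0, 0, ⟨0, 0⟩, 0⟩, 0, 0⟩ 0 0)) (.cut .s 6324224 (.pos 43 .mp ⟨⟨1011078, 0, 0, 0, 0, 3264186, 0, 0, 0, ⟨0, 0⟩, 0⟩, 0, 0⟩ 0 0) (.pos 43 .mp ⟨⟨1093271, 0, 0, 0, 0, 3525478, 0, 0, 0, ⟨0, 0⟩, 0⟩, 0, 0⟩ 0 0))) (.pos 43 .mp ⟨⟨1049909, 0, 0, 0, 0, 2502196, 0, 0, 0, ⟨0, 0⟩, 0⟩, 0, 0⟩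 0 0)) (.pos 44 .mp ⟨⟨4196487, 0, 0, 0, 0, 0, 0, 0, 0, ⟨0, 0⟩, 0⟩, 0, 0⟩ 0 0))) (.pos 36 .mp ⟨⟨5134173, 0, 0, 0, 0, 0, 0, 0, 0, ⟨0, 0⟩, 0⟩, 0, 0⟩ 0 0)) (.cut .v 16908288 (.cut .d (-65536) (.cut .d (-98304) (.pos 35 .mp ⟨⟨1106491, 0, 0, 0, 0, 5746553, 0, 0, 0, ⟨0, 0⟩, 0⟩, 0, 0⟩ 0 0) (.cut .l 153791 (.void 35 ⟨⟨0, 0, 0, 0, 0, 100000, 0, 0, 0, ⟨0, 0⟩, 0⟩, 0, 0⟩ 0 0) (.cut .s 6619136 (.pos 35 .mp ⟨⟨1030942, 0, 0, 0, 0, 4535021, 0, 0, 0, ⟨0, 0⟩, 0⟩, 0, 0⟩ 0 0) (.pos 35 .mp ⟨⟨1370625, 0, 0, 0, 0, 5098522, 0, 0, 0, ⟨0, 0⟩, 0⟩, 0, 0⟩ 0 0)))) (.cut .l 153791 (.cut .v 16842752 (.cut .s 6619136 (.cut .d (-32768) (.pos 43 .mp ⟨⟨976013, 0, 0,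 0, 0, 4672826, 0, 0, 0, ⟨0, 0⟩, 0⟩, 0, 0⟩ 0 0) (.cut .s 6520832 (.pos 43 .mp ⟨⟨1286526, 0, 0, 0, 0, 3663852, 0, 0, 0, ⟨0, 0⟩, 0⟩, 0, 0⟩ 0 0) (.pos 43 .mp ⟨⟨1428997, 0, 0, 0, 0, 3920947, 0, 0, 0, ⟨0, 0⟩, 0⟩, 0, 0⟩ 0 0))) (.cut .d (-32768) (.pos 43 .mp ⟨⟨1309439, 0, 0, 0, 0, 5283152, 0, 0, 0, ⟨0, 0⟩, 0⟩, 0, 0⟩ 0 0) (.cut .s 6717440 (.pos 43 .mp ⟨⟨1611793, 0, 0, 0, 0, 4169130, 0, 0, 0, ⟨0, 0⟩, 0⟩, 0, 0⟩ 0 0) (.pos 43 .mp ⟨⟨1838984, 0, 0, 0, 0, 4403359, 0, 0, 0, ⟨0, 0⟩, 0⟩, 0, 0⟩ 0 0)))) (.pos 44 .mp ⟨⟨6143864, 0, 0, 0, 0, 0, 0, 0, 0, ⟨0, 0⟩, 0⟩, 0, 0⟩ 0 0)) (.pos 35 .mp ⟨⟨1836334, 0, 0, 0, 0, 3060979, 0, 0, 0, ⟨0, 0⟩, 0⟩, 0, 0⟩ 0 0)))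 (.pos 36 .mp ⟨⟨6539965, 0, 0, 0, 0, 0, 0, 0, 0, ⟨0, 0⟩, 0⟩, 0, 0⟩ 0 0))) (.pos 32 .mp ⟨⟨6481880, 0, 0, 0, 0, 0, 0, 0, 0, ⟨0, 0⟩, 0⟩, 0, 0⟩ 0 0)) (.void 30 ⟨⟨100000, 0, 0, 0, 0, 0, 0, 0, 0, ⟨0, 0⟩, 0⟩, 0, 0⟩ 0 0)) (.void 28 ⟨⟨100000, 0, 0, 0, 0, 0, 0, 0, 0, ⟨0, 0⟩, 0⟩, 0, 0⟩ 0 0))) (.void 26 ⟨⟨100000, 0, 0, 0, 0, 0, 0, 0, 0, ⟨0, 0⟩, 0⟩, 0, 0⟩ 0 0))))) (.void 24 ⟨⟨100000, 0, 0, 0, 0, 0, 0, 0, 0, ⟨0, 0⟩, 0⟩, 0, 0⟩ 0 0))))) (.void 22 ⟨⟨100000, 0, 0, 0, 0, 0, 0, 0, 0, ⟨0, 0⟩, 0⟩, 0, 0⟩ 0 0))) (.cut .v 16777216 (.cut .d 3192805 (.cut .d 1596402 (.cut .d 798201 (.cut .v 8388608 (.cut .v 4194304 (.void 4 ⟨⟨0, 0, 50000, 0, 50000, 0, 0, 0,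 0, ⟨0, 0⟩, 0⟩, 0, 0⟩ 0 0) (.void 5 ⟨⟨0, 0, 0, 0, 0, 0, 0, 0, 100000, ⟨0, 0⟩, 9975792⟩, 0, 0⟩ 0 0)) (.cut .v 12582912 (.pos 6 .pm ⟨⟨0, 0, 0, 0, 0, 0, 0, 0, 0, ⟨0, 0⟩, 0⟩, 0, 449680⟩ 0 0) (.cut .v 14680064 (.pos 10 .pm ⟨⟨0, 0, 0, 0, 0, 0, 0, 0, 0, ⟨0, 0⟩, 0⟩, 0, 322671⟩ 0 0) (.pos 11 .pm ⟨⟨0, 0, 0, 0, 0, 0, 0, 0, 0, ⟨0, 0⟩, 0⟩, 0, 122169⟩ 0 0)))) (.void 1 ⟨⟨0, 0, 0, 0, 0, 0, 0, 0, 0, ⟨0, 0⟩, 0⟩, 0, 100000⟩ 0 0)) (.void 1 ⟨⟨0, 0, 0, 0, 0, 0, 0, 0, 0, ⟨0, 0⟩, 0⟩, 0, 100000⟩ 0 0)) (.void 1 ⟨⟨0, 0, 0, 0, 0, 0, 0, 0, 0, ⟨0, 0⟩, 0⟩, 0, 100000⟩ 0 0)) (.cut .v 25165824 (.cut .d 3192805 (.cut .v 20971520 (.cut .d 1596402 (.cut .v 18874368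 (.cut .d 798201 (.cut .d 399100 (.cut .s 6422528 (.pos 25 .pp ⟨⟨2411410, 0, 0, 0, 0, 0, 0, 0, 0, ⟨0, 0⟩, 0⟩, 0, 95323⟩ 0 0) (.pos 25 .pp ⟨⟨3513520, 0, 0, 0, 0, 0, 0, 0, 0, ⟨0, 0⟩, 0⟩, 0, 57814⟩ 0 0)) (.pos 25 .pp ⟨⟨624601, 0, 0, 0, 0, 0, 0, 0, 0, ⟨0, 0⟩, 0⟩, 0, 400568⟩ 0 0)) (.void 25 ⟨⟨0, 0, 0, 0, 0, 0, 0, 0, 0, ⟨0, 0⟩, 0⟩, 0, 100000⟩ 0 0)) (.void 26 ⟨⟨70147, 0, 0, 0, 0, 0, 0, 0, 0, ⟨0, 0⟩, 0⟩, 0, 29853⟩ 0 0)) (.void 23 ⟨⟨0, 0, 0, 0, 0, 0, 0, 0, 0, ⟨0, 0⟩, 0⟩, 0, 100000⟩ 0 0)) (.void 24 ⟨⟨0, 0, 0, 0, 0, 0, 0, 0, 0, ⟨0, 0⟩, 0⟩, 20528, 79472⟩ 0 0)) (.void 21 ⟨⟨0, 0, 0, 0, 0, 0, 0, 0, 0, ⟨0, 0⟩, 0⟩, 0, 100000⟩ 0 0)) (.void 22 ⟨⟨0,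 0, 0, 0, 0, 0, 0, 0, 0, ⟨0, 0⟩, 0⟩, 20528, 79472⟩ 0 0)))),
    by decide +kernel⟩

def covers7 : cell.Covers Vale.Agent.P237.Petty.Cor.Grid.N12.table row7.1 :=
  ⟨(.cut .d 0 (.cut .v 16777216 (.cut .d (-8388608) (.void 1 ⟨⟨0, 0, 0, 0, 0, 100000, 0, 0, 0, ⟨0, 0⟩, 0⟩, 0, 0⟩ 0 0) (.cut .d (-4194304) (.void 1 ⟨⟨0, 0, 0, 0, 0, 100000, 0, 0, 0, ⟨0, 0⟩, 0⟩, 0, 0⟩ 0 0) (.cut .d (-2097152) (.void 1 ⟨⟨0, 0, 0, 0, 0, 100000, 0, 0, 0, ⟨0, 0⟩, 0⟩, 0, 0⟩ 0 0) (.cut .d (-1048576) (.void 1 ⟨⟨0, 0, 0, 0, 0, 100000, 0, 0, 0, ⟨0, 0⟩, 0⟩, 0, 0⟩ 0 0) (.cut .d (-524288) (.void 1 ⟨⟨0, 0, 0, 0, 0, 100000, 0, 0, 0, ⟨0, 0⟩, 0⟩, 0, 0⟩ 0 0) (.cut .d (-262144)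 (.void 1 ⟨⟨0, 0, 0, 0, 0, 100000, 0, 0, 0, ⟨0, 0⟩, 0⟩, 0, 0⟩ 0 0) (.cut .d (-131072) (.void 1 ⟨⟨0, 0, 0, 0, 0, 100000, 0, 0, 0, ⟨0, 0⟩, 0⟩, 0, 0⟩ 0 0) (.cut .v 8388608 (.cut .v 4194304 (.void 4 ⟨⟨0, 0, 100000, 0, 0, 0, 0, 0, 0, ⟨0, 0⟩, 0⟩, 0, 0⟩ 0 0) (.void 5 ⟨⟨0, 0, 0, 0, 0, 0, 0, 0, 100000, ⟨0, 0⟩, 9975792⟩, 0, 0⟩ 0 0)) (.cut .v 12582912 (.pos 6 .mm ⟨⟨0, 0, 0, 0, 0, 3049424, 0, 0, 0, ⟨0, 0⟩, 0⟩, 0, 0⟩ 0 0) (.cut .v 14680064 (.pos 10 .mm ⟨⟨0, 0, 0, 0, 0, 4332414, 0, 0, 0, ⟨0, 0⟩, 0⟩, 0, 0⟩ 0 0) (.cut .v 15728640 (.pos 18 .mm ⟨⟨0, 0, 0, 0, 0, 5201914, 0, 0, 0, ⟨0, 0⟩, 0⟩, 0, 0⟩ 0 0) (.cut .v 16252928 (.pos 33 .mm ⟨⟨0, 0, 0, 0, 0,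 7109407, 0, 0, 0, ⟨0, 0⟩, 0⟩, 0, 0⟩ 0 0) (.cut .v 16515072 (.pos 39 .mm ⟨⟨0, 0, 0, 0, 0, 8128594, 0, 0, 0, ⟨0, 0⟩, 0⟩, 0, 0⟩ 0 0) (.cut .s 7176192 (.cut .s 6995968 (.pos 40 .mm ⟨⟨0, 0, 0, 0, 0, 7136991, 0, 0, 0, ⟨0, 0⟩, 0⟩, 0, 0⟩ 0 0) (.cut .s 7086080 (.pos 40 .mm ⟨⟨0, 0, 0, 0, 0, 7820458, 0, 0, 0, ⟨0, 0⟩, 0⟩, 0, 0⟩ 0 0) (.pos 40 .mm ⟨⟨0, 0, 0, 0, 0, 8359779, 0, 0, 0, ⟨0, 0⟩, 0⟩, 0, 0⟩ 0 0))) (.cut .s 7356416 (.cut .s 7266304 (.pos 40 .mm ⟨⟨0, 0, 0, 0, 0, 8941007, 0, 0, 0, ⟨0, 0⟩, 0⟩, 0, 0⟩ 0 0) (.pos 40 .mm ⟨⟨0, 0, 0, 0, 0, 9563795, 0, 0, 0, ⟨0, 0⟩, 0⟩, 0, 0⟩ 0 0)) (.pos 40 .mm ⟨⟨0, 0, 0, 0, 0, 10629916, 0, 0, 0, ⟨0, 0⟩, 0⟩, 0,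 0⟩ 0 0)))))))))))))))) (.cut .v 25165824 (.cut .d (-8388608) (.void 21 ⟨⟨0, 0, 0, 0, 0, 100000, 0, 0, 0, ⟨0, 0⟩, 0⟩, 0, 0⟩ 0 0) (.cut .d (-4194304) (.void 21 ⟨⟨0, 0, 0, 0, 0, 100000, 0, 0, 0, ⟨0, 0⟩, 0⟩, 0, 0⟩ 0 0) (.cut .d (-2097152) (.void 21 ⟨⟨0, 0, 0, 0, 0, 100000, 0, 0, 0, ⟨0, 0⟩, 0⟩, 0, 0⟩ 0 0) (.cut .v 20971520 (.cut .d (-1048576) (.void 23 ⟨⟨0, 0, 0, 0, 0, 100000, 0, 0, 0, ⟨0, 0⟩, 0⟩, 0, 0⟩ 0 0) (.cut .d (-524288) (.void 23 ⟨⟨0, 0, 0, 0, 0, 100000, 0, 0, 0, ⟨0, 0⟩, 0⟩, 0, 0⟩ 0 0) (.cut .v 18874368 (.cut .d (-262144) (.void 25 ⟨⟨0, 0, 0, 0, 0, 100000, 0, 0, 0, ⟨0, 0⟩, 0⟩, 0, 0⟩ 0 0) (.cut .d (-131072) (.void 25 ⟨⟨0, 0, 0,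 0, 0, 100000, 0, 0, 0, ⟨0, 0⟩, 0⟩, 0, 0⟩ 0 0) (.cut .v 17825792 (.cut .v 17301504 (.cut .v 17039360 (.cut .s 7176192 (.cut .v 16908288 (.cut .d (-65536) (.cut .s 6995968 (.pos 35 .mp ⟨⟨1778066, 0, 0, 0, 0, 5964937, 0, 0, 0, ⟨0, 0⟩, 0⟩, 0, 0⟩ 0 0) (.cut .s 7086080 (.pos 35 .mp ⟨⟨2230117, 0, 0, 0, 0, 6056117, 0, 0, 0, ⟨0, 0⟩, 0⟩, 0, 0⟩ 0 0) (.pos 35 .mp ⟨⟨2489875, 0, 0, 0, 0, 6342359, 0, 0, 0, ⟨0, 0⟩, 0⟩, 0, 0⟩ 0 0))) (.cut .s 6995968 (.cut .v 16842752 (.cut .s 6905856 (.pos 43 .mp ⟨⟨2079666, 0, 0, 0, 0, 4696210, 0, 0, 0, ⟨0, 0⟩, 0⟩, 0, 0⟩ 0 0) (.cut .s 6950912 (.pos 43 .mp ⟨⟨2429903, 0, 0, 0, 0, 4670514, 0, 0, 0, ⟨0, 0⟩, 0⟩, 0, 0⟩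 0 0) (.pos 43 .mp ⟨⟨2492473, 0, 0, 0, 0, 4832113, 0, 0, 0, ⟨0, 0⟩, 0⟩, 0, 0⟩ 0 0))) (.pos 44 .mp ⟨⟨6620664, 0, 0, 0, 0, 0, 0, 0, 0, ⟨0, 0⟩, 0⟩, 0, 0⟩ 0 0)) (.cut .v 16842752 (.cut .l 153791 (.cut .d (-32768) (.pos 43 .mp ⟨⟨2154651, 0, 0, 0, 0, 6505389, 0, 0, 0, ⟨0, 0⟩, 0⟩, 0, 0⟩ 0 0) (.cut .v 16809984 (.cut .s 7086080 (.pos 45 .mp ⟨⟨2377117, 0, 0, 0, 0, 5247550, 0, 0, 0, ⟨0, 0⟩, 0⟩, 0, 0⟩ 0 0) (.cut .s 7131136 (.pos 45 .mp ⟨⟨2983788, 0, 0, 0, 0, 5003676, 0, 0, 0, ⟨0, 0⟩, 0⟩, 0, 0⟩ 0 0) (.pos 45 .mp ⟨⟨3096280, 0, 0, 0, 0, 5154021, 0, 0, 0, ⟨0, 0⟩, 0⟩, 0, 0⟩ 0 0))) (.pos 46 .mp ⟨⟨5819173, 0, 0, 0, 0, 1916524, 0, 0, 0, ⟨0, 0⟩, 0⟩,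 0, 0⟩ 0 0))) (.pos 43 .mp ⟨⟨2055245, 0, 0, 0, 0, 5628707, 0, 0, 0, ⟨0, 0⟩, 0⟩, 0, 0⟩ 0 0)) (.pos 44 .mp ⟨⟨5441450, 0, 0, 0, 0, 2401155, 0, 0, 0, ⟨0, 0⟩, 0⟩, 0, 0⟩ 0 0)))) (.pos 36 .mp ⟨⟨8669171, 0, 0, 0, 0, 0, 0, 0, 0, ⟨0, 0⟩, 0⟩, 0, 0⟩ 0 0)) (.cut .v 16908288 (.cut .d (-65536) (.cut .s 7356416 (.cut .s 7266304 (.pos 35 .mp ⟨⟨2772689, 0, 0, 0, 0, 6634879, 0, 0, 0, ⟨0, 0⟩, 0⟩, 0, 0⟩ 0 0) (.pos 35 .mp ⟨⟨3079008, 0, 0, 0, 0, 6944783, 0, 0, 0, ⟨0, 0⟩, 0⟩, 0, 0⟩ 0 0)) (.pos 35 .mp ⟨⟨3409300, 0, 0, 0, 0, 7935498, 0, 0, 0, ⟨0, 0⟩, 0⟩, 0, 0⟩ 0 0)) (.cut .s 7356416 (.cut .s 7266304 (.cut .s 7221248 (.pos 35 .mp ⟨⟨3076895, 0, 0, 0, 0, 5515478,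 0, 0, 0, ⟨0, 0⟩, 0⟩, 0, 0⟩ 0 0) (.cut .s 7243776 (.pos 35 .mp ⟨⟨3201638, 0, 0, 0, 0, 5617657, 0, 0, 0, ⟨0, 0⟩, 0⟩, 0, 0⟩ 0 0) (.pos 35 .mp ⟨⟨3279046, 0, 0, 0, 0, 5684648, 0, 0, 0, ⟨0, 0⟩, 0⟩, 0, 0⟩ 0 0))) (.cut .v 16842752 (.cut .s 7311360 (.pos 43 .mp ⟨⟨3147038, 0, 0, 0, 0, 6069896, 0, 0, 0, ⟨0, 0⟩, 0⟩, 0, 0⟩ 0 0) (.pos 43 .mp ⟨⟨3315327, 0, 0, 0, 0, 6205614, 0, 0, 0, ⟨0, 0⟩, 0⟩, 0, 0⟩ 0 0)) (.pos 44 .mp ⟨⟨5384072, 0, 0, 0, 0, 3863064, 0, 0, 0, ⟨0, 0⟩, 0⟩, 0, 0⟩ 0 0))) (.cut .s 7446528 (.cut .s 7401472 (.cut .s 7378944 (.pos 35 .mp ⟨⟨3716895, 0, 0, 0, 0, 6003789, 0, 0, 0, ⟨0, 0⟩, 0⟩, 0, 0⟩ 0 0) (.pos 35 .mp ⟨⟨3815196, 0, 0, 0, 0,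 6063715, 0, 0, 0, ⟨0, 0⟩, 0⟩, 0, 0⟩ 0 0)) (.pos 35 .mp ⟨⟨3945696, 0, 0, 0, 0, 6156765, 0, 0, 0, ⟨0, 0⟩, 0⟩, 0, 0⟩ 0 0)) (.cut .s 7491584 (.pos 35 .mp ⟨⟨4138590, 0, 0, 0, 0, 6295084, 0, 0, 0, ⟨0, 0⟩, 0⟩, 0, 0⟩ 0 0) (.pos 35 .mp ⟨⟨4338019, 0, 0, 0, 0, 6436449, 0, 0, 0, ⟨0, 0⟩, 0⟩, 0, 0⟩ 0 0))))) (.pos 36 .mp ⟨⟨10650604, 0, 0, 0, 0, 0, 0, 0, 0, ⟨0, 0⟩, 0⟩, 0, 0⟩ 0 0))) (.pos 32 .mp ⟨⟨10852243, 0, 0, 0, 0, 0, 0, 0, 0, ⟨0, 0⟩, 0⟩, 0, 0⟩ 0 0)) (.void 30 ⟨⟨100000, 0, 0, 0, 0, 0, 0, 0, 0, ⟨0, 0⟩, 0⟩, 0, 0⟩ 0 0)) (.void 28 ⟨⟨100000, 0, 0, 0, 0, 0, 0, 0, 0, ⟨0, 0⟩, 0⟩, 0, 0⟩ 0 0)))) (.void 26 ⟨⟨100000, 0, 0, 0, 0, 0, 0, 0, 0, ⟨0, 0⟩, 0⟩,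 0, 0⟩ 0 0)))) (.void 24 ⟨⟨100000, 0, 0, 0, 0, 0, 0, 0, 0, ⟨0, 0⟩, 0⟩, 0, 0⟩ 0 0))))) (.void 22 ⟨⟨100000, 0, 0, 0, 0, 0, 0, 0, 0, ⟨0, 0⟩, 0⟩, 0, 0⟩ 0 0))) (.cut .v 16777216 (.cut .d 3934617 (.cut .d 1967308 (.cut .d 983654 (.cut .v 8388608 (.cut .v 4194304 (.void 4 ⟨⟨0, 0, 50000, 0, 50000, 0, 0, 0, 0, ⟨0, 0⟩, 0⟩, 0, 0⟩ 0 0) (.void 5 ⟨⟨0, 0, 0, 0, 0, 0, 0, 0, 100000, ⟨0, 0⟩, 9975792⟩, 0, 0⟩ 0 0)) (.cut .v 12582912 (.pos 6 .pm ⟨⟨0, 0, 0, 0, 0, 0, 0, 0, 0, ⟨0, 0⟩, 0⟩, 0, 0⟩ 0 0) (.cut .v 14680064 (.pos 10 .pm ⟨⟨0, 0, 0, 0, 0, 0, 0, 0, 0, ⟨0, 0⟩, 0⟩, 0, 0⟩ 0 0) (.pos 11 .pm ⟨⟨0, 0, 0, 0, 0, 0, 0, 0, 0, ⟨0, 0⟩, 0⟩, 0, 0⟩ 0 0)))) (.void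 1 ⟨⟨0, 0, 0, 0, 0, 0, 0, 0, 0, ⟨0, 0⟩, 0⟩, 0, 100000⟩ 0 0)) (.void 1 ⟨⟨0, 0, 0, 0, 0, 0, 0, 0, 0, ⟨0, 0⟩, 0⟩, 0, 100000⟩ 0 0)) (.void 1 ⟨⟨0, 0, 0, 0, 0, 0, 0, 0, 0, ⟨0, 0⟩, 0⟩, 0, 100000⟩ 0 0)) (.cut .v 25165824 (.cut .d 3934617 (.cut .v 20971520 (.cut .d 1967308 (.cut .d 983654 (.cut .v 18874368 (.cut .d 491827 (.cut .s 7176192 (.pos 25 .pp ⟨⟨4840698, 0, 0, 0, 0, 0, 0, 0, 0, ⟨0, 0⟩, 0⟩, 0, 94569⟩ 0 0) (.cut .s 7356416 (.pos 25 .pp ⟨⟨5853382, 0, 0, 0, 0, 0, 0, 0, 0, ⟨0, 0⟩, 0⟩, 14021, 0⟩ 0 0) (.pos 25 .pp ⟨⟨6706526, 0, 0, 0, 0, 0, 0, 0, 0, ⟨0, 0⟩, 0⟩, 36278, 0⟩ 0 0))) (.pos 25 .pp ⟨⟨1657175, 0, 0, 0, 0, 0, 0, 0, 0, ⟨0, 0⟩, 0⟩, 0,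 442831⟩ 0 0)) (.pos 26 .pp ⟨⟨12597004, 0, 0, 0, 0, 0, 0, 0, 0, ⟨0, 0⟩, 0⟩, 0, 2039948⟩ 0 0)) (.void 23 ⟨⟨0, 0, 0, 0, 0, 0, 0, 0, 0, ⟨0, 0⟩, 0⟩, 0, 100000⟩ 0 0)) (.void 23 ⟨⟨0, 0, 0, 0, 0, 0, 0, 0, 0, ⟨0, 0⟩, 0⟩, 0, 100000⟩ 0 0)) (.void 24 ⟨⟨0, 0, 0, 0, 0, 0, 100000, 0, 0, ⟨0, 0⟩, 0⟩, 0, 0⟩ 0 0)) (.void 21 ⟨⟨0, 0, 0, 0, 0, 0, 0, 0, 0, ⟨0, 0⟩, 0⟩, 0, 100000⟩ 0 0)) (.void 22 ⟨⟨0, 0, 0, 0, 0, 0, 0, 0, 0, ⟨0, 0⟩, 0⟩, 19869, 80131⟩ 0 0)))),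
    by decide +kernel⟩

def covers8 : cell.Covers Vale.Agent.P237.Petty.Cor.Grid.N12.table row8.1 :=
  ⟨(.cut .d 0 (.cut .v 16777216 (.cut .d (-8388608) (.void 1 ⟨⟨0, 0, 0, 0, 0, 100000, 0, 0, 0, ⟨0, 0⟩, 0⟩, 0, 0⟩ 0 0) (.cut .d (-4194304) (.void 1 ⟨⟨0, 0, 0, 0, 0, 100000, 0, 0, 0, ⟨0, 0⟩, 0⟩, 0, 0⟩ 0 0) (.cut .d (-2097152) (.void 1 ⟨⟨0, 0, 0, 0, 0, 100000, 0, 0, 0, ⟨0, 0⟩, 0⟩, 0, 0⟩ 0 0) (.cut .d (-1048576) (.void 1 ⟨⟨0, 0, 0, 0, 0, 100000, 0, 0, 0, ⟨0, 0⟩, 0⟩, 0, 0⟩ 0 0) (.cut .d (-524288) (.void 1 ⟨⟨0, 0, 0, 0, 0, 100000, 0, 0, 0, ⟨0, 0⟩, 0⟩, 0, 0⟩ 0 0) (.cut .d (-262144) (.void 1 ⟨⟨0, 0, 0, 0, 0, 100000, 0, 0, 0, ⟨0, 0⟩, 0⟩,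 0, 0⟩ 0 0) (.cut .d (-131072) (.void 1 ⟨⟨0, 0, 0, 0, 0, 100000, 0, 0, 0, ⟨0, 0⟩, 0⟩, 0, 0⟩ 0 0) (.cut .v 8388608 (.cut .v 4194304 (.void 4 ⟨⟨0, 0, 100000, 0, 0, 0, 0, 0, 0, ⟨0, 0⟩, 0⟩, 0, 0⟩ 0 0) (.pos 5 .mm ⟨⟨0, 0, 0, 0, 0, 6181216, 0, 0, 699123, ⟨0, 0⟩, 9975792⟩, 0, 0⟩ 0 0)) (.cut .v 12582912 (.pos 6 .mm ⟨⟨0, 0, 0, 0, 0, 5687352, 0, 0, 0, ⟨0, 0⟩, 0⟩, 0, 0⟩ 0 0) (.cut .d (-65536) (.pos 7 .mm ⟨⟨0, 0, 0, 0, 0, 16279666, 0, 0, 0, ⟨0, 0⟩, 0⟩, 0, 0⟩ 0 0) (.cut .v 14680064 (.pos 10 .mm ⟨⟨0, 0, 0, 0, 0, 7797011, 0, 0, 0, ⟨0, 0⟩, 0⟩, 0, 0⟩ 0 0) (.cut .v 15728640 (.pos 18 .mm ⟨⟨0, 0, 0, 0, 0, 8961005, 0, 0, 0, ⟨0, 0⟩, 0⟩, 0, 0⟩ 0 0) (.cut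 .v 16252928 (.pos 33 .mm ⟨⟨0, 0, 0, 0, 0, 9605591, 0, 0, 0, ⟨0, 0⟩, 0⟩, 0, 0⟩ 0 0) (.cut .v 16515072 (.pos 39 .mm ⟨⟨0, 0, 0, 0, 0, 11606060, 0, 0, 0, ⟨0, 0⟩, 0⟩, 0, 0⟩ 0 0) (.cut .v 16646144 (.pos 41 .mm ⟨⟨0, 0, 0, 0, 0, 12764486, 0, 0, 0, ⟨0, 0⟩, 0⟩, 0, 0⟩ 0 0) (.cut .v 16711680 (.pos 49 .mm ⟨⟨0, 0, 0, 0, 0, 13200511, 0, 0, 0, ⟨0, 0⟩, 0⟩, 0, 0⟩ 0 0) (.cut .l 153791 (.cut .d (-32768) (.pos 50 .mm ⟨⟨0, 0, 0, 0, 0, 16260888, 0, 0, 0, ⟨0, 0⟩, 0⟩, 0, 0⟩ 0 0) (.cut .s 7798784 (.pos 50 .mm ⟨⟨0, 0, 0, 0, 0, 12344761, 0, 0, 0, ⟨0, 0⟩, 0⟩, 0, 0⟩ 0 0) (.cut .s 7929856 (.pos 50 .mm ⟨⟨0, 0, 0, 0, 0, 14377274, 0, 0, 0, ⟨0, 0⟩, 0⟩, 0, 0⟩ 0 0)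 (.pos 50 .mm ⟨⟨0, 0, 0, 0, 0, 15816598, 0, 0, 0, ⟨0, 0⟩, 0⟩, 0, 0⟩ 0 0)))) (.pos 50 .mm ⟨⟨0, 0, 0, 0, 0, 12157529, 0, 0, 0, ⟨0, 0⟩, 0⟩, 0, 0⟩ 0 0)))))))))))))))))) (.cut .v 25165824 (.cut .d (-8388608) (.void 21 ⟨⟨0, 0, 0, 0, 0, 100000, 0, 0, 0, ⟨0, 0⟩, 0⟩, 0, 0⟩ 0 0) (.cut .d (-4194304) (.void 21 ⟨⟨0, 0, 0, 0, 0, 100000, 0, 0, 0, ⟨0, 0⟩, 0⟩, 0, 0⟩ 0 0) (.cut .v 20971520 (.cut .d (-2097152) (.void 23 ⟨⟨0, 0, 0, 0, 0, 100000, 0, 0, 0, ⟨0, 0⟩, 0⟩, 0, 0⟩ 0 0) (.cut .d (-1048576) (.void 23 ⟨⟨0, 0, 0, 0, 0, 100000, 0, 0, 0, ⟨0, 0⟩, 0⟩, 0, 0⟩ 0 0) (.cut .d (-524288) (.void 23 ⟨⟨0, 0, 0, 0, 0, 100000, 0, 0, 0, ⟨0, 0⟩, 0⟩, 0, 0⟩ 0 0) (.cut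 .v 18874368 (.cut .d (-262144) (.void 25 ⟨⟨0, 0, 0, 0, 0, 100000, 0, 0, 0, ⟨0, 0⟩, 0⟩, 0, 0⟩ 0 0) (.cut .d (-131072) (.void 25 ⟨⟨0, 0, 0, 0, 0, 100000, 0, 0, 0, ⟨0, 0⟩, 0⟩, 0, 0⟩ 0 0) (.cut .v 17825792 (.cut .v 17301504 (.cut .v 17039360 (.cut .d (-65536) (.cut .v 16908288 (.cut .s 7798784 (.pos 35 .mp ⟨⟨4194296, 0, 0, 0, 0, 9517253, 0, 0, 0, ⟨0, 0⟩, 0⟩, 0, 0⟩ 0 0) (.pos 35 .mp ⟨⟨5442635, 0, 0, 0, 0, 10941381, 0, 0, 0, ⟨0, 0⟩, 0⟩, 0, 0⟩ 0 0)) (.void 36 ⟨⟨100000, 0, 0, 0, 0, 0, 0, 0, 0, ⟨0, 0⟩, 0⟩, 0, 0⟩ 0 0)) (.cut .v 16908288 (.cut .s 7798784 (.cut .s 7667712 (.cut .v 16842752 (.cut .l 153791 (.cut .d (-32768) (.pos 43 .mp ⟨⟨4100045,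 0, 0, 0, 0, 8319332, 0, 0, 0, ⟨0, 0⟩, 0⟩, 0, 0⟩ 0 0) (.cut .s 7602176 (.pos 43 .mp ⟨⟨4509898, 0, 0, 0, 0, 6619929, 0, 0, 0, ⟨0, 0⟩, 0⟩, 0, 0⟩ 0 0) (.pos 43 .mp ⟨⟨4747597, 0, 0, 0, 0, 6860065, 0, 0, 0, ⟨0, 0⟩, 0⟩, 0, 0⟩ 0 0))) (.pos 43 .mp ⟨⟨3902205, 0, 0, 0, 0, 7417520, 0, 0, 0, ⟨0, 0⟩, 0⟩, 0, 0⟩ 0 0)) (.pos 44 .mp ⟨⟨8110338, 0, 0, 0, 0, 3108268, 0, 0, 0, ⟨0, 0⟩, 0⟩, 0, 0⟩ 0 0)) (.cut .v 16842752 (.cut .s 7733248 (.cut .s 7700480 (.pos 43 .mp ⟨⟨5069604, 0, 0, 0, 0, 6989400, 0, 0, 0, ⟨0, 0⟩, 0⟩, 0, 0⟩ 0 0) (.pos 43 .mp ⟨⟨5110662, 0, 0, 0, 0, 7240554, 0, 0, 0, ⟨0, 0⟩, 0⟩, 0, 0⟩ 0 0)) (.cut .s 7766016 (.pos 43 .mp ⟨⟨5163447, 0, 0,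 0, 0, 7486938, 0, 0, 0, ⟨0, 0⟩, 0⟩, 0, 0⟩ 0 0) (.pos 43 .mp ⟨⟨5275594, 0, 0, 0, 0, 7667706, 0, 0, 0, ⟨0, 0⟩, 0⟩, 0, 0⟩ 0 0))) (.pos 44 .mp ⟨⟨8811305, 0, 0, 0, 0, 3376296, 0, 0, 0, ⟨0, 0⟩, 0⟩, 0, 0⟩ 0 0))) (.cut .s 7929856 (.cut .s 7864320 (.cut .v 16842752 (.cut .d (-32768) (.pos 43 .mp ⟨⟨5205720, 0, 0, 0, 0, 8503031, 0, 0, 0, ⟨0, 0⟩, 0⟩, 0, 0⟩ 0 0) (.cut .s 7831552 (.pos 43 .mp ⟨⟨5787120, 0, 0, 0, 0, 7296501, 0, 0, 0, ⟨0, 0⟩, 0⟩, 0, 0⟩ 0 0) (.pos 43 .mp ⟨⟨5946146, 0, 0, 0, 0, 7428147, 0, 0, 0, ⟨0, 0⟩, 0⟩, 0, 0⟩ 0 0))) (.pos 44 .mp ⟨⟨7994820, 0, 0, 0, 0, 5144613, 0, 0, 0, ⟨0, 0⟩, 0⟩, 0, 0⟩ 0 0)) (.cut .v 16842752 (.cut .d (-32768)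 (.pos 43 .mp ⟨⟨5567135, 0, 0, 0, 0, 8745272, 0, 0, 0, ⟨0, 0⟩, 0⟩, 0, 0⟩ 0 0) (.cut .s 7897088 (.pos 43 .mp ⟨⟨6115391, 0, 0, 0, 0, 7556689, 0, 0, 0, ⟨0, 0⟩, 0⟩, 0, 0⟩ 0 0) (.pos 43 .mp ⟨⟨6295291, 0, 0, 0, 0, 7681571, 0, 0, 0, ⟨0, 0⟩, 0⟩, 0, 0⟩ 0 0))) (.pos 44 .mp ⟨⟨8417921, 0, 0, 0, 0, 5301482, 0, 0, 0, ⟨0, 0⟩, 0⟩, 0, 0⟩ 0 0))) (.cut .s 7995392 (.cut .v 16842752 (.cut .d (-32768) (.pos 43 .mp ⟨⟨5947358, 0, 0, 0, 0, 9006087, 0, 0, 0, ⟨0, 0⟩, 0⟩, 0, 0⟩ 0 0) (.cut .s 7962624 (.pos 43 .mp ⟨⟨6486285, 0, 0, 0, 0, 7802227, 0, 0, 0, ⟨0, 0⟩, 0⟩, 0, 0⟩ 0 0) (.pos 43 .mp ⟨⟨6688817, 0, 0, 0, 0, 7918081, 0, 0, 0, ⟨0, 0⟩, 0⟩, 0, 0⟩ 0 0))) (.pos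 44 .mp ⟨⟨8902266, 0, 0, 0, 0, 5420416, 0, 0, 0, ⟨0, 0⟩, 0⟩, 0, 0⟩ 0 0)) (.cut .v 16842752 (.cut .d (-32768) (.pos 43 .mp ⟨⟨6346701, 0, 0, 0, 0, 9285996, 0, 0, 0, ⟨0, 0⟩, 0⟩, 0, 0⟩ 0 0) (.cut .s 8028160 (.pos 43 .mp ⟨⟨6903334, 0, 0, 0, 0, 8028544, 0, 0, 0, ⟨0, 0⟩, 0⟩, 0, 0⟩ 0 0) (.pos 43 .mp ⟨⟨7130290, 0, 0, 0, 0, 8133018, 0, 0, 0, ⟨0, 0⟩, 0⟩, 0, 0⟩ 0 0))) (.pos 44 .mp ⟨⟨9453493, 0, 0, 0, 0, 5493969, 0, 0, 0, ⟨0, 0⟩, 0⟩, 0, 0⟩ 0 0))))) (.pos 36 .mp ⟨⟨13106603, 0, 0, 0, 0, 0, 0, 0, 0, ⟨0, 0⟩, 0⟩, 0, 0⟩ 0 0))) (.pos 32 .mp ⟨⟨15640768, 0, 0, 0, 0, 0, 0, 0, 0, ⟨0, 0⟩, 0⟩, 0, 0⟩ 0 0)) (.void 30 ⟨⟨100000, 0, 0, 0, 0, 0, 0, 0, 0, ⟨0, 0⟩,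 0⟩, 0, 0⟩ 0 0)) (.void 28 ⟨⟨100000, 0, 0, 0, 0, 0, 0, 0, 0, ⟨0, 0⟩, 0⟩, 0, 0⟩ 0 0)))) (.void 26 ⟨⟨100000, 0, 0, 0, 0, 0, 0, 0, 0, ⟨0, 0⟩, 0⟩, 0, 0⟩ 0 0))))) (.void 24 ⟨⟨100000, 0, 0, 0, 0, 0, 0, 0, 0, ⟨0, 0⟩, 0⟩, 0, 0⟩ 0 0)))) (.void 22 ⟨⟨100000, 0, 0, 0, 0, 0, 0, 0, 0, ⟨0, 0⟩, 0⟩, 0, 0⟩ 0 0))) (.cut .v 16777216 (.cut .d 4615390 (.cut .d 2307695 (.cut .d 1153847 (.cut .v 8388608 (.cut .v 4194304 (.void 4 ⟨⟨0, 0, 100000, 0, 0, 0, 0, 0, 0, ⟨0, 0⟩, 0⟩, 0, 0⟩ 0 0) (.pos 5 .pm ⟨⟨0, 0, 0, 0, 0, 0, 0, 0, 897758, ⟨0, 0⟩, 9975792⟩, 0, 0⟩ 0 0)) (.cut .v 12582912 (.pos 6 .pm ⟨⟨0, 0, 0, 0, 0, 0, 0, 0, 0, ⟨0, 0⟩, 0⟩, 0, 0⟩ 0 0) (.pos 7 .pm ⟨⟨0,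 0, 0, 0, 0, 0, 0, 0, 0, ⟨0, 0⟩, 0⟩, 0, 0⟩ 0 0))) (.void 1 ⟨⟨0, 0, 0, 0, 0, 0, 0, 0, 0, ⟨0, 0⟩, 0⟩, 0, 100000⟩ 0 0)) (.void 1 ⟨⟨0, 0, 0, 0, 0, 0, 0, 0, 0, ⟨0, 0⟩, 0⟩, 0, 100000⟩ 0 0)) (.void 1 ⟨⟨0, 0, 0, 0, 0, 0, 0, 0, 0, ⟨0, 0⟩, 0⟩, 0, 100000⟩ 0 0)) (.cut .v 25165824 (.cut .d 4615390 (.cut .d 2307695 (.cut .d 1153847 (.cut .v 20971520 (.cut .v 18874368 (.cut .d 576923 (.cut .v 17825792 (.cut .s 7798784 (.pos 27 .pp ⟨⟨7158760, 0, 0, 0, 0, 0, 0, 0, 0, ⟨0, 0⟩, 0⟩, 60496, 0⟩ 0 0) (.pos 27 .pp ⟨⟨8290382, 0, 0, 0, 0, 0, 0, 0, 0, ⟨0, 0⟩, 0⟩, 151719, 0⟩ 0 0)) (.pos 28 .pp ⟨⟨11553025, 0, 0, 0, 0, 0, 0, 0, 0, ⟨0, 0⟩, 0⟩, 0, 0⟩ 0 0)) (.pos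 25 .pp ⟨⟨3736896, 0, 0, 0, 0, 0, 0, 0, 0, ⟨0, 0⟩, 0⟩, 0, 448428⟩ 0 0)) (.cut .d 576923 (.pos 26 .pp ⟨⟨16668365, 0, 0, 0, 0, 0, 0, 0, 0, ⟨0, 0⟩, 0⟩, 0, 0⟩ 0 0) (.pos 26 .pp ⟨⟨8522449, 0, 0, 0, 0, 0, 0, 0, 0, ⟨0, 0⟩, 0⟩, 0, 390433⟩ 0 0))) (.pos 24 .pp ⟨⟨41126479, 0, 0, 0, 0, 0, 0, 0, 0, ⟨0, 0⟩, 0⟩, 0, 12401227⟩ 0 0)) (.void 21 ⟨⟨0, 0, 0, 0, 0, 0, 19773, 0, 0, ⟨0, 0⟩, 0⟩, 0, 80227⟩ 0 0)) (.void 21 ⟨⟨0, 0, 0, 0, 0, 0, 0, 0, 0, ⟨0, 0⟩, 0⟩, 0, 100000⟩ 0 0)) (.void 21 ⟨⟨0, 0, 0, 0, 0, 0, 0, 0, 0, ⟨0, 0⟩, 0⟩, 0, 100000⟩ 0 0)) (.void 22 ⟨⟨0, 0, 0, 0, 0, 0, 0, 0, 0, ⟨0, 0⟩, 0⟩, 19366, 80634⟩ 0 0)))),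
    by decide +kernel⟩

def covers9 : cell.Covers Vale.Agent.P237.Petty.Cor.Grid.N12.table row9.1 :=
  ⟨(.cut .d 0 (.cut .v 16777216 (.cut .d (-8388608) (.void 1 ⟨⟨0, 0, 0, 0, 0, 100000, 0, 0, 0, ⟨0, 0⟩, 0⟩, 0, 0⟩ 0 0) (.cut .d (-4194304) (.void 1 ⟨⟨0, 0, 0, 0, 0, 100000, 0, 0, 0, ⟨0, 0⟩, 0⟩, 0, 0⟩ 0 0) (.cut .d (-2097152) (.void 1 ⟨⟨0, 0, 0, 0, 0, 100000, 0, 0, 0, ⟨0, 0⟩, 0⟩, 0, 0⟩ 0 0) (.cut .d (-1048576) (.void 1 ⟨⟨0, 0, 0, 0, 0, 100000, 0, 0, 0, ⟨0, 0⟩, 0⟩, 0, 0⟩ 0 0) (.cut .d (-524288) (.void 1 ⟨⟨0, 0, 0, 0, 0, 100000, 0, 0, 0, ⟨0, 0⟩, 0⟩, 0, 0⟩ 0 0) (.cut .d (-262144) (.void 1 ⟨⟨0, 0, 0, 0, 0, 100000, 0, 0, 0, ⟨0, 0⟩, 0⟩,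 0, 0⟩ 0 0) (.cut .d (-131072) (.void 1 ⟨⟨0, 0, 0, 0, 0, 100000, 0, 0, 0, ⟨0, 0⟩, 0⟩, 0, 0⟩ 0 0) (.cut .v 8388608 (.cut .v 4194304 (.void 4 ⟨⟨0, 0, 100000, 0, 0, 0, 0, 0, 0, ⟨0, 0⟩, 0⟩, 0, 0⟩ 0 0) (.pos 5 .mm ⟨⟨0, 0, 0, 0, 0, 6686350, 0, 0, 0, ⟨0, 0⟩, 0⟩, 0, 0⟩ 0 0)) (.cut .v 12582912 (.pos 6 .mm ⟨⟨0, 0, 0, 0, 0, 7168309, 0, 0, 0, ⟨0, 0⟩, 0⟩, 0, 0⟩ 0 0) (.cut .d (-65536) (.pos 7 .mm ⟨⟨0, 0, 0, 0, 0, 24524911, 0, 0, 0, ⟨0, 0⟩, 0⟩, 0, 0⟩ 0 0) (.cut .s 8323072 (.cut .s 8192000 (.pos 7 .mm ⟨⟨0, 0, 0, 0, 0, 17428715, 0, 0, 0, ⟨0, 0⟩, 0⟩, 0, 0⟩ 0 0) (.pos 7 .mm ⟨⟨0, 0, 0, 0, 0, 19297345, 0, 0, 0, ⟨0, 0⟩, 0⟩, 0, 0⟩ 0 0)) (.pos 7 .mm ⟨⟨0,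 0, 0, 0, 0, 22124222, 0, 0, 0, ⟨0, 0⟩, 0⟩, 0, 0⟩ 0 0)))))))))))) (.cut .v 25165824 (.cut .d (-8388608) (.void 21 ⟨⟨0, 0, 0, 0, 0, 100000, 0, 0, 0, ⟨0, 0⟩, 0⟩, 0, 0⟩ 0 0) (.cut .d (-4194304) (.void 21 ⟨⟨0, 0, 0, 0, 0, 100000, 0, 0, 0, ⟨0, 0⟩, 0⟩, 0, 0⟩ 0 0) (.cut .v 20971520 (.cut .d (-2097152) (.void 23 ⟨⟨0, 0, 0, 0, 0, 100000, 0, 0, 0, ⟨0, 0⟩, 0⟩, 0, 0⟩ 0 0) (.cut .d (-1048576) (.void 23 ⟨⟨0, 0, 0, 0, 0, 100000, 0, 0, 0, ⟨0, 0⟩, 0⟩, 0, 0⟩ 0 0) (.cut .d (-524288) (.void 23 ⟨⟨0, 0, 0, 0, 0, 100000, 0, 0, 0, ⟨0, 0⟩, 0⟩, 0, 0⟩ 0 0) (.cut .v 18874368 (.cut .d (-262144) (.void 25 ⟨⟨0, 0, 0, 0, 0, 100000, 0, 0, 0, ⟨0, 0⟩, 0⟩, 0, 0⟩ 0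 0) (.cut .d (-131072) (.void 25 ⟨⟨0, 0, 0, 0, 0, 100000, 0, 0, 0, ⟨0, 0⟩, 0⟩, 0, 0⟩ 0 0) (.cut .v 17825792 (.cut .v 17301504 (.cut .v 17039360 (.cut .d (-65536) (.cut .v 16908288 (.pos 35 .mp ⟨⟨7049314, 0, 0, 0, 0, 17338620, 0, 0, 0, ⟨0, 0⟩, 0⟩, 0, 0⟩ 0 0) (.void 36 ⟨⟨100000, 0, 0, 0, 0, 0, 0, 0, 0, ⟨0, 0⟩, 0⟩, 0, 0⟩ 0 0)) (.cut .v 16908288 (.cut .s 8323072 (.cut .s 8192000 (.cut .s 8126464 (.cut .v 16842752 (.cut .d (-32768) (.pos 43 .mp ⟨⟨6766072, 0, 0, 0, 0, 9586719, 0, 0, 0, ⟨0, 0⟩, 0⟩, 0, 0⟩ 0 0) (.cut .s 8093696 (.pos 43 .mp ⟨⟨7361228, 0, 0, 0, 0, 8242382, 0, 0, 0, ⟨0, 0⟩, 0⟩, 0, 0⟩ 0 0) (.pos 43 .mp ⟨⟨7639755, 0, 0, 0, 0,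 8318251, 0, 0, 0, ⟨0, 0⟩, 0⟩, 0, 0⟩ 0 0))) (.pos 44 .mp ⟨⟨10077557, 0, 0, 0, 0, 5518738, 0, 0, 0, ⟨0, 0⟩, 0⟩, 0, 0⟩ 0 0)) (.cut .v 16842752 (.cut .s 8159232 (.cut .s 8142848 (.pos 43 .mp ⟨⟨7983729, 0, 0, 0, 0, 8304234, 0, 0, 0, ⟨0, 0⟩, 0⟩, 0, 0⟩ 0 0) (.pos 43 .mp ⟨⟨8140823, 0, 0, 0, 0, 8329011, 0, 0, 0, ⟨0, 0⟩, 0⟩, 0, 0⟩ 0 0)) (.pos 43 .mp ⟨⟨7838756, 0, 0, 0, 0, 9024507, 0, 0, 0, ⟨0, 0⟩, 0⟩, 0, 0⟩ 0 0)) (.pos 44 .mp ⟨⟨10941340, 0, 0, 0, 0, 5327504, 0, 0, 0, ⟨0, 0⟩, 0⟩, 0, 0⟩ 0 0))) (.cut .v 16842752 (.cut .s 8257536 (.cut .s 8224768 (.pos 43 .mp ⟨⟨8235610, 0, 0, 0, 0, 8975861, 0, 0, 0, ⟨0, 0⟩, 0⟩, 0, 0⟩ 0 0) (.pos 43 .mp ⟨⟨8651908,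 0, 0, 0, 0, 8913355, 0, 0, 0, ⟨0, 0⟩, 0⟩, 0, 0⟩ 0 0)) (.cut .s 8290304 (.pos 43 .mp ⟨⟨9027299, 0, 0, 0, 0, 8923917, 0, 0, 0, ⟨0, 0⟩, 0⟩, 0, 0⟩ 0 0) (.pos 43 .mp ⟨⟨9393332, 0, 0, 0, 0, 8962713, 0, 0, 0, ⟨0, 0⟩, 0⟩, 0, 0⟩ 0 0))) (.pos 44 .mp ⟨⟨14340111, 0, 0, 0, 0, 2695150, 0, 0, 0, ⟨0, 0⟩, 0⟩, 0, 0⟩ 0 0))) (.cut .s 8454144 (.cut .v 16842752 (.cut .s 8388608 (.cut .s 8355840 (.pos 43 .mp ⟨⟨9775235, 0, 0, 0, 0, 8993577, 0, 0, 0, ⟨0, 0⟩, 0⟩, 0, 0⟩ 0 0) (.pos 43 .mp ⟨⟨10173722, 0, 0, 0, 0, 9015537, 0, 0, 0, ⟨0, 0⟩, 0⟩, 0, 0⟩ 0 0)) (.cut .s 8421376 (.pos 43 .mp ⟨⟨10589515, 0, 0, 0, 0, 9027604, 0, 0, 0, ⟨0, 0⟩, 0⟩, 0, 0⟩ 0 0) (.pos 43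 .mp ⟨⟨11023341, 0, 0, 0, 0, 9028774, 0, 0, 0, ⟨0, 0⟩, 0⟩, 0, 0⟩ 0 0))) (.pos 44 .mp ⟨⟨16715068, 0, 0, 0, 0, 1776103, 0, 0, 0, ⟨0, 0⟩, 0⟩, 0, 0⟩ 0 0)) (.cut .s 8519680 (.cut .s 8486912 (.pos 35 .mp ⟨⟨11137875, 0, 0, 0, 0, 9417355, 0, 0, 0, ⟨0, 0⟩, 0⟩, 0, 0⟩ 0 0) (.pos 35 .mp ⟨⟨11567384, 0, 0, 0, 0, 9445090, 0, 0, 0, ⟨0, 0⟩, 0⟩, 0, 0⟩ 0 0)) (.pos 35 .mp ⟨⟨11823934, 0, 0, 0, 0, 9928617, 0, 0, 0, ⟨0, 0⟩, 0⟩, 0, 0⟩ 0 0)))) (.pos 36 .mp ⟨⟨18400352, 0, 0, 0, 0, 0, 0, 0, 0, ⟨0, 0⟩, 0⟩, 0, 0⟩ 0 0))) (.pos 32 .mp ⟨⟨20888675, 0, 0, 0, 0, 0, 0, 0, 0, ⟨0, 0⟩, 0⟩, 0, 0⟩ 0 0)) (.void 30 ⟨⟨100000, 0, 0, 0, 0, 0, 0, 0, 0, ⟨0, 0⟩, 0⟩, 0, 0⟩ 0 0))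 (.void 28 ⟨⟨100000, 0, 0, 0, 0, 0, 0, 0, 0, ⟨0, 0⟩, 0⟩, 0, 0⟩ 0 0)))) (.void 26 ⟨⟨100000, 0, 0, 0, 0, 0, 0, 0, 0, ⟨0, 0⟩, 0⟩, 0, 0⟩ 0 0))))) (.void 24 ⟨⟨100000, 0, 0, 0, 0, 0, 0, 0, 0, ⟨0, 0⟩, 0⟩, 0, 0⟩ 0 0)))) (.void 22 ⟨⟨100000, 0, 0, 0, 0, 0, 0, 0, 0, ⟨0, 0⟩, 0⟩, 0, 0⟩ 0 0))) (.cut .v 16777216 (.cut .d 5349788 (.cut .d 2674894 (.cut .d 1337447 (.cut .v 8388608 (.cut .v 4194304 (.void 4 ⟨⟨0, 0, 100000, 0, 0, 0, 0, 0, 0, ⟨0, 0⟩, 0⟩, 0, 0⟩ 0 0) (.pos 5 .pm ⟨⟨0, 0, 0, 0, 0, 0, 0, 0, 0, ⟨0, 0⟩, 0⟩, 0, 0⟩ 0 0)) (.cut .v 12582912 (.pos 6 .pm ⟨⟨0, 0, 0, 0, 0, 0, 0, 0, 0, ⟨0, 0⟩, 0⟩, 0, 0⟩ 0 0) (.pos 7 .pm ⟨⟨0, 0, 0, 0, 0, 0, 0, 0, 0,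 ⟨0, 0⟩, 0⟩, 0, 0⟩ 0 0))) (.void 1 ⟨⟨0, 0, 0, 0, 0, 0, 0, 0, 0, ⟨0, 0⟩, 0⟩, 0, 100000⟩ 0 0)) (.void 1 ⟨⟨0, 0, 0, 0, 0, 0, 0, 0, 0, ⟨0, 0⟩, 0⟩, 0, 100000⟩ 0 0)) (.void 1 ⟨⟨0, 0, 0, 0, 0, 0, 0, 0, 0, ⟨0, 0⟩, 0⟩, 0, 100000⟩ 0 0)) (.cut .v 25165824 (.cut .d 5349788 (.cut .d 2674894 (.cut .d 1337447 (.cut .v 20971520 (.cut .d 668723 (.cut .v 18874368 (.cut .v 17825792 (.cut .s 8323072 (.pos 27 .pp ⟨⟨11033265, 0, 0, 0, 0, 0, 0, 0, 0, ⟨0, 0⟩, 0⟩, 44959, 0⟩ 0 0) (.pos 27 .pp ⟨⟨14005919, 0, 0, 0, 0, 0, 0, 0, 0, ⟨0, 0⟩, 0⟩, 2033, 0⟩ 0 0)) (.pos 28 .pp ⟨⟨16172585, 0, 0, 0, 0, 0, 0, 0, 0, ⟨0, 0⟩, 0⟩, 0, 0⟩ 0 0)) (.pos 26 .pp ⟨⟨22705134, 0, 0,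 0, 0, 0, 0, 0, 0, ⟨0, 0⟩, 0⟩, 0, 0⟩ 0 0)) (.cut .v 18874368 (.pos 25 .pp ⟨⟨0, 0, 0, 0, 0, 0, 0, 0, 0, ⟨0, 0⟩, 0⟩, 0, 716445⟩ 0 0) (.pos 26 .pp ⟨⟨10543762, 0, 0, 0, 0, 0, 0, 0, 0, ⟨0, 0⟩, 0⟩, 0, 416578⟩ 0 0))) (.cut .v 23068672 (.cut .d 668723 (.void 55 ⟨⟨0, 0, 0, 0, 0, 0, 0, 0, 0, ⟨0, 0⟩, 0⟩, 100000, 0⟩ 0 0) (.cut .d 1003085 (.pos 55 .pp ⟨⟨26057537, 0, 0, 0, 0, 0, 0, 0, 0, ⟨0, 0⟩, 0⟩, 0, 92721⟩ 0 0) (.pos 55 .pp ⟨⟨15751022, 0, 0, 0, 0, 0, 7257606, 0, 0, ⟨0, 0⟩, 0⟩, 0, 0⟩ 0 0))) (.void 56 ⟨⟨0, 0, 0, 0, 0, 0, 100000, 0, 0, ⟨0, 0⟩, 0⟩, 0, 0⟩ 0 0))) (.void 21 ⟨⟨0, 0, 0, 0, 0, 0, 25546, 0, 0, ⟨0, 0⟩, 0⟩, 0, 74454⟩ 0 0)) (.void 21 ⟨⟨0,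 0, 0, 0, 0, 0, 0, 0, 0, ⟨0, 0⟩, 0⟩, 0, 100000⟩ 0 0)) (.void 21 ⟨⟨0, 0, 0, 0, 0, 0, 0, 0, 0, ⟨0, 0⟩, 0⟩, 0, 100000⟩ 0 0)) (.void 22 ⟨⟨0, 0, 0, 0, 0, 0, 100000, 0, 0, ⟨0, 0⟩, 0⟩, 0, 0⟩ 0 0)))),
    by decide +kernel⟩

def covers10 : cell.Covers Vale.Agent.P237.Petty.Cor.Grid.N12.table row10.1 :=
  ⟨(.cut .d 0 (.cut .v 16777216 (.cut .d (-8388608) (.void 1 ⟨⟨0, 0, 0, 0, 0, 100000, 0, 0, 0, ⟨0, 0⟩, 0⟩, 0, 0⟩ 0 0) (.cut .d (-4194304) (.void 1 ⟨⟨0, 0, 0, 0, 0, 100000, 0, 0, 0, ⟨0, 0⟩, 0⟩, 0, 0⟩ 0 0) (.cut .d (-2097152) (.void 1 ⟨⟨0, 0, 0, 0, 0, 100000, 0, 0, 0, ⟨0, 0⟩, 0⟩, 0, 0⟩ 0 0) (.cut .d (-1048576) (.void 1 ⟨⟨0, 0, 0, 0, 0, 100000,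 0, 0, 0, ⟨0, 0⟩, 0⟩, 0, 0⟩ 0 0) (.cut .d (-524288) (.void 1 ⟨⟨0, 0, 0, 0, 0, 100000, 0, 0, 0, ⟨0, 0⟩, 0⟩, 0, 0⟩ 0 0) (.cut .d (-262144) (.void 1 ⟨⟨0, 0, 0, 0, 0, 100000, 0, 0, 0, ⟨0, 0⟩, 0⟩, 0, 0⟩ 0 0) (.cut .d (-131072) (.void 1 ⟨⟨0, 0, 0, 0, 0, 100000, 0, 0, 0, ⟨0, 0⟩, 0⟩, 0, 0⟩ 0 0) (.cut .d (-65536) (.void 1 ⟨⟨0, 0, 0, 0, 0, 100000, 0, 0, 0, ⟨0, 0⟩, 0⟩, 0, 0⟩ 0 0) (.cut .v 8388608 (.cut .v 4194304 (.void 4 ⟨⟨0, 0, 100000, 0, 0, 0, 0, 0, 0, ⟨0, 0⟩, 0⟩, 0, 0⟩ 0 0) (.pos 5 .mm ⟨⟨0, 0, 0, 0, 0, 9619330, 0, 0, 0, ⟨0, 0⟩, 0⟩, 0, 0⟩ 0 0)) (.cut .v 12582912 (.pos 6 .mm ⟨⟨0, 0, 0, 0, 0, 10593100, 0, 0, 0, ⟨0, 0⟩, 0⟩, 0, 0⟩ 0 0) (.cut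 .s 8814592 (.pos 7 .mm ⟨⟨0, 0, 0, 0, 0, 26905592, 0, 0, 0, ⟨0, 0⟩, 0⟩, 0, 0⟩ 0 0) (.pos 7 .mm ⟨⟨0, 0, 0, 0, 0, 31582329, 0, 0, 0, ⟨0, 0⟩, 0⟩, 0, 0⟩ 0 0)))))))))))) (.cut .v 25165824 (.cut .d (-8388608) (.void 21 ⟨⟨0, 0, 0, 0, 0, 100000, 0, 0, 0, ⟨0, 0⟩, 0⟩, 0, 0⟩ 0 0) (.cut .v 20971520 (.cut .d (-4194304) (.void 23 ⟨⟨0, 0, 0, 0, 0, 100000, 0, 0, 0, ⟨0, 0⟩, 0⟩, 0, 0⟩ 0 0) (.cut .d (-2097152) (.void 23 ⟨⟨0, 0, 0, 0, 0, 100000, 0, 0, 0, ⟨0, 0⟩, 0⟩, 0, 0⟩ 0 0) (.cut .d (-1048576) (.void 23 ⟨⟨0, 0, 0, 0, 0, 100000, 0, 0, 0, ⟨0, 0⟩, 0⟩, 0, 0⟩ 0 0) (.cut .v 18874368 (.cut .d (-524288) (.void 25 ⟨⟨0, 0, 0, 0, 0, 100000, 0, 0, 0, ⟨0, 0⟩,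 0⟩, 0, 0⟩ 0 0) (.cut .d (-262144) (.void 25 ⟨⟨0, 0, 0, 0, 0, 100000, 0, 0, 0, ⟨0, 0⟩, 0⟩, 0, 0⟩ 0 0) (.cut .d (-131072) (.void 25 ⟨⟨0, 0, 0, 0, 0, 100000, 0, 0, 0, ⟨0, 0⟩, 0⟩, 0, 0⟩ 0 0) (.cut .d (-65536) (.void 25 ⟨⟨0, 0, 0, 0, 0, 100000, 0, 0, 0, ⟨0, 0⟩, 0⟩, 0, 0⟩ 0 0) (.cut .v 17825792 (.cut .v 17301504 (.cut .v 17039360 (.cut .v 16908288 (.cut .s 8814592 (.cut .s 8699904 (.cut .s 8642560 (.pos 35 .mp ⟨⟨12588369, 0, 0, 0, 0, 10101718, 0, 0, 0, ⟨0, 0⟩, 0⟩, 0, 0⟩ 0 0) (.pos 35 .mp ⟨⟨13082653, 0, 0, 0, 0, 10443891, 0, 0, 0, ⟨0, 0⟩, 0⟩, 0, 0⟩ 0 0)) (.cut .s 8757248 (.pos 35 .mp ⟨⟨13727702, 0, 0, 0, 0, 10653045, 0, 0, 0, ⟨0, 0⟩, 0⟩,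 0, 0⟩ 0 0) (.pos 35 .mp ⟨⟨14419911, 0, 0, 0, 0, 10852243, 0, 0, 0, ⟨0, 0⟩, 0⟩, 0, 0⟩ 0 0))) (.cut .s 8929280 (.cut .s 8871936 (.pos 35 .mp ⟨⟨15141652, 0, 0, 0, 0, 11062216, 0, 0, 0, ⟨0, 0⟩, 0⟩, 0, 0⟩ 0 0) (.pos 35 .mp ⟨⟨15893441, 0, 0, 0, 0, 11281905, 0, 0, 0, ⟨0, 0⟩, 0⟩, 0, 0⟩ 0 0)) (.cut .s 8986624 (.pos 35 .mp ⟨⟨16675812, 0, 0, 0, 0, 11510217, 0, 0, 0, ⟨0, 0⟩, 0⟩, 0, 0⟩ 0 0) (.pos 35 .mp ⟨⟨17489313, 0, 0, 0, 0, 11746017, 0, 0, 0, ⟨0, 0⟩, 0⟩, 0, 0⟩ 0 0)))) (.pos 36 .mp ⟨⟨25572339, 0, 0, 0, 0, 0, 0, 0, 0, ⟨0, 0⟩, 0⟩, 0, 0⟩ 0 0)) (.pos 32 .mp ⟨⟨27171556, 0, 0, 0, 0, 0, 0, 0, 0, ⟨0, 0⟩, 0⟩, 0, 0⟩ 0 0)) (.void 30 ⟨⟨100000, 0, 0, 0,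 0, 0, 0, 0, 0, ⟨0, 0⟩, 0⟩, 0, 0⟩ 0 0)) (.void 28 ⟨⟨100000, 0, 0, 0, 0, 0, 0, 0, 0, ⟨0, 0⟩, 0⟩, 0, 0⟩ 0 0)))))) (.void 26 ⟨⟨100000, 0, 0, 0, 0, 0, 0, 0, 0, ⟨0, 0⟩, 0⟩, 0, 0⟩ 0 0))))) (.void 24 ⟨⟨100000, 0, 0, 0, 0, 0, 0, 0, 0, ⟨0, 0⟩, 0⟩, 0, 0⟩ 0 0))) (.void 22 ⟨⟨100000, 0, 0, 0, 0, 0, 0, 0, 0, ⟨0, 0⟩, 0⟩, 0, 0⟩ 0 0))) (.cut .v 16777216 (.cut .d 6214061 (.cut .d 3107030 (.cut .d 1553515 (.cut .v 8388608 (.cut .v 4194304 (.void 4 ⟨⟨0, 0, 100000, 0, 0, 0, 0, 0, 0, ⟨0, 0⟩, 0⟩, 0, 0⟩ 0 0) (.pos 5 .pm ⟨⟨0, 0, 0, 0, 0, 0, 0, 0, 0, ⟨0, 0⟩, 0⟩, 0, 0⟩ 0 0)) (.cut .v 12582912 (.pos 6 .pm ⟨⟨0, 0, 0, 0, 0, 0, 0, 0, 0, ⟨0, 0⟩, 0⟩, 0, 0⟩ 0 0)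 (.pos 7 .pm ⟨⟨0, 0, 0, 0, 0, 0, 0, 0, 0, ⟨0, 0⟩, 0⟩, 0, 0⟩ 0 0))) (.void 1 ⟨⟨0, 0, 0, 0, 0, 0, 0, 0, 0, ⟨0, 0⟩, 0⟩, 0, 100000⟩ 0 0)) (.void 1 ⟨⟨0, 0, 0, 0, 0, 0, 0, 0, 0, ⟨0, 0⟩, 0⟩, 0, 100000⟩ 0 0)) (.void 1 ⟨⟨0, 0, 0, 0, 0, 0, 0, 0, 0, ⟨0, 0⟩, 0⟩, 0, 100000⟩ 0 0)) (.cut .v 25165824 (.cut .d 6214061 (.cut .d 3107030 (.cut .d 1553515 (.cut .v 20971520 (.cut .d 776757 (.cut .v 18874368 (.cut .d 388378 (.cut .v 17825792 (.cut .s 8814592 (.pos 27 .pp ⟨⟨14029390, 0, 0, 0, 0, 0, 0, 0, 0, ⟨0, 0⟩, 0⟩, 512227, 0⟩ 0 0) (.pos 27 .pp ⟨⟨17129123, 0, 0, 0, 0, 0, 0, 0, 0, ⟨0, 0⟩, 0⟩, 533983, 0⟩ 0 0)) (.pos 28 .pp ⟨⟨25028816, 0, 0, 0, 0, 0, 0,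 0, 0, ⟨0, 0⟩, 0⟩, 0, 0⟩ 0 0)) (.pos 25 .pp ⟨⟨12100319, 0, 0, 0, 0, 0, 0, 0, 0, ⟨0, 0⟩, 0⟩, 0, 375257⟩ 0 0)) (.cut .d 388378 (.pos 26 .pp ⟨⟨41091751, 0, 0, 0, 0, 0, 0, 0, 0, ⟨0, 0⟩, 0⟩, 0, 0⟩ 0 0) (.pos 26 .pp ⟨⟨24963238, 0, 0, 0, 0, 0, 0, 0, 0, ⟨0, 0⟩, 0⟩, 0, 0⟩ 0 0))) (.pos 23 .pp ⟨⟨12586847, 0, 0, 0, 0, 0, 0, 0, 0, ⟨0, 0⟩, 0⟩, 0, 429368⟩ 0 0)) (.cut .d 776757 (.pos 24 .pp ⟨⟨51156084, 0, 0, 0, 0, 0, 0, 0, 0, ⟨0, 0⟩, 0⟩, 0, 0⟩ 0 0) (.cut .l 153791 (.void 24 ⟨⟨0, 0, 0, 0, 0, 0, 18934, 0, 0, ⟨0, 0⟩, 0⟩, 0, 81066⟩ 0 0) (.cut .v 23068672 (.cut .d 1165136 (.pos 55 .pp ⟨⟨28587157, 0, 0, 0, 0, 0, 535134, 0, 0, ⟨0, 0⟩, 0⟩, 0, 0⟩ 0 0) (.pos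 55 .pp ⟨⟨17326155, 0, 0, 0, 0, 0, 2798060, 0, 0, ⟨0, 0⟩, 0⟩, 0, 0⟩ 0 0)) (.cut .l 230687 (.void 56 ⟨⟨0, 0, 0, 0, 0, 0, 100000, 0, 0, ⟨0, 0⟩, 0⟩, 0, 0⟩ 0 0) (.cut .d 1165136 (.cut .v 24117248 (.pos 59 .pp ⟨⟨36537917, 0, 0, 0, 0, 0, 0, 0, 0, ⟨0, 0⟩, 0⟩, 1051925, 0⟩ 0 0) (.void 60 ⟨⟨0, 0, 0, 0, 0, 0, 0, 0, 0, ⟨0, 0⟩, 0⟩, 100000, 0⟩ 0 0)) (.cut .v 24117248 (.cut .d 1359325 (.cut .v 23592960 (.pos 61 .pp ⟨⟨23930236, 0, 0, 0, 0, 0, 1796226, 0, 0, ⟨0, 0⟩, 0⟩, 0, 0⟩ 0 0) (.cut .l 269135 (.pos 62 .pp ⟨⟨0, 0, 0, 0, 0, 0, 11260495, 0, 0, ⟨0, 0⟩, 0⟩, 3516327, 0⟩ 0 0) (.cut .s 8814592 (.cut .d 1262230 (.pos 62 .pp ⟨⟨2606339, 0, 0, 0, 0, 0, 5610449,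 0, 0, ⟨0, 0⟩, 0⟩, 3112644, 0⟩ 0 0) (.pos 62 .pp ⟨⟨0, 0, 0, 0, 0, 0, 40346017, 0, 0, ⟨0, 0⟩, 0⟩, 0, 0⟩ 0 0)) (.cut .s 8929280 (.cut .d 1262230 (.pos 62 .pp ⟨⟨0, 0, 0, 0, 0, 0, 2387695, 0, 0, ⟨0, 0⟩, 0⟩, 3659415, 0⟩ 0 0) (.cut .s 8871936 (.cut .d 1310777 (.pos 62 .pp ⟨⟨0, 0, 0, 0, 0, 0, 8114455, 0, 0, ⟨0, 0⟩, 0⟩, 3231188, 0⟩ 0 0) (.pos 62 .pp ⟨⟨0, 0, 0, 0, 0, 0, 40920068, 0, 0, ⟨0, 0⟩, 0⟩, 0, 0⟩ 0 0)) (.pos 62 .pp ⟨⟨0, 0, 0, 0, 0, 0, 4075926, 0, 0, ⟨0, 0⟩, 0⟩, 3453643, 0⟩ 0 0))) (.pos 62 .pp ⟨⟨0, 0, 0, 0, 0, 0, 362635, 0, 0, ⟨0, 0⟩, 0⟩, 3731267, 0⟩ 0 0))))) (.pos 59 .pp ⟨⟨0, 0, 0, 0, 0, 0, 24107827, 0, 0, ⟨0, 0⟩, 0⟩, 0, 0⟩ 0 0)) (.cut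 .s 8814592 (.void 60 ⟨⟨0, 0, 0, 0, 0, 0, 100000, 0, 0, ⟨0, 0⟩, 0⟩, 0, 0⟩ 0 0) (.cut .l 269135 (.void 60 ⟨⟨0, 0, 0, 0, 0, 0, 100000, 0, 0, ⟨0, 0⟩, 0⟩, 0, 0⟩ 0 0) (.cut .d 1359325 (.cut .d 1262230 (.pos 60 .pp ⟨⟨0, 0, 0, 0, 0, 0, 0, 0, 0, ⟨0, 0⟩, 0⟩, 5885471, 0⟩ 0 0) (.cut .l 288359 (.pos 60 .pp ⟨⟨0, 0, 0, 0, 0, 0, 9598752, 0, 0, ⟨0, 0⟩, 0⟩, 3941950, 0⟩ 0 0) (.cut .v 24641536 (.cut .s 8929280 (.cut .s 8871936 (.void 65 ⟨⟨0, 0, 0, 0, 0, 0, 100000, 0, 0, ⟨0, 0⟩, 0⟩, 0, 0⟩ 0 0) (.cut .v 24379392 (.cut .d 1310777 (.cut .s 8900608 (.pos 67 .pp ⟨⟨0, 0, 0, 0, 0, 0, 7261770, 0, 0, ⟨0, 0⟩, 0⟩, 3591529, 0⟩ 0 0) (.pos 67 .pp ⟨⟨0, 0, 0, 0, 0,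 0, 4522682, 0, 0, ⟨0, 0⟩, 0⟩, 3764620, 0⟩ 0 0)) (.pos 67 .pp ⟨⟨0, 0, 0, 0, 0, 0, 7734452, 0, 0, ⟨0, 0⟩, 0⟩, 3524524, 0⟩ 0 0)) (.void 68 ⟨⟨0, 0, 0, 0, 0, 0, 100000, 0, 0, ⟨0, 0⟩, 0⟩, 0, 0⟩ 0 0))) (.cut .d 1310777 (.pos 65 .pp ⟨⟨0, 0, 0, 0, 0, 0, 94979, 0, 0, ⟨0, 0⟩, 0⟩, 4316059, 0⟩ 0 0) (.cut .s 8986624 (.cut .v 24379392 (.pos 67 .pp ⟨⟨0, 0, 0, 0, 0, 0, 5561731, 0, 0, ⟨0, 0⟩, 0⟩, 3667222, 0⟩ 0 0) (.cut .l 297971 (.void 68 ⟨⟨0, 0, 0, 0, 0, 0, 100000, 0, 0, ⟨0, 0⟩, 0⟩, 0, 0⟩ 0 0) (.cut .l 302777 (.pos 68 .pp ⟨⟨0, 0, 0, 0, 0, 0, 7238836, 0, 0, ⟨0, 0⟩, 0⟩, 3849200, 0⟩ 0 0) (.cut .l 305180 (.pos 68 .pp ⟨⟨0, 0, 0, 0, 0, 0, 7226725, 0,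 0, ⟨0, 0⟩, 0⟩, 3850241, 0⟩ 0 0) (.cut .l 306381 (.pos 68 .pp ⟨⟨0, 0, 0, 0, 0, 0, 6550168, 0, 0, ⟨0, 0⟩, 0⟩, 3866794, 0⟩ 0 0) (.cut .v 24510464 (.cut .s 8957952 (.pos 71 .pp ⟨⟨0, 0, 0, 0, 0, 0, 6925327, 0, 0, ⟨0, 0⟩, 0⟩, 3774995, 0⟩ 0 0) (.pos 71 .pp ⟨⟨0, 0, 0, 0, 0, 0, 5167624, 0, 0, ⟨0, 0⟩, 0⟩, 3849825, 0⟩ 0 0)) (.cut .s 8957952 (.void 72 ⟨⟨0, 0, 0, 0, 0, 0, 100000, 0, 0, ⟨0, 0⟩, 0⟩, 0, 0⟩ 0 0) (.pos 72 .pp ⟨⟨0, 0, 0, 0, 0, 0, 6327653, 0, 0, ⟨0, 0⟩, 0⟩, 3940915, 0⟩ 0 0)))))))) (.pos 65 .pp ⟨⟨0, 0, 0, 0, 0, 0, 3913256, 0, 0, ⟨0, 0⟩, 0⟩, 3994733, 0⟩ 0 0)))) (.cut .s 8929280 (.void 66 ⟨⟨0, 0, 0, 0, 0, 0, 0, 0, 0, ⟨0, 0⟩, 0⟩, 100000,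 0⟩ 0 0) (.cut .s 8986624 (.void 66 ⟨⟨0, 0, 0, 0, 0, 0, 100000, 0, 0, ⟨0, 0⟩, 0⟩, 0, 0⟩ 0 0) (.pos 66 .pp ⟨⟨0, 0, 0, 0, 0, 0, 4766989, 0, 0, ⟨0, 0⟩, 0⟩, 4381606, 0⟩ 0 0)))))) (.cut .v 24641536 (.pos 65 .pp ⟨⟨0, 0, 0, 0, 0, 0, 21804958, 0, 0, ⟨0, 0⟩, 0⟩, 0, 0⟩ 0 0) (.cut .s 8929280 (.void 66 ⟨⟨0, 0, 0, 0, 0, 0, 100000, 0, 0, ⟨0, 0⟩, 0⟩, 0, 0⟩ 0 0) (.cut .d 1456420 (.cut .s 8986624 (.void 66 ⟨⟨0, 0, 0, 0, 0, 0, 100000, 0, 0, ⟨0, 0⟩, 0⟩, 0, 0⟩ 0 0) (.cut .d 1407872 (.cut .v 24903680 (.cut .s 9015296 (.pos 77 .pp ⟨⟨0, 0, 0, 0, 0, 0, 7468956, 0, 0, ⟨0, 0⟩, 0⟩, 3950156, 0⟩ 0 0) (.pos 77 .pp ⟨⟨0, 0, 0, 0, 0, 0, 5263119, 0, 0, ⟨0, 0⟩, 0⟩,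 4083861, 0⟩ 0 0)) (.pos 78 .pp ⟨⟨0, 0, 0, 0, 0, 0, 7233994, 0, 0, ⟨0, 0⟩, 0⟩, 4216898, 0⟩ 0 0)) (.pos 66 .pp ⟨⟨0, 0, 0, 0, 0, 0, 50994485, 0, 0, ⟨0, 0⟩, 0⟩, 0, 0⟩ 0 0))) (.pos 66 .pp ⟨⟨0, 0, 0, 0, 0, 0, 49952083, 0, 0, ⟨0, 0⟩, 0⟩, 0, 0⟩ 0 0)))))))))))))) (.cut .v 20971520 (.void 23 ⟨⟨0, 0, 0, 0, 0, 0, 0, 0, 0, ⟨0, 0⟩, 0⟩, 0, 100000⟩ 0 0) (.pos 24 .pp ⟨⟨0, 0, 0, 0, 0, 0, 31315879, 0, 0, ⟨0, 0⟩, 0⟩, 0, 0⟩ 0 0))) (.void 21 ⟨⟨0, 0, 0, 0, 0, 0, 0, 0, 0, ⟨0, 0⟩, 0⟩, 0, 100000⟩ 0 0)) (.void 21 ⟨⟨0, 0, 0, 0, 0, 0, 0, 0, 0, ⟨0, 0⟩, 0⟩, 0, 100000⟩ 0 0)) (.void 22 ⟨⟨0, 0, 0, 0, 0, 0, 100000, 0, 0, ⟨0, 0⟩, 0⟩, 0, 0⟩ 0 0)))),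
    by decide +kernel⟩

def covers11 : cell.Covers Vale.Agent.P237.Petty.Cor.Grid.N12.table row11.1 :=
  ⟨(.cut .d 0 (.cut .v 16777216 (.cut .d (-8388608) (.void 1 ⟨⟨0, 0, 0, 0, 0, 100000, 0, 0, 0, ⟨0, 0⟩, 0⟩, 0, 0⟩ 0 0) (.cut .d (-4194304) (.void 1 ⟨⟨0, 0, 0, 0, 0, 100000, 0, 0, 0, ⟨0, 0⟩, 0⟩, 0, 0⟩ 0 0) (.cut .d (-2097152) (.void 1 ⟨⟨0, 0, 0, 0, 0, 100000, 0, 0, 0, ⟨0, 0⟩, 0⟩, 0, 0⟩ 0 0) (.cut .d (-1048576) (.void 1 ⟨⟨0, 0, 0, 0, 0, 100000, 0, 0, 0, ⟨0, 0⟩, 0⟩, 0, 0⟩ 0 0) (.cut .d (-524288) (.void 1 ⟨⟨0, 0, 0, 0, 0, 100000, 0, 0, 0, ⟨0, 0⟩, 0⟩, 0, 0⟩ 0 0) (.cut .d (-262144) (.void 1 ⟨⟨0, 0, 0, 0, 0, 100000, 0, 0, 0, ⟨0, 0⟩, 0⟩,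 0, 0⟩ 0 0) (.cut .d (-131072) (.void 1 ⟨⟨0, 0, 0, 0, 0, 100000, 0, 0, 0, ⟨0, 0⟩, 0⟩, 0, 0⟩ 0 0) (.cut .d (-65536) (.void 1 ⟨⟨0, 0, 0, 0, 0, 100000, 0, 0, 0, ⟨0, 0⟩, 0⟩, 0, 0⟩ 0 0) (.cut .v 8388608 (.cut .v 4194304 (.void 4 ⟨⟨0, 0, 100000, 0, 0, 0, 0, 0, 0, ⟨0, 0⟩, 0⟩, 0, 0⟩ 0 0) (.pos 5 .mm ⟨⟨0, 0, 0, 0, 0, 13275510, 0, 0, 0, ⟨0, 0⟩, 0⟩, 0, 0⟩ 0 0)) (.cut .s 9306112 (.pos 3 .mm ⟨⟨0, 0, 0, 0, 0, 37610875, 0, 0, 0, ⟨0, 0⟩, 0⟩, 0, 0⟩ 0 0) (.pos 3 .mm ⟨⟨0, 0, 0, 0, 0, 45113408, 0, 0, 0, ⟨0, 0⟩, 0⟩, 0, 0⟩ 0 0))))))))))) (.cut .v 25165824 (.cut .d (-8388608) (.void 21 ⟨⟨0, 0, 0, 0, 0, 100000, 0, 0, 0, ⟨0, 0⟩, 0⟩, 0, 0⟩ 0 0) (.cut .v 20971520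 (.cut .d (-4194304) (.void 23 ⟨⟨0, 0, 0, 0, 0, 100000, 0, 0, 0, ⟨0, 0⟩, 0⟩, 0, 0⟩ 0 0) (.cut .v 18874368 (.cut .d (-2097152) (.void 25 ⟨⟨100000, 0, 0, 0, 0, 0, 0, 0, 0, ⟨0, 0⟩, 0⟩, 0, 0⟩ 0 0) (.cut .d (-1048576) (.void 25 ⟨⟨100000, 0, 0, 0, 0, 0, 0, 0, 0, ⟨0, 0⟩, 0⟩, 0, 0⟩ 0 0) (.cut .d (-524288) (.void 25 ⟨⟨100000, 0, 0, 0, 0, 0, 0, 0, 0, ⟨0, 0⟩, 0⟩, 0, 0⟩ 0 0) (.cut .d (-262144) (.void 25 ⟨⟨0, 0, 0, 0, 0, 100000, 0, 0, 0, ⟨0, 0⟩, 0⟩, 0, 0⟩ 0 0) (.cut .d (-131072) (.void 25 ⟨⟨0, 0, 0, 0, 0, 100000, 0, 0, 0, ⟨0, 0⟩, 0⟩, 0, 0⟩ 0 0) (.cut .d (-65536) (.void 25 ⟨⟨0, 0, 0, 0, 0, 100000, 0, 0, 0, ⟨0, 0⟩, 0⟩, 0, 0⟩ 0 0) (.cut .v 17825792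 (.cut .v 17301504 (.cut .v 17039360 (.cut .s 9306112 (.cut .v 16908288 (.cut .s 9175040 (.cut .d (-32768) (.pos 35 .mp ⟨⟨16534597, 0, 0, 0, 0, 17840953, 0, 0, 0, ⟨0, 0⟩, 0⟩, 0, 0⟩ 0 0) (.cut .s 9109504 (.pos 35 .mp ⟨⟨18031386, 0, 0, 0, 0, 12393052, 0, 0, 0, ⟨0, 0⟩, 0⟩, 0, 0⟩ 0 0) (.pos 35 .mp ⟨⟨19028184, 0, 0, 0, 0, 12583346, 0, 0, 0, ⟨0, 0⟩, 0⟩, 0, 0⟩ 0 0))) (.cut .d (-32768) (.pos 35 .mp ⟨⟨18434014, 0, 0, 0, 0, 18768194, 0, 0, 0, ⟨0, 0⟩, 0⟩, 0, 0⟩ 0 0) (.cut .l 153791 (.cut .d (-16384) (.pos 35 .mp ⟨⟨20559547, 0, 0, 0, 0, 14460760, 0, 0, 0, ⟨0, 0⟩, 0⟩, 0, 0⟩ 0 0) (.cut .s 9240576 (.pos 35 .mp ⟨⟨19835941, 0, 0, 0, 0, 13071853,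 0, 0, 0, ⟨0, 0⟩, 0⟩, 0, 0⟩ 0 0) (.cut .s 9273344 (.pos 35 .mp ⟨⟨20398300, 0, 0, 0, 0, 13803138, 0, 0, 0, ⟨0, 0⟩, 0⟩, 0, 0⟩ 0 0) (.pos 35 .mp ⟨⟨20914347, 0, 0, 0, 0, 13988456, 0, 0, 0, ⟨0, 0⟩, 0⟩, 0, 0⟩ 0 0)))) (.pos 35 .mp ⟨⟨20847933, 0, 0, 0, 0, 10927374, 0, 0, 0, ⟨0, 0⟩, 0⟩, 0, 0⟩ 0 0)))) (.pos 36 .mp ⟨⟨31266629, 0, 0, 0, 0, 0, 0, 0, 0, ⟨0, 0⟩, 0⟩, 0, 0⟩ 0 0)) (.cut .v 16908288 (.cut .s 9437184 (.cut .v 16842752 (.cut .d (-32768) (.pos 43 .mp ⟨⟨20319876, 0, 0, 0, 0, 19246715, 0, 0, 0, ⟨0, 0⟩, 0⟩, 0, 0⟩ 0 0) (.cut .l 153791 (.cut .d (-16384) (.pos 43 .mp ⟨⟨20390698, 0, 0, 0, 0, 19830511, 0, 0, 0, ⟨0, 0⟩, 0⟩, 0, 0⟩ 0 0) (.cut .v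 16809984 (.cut .l 76895 (.cut .d (-8192) (.pos 45 .mp ⟨⟨20324686, 0, 0, 0, 0, 19815706, 0, 0, 0, ⟨0, 0⟩, 0⟩, 0, 0⟩ 0 0) (.cut .v 16793600 (.cut .l 38447 (.cut .d (-4096) (.pos 47 .mp ⟨⟨20292032, 0, 0, 0, 0, 19807845, 0, 0, 0, ⟨0, 0⟩, 0⟩, 0, 0⟩ 0 0) (.cut .s 9371648 (.pos 47 .mp ⟨⟨21479928, 0, 0, 0, 0, 14343189, 0, 0, 0, ⟨0, 0⟩, 0⟩, 0, 0⟩ 0 0) (.cut .s 9404416 (.pos 47 .mp ⟨⟨22869916, 0, 0, 0, 0, 14132859, 0, 0, 0, ⟨0, 0⟩, 0⟩, 0, 0⟩ 0 0) (.pos 47 .mp ⟨⟨23447273, 0, 0, 0, 0, 14333435, 0, 0, 0, ⟨0, 0⟩, 0⟩, 0, 0⟩ 0 0)))) (.pos 47 .mp ⟨⟨22620190, 0, 0, 0, 0, 11875326, 0, 0, 0, ⟨0, 0⟩, 0⟩, 0, 0⟩ 0 0)) (.pos 48 .mp ⟨⟨33218825, 0, 0, 0,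 0, 0, 0, 0, 0, ⟨0, 0⟩, 0⟩, 0, 0⟩ 0 0))) (.pos 45 .mp ⟨⟨22727468, 0, 0, 0, 0, 11807231, 0, 0, 0, ⟨0, 0⟩, 0⟩, 0, 0⟩ 0 0)) (.pos 46 .mp ⟨⟨33279502, 0, 0, 0, 0, 0, 0, 0, 0, ⟨0, 0⟩, 0⟩, 0, 0⟩ 0 0))) (.pos 43 .mp ⟨⟨22943585, 0, 0, 0, 0, 11669523, 0, 0, 0, ⟨0, 0⟩, 0⟩, 0, 0⟩ 0 0))) (.pos 44 .mp ⟨⟨33876901, 0, 0, 0, 0, 420232, 0, 0, 0, ⟨0, 0⟩, 0⟩, 0, 0⟩ 0 0)) (.cut .v 16842752 (.cut .d (-32768) (.pos 43 .mp ⟨⟨22593502, 0, 0, 0, 0, 20443181, 0, 0, 0, ⟨0, 0⟩, 0⟩, 0, 0⟩ 0 0) (.cut .l 153791 (.cut .d (-16384) (.pos 43 .mp ⟨⟨22663575, 0, 0, 0, 0, 21096987, 0, 0, 0, ⟨0, 0⟩, 0⟩, 0, 0⟩ 0 0) (.cut .v 16809984 (.cut .l 76895 (.cut .d (-8192) (.pos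 45 .mp ⟨⟨22588013, 0, 0, 0, 0, 21085958, 0, 0, 0, ⟨0, 0⟩, 0⟩, 0, 0⟩ 0 0) (.cut .v 16793600 (.cut .l 38447 (.cut .d (-4096) (.pos 47 .mp ⟨⟨22550600, 0, 0, 0, 0, 21079965, 0, 0, 0, ⟨0, 0⟩, 0⟩, 0, 0⟩ 0 0) (.cut .v 16785408 (.cut .l 19223 (.cut .d (-2048) (.pos 81 .mp ⟨⟨22531986, 0, 0, 0, 0, 21076918, 0, 0, 0, ⟨0, 0⟩, 0⟩, 0, 0⟩ 0 0) (.cut .v 16781312 (.cut .l 9611 (.cut .d (-1024) (.pos 83 .mp ⟨⟨22522704, 0, 0, 0, 0, 21075517, 0, 0, 0, ⟨0, 0⟩, 0⟩, 0, 0⟩ 0 0) (.cut .v 16779264 (.cut .l 4805 (.cut .d (-512) (.pos 85 .mp ⟨⟨22518076, 0, 0, 0, 0, 21075113, 0, 0, 0, ⟨0, 0⟩, 0⟩, 0, 0⟩ 0 0) (.cut .v 16778240 (.cut .l 2402 (.cut .s 9502720 (.cut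 .s 9469952 (.pos 87 .mp ⟨⟨24356142, 0, 0, 0, 0, 14003888, 0, 0, 0, ⟨0, 0⟩, 0⟩, 0, 0⟩ 0 0) (.pos 87 .mp ⟨⟨24978526, 0, 0, 0, 0, 14191178, 0, 0, 0, ⟨0, 0⟩, 0⟩, 0, 0⟩ 0 0)) (.cut .s 9535488 (.pos 87 .mp ⟨⟨25626729, 0, 0, 0, 0, 14367349, 0, 0, 0, ⟨0, 0⟩, 0⟩, 0, 0⟩ 0 0) (.pos 87 .mp ⟨⟨26301794, 0, 0, 0, 0, 14530890, 0, 0, 0, ⟨0, 0⟩, 0⟩, 0, 0⟩ 0 0))) (.pos 87 .mp ⟨⟨24980560, 0, 0, 0, 0, 12523294, 0, 0, 0, ⟨0, 0⟩, 0⟩, 0, 0⟩ 0 0)) (.pos 88 .mp ⟨⟨36042635, 0, 0, 0, 0, 0, 0, 0, 0, ⟨0, 0⟩, 0⟩, 0, 0⟩ 0 0))) (.pos 85 .mp ⟨⟨24988063, 0, 0, 0, 0, 12517486, 0, 0, 0, ⟨0, 0⟩, 0⟩, 0, 0⟩ 0 0)) (.pos 86 .mp ⟨⟨36048276, 0, 0, 0, 0, 0, 0, 0, 0, ⟨0, 0⟩,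 0⟩, 0, 0⟩ 0 0))) (.pos 83 .mp ⟨⟨25003059, 0, 0, 0, 0, 12506847, 0, 0, 0, ⟨0, 0⟩, 0⟩, 0, 0⟩ 0 0)) (.pos 84 .mp ⟨⟨36057356, 0, 0, 0, 0, 0, 0, 0, 0, ⟨0, 0⟩, 0⟩, 0, 0⟩ 0 0))) (.pos 81 .mp ⟨⟨25033094, 0, 0, 0, 0, 12486005, 0, 0, 0, ⟨0, 0⟩, 0⟩, 0, 0⟩ 0 0)) (.pos 82 .mp ⟨⟨36073895, 0, 0, 0, 0, 0, 0, 0, 0, ⟨0, 0⟩, 0⟩, 0, 0⟩ 0 0))) (.pos 47 .mp ⟨⟨25093271, 0, 0, 0, 0, 12444453, 0, 0, 0, ⟨0, 0⟩, 0⟩, 0, 0⟩ 0 0)) (.pos 48 .mp ⟨⟨36106564, 0, 0, 0, 0, 0, 0, 0, 0, ⟨0, 0⟩, 0⟩, 0, 0⟩ 0 0))) (.pos 45 .mp ⟨⟨25214036, 0, 0, 0, 0, 12361052, 0, 0, 0, ⟨0, 0⟩, 0⟩, 0, 0⟩ 0 0)) (.pos 46 .mp ⟨⟨36171727, 0, 0, 0, 0, 0, 0, 0, 0, ⟨0, 0⟩, 0⟩, 0, 0⟩ 0 0))) (.pos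 43 .mp ⟨⟨25457214, 0, 0, 0, 0, 12192639, 0, 0, 0, ⟨0, 0⟩, 0⟩, 0, 0⟩ 0 0))) (.pos 44 .mp ⟨⟨37160391, 0, 0, 0, 0, 0, 0, 0, 0, ⟨0, 0⟩, 0⟩, 0, 0⟩ 0 0))) (.pos 36 .mp ⟨⟨36799464, 0, 0, 0, 0, 0, 0, 0, 0, ⟨0, 0⟩, 0⟩, 0, 0⟩ 0 0))) (.pos 32 .mp ⟨⟨37785339, 0, 0, 0, 0, 0, 0, 0, 0, ⟨0, 0⟩, 0⟩, 0, 0⟩ 0 0)) (.void 30 ⟨⟨100000, 0, 0, 0, 0, 0, 0, 0, 0, ⟨0, 0⟩, 0⟩, 0, 0⟩ 0 0)) (.void 28 ⟨⟨100000, 0, 0, 0, 0, 0, 0, 0, 0, ⟨0, 0⟩, 0⟩, 0, 0⟩ 0 0)))))))) (.void 26 ⟨⟨100000, 0, 0, 0, 0, 0, 0, 0, 0, ⟨0, 0⟩, 0⟩, 0, 0⟩ 0 0))) (.void 24 ⟨⟨100000, 0, 0, 0, 0, 0, 0, 0, 0, ⟨0, 0⟩, 0⟩, 0, 0⟩ 0 0))) (.void 22 ⟨⟨100000, 0, 0, 0, 0, 0, 0, 0, 0, ⟨0, 0⟩, 0⟩, 0, 0⟩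 0 0))) (.cut .v 16777216 (.cut .d 7172869 (.cut .d 3586434 (.cut .v 8388608 (.cut .v 4194304 (.void 4 ⟨⟨0, 0, 66667, 0, 0, 0, 0, 0, 0, ⟨0, 0⟩, 0⟩, 0, 33333⟩ 0 0) (.pos 5 .pm ⟨⟨0, 0, 0, 0, 0, 0, 0, 0, 0, ⟨0, 0⟩, 0⟩, 0, 0⟩ 0 0)) (.pos 3 .pm ⟨⟨0, 0, 0, 0, 0, 0, 0, 0, 0, ⟨0, 0⟩, 0⟩, 0, 0⟩ 0 0)) (.void 1 ⟨⟨0, 0, 0, 0, 0, 0, 0, 0, 0, ⟨0, 0⟩, 0⟩, 0, 100000⟩ 0 0)) (.void 1 ⟨⟨0, 0, 0, 0, 0, 0, 0, 0, 0, ⟨0, 0⟩, 0⟩, 0, 100000⟩ 0 0)) (.cut .d 7172869 (.cut .d 3586434 (.cut .v 25165824 (.cut .d 1793217 (.cut .v 20971520 (.cut .d 896608 (.cut .v 18874368 (.cut .d 448304 (.cut .v 17825792 (.cut .s 9306112 (.pos 27 .pp ⟨⟨23259961, 0, 0, 0, 0, 0,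 0, 0, 0, ⟨0, 0⟩, 0⟩, 214905, 0⟩ 0 0) (.pos 27 .pp ⟨⟨28903639, 0, 0, 0, 0, 0, 0, 0, 0, ⟨0, 0⟩, 0⟩, 130918, 0⟩ 0 0)) (.pos 28 .pp ⟨⟨34040866, 0, 0, 0, 0, 0, 0, 0, 0, ⟨0, 0⟩, 0⟩, 0, 0⟩ 0 0)) (.pos 25 .pp ⟨⟨0, 0, 0, 0, 0, 0, 0, 0, 0, ⟨0, 0⟩, 0⟩, 0, 804185⟩ 0 0)) (.cut .d 448304 (.pos 26 .pp ⟨⟨46380772, 0, 0, 0, 0, 0, 0, 0, 0, ⟨0, 0⟩, 0⟩, 0, 0⟩ 0 0) (.pos 26 .pp ⟨⟨30247469, 0, 0, 0, 0, 0, 0, 0, 0, ⟨0, 0⟩, 0⟩, 0, 310631⟩ 0 0))) (.pos 23 .pp ⟨⟨0, 0, 0, 0, 0, 0, 0, 0, 0, ⟨0, 0⟩, 0⟩, 0, 843898⟩ 0 0)) (.cut .d 896608 (.cut .v 23068672 (.cut .v 22020096 (.pos 57 .pp ⟨⟨49842375, 0, 0, 0, 0, 0, 0, 0, 0, ⟨0, 0⟩, 0⟩, 0, 0⟩ 0 0) (.pos 58 .pp ⟨⟨56838007,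 0, 0, 0, 0, 0, 0, 0, 0, ⟨0, 0⟩, 0⟩, 0, 0⟩ 0 0)) (.void 56 ⟨⟨100000, 0, 0, 0, 0, 0, 0, 0, 0, ⟨0, 0⟩, 0⟩, 0, 0⟩ 0 0)) (.cut .v 23068672 (.pos 55 .pp ⟨⟨26390125, 0, 0, 0, 0, 0, 826270, 0, 0, ⟨0, 0⟩, 0⟩, 0, 0⟩ 0 0) (.cut .l 153791 (.void 56 ⟨⟨0, 0, 0, 0, 0, 0, 100000, 0, 0, ⟨0, 0⟩, 0⟩, 0, 0⟩ 0 0) (.cut .d 1344912 (.cut .d 1120760 (.cut .v 24117248 (.pos 59 .pp ⟨⟨8953447, 0, 0, 0, 0, 0, 0, 0, 0, ⟨0, 0⟩, 0⟩, 4537630, 0⟩ 0 0) (.pos 60 .pp ⟨⟨0, 0, 0, 0, 0, 0, 0, 0, 0, ⟨0, 0⟩, 0⟩, 9191805, 0⟩ 0 0)) (.cut .v 24117248 (.pos 59 .pp ⟨⟨0, 0, 0, 0, 0, 0, 552268, 0, 0, ⟨0, 0⟩, 0⟩, 4133639, 0⟩ 0 0) (.cut .v 24641536 (.cut .d 1232836 (.pos 65 .pp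 ⟨⟨0, 0, 0, 0, 0, 0, 77550, 0, 0, ⟨0, 0⟩, 0⟩, 5405681, 0⟩ 0 0) (.pos 65 .pp ⟨⟨0, 0, 0, 0, 0, 0, 256860, 0, 0, ⟨0, 0⟩, 0⟩, 4286636, 0⟩ 0 0)) (.pos 66 .pp ⟨⟨0, 0, 0, 0, 0, 0, 0, 0, 0, ⟨0, 0⟩, 0⟩, 5460561, 0⟩ 0 0)))) (.cut .v 24117248 (.pos 59 .pp ⟨⟨0, 0, 0, 0, 0, 0, 2100387, 0, 0, ⟨0, 0⟩, 0⟩, 0, 0⟩ 0 0) (.cut .d 1569064 (.cut .d 1456988 (.cut .v 24641536 (.pos 65 .pp ⟨⟨0, 0, 0, 0, 0, 0, 2146048, 0, 0, ⟨0, 0⟩, 0⟩, 0, 0⟩ 0 0) (.cut .s 9306112 (.cut .s 9175040 (.cut .s 9109504 (.cut .l 230687 (.void 66 ⟨⟨0, 0, 0, 0, 0, 0, 100000, 0, 0, ⟨0, 0⟩, 0⟩, 0, 0⟩ 0 0) (.cut .l 269135 (.void 66 ⟨⟨0, 0, 0, 0, 0, 0, 100000, 0, 0, ⟨0, 0⟩, 0⟩, 0, 0⟩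 0 0) (.cut .l 288359 (.pos 66 .pp ⟨⟨0, 0, 0, 0, 0, 0, 54417240, 0, 0, ⟨0, 0⟩, 0⟩, 0, 0⟩ 0 0) (.cut .l 297971 (.pos 66 .pp ⟨⟨0, 0, 0, 0, 0, 0, 8685867, 0, 0, ⟨0, 0⟩, 0⟩, 4173887, 0⟩ 0 0) (.cut .v 24903680 (.cut .d 1400950 (.pos 77 .pp ⟨⟨0, 0, 0, 0, 0, 0, 283232, 0, 0, ⟨0, 0⟩, 0⟩, 4233562, 0⟩ 0 0) (.pos 77 .pp ⟨⟨0, 0, 0, 0, 0, 0, 2168878, 0, 0, ⟨0, 0⟩, 0⟩, 0, 0⟩ 0 0)) (.cut .l 302777 (.pos 78 .pp ⟨⟨0, 0, 0, 0, 0, 0, 7740393, 0, 0, ⟨0, 0⟩, 0⟩, 4337611, 0⟩ 0 0) (.cut .d 1400950 (.cut .s 9076736 (.cut .s 9060352 (.cut .s 9052160 (.cut .d 1372931 (.void 78 ⟨⟨0, 0, 0, 0, 0, 0, 0, 0, 0, ⟨0, 0⟩, 0⟩, 100000, 0⟩ 0 0) (.cut .v 25034752 (.pos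 89 .pp ⟨⟨0, 0, 0, 0, 0, 0, 5036097, 0, 0, ⟨0, 0⟩, 0⟩, 4272754, 0⟩ 0 0) (.void 90 ⟨⟨0, 0, 0, 0, 0, 0, 0, 0, 0, ⟨0, 0⟩, 0⟩, 100000, 0⟩ 0 0))) (.pos 78 .pp ⟨⟨0, 0, 0, 0, 0, 0, 47834, 0, 0, ⟨0, 0⟩, 0⟩, 4785472, 0⟩ 0 0)) (.pos 78 .pp ⟨⟨0, 0, 0, 0, 0, 0, 49443, 0, 0, ⟨0, 0⟩, 0⟩, 4804345, 0⟩ 0 0)) (.pos 78 .pp ⟨⟨0, 0, 0, 0, 0, 0, 52250, 0, 0, ⟨0, 0⟩, 0⟩, 4842243, 0⟩ 0 0)) (.cut .s 9076736 (.cut .v 25034752 (.pos 89 .pp ⟨⟨0, 0, 0, 0, 0, 0, 6946010, 0, 0, ⟨0, 0⟩, 0⟩, 4136271, 0⟩ 0 0) (.pos 90 .pp ⟨⟨0, 0, 0, 0, 0, 0, 7163590, 0, 0, ⟨0, 0⟩, 0⟩, 4231288, 0⟩ 0 0)) (.pos 78 .pp ⟨⟨0, 0, 0, 0, 0, 0, 4110028, 0, 0, ⟨0, 0⟩, 0⟩, 4357948, 0⟩ 0 0)))))))))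 (.pos 66 .pp ⟨⟨0, 0, 0, 0, 0, 0, 223437, 0, 0, ⟨0, 0⟩, 0⟩, 4541431, 0⟩ 0 0)) (.pos 66 .pp ⟨⟨0, 0, 0, 0, 0, 0, 186104, 0, 0, ⟨0, 0⟩, 0⟩, 4811002, 0⟩ 0 0)) (.pos 66 .pp ⟨⟨0, 0, 0, 0, 0, 0, 159366, 0, 0, ⟨0, 0⟩, 0⟩, 5283484, 0⟩ 0 0))) (.pos 60 .pp ⟨⟨0, 0, 0, 0, 0, 0, 23239229, 0, 0, ⟨0, 0⟩, 0⟩, 0, 0⟩ 0 0)) (.pos 60 .pp ⟨⟨0, 0, 0, 0, 0, 0, 28199469, 0, 0, ⟨0, 0⟩, 0⟩, 0, 0⟩ 0 0)))))))) (.pos 21 .pp ⟨⟨0, 0, 0, 0, 0, 0, 0, 0, 0, ⟨0, 0⟩, 0⟩, 0, 30823072⟩ 0 0)) (.cut .v 29360128 (.cut .d 1793217 (.cut .d 896608 (.void 91 ⟨⟨0, 0, 0, 0, 0, 0, 0, 0, 0, ⟨0, 0⟩, 0⟩, 100000, 0⟩ 0 0) (.cut .v 27262976 (.cut .d 1344912 (.pos 93 .pp ⟨⟨0, 0, 0, 0,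 0, 0, 0, 0, 0, ⟨0, 0⟩, 0⟩, 10592897, 0⟩ 0 0) (.cut .l 153791 (.void 93 ⟨⟨0, 0, 0, 0, 0, 0, 0, 0, 0, ⟨0, 0⟩, 0⟩, 2806, 97194⟩ 0 0) (.cut .l 230687 (.pos 93 .pp ⟨⟨0, 0, 0, 0, 0, 0, 22711355, 0, 0, ⟨0, 0⟩, 0⟩, 5125588, 0⟩ 0 0) (.cut .d 1569064 (.cut .s 9306112 (.cut .v 26214400 (.cut .l 269135 (.pos 95 .pp ⟨⟨0, 0, 0, 0, 0, 0, 12969641, 0, 0, ⟨0, 0⟩, 0⟩, 4803126, 0⟩ 0 0) (.cut .l 288359 (.pos 95 .pp ⟨⟨0, 0, 0, 0, 0, 0, 12707460, 0, 0, ⟨0, 0⟩, 0⟩, 4825467, 0⟩ 0 0) (.cut .d 1456988 (.cut .v 25690112 (.cut .s 9175040 (.cut .s 9109504 (.cut .d 1400950 (.void 97 ⟨⟨0, 0, 0, 0, 0, 0, 0, 0, 0, ⟨0, 0⟩, 0⟩, 100000, 0⟩ 0 0) (.pos 97 .pp ⟨⟨0, 0,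 0, 0, 0, 0, 8015966, 0, 0, ⟨0, 0⟩, 0⟩, 4426699, 0⟩ 0 0)) (.pos 97 .pp ⟨⟨0, 0, 0, 0, 0, 0, 2364774, 0, 0, ⟨0, 0⟩, 0⟩, 4817173, 0⟩ 0 0)) (.pos 97 .pp ⟨⟨0, 0, 0, 0, 0, 0, 32478, 0, 0, ⟨0, 0⟩, 0⟩, 5181520, 0⟩ 0 0)) (.pos 98 .pp ⟨⟨0, 0, 0, 0, 0, 0, 0, 0, 0, ⟨0, 0⟩, 0⟩, 8414507, 0⟩ 0 0)) (.cut .s 9175040 (.cut .v 25690112 (.pos 97 .pp ⟨⟨0, 0, 0, 0, 0, 0, 10221716, 0, 0, ⟨0, 0⟩, 0⟩, 4109678, 0⟩ 0 0) (.void 98 ⟨⟨0, 0, 0, 0, 0, 0, 100000, 0, 0, ⟨0, 0⟩, 0⟩, 0, 0⟩ 0 0)) (.pos 95 .pp ⟨⟨0, 0, 0, 0, 0, 0, 5416638, 0, 0, ⟨0, 0⟩, 0⟩, 4765041, 0⟩ 0 0))))) (.pos 96 .pp ⟨⟨0, 0, 0, 0, 0, 0, 11291444, 0, 0, ⟨0, 0⟩, 0⟩, 5789729, 0⟩ 0 0)) (.cut .v 26214400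 (.pos 95 .pp ⟨⟨0, 0, 0, 0, 0, 0, 41288, 0, 0, ⟨0, 0⟩, 0⟩, 5595164, 0⟩ 0 0) (.pos 96 .pp ⟨⟨0, 0, 0, 0, 0, 0, 0, 0, 0, ⟨0, 0⟩, 0⟩, 6373105, 0⟩ 0 0))) (.cut .s 9306112 (.cut .v 26214400 (.pos 95 .pp ⟨⟨0, 0, 0, 0, 0, 0, 32162273, 0, 0, ⟨0, 0⟩, 0⟩, 0, 0⟩ 0 0) (.pos 96 .pp ⟨⟨0, 0, 0, 0, 0, 0, 15517573, 0, 0, ⟨0, 0⟩, 0⟩, 4692211, 0⟩ 0 0)) (.pos 93 .pp ⟨⟨0, 0, 0, 0, 0, 0, 9953743, 0, 0, ⟨0, 0⟩, 0⟩, 4842815, 0⟩ 0 0)))))) (.pos 94 .pp ⟨⟨0, 0, 0, 0, 0, 0, 17560652, 0, 0, ⟨0, 0⟩, 0⟩, 8237603, 0⟩ 0 0))) (.pos 91 .pp ⟨⟨0, 0, 0, 0, 0, 0, 50190857, 0, 0, ⟨0, 0⟩, 0⟩, 2201362, 0⟩ 0 0)) (.void 92 ⟨⟨0, 0, 0, 0, 0, 0, 100000, 0, 0, ⟨0, 0⟩, 0⟩, 0, 0⟩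 0 0))) (.void 20 ⟨⟨0, 0, 0, 0, 0, 0, 0, 0, 0, ⟨0, 0⟩, 0⟩, 0, 100000⟩ 0 0)) (.void 20 ⟨⟨0, 0, 0, 0, 0, 0, 0, 0, 0, ⟨0, 0⟩, 0⟩, 0, 100000⟩ 0 0)))),
    by decide +kernel⟩

def covers12 : cell.Covers Vale.Agent.P237.Petty.Cor.Grid.N12.table row12.1 :=
  ⟨(.cut .d 0 (.cut .v 16777216 (.cut .d (-8388608) (.void 1 ⟨⟨0, 0, 0, 0, 0, 100000, 0, 0, 0, ⟨0, 0⟩, 0⟩, 0, 0⟩ 0 0) (.cut .d (-4194304) (.void 1 ⟨⟨0, 0, 0, 0, 0, 100000, 0, 0, 0, ⟨0, 0⟩, 0⟩, 0, 0⟩ 0 0) (.cut .d (-2097152) (.void 1 ⟨⟨0, 0, 0, 0, 0, 100000, 0, 0, 0, ⟨0, 0⟩, 0⟩, 0, 0⟩ 0 0) (.cut .d (-1048576) (.void 1 ⟨⟨0, 0, 0, 0, 0, 100000, 0, 0, 0, ⟨0, 0⟩, 0⟩, 0, 0⟩ 0 0) (.cut .d (-524288)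 (.void 1 ⟨⟨0, 0, 0, 0, 0, 100000, 0, 0, 0, ⟨0, 0⟩, 0⟩, 0, 0⟩ 0 0) (.cut .d (-262144) (.void 1 ⟨⟨0, 0, 0, 0, 0, 100000, 0, 0, 0, ⟨0, 0⟩, 0⟩, 0, 0⟩ 0 0) (.cut .d (-131072) (.void 1 ⟨⟨0, 0, 0, 0, 0, 100000, 0, 0, 0, ⟨0, 0⟩, 0⟩, 0, 0⟩ 0 0) (.cut .d (-65536) (.void 1 ⟨⟨0, 0, 0, 0, 0, 100000, 0, 0, 0, ⟨0, 0⟩, 0⟩, 0, 0⟩ 0 0) (.cut .v 8388608 (.cut .v 4194304 (.void 4 ⟨⟨0, 0, 100000, 0, 0, 0, 0, 0, 0, ⟨0, 0⟩, 0⟩, 0, 0⟩ 0 0) (.pos 5 .mm ⟨⟨0, 0, 291627, 0, 0, 18762034, 0, 0, 0, ⟨0, 0⟩, 0⟩, 0, 0⟩ 0 0)) (.cut .s 9830400 (.pos 3 .mm ⟨⟨0, 0, 0, 0, 0, 54489317, 0, 0, 0, ⟨0, 0⟩, 0⟩, 0, 0⟩ 0 0) (.pos 3 .mm ⟨⟨0, 0, 0, 0, 0, 65353185, 0, 0, 0, ⟨0,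 0⟩, 0⟩, 0, 0⟩ 0 0))))))))))) (.cut .v 33554432 (.cut .v 25165824 (.cut .d (-8388608) (.void 21 ⟨⟨0, 0, 0, 0, 0, 100000, 0, 0, 0, ⟨0, 0⟩, 0⟩, 0, 0⟩ 0 0) (.cut .v 20971520 (.cut .d (-4194304) (.void 23 ⟨⟨0, 0, 0, 0, 0, 100000, 0, 0, 0, ⟨0, 0⟩, 0⟩, 0, 0⟩ 0 0) (.cut .v 18874368 (.cut .d (-2097152) (.void 25 ⟨⟨100000, 0, 0, 0, 0, 0, 0, 0, 0, ⟨0, 0⟩, 0⟩, 0, 0⟩ 0 0) (.cut .v 17825792 (.cut .d (-1048576) (.void 27 ⟨⟨100000, 0, 0, 0, 0, 0, 0, 0, 0, ⟨0, 0⟩, 0⟩, 0, 0⟩ 0 0) (.cut .v 17301504 (.cut .d (-524288) (.void 29 ⟨⟨100000, 0, 0, 0, 0, 0, 0, 0, 0, ⟨0, 0⟩, 0⟩, 0, 0⟩ 0 0) (.cut .d (-262144) (.void 29 ⟨⟨100000, 0, 0, 0, 0, 0, 0, 0, 0, ⟨0,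 0⟩, 0⟩, 0, 0⟩ 0 0) (.cut .d (-131072) (.void 29 ⟨⟨0, 0, 0, 0, 0, 100000, 0, 0, 0, ⟨0, 0⟩, 0⟩, 0, 0⟩ 0 0) (.cut .d (-65536) (.void 29 ⟨⟨0, 0, 0, 0, 0, 100000, 0, 0, 0, ⟨0, 0⟩, 0⟩, 0, 0⟩ 0 0) (.cut .v 17039360 (.cut .s 9830400 (.cut .v 16908288 (.cut .d (-32768) (.cut .s 9699328 (.pos 35 .mp ⟨⟨25457440, 0, 0, 0, 0, 22335870, 0, 0, 0, ⟨0, 0⟩, 0⟩, 0, 0⟩ 0 0) (.cut .s 9764864 (.pos 35 .mp ⟨⟨28190750, 0, 0, 0, 0, 20738726, 0, 0, 0, ⟨0, 0⟩, 0⟩, 0, 0⟩ 0 0) (.pos 35 .mp ⟨⟨29670288, 0, 0, 0, 0, 21185390, 0, 0, 0, ⟨0, 0⟩, 0⟩, 0, 0⟩ 0 0))) (.cut .s 9699328 (.cut .v 16842752 (.cut .s 9633792 (.cut .s 9601024 (.pos 43 .mp ⟨⟨27202690, 0, 0, 0,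 0, 14512540, 0, 0, 0, ⟨0, 0⟩, 0⟩, 0, 0⟩ 0 0) (.pos 43 .mp ⟨⟨27635003, 0, 0, 0, 0, 14954428, 0, 0, 0, ⟨0, 0⟩, 0⟩, 0, 0⟩ 0 0)) (.cut .s 9666560 (.pos 43 .mp ⟨⟨28086983, 0, 0, 0, 0, 15403911, 0, 0, 0, ⟨0, 0⟩, 0⟩, 0, 0⟩ 0 0) (.pos 43 .mp ⟨⟨28629756, 0, 0, 0, 0, 15764717, 0, 0, 0, ⟨0, 0⟩, 0⟩, 0, 0⟩ 0 0))) (.pos 44 .mp ⟨⟨39507850, 0, 0, 0, 0, 0, 0, 0, 0, ⟨0, 0⟩, 0⟩, 0, 0⟩ 0 0)) (.cut .v 16842752 (.cut .s 9764864 (.cut .s 9732096 (.pos 43 .mp ⟨⟨29369466, 0, 0, 0, 0, 15892212, 0, 0, 0, ⟨0, 0⟩, 0⟩, 0, 0⟩ 0 0) (.cut .s 9748480 (.pos 43 .mp ⟨⟨30350010, 0, 0, 0, 0, 15485701, 0, 0, 0, ⟨0, 0⟩, 0⟩, 0, 0⟩ 0 0) (.pos 43 .mp ⟨⟨30632247, 0, 0, 0,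 0, 15693290, 0, 0, 0, ⟨0, 0⟩, 0⟩, 0, 0⟩ 0 0))) (.cut .l 153791 (.cut .d (-16384) (.pos 43 .mp ⟨⟨29440292, 0, 0, 0, 0, 21246574, 0, 0, 0, ⟨0, 0⟩, 0⟩, 0, 0⟩ 0 0) (.cut .s 9797632 (.pos 43 .mp ⟨⟨30518676, 0, 0, 0, 0, 16644510, 0, 0, 0, ⟨0, 0⟩, 0⟩, 0, 0⟩ 0 0) (.cut .s 9814016 (.pos 43 .mp ⟨⟨31166326, 0, 0, 0, 0, 16794209, 0, 0, 0, ⟨0, 0⟩, 0⟩, 0, 0⟩ 0 0) (.pos 43 .mp ⟨⟨31513694, 0, 0, 0, 0, 16942166, 0, 0, 0, ⟨0, 0⟩, 0⟩, 0, 0⟩ 0 0)))) (.pos 43 .mp ⟨⟨31244551, 0, 0, 0, 0, 15378755, 0, 0, 0, ⟨0, 0⟩, 0⟩, 0, 0⟩ 0 0))) (.pos 44 .mp ⟨⟨42765917, 0, 0, 0, 0, 0, 0, 0, 0, ⟨0, 0⟩, 0⟩, 0, 0⟩ 0 0)))) (.pos 36 .mp ⟨⟨43543559, 0, 0, 0, 0, 0, 0, 0,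 0, ⟨0, 0⟩, 0⟩, 0, 0⟩ 0 0)) (.cut .v 16908288 (.cut .d (-32768) (.cut .d (-49152) (.void 35 ⟨⟨0, 0, 0, 0, 0, 100000, 0, 0, 0, ⟨0, 0⟩, 0⟩, 0, 0⟩ 0 0) (.cut .d (-40960) (.pos 35 .mp ⟨⟨31283383, 0, 0, 0, 0, 57836984, 0, 0, 0, ⟨0, 0⟩, 0⟩, 0, 0⟩ 0 0) (.cut .l 153791 (.void 35 ⟨⟨0, 0, 0, 0, 0, 100000, 0, 0, 0, ⟨0, 0⟩, 0⟩, 0, 0⟩ 0 0) (.cut .l 230687 (.void 35 ⟨⟨0, 0, 0, 0, 0, 100000, 0, 0, 0, ⟨0, 0⟩, 0⟩, 0, 0⟩ 0 0) (.cut .v 16842752 (.cut .s 9961472 (.pos 43 .mp ⟨⟨30796326, 0, 0, 0, 0, 22269882, 0, 0, 0, ⟨0, 0⟩, 0⟩, 0, 0⟩ 0 0) (.pos 43 .mp ⟨⟨34071786, 0, 0, 0, 0, 23559832, 0, 0, 0, ⟨0, 0⟩, 0⟩, 0, 0⟩ 0 0)) (.cut .s 9961472 (.pos 44 .mp ⟨⟨47090538,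 0, 0, 0, 0, 0, 0, 0, 0, ⟨0, 0⟩, 0⟩, 0, 0⟩ 0 0) (.pos 44 .mp ⟨⟨51147188, 0, 0, 0, 0, 0, 0, 0, 0, ⟨0, 0⟩, 0⟩, 0, 0⟩ 0 0))))))) (.cut .s 9961472 (.cut .v 16842752 (.cut .s 9895936 (.cut .s 9863168 (.cut .s 9846784 (.pos 43 .mp ⟨⟨32151242, 0, 0, 0, 0, 16712278, 0, 0, 0, ⟨0, 0⟩, 0⟩, 0, 0⟩ 0 0) (.pos 43 .mp ⟨⟨32505132, 0, 0, 0, 0, 16873142, 0, 0, 0, ⟨0, 0⟩, 0⟩, 0, 0⟩ 0 0)) (.cut .s 9879552 (.pos 43 .mp ⟨⟨32917421, 0, 0, 0, 0, 16962398, 0, 0, 0, ⟨0, 0⟩, 0⟩, 0, 0⟩ 0 0) (.pos 43 .mp ⟨⟨33334320, 0, 0, 0, 0, 17053626, 0, 0, 0, ⟨0, 0⟩, 0⟩, 0, 0⟩ 0 0))) (.cut .s 9928704 (.cut .s 9912320 (.pos 43 .mp ⟨⟨33755855, 0, 0, 0, 0, 17146790, 0, 0, 0,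 ⟨0, 0⟩, 0⟩, 0, 0⟩ 0 0) (.pos 43 .mp ⟨⟨34182057, 0, 0, 0, 0, 17241849, 0, 0, 0, ⟨0, 0⟩, 0⟩, 0, 0⟩ 0 0)) (.cut .s 9945088 (.pos 43 .mp ⟨⟨34612953, 0, 0, 0, 0, 17338766, 0, 0, 0, ⟨0, 0⟩, 0⟩, 0, 0⟩ 0 0) (.pos 43 .mp ⟨⟨35048573, 0, 0, 0, 0, 17437500, 0, 0, 0, ⟨0, 0⟩, 0⟩, 0, 0⟩ 0 0)))) (.pos 44 .mp ⟨⟨46404189, 0, 0, 0, 0, 0, 0, 0, 0, ⟨0, 0⟩, 0⟩, 0, 0⟩ 0 0)) (.cut .v 16842752 (.cut .s 10027008 (.cut .s 9994240 (.cut .l 153791 (.cut .d (-16384) (.pos 43 .mp ⟨⟨34184736, 0, 0, 0, 0, 21439051, 0, 0, 0, ⟨0, 0⟩, 0⟩, 0, 0⟩ 0 0) (.cut .s 9977856 (.pos 43 .mp ⟨⟨35014391, 0, 0, 0, 0, 18145811, 0, 0, 0, ⟨0, 0⟩, 0⟩, 0, 0⟩ 0 0) (.pos 43 .mp ⟨⟨35464475,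 0, 0, 0, 0, 18237376, 0, 0, 0, ⟨0, 0⟩, 0⟩, 0, 0⟩ 0 0))) (.pos 43 .mp ⟨⟨35434336, 0, 0, 0, 0, 17311725, 0, 0, 0, ⟨0, 0⟩, 0⟩, 0, 0⟩ 0 0)) (.cut .l 153791 (.cut .d (-16384) (.pos 43 .mp ⟨⟨35044553, 0, 0, 0, 0, 21739256, 0, 0, 0, ⟨0, 0⟩, 0⟩, 0, 0⟩ 0 0) (.cut .s 10010624 (.pos 43 .mp ⟨⟨35917557, 0, 0, 0, 0, 18333746, 0, 0, 0, ⟨0, 0⟩, 0⟩, 0, 0⟩ 0 0) (.pos 43 .mp ⟨⟨36369635, 0, 0, 0, 0, 18441898, 0, 0, 0, ⟨0, 0⟩, 0⟩, 0, 0⟩ 0 0))) (.pos 43 .mp ⟨⟨36328271, 0, 0, 0, 0, 17536760, 0, 0, 0, ⟨0, 0⟩, 0⟩, 0, 0⟩ 0 0))) (.cut .s 10059776 (.cut .l 153791 (.cut .d (-16384) (.pos 43 .mp ⟨⟨35922394, 0, 0, 0, 0, 22055469, 0, 0, 0, ⟨0, 0⟩, 0⟩, 0, 0⟩ 0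 0) (.cut .s 10043392 (.pos 43 .mp ⟨⟨36822447, 0, 0, 0, 0, 18558840, 0, 0, 0, ⟨0, 0⟩, 0⟩, 0, 0⟩ 0 0) (.pos 43 .mp ⟨⟨37280066, 0, 0, 0, 0, 18677496, 0, 0, 0, ⟨0, 0⟩, 0⟩, 0, 0⟩ 0 0))) (.pos 43 .mp ⟨⟨37241414, 0, 0, 0, 0, 17760823, 0, 0, 0, ⟨0, 0⟩, 0⟩, 0, 0⟩ 0 0)) (.cut .l 153791 (.cut .d (-16384) (.pos 43 .mp ⟨⟨36818479, 0, 0, 0, 0, 22387984, 0, 0, 0, ⟨0, 0⟩, 0⟩, 0, 0⟩ 0 0) (.cut .s 10076160 (.pos 43 .mp ⟨⟨37742523, 0, 0, 0, 0, 18797821, 0, 0, 0, ⟨0, 0⟩, 0⟩, 0, 0⟩ 0 0) (.pos 43 .mp ⟨⟨38209849, 0, 0, 0, 0, 18919774, 0, 0, 0, ⟨0, 0⟩, 0⟩, 0, 0⟩ 0 0))) (.pos 43 .mp ⟨⟨38174006, 0, 0, 0, 0, 17983115, 0, 0, 0, ⟨0, 0⟩, 0⟩, 0, 0⟩ 0 0)))) (.pos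 44 .mp ⟨⟨50420683, 0, 0, 0, 0, 0, 0, 0, 0, ⟨0, 0⟩, 0⟩, 0, 0⟩ 0 0)))) (.pos 36 .mp ⟨⟨51264544, 0, 0, 0, 0, 0, 0, 0, 0, ⟨0, 0⟩, 0⟩, 0, 0⟩ 0 0))) (.pos 32 .mp ⟨⟨53229438, 0, 0, 0, 0, 0, 0, 0, 0, ⟨0, 0⟩, 0⟩, 0, 0⟩ 0 0)))))) (.void 30 ⟨⟨100000, 0, 0, 0, 0, 0, 0, 0, 0, ⟨0, 0⟩, 0⟩, 0, 0⟩ 0 0))) (.void 28 ⟨⟨100000, 0, 0, 0, 0, 0, 0, 0, 0, ⟨0, 0⟩, 0⟩, 0, 0⟩ 0 0))) (.void 26 ⟨⟨100000, 0, 0, 0, 0, 0, 0, 0, 0, ⟨0, 0⟩, 0⟩, 0, 0⟩ 0 0))) (.void 24 ⟨⟨100000, 0, 0, 0, 0, 0, 0, 0, 0, ⟨0, 0⟩, 0⟩, 0, 0⟩ 0 0))) (.void 22 ⟨⟨100000, 0, 0, 0, 0, 0, 0, 0, 0, ⟨0, 0⟩, 0⟩, 0, 0⟩ 0 0)) (.void 103 ⟨⟨100000, 0, 0, 0, 0, 0, 0, 0, 0, ⟨0, 0⟩, 0⟩, 0, 0⟩ 0 0))) (.cut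 .v 16777216 (.cut .d 6320185 (.cut .v 8388608 (.cut .v 4194304 (.void 4 ⟨⟨0, 0, 66667, 0, 0, 0, 0, 0, 0, ⟨0, 0⟩, 0⟩, 0, 33333⟩ 0 0) (.pos 5 .pm ⟨⟨0, 0, 288579, 0, 0, 0, 0, 0, 0, ⟨0, 0⟩, 0⟩, 0, 0⟩ 0 0)) (.pos 3 .pm ⟨⟨0, 0, 0, 0, 0, 0, 0, 0, 0, ⟨0, 0⟩, 0⟩, 0, 0⟩ 0 0)) (.void 1 ⟨⟨0, 0, 0, 0, 0, 0, 0, 0, 0, ⟨0, 0⟩, 0⟩, 0, 100000⟩ 0 0)) (.cut .d 6320185 (.cut .v 33554432 (.cut .d 3160092 (.cut .v 25165824 (.cut .d 1580046 (.cut .v 20971520 (.cut .d 790023 (.cut .v 18874368 (.cut .d 395011 (.cut .d 197505 (.cut .v 17825792 (.cut .s 9830400 (.pos 27 .pp ⟨⟨32907861, 0, 0, 0, 0, 0, 0, 0, 0, ⟨0, 0⟩, 0⟩, 516808, 0⟩ 0 0) (.pos 27 .pp ⟨⟨40447847,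 0, 0, 0, 0, 0, 0, 0, 0, ⟨0, 0⟩, 0⟩, 471719, 0⟩ 0 0)) (.pos 28 .pp ⟨⟨53253623, 0, 0, 0, 0, 0, 0, 0, 0, ⟨0, 0⟩, 0⟩, 0, 0⟩ 0 0)) (.pos 25 .pp ⟨⟨33466396, 0, 0, 0, 0, 0, 0, 0, 0, ⟨0, 0⟩, 0⟩, 0, 72162⟩ 0 0)) (.pos 25 .pp ⟨⟨0, 0, 0, 0, 0, 0, 0, 0, 0, ⟨0, 0⟩, 0⟩, 0, 794354⟩ 0 0)) (.cut .d 395011 (.pos 26 .pp ⟨⟨65452792, 0, 0, 0, 0, 0, 0, 0, 0, ⟨0, 0⟩, 0⟩, 0, 0⟩ 0 0) (.pos 26 .pp ⟨⟨44370765, 0, 0, 0, 0, 0, 0, 0, 0, ⟨0, 0⟩, 0⟩, 0, 262715⟩ 0 0))) (.pos 23 .pp ⟨⟨0, 0, 0, 0, 0, 0, 0, 0, 0, ⟨0, 0⟩, 0⟩, 0, 833582⟩ 0 0)) (.cut .d 790023 (.cut .v 23068672 (.cut .v 22020096 (.pos 57 .pp ⟨⟨70537919, 0, 0, 0, 0, 0, 0, 0, 0, ⟨0, 0⟩, 0⟩, 0, 0⟩ 0 0)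 (.pos 58 .pp ⟨⟨79940778, 0, 0, 0, 0, 0, 0, 0, 0, ⟨0, 0⟩, 0⟩, 0, 0⟩ 0 0)) (.pos 56 .pp ⟨⟨0, 0, 0, 0, 0, 0, 0, 0, 0, ⟨0, 0⟩, 0⟩, 11539024, 0⟩ 0 0)) (.cut .v 23068672 (.pos 55 .pp ⟨⟨42299617, 0, 0, 0, 0, 0, 626106, 0, 0, ⟨0, 0⟩, 0⟩, 0, 0⟩ 0 0) (.cut .d 1185034 (.cut .d 987528 (.pos 56 .pp ⟨⟨0, 0, 0, 0, 0, 0, 0, 0, 0, ⟨0, 0⟩, 0⟩, 8677942, 0⟩ 0 0) (.pos 56 .pp ⟨⟨0, 0, 0, 0, 0, 0, 247715, 0, 0, ⟨0, 0⟩, 0⟩, 6859303, 0⟩ 0 0)) (.pos 56 .pp ⟨⟨0, 0, 0, 0, 0, 0, 293067, 0, 0, ⟨0, 0⟩, 0⟩, 5841679, 0⟩ 0 0))))) (.pos 21 .pp ⟨⟨0, 0, 0, 0, 0, 0, 0, 0, 0, ⟨0, 0⟩, 0⟩, 0, 900268⟩ 0 0)) (.cut .d 1580046 (.cut .v 29360128 (.cut .d 790023 (.void 91 ⟨⟨0,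 0, 0, 0, 0, 0, 0, 0, 0, ⟨0, 0⟩, 0⟩, 100000, 0⟩ 0 0) (.cut .d 1185034 (.pos 91 .pp ⟨⟨0, 0, 0, 0, 0, 0, 0, 0, 0, ⟨0, 0⟩, 0⟩, 11705436, 0⟩ 0 0) (.cut .v 27262976 (.pos 93 .pp ⟨⟨0, 0, 0, 0, 0, 0, 58966, 0, 0, ⟨0, 0⟩, 0⟩, 7557213, 0⟩ 0 0) (.pos 94 .pp ⟨⟨0, 0, 0, 0, 0, 0, 0, 0, 0, ⟨0, 0⟩, 0⟩, 10389634, 0⟩ 0 0)))) (.void 92 ⟨⟨0, 0, 0, 0, 0, 0, 0, 0, 0, ⟨0, 0⟩, 0⟩, 100000, 0⟩ 0 0)) (.cut .d 2370069 (.cut .v 29360128 (.cut .v 27262976 (.pos 93 .pp ⟨⟨0, 0, 0, 0, 0, 0, 334448, 0, 0, ⟨0, 0⟩, 0⟩, 5793500, 0⟩ 0 0) (.pos 94 .pp ⟨⟨0, 0, 0, 0, 0, 0, 2046922, 0, 0, ⟨0, 0⟩, 0⟩, 6975973, 0⟩ 0 0)) (.pos 92 .pp ⟨⟨0, 0, 0, 0, 0, 0, 26219414, 0, 0, ⟨0,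 0⟩, 0⟩, 10065586, 0⟩ 0 0)) (.pos 22 .pp ⟨⟨0, 0, 0, 0, 0, 0, 81182775, 0, 0, ⟨0, 0⟩, 0⟩, 0, 0⟩ 0 0)))) (.cut .v 25165824 (.void 21 ⟨⟨0, 0, 0, 0, 0, 0, 0, 0, 0, ⟨0, 0⟩, 0⟩, 0, 100000⟩ 0 0) (.pos 22 .pp ⟨⟨0, 0, 0, 0, 0, 0, 0, 0, 0, ⟨0, 0⟩, 0⟩, 0, 76104826⟩ 0 0))) (.cut .d 3160092 (.cut .v 50331648 (.cut .d 1580046 (.void 106 ⟨⟨0, 0, 0, 0, 0, 0, 0, 0, 0, ⟨0, 0⟩, 0⟩, 100000, 0⟩ 0 0) (.pos 106 .pp ⟨⟨0, 0, 0, 0, 0, 0, 94235815, 0, 0, ⟨0, 0⟩, 0⟩, 14804398, 0⟩ 0 0)) (.void 107 ⟨⟨0, 0, 0, 0, 0, 0, 0, 0, 0, ⟨0, 0⟩, 0⟩, 100000, 0⟩ 0 0)) (.pos 103 .pp ⟨⟨0, 0, 0, 0, 0, 0, 282318071, 0, 0, ⟨0, 0⟩, 0⟩, 0, 0⟩ 0 0))) (.void 102 ⟨⟨0, 0, 0, 0, 0, 0,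 0, 0, 0, ⟨0, 0⟩, 0⟩, 4593, 95407⟩ 0 0)))),
    by decide +kernel⟩

def covers13 : cell.Covers Vale.Agent.P237.Petty.Cor.Grid.N12.table row13.1 :=
  ⟨(.cut .d 0 (.cut .v 16777216 (.cut .d (-8388608) (.void 1 ⟨⟨0, 0, 0, 0, 0, 100000, 0, 0, 0, ⟨0, 0⟩, 0⟩, 0, 0⟩ 0 0) (.cut .d (-4194304) (.void 1 ⟨⟨0, 0, 0, 0, 0, 100000, 0, 0, 0, ⟨0, 0⟩, 0⟩, 0, 0⟩ 0 0) (.cut .d (-2097152) (.void 1 ⟨⟨0, 0, 0, 0, 0, 100000, 0, 0, 0, ⟨0, 0⟩, 0⟩, 0, 0⟩ 0 0) (.cut .d (-1048576) (.void 1 ⟨⟨0, 0, 0, 0, 0, 100000, 0, 0, 0, ⟨0, 0⟩, 0⟩, 0, 0⟩ 0 0) (.cut .d (-524288) (.void 1 ⟨⟨0, 0, 0, 0, 0, 100000, 0, 0, 0, ⟨0, 0⟩, 0⟩, 0, 0⟩ 0 0) (.cut .d (-262144) (.void 1 ⟨⟨0,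 0, 0, 0, 0, 100000, 0, 0, 0, ⟨0, 0⟩, 0⟩, 0, 0⟩ 0 0) (.cut .d (-131072) (.void 1 ⟨⟨0, 0, 0, 0, 0, 100000, 0, 0, 0, ⟨0, 0⟩, 0⟩, 0, 0⟩ 0 0) (.cut .d (-65536) (.void 1 ⟨⟨0, 0, 0, 0, 0, 100000, 0, 0, 0, ⟨0, 0⟩, 0⟩, 0, 0⟩ 0 0) (.cut .v 8388608 (.cut .v 4194304 (.void 4 ⟨⟨0, 0, 100000, 0, 0, 0, 0, 0, 0, ⟨0, 0⟩, 0⟩, 0, 0⟩ 0 0) (.pos 5 .mm ⟨⟨0, 0, 977530, 0, 0, 26365661, 0, 0, 0, ⟨0, 0⟩, 0⟩, 0, 0⟩ 0 0)) (.cut .s 10289152 (.pos 3 .mm ⟨⟨0, 0, 0, 0, 0, 77075516, 0, 0, 0, ⟨0, 0⟩, 0⟩, 0, 0⟩ 0 0) (.pos 3 .mm ⟨⟨0, 0, 0, 0, 0, 88604639, 0, 0, 0, ⟨0, 0⟩, 0⟩, 0, 0⟩ 0 0))))))))))) (.cut .v 33554432 (.cut .v 25165824 (.cut .d (-8388608) (.void 21 ⟨⟨0,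 0, 0, 0, 0, 100000, 0, 0, 0, ⟨0, 0⟩, 0⟩, 0, 0⟩ 0 0) (.cut .v 20971520 (.cut .d (-4194304) (.void 23 ⟨⟨100000, 0, 0, 0, 0, 0, 0, 0, 0, ⟨0, 0⟩, 0⟩, 0, 0⟩ 0 0) (.cut .v 18874368 (.cut .d (-2097152) (.void 25 ⟨⟨100000, 0, 0, 0, 0, 0, 0, 0, 0, ⟨0, 0⟩, 0⟩, 0, 0⟩ 0 0) (.cut .v 17825792 (.cut .d (-1048576) (.void 27 ⟨⟨100000, 0, 0, 0, 0, 0, 0, 0, 0, ⟨0, 0⟩, 0⟩, 0, 0⟩ 0 0) (.cut .v 17301504 (.cut .d (-524288) (.void 29 ⟨⟨100000, 0, 0, 0, 0, 0, 0, 0, 0, ⟨0, 0⟩, 0⟩, 0, 0⟩ 0 0) (.cut .v 17039360 (.cut .d (-262144) (.void 31 ⟨⟨100000, 0, 0, 0, 0, 0, 0, 0, 0, ⟨0, 0⟩, 0⟩, 0, 0⟩ 0 0) (.cut .d (-131072) (.void 31 ⟨⟨100000, 0, 0, 0, 0, 0, 0, 0, 0,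 ⟨0, 0⟩, 0⟩, 0, 0⟩ 0 0) (.cut .d (-65536) (.void 31 ⟨⟨0, 0, 0, 0, 0, 100000, 0, 0, 0, ⟨0, 0⟩, 0⟩, 0, 0⟩ 0 0) (.cut .s 10289152 (.cut .v 16908288 (.cut .d (-32768) (.cut .d (-49152) (.void 35 ⟨⟨0, 0, 0, 0, 0, 100000, 0, 0, 0, ⟨0, 0⟩, 0⟩, 0, 0⟩ 0 0) (.cut .d (-40960) (.void 35 ⟨⟨0, 0, 0, 0, 0, 100000, 0, 0, 0, ⟨0, 0⟩, 0⟩, 0, 0⟩ 0 0) (.cut .l 153791 (.void 35 ⟨⟨0, 0, 0, 0, 0, 100000, 0, 0, 0, ⟨0, 0⟩, 0⟩, 0, 0⟩ 0 0) (.cut .l 230687 (.void 35 ⟨⟨0, 0, 0, 0, 0, 100000, 0, 0, 0, ⟨0, 0⟩, 0⟩, 0, 0⟩ 0 0) (.cut .v 16842752 (.cut .s 10190848 (.pos 43 .mp ⟨⟨37639389, 0, 0, 0, 0, 24581042, 0, 0, 0, ⟨0, 0⟩, 0⟩, 0, 0⟩ 0 0) (.pos 43 .mp ⟨⟨40541017,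 0, 0, 0, 0, 25745342, 0, 0, 0, ⟨0, 0⟩, 0⟩, 0, 0⟩ 0 0)) (.cut .s 10190848 (.pos 44 .mp ⟨⟨47508174, 0, 0, 0, 0, 10844257, 0, 0, 0, ⟨0, 0⟩, 0⟩, 0, 0⟩ 0 0) (.pos 44 .mp ⟨⟨50127144, 0, 0, 0, 0, 12310141, 0, 0, 0, ⟨0, 0⟩, 0⟩, 0, 0⟩ 0 0))))))) (.cut .s 10190848 (.cut .v 16842752 (.cut .s 10141696 (.cut .s 10117120 (.cut .s 10104832 (.pos 43 .mp ⟨⟨39063840, 0, 0, 0, 0, 18491512, 0, 0, 0, ⟨0, 0⟩, 0⟩, 0, 0⟩ 0 0) (.pos 43 .mp ⟨⟨39426920, 0, 0, 0, 0, 18556701, 0, 0, 0, ⟨0, 0⟩, 0⟩, 0, 0⟩ 0 0)) (.cut .s 10129408 (.pos 43 .mp ⟨⟨39793235, 0, 0, 0, 0, 18623768, 0, 0, 0, ⟨0, 0⟩, 0⟩, 0, 0⟩ 0 0) (.pos 43 .mp ⟨⟨40162801, 0, 0, 0, 0, 18692691, 0, 0,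 0, ⟨0, 0⟩, 0⟩, 0, 0⟩ 0 0))) (.cut .s 10166272 (.cut .d (-16384) (.pos 43 .mp ⟨⟨39532812, 0, 0, 0, 0, 21071650, 0, 0, 0, ⟨0, 0⟩, 0⟩, 0, 0⟩ 0 0) (.cut .s 10153984 (.pos 43 .mp ⟨⟨39948152, 0, 0, 0, 0, 19589789, 0, 0, 0, ⟨0, 0⟩, 0⟩, 0, 0⟩ 0 0) (.pos 43 .mp ⟨⟨40334380, 0, 0, 0, 0, 19636422, 0, 0, 0, ⟨0, 0⟩, 0⟩, 0, 0⟩ 0 0))) (.cut .l 153791 (.cut .d (-16384) (.pos 43 .mp ⟨⟨40029422, 0, 0, 0, 0, 22538022, 0, 0, 0, ⟨0, 0⟩, 0⟩, 0, 0⟩ 0 0) (.cut .s 10178560 (.pos 43 .mp ⟨⟨40754221, 0, 0, 0, 0, 19598920, 0, 0, 0, ⟨0, 0⟩, 0⟩, 0, 0⟩ 0 0) (.pos 43 .mp ⟨⟨41130972, 0, 0, 0, 0, 19683596, 0, 0, 0, ⟨0, 0⟩, 0⟩, 0, 0⟩ 0 0))) (.pos 43 .mp ⟨⟨41106508,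 0, 0, 0, 0, 18995463, 0, 0, 0, ⟨0, 0⟩, 0⟩, 0, 0⟩ 0 0)))) (.pos 44 .mp ⟨⟨54218058, 0, 0, 0, 0, 0, 0, 0, 0, ⟨0, 0⟩, 0⟩, 0, 0⟩ 0 0)) (.cut .v 16842752 (.cut .s 10240000 (.cut .s 10215424 (.cut .l 153791 (.cut .d (-16384) (.pos 43 .mp ⟨⟨40777257, 0, 0, 0, 0, 22732834, 0, 0, 0, ⟨0, 0⟩, 0⟩, 0, 0⟩ 0 0) (.cut .s 10203136 (.pos 43 .mp ⟨⟨41510978, 0, 0, 0, 0, 19770137, 0, 0, 0, ⟨0, 0⟩, 0⟩, 0, 0⟩ 0 0) (.pos 43 .mp ⟨⟨41894255, 0, 0, 0, 0, 19858521, 0, 0, 0, ⟨0, 0⟩, 0⟩, 0, 0⟩ 0 0))) (.pos 43 .mp ⟨⟨41872931, 0, 0, 0, 0, 19189876, 0, 0, 0, ⟨0, 0⟩, 0⟩, 0, 0⟩ 0 0)) (.cut .l 153791 (.cut .d (-16384) (.pos 43 .mp ⟨⟨41537661, 0, 0, 0, 0, 22938408,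 0, 0, 0, ⟨0, 0⟩, 0⟩, 0, 0⟩ 0 0) (.cut .s 10227712 (.pos 43 .mp ⟨⟨42280818, 0, 0, 0, 0, 19948727, 0, 0, 0, ⟨0, 0⟩, 0⟩, 0, 0⟩ 0 0) (.pos 43 .mp ⟨⟨42670682, 0, 0, 0, 0, 20040734, 0, 0, 0, ⟨0, 0⟩, 0⟩, 0, 0⟩ 0 0))) (.pos 43 .mp ⟨⟨42652603, 0, 0, 0, 0, 19388617, 0, 0, 0, ⟨0, 0⟩, 0⟩, 0, 0⟩ 0 0))) (.cut .s 10264576 (.cut .s 10252288 (.cut .s 10246144 (.pos 43 .mp ⟨⟨43437581, 0, 0, 0, 0, 19535224, 0, 0, 0, ⟨0, 0⟩, 0⟩, 0, 0⟩ 0 0) (.pos 43 .mp ⟨⟨43637773, 0, 0, 0, 0, 19578705, 0, 0, 0, ⟨0, 0⟩, 0⟩, 0, 0⟩ 0 0)) (.cut .s 10258432 (.pos 43 .mp ⟨⟨43838818, 0, 0, 0, 0, 19622598, 0, 0, 0, ⟨0, 0⟩, 0⟩, 0, 0⟩ 0 0) (.pos 43 .mp ⟨⟨44040718, 0, 0, 0, 0,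 19666900, 0, 0, 0, ⟨0, 0⟩, 0⟩, 0, 0⟩ 0 0))) (.cut .s 10276864 (.cut .s 10270720 (.pos 43 .mp ⟨⟨44243475, 0, 0, 0, 0, 19711609, 0, 0, 0, ⟨0, 0⟩, 0⟩, 0, 0⟩ 0 0) (.pos 43 .mp ⟨⟨44447091, 0, 0, 0, 0, 19756720, 0, 0, 0, ⟨0, 0⟩, 0⟩, 0, 0⟩ 0 0)) (.cut .d (-16384) (.pos 43 .mp ⟨⟨43558860, 0, 0, 0, 0, 22026958, 0, 0, 0, ⟨0, 0⟩, 0⟩, 0, 0⟩ 0 0) (.cut .s 10283008 (.pos 43 .mp ⟨⟨44004618, 0, 0, 0, 0, 20725086, 0, 0, 0, ⟨0, 0⟩, 0⟩, 0, 0⟩ 0 0) (.pos 43 .mp ⟨⟨44194980, 0, 0, 0, 0, 20790647, 0, 0, 0, ⟨0, 0⟩, 0⟩, 0, 0⟩ 0 0)))))) (.pos 44 .mp ⟨⟨57714885, 0, 0, 0, 0, 0, 0, 0, 0, ⟨0, 0⟩, 0⟩, 0, 0⟩ 0 0)))) (.pos 36 .mp ⟨⟨59081607, 0, 0, 0, 0, 0, 0, 0,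 0, ⟨0, 0⟩, 0⟩, 0, 0⟩ 0 0)) (.cut .v 16908288 (.cut .d (-32768) (.cut .d (-49152) (.void 35 ⟨⟨0, 0, 0, 0, 0, 100000, 0, 0, 0, ⟨0, 0⟩, 0⟩, 0, 0⟩ 0 0) (.cut .d (-40960) (.void 35 ⟨⟨0, 0, 0, 0, 0, 100000, 0, 0, 0, ⟨0, 0⟩, 0⟩, 0, 0⟩ 0 0) (.cut .d (-36864) (.void 35 ⟨⟨0, 0, 0, 0, 0, 100000, 0, 0, 0, ⟨0, 0⟩, 0⟩, 0, 0⟩ 0 0) (.cut .l 153791 (.void 35 ⟨⟨0, 0, 0, 0, 0, 100000, 0, 0, 0, ⟨0, 0⟩, 0⟩, 0, 0⟩ 0 0) (.cut .l 230687 (.void 35 ⟨⟨0, 0, 0, 0, 0, 100000, 0, 0, 0, ⟨0, 0⟩, 0⟩, 0, 0⟩ 0 0) (.cut .l 269135 (.void 35 ⟨⟨0, 0, 0, 0, 0, 100000, 0, 0, 0, ⟨0, 0⟩, 0⟩, 0, 0⟩ 0 0) (.cut .v 16842752 (.cut .s 10387456 (.pos 43 .mp ⟨⟨43649537, 0, 0, 0,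 0, 26110455, 0, 0, 0, ⟨0, 0⟩, 0⟩, 0, 0⟩ 0 0) (.pos 43 .mp ⟨⟨40282113, 0, 0, 0, 0, 36896022, 0, 0, 0, ⟨0, 0⟩, 0⟩, 0, 0⟩ 0 0)) (.cut .s 10387456 (.pos 44 .mp ⟨⟨58136179, 0, 0, 0, 0, 5744218, 0, 0, 0, ⟨0, 0⟩, 0⟩, 0, 0⟩ 0 0) (.pos 44 .mp ⟨⟨51750449, 0, 0, 0, 0, 20656906, 0, 0, 0, ⟨0, 0⟩, 0⟩, 0, 0⟩ 0 0))))))))) (.cut .s 10387456 (.cut .v 16842752 (.cut .s 10338304 (.cut .s 10313728 (.cut .s 10301440 (.cut .d (-16384) (.pos 43 .mp ⟨⟨43931458, 0, 0, 0, 0, 22186997, 0, 0, 0, ⟨0, 0⟩, 0⟩, 0, 0⟩ 0 0) (.cut .s 10295296 (.pos 43 .mp ⟨⟨44387629, 0, 0, 0, 0, 20854590, 0, 0, 0, ⟨0, 0⟩, 0⟩, 0, 0⟩ 0 0) (.pos 43 .mp ⟨⟨44597562, 0, 0, 0, 0, 20894233,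 0, 0, 0, ⟨0, 0⟩, 0⟩, 0, 0⟩ 0 0))) (.cut .d (-16384) (.pos 43 .mp ⟨⟨44309985, 0, 0, 0, 0, 22344796, 0, 0, 0, ⟨0, 0⟩, 0⟩, 0, 0⟩ 0 0) (.cut .s 10307584 (.pos 43 .mp ⟨⟨44808057, 0, 0, 0, 0, 20934850, 0, 0, 0, ⟨0, 0⟩, 0⟩, 0, 0⟩ 0 0) (.pos 43 .mp ⟨⟨45019109, 0, 0, 0, 0, 20976451, 0, 0, 0, ⟨0, 0⟩, 0⟩, 0, 0⟩ 0 0)))) (.cut .s 10326016 (.cut .d (-16384) (.pos 43 .mp ⟨⟨44694563, 0, 0, 0, 0, 22500155, 0, 0, 0, ⟨0, 0⟩, 0⟩, 0, 0⟩ 0 0) (.cut .s 10319872 (.pos 43 .mp ⟨⟨45230711, 0, 0, 0, 0, 21019050, 0, 0, 0, ⟨0, 0⟩, 0⟩, 0, 0⟩ 0 0) (.pos 43 .mp ⟨⟨45442859, 0, 0, 0, 0, 21062656, 0, 0, 0, ⟨0, 0⟩, 0⟩, 0, 0⟩ 0 0))) (.cut .d (-16384) (.pos 43 .mp ⟨⟨45085315,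 0, 0, 0, 0, 22652874, 0, 0, 0, ⟨0, 0⟩, 0⟩, 0, 0⟩ 0 0) (.cut .s 10332160 (.pos 43 .mp ⟨⟨45655548, 0, 0, 0, 0, 21107284, 0, 0, 0, ⟨0, 0⟩, 0⟩, 0, 0⟩ 0 0) (.pos 43 .mp ⟨⟨45868771, 0, 0, 0, 0, 21152945, 0, 0, 0, ⟨0, 0⟩, 0⟩, 0, 0⟩ 0 0))))) (.cut .s 10362880 (.cut .d (-16384) (.cut .s 10350592 (.pos 43 .mp ⟨⟨45482365, 0, 0, 0, 0, 22802755, 0, 0, 0, ⟨0, 0⟩, 0⟩, 0, 0⟩ 0 0) (.pos 43 .mp ⟨⟨45885836, 0, 0, 0, 0, 22949593, 0, 0, 0, ⟨0, 0⟩, 0⟩, 0, 0⟩ 0 0)) (.cut .v 16809984 (.cut .l 153791 (.cut .l 76895 (.cut .d (-8192) (.pos 45 .mp ⟨⟨45331643, 0, 0, 0, 0, 24238415, 0, 0, 0, ⟨0, 0⟩, 0⟩, 0, 0⟩ 0 0) (.cut .s 10350592 (.pos 45 .mp ⟨⟨45816615, 0,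 0, 0, 0, 21639039, 0, 0, 0, ⟨0, 0⟩, 0⟩, 0, 0⟩ 0 0) (.pos 45 .mp ⟨⟨46235299, 0, 0, 0, 0, 21755367, 0, 0, 0, ⟨0, 0⟩, 0⟩, 0, 0⟩ 0 0))) (.pos 45 .mp ⟨⟨46234767, 0, 0, 0, 0, 20927738, 0, 0, 0, ⟨0, 0⟩, 0⟩, 0, 0⟩ 0 0)) (.pos 45 .mp ⟨⟨0, 0, 0, 0, 0, 0, 0, 0, 0, ⟨0, 0⟩, 0⟩, 0, 0⟩ 0 0)) (.pos 46 .mp ⟨⟨60127351, 0, 0, 0, 0, 0, 0, 0, 0, ⟨0, 0⟩, 0⟩, 0, 0⟩ 0 0))) (.cut .d (-16384) (.cut .s 10375168 (.pos 43 .mp ⟨⟨46295853, 0, 0, 0, 0, 23093187, 0, 0, 0, ⟨0, 0⟩, 0⟩, 0, 0⟩ 0 0) (.pos 43 .mp ⟨⟨46712539, 0, 0, 0, 0, 23233332, 0, 0, 0, ⟨0, 0⟩, 0⟩, 0, 0⟩ 0 0)) (.cut .v 16809984 (.cut .l 153791 (.cut .l 76895 (.cut .d (-8192) (.pos 45 .mp ⟨⟨46164889,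 0, 0, 0, 0, 24516664, 0, 0, 0, ⟨0, 0⟩, 0⟩, 0, 0⟩ 0 0) (.cut .s 10375168 (.pos 45 .mp ⟨⟨46657419, 0, 0, 0, 0, 21873325, 0, 0, 0, ⟨0, 0⟩, 0⟩, 0, 0⟩ 0 0) (.pos 45 .mp ⟨⟨47082991, 0, 0, 0, 0, 21992887, 0, 0, 0, ⟨0, 0⟩, 0⟩, 0, 0⟩ 0 0))) (.pos 45 .mp ⟨⟨47084403, 0, 0, 0, 0, 21157915, 0, 0, 0, ⟨0, 0⟩, 0⟩, 0, 0⟩ 0 0)) (.pos 45 .mp ⟨⟨0, 0, 0, 0, 0, 0, 0, 0, 0, ⟨0, 0⟩, 0⟩, 0, 0⟩ 0 0)) (.pos 46 .mp ⟨⟨61098138, 0, 0, 0, 0, 0, 0, 0, 0, ⟨0, 0⟩, 0⟩, 0, 0⟩ 0 0))))) (.pos 44 .mp ⟨⟨61478625, 0, 0, 0, 0, 0, 0, 0, 0, ⟨0, 0⟩, 0⟩, 0, 0⟩ 0 0)) (.cut .v 16842752 (.cut .s 10436608 (.cut .s 10412032 (.cut .d (-16384) (.cut .s 10399744 (.pos 43 .mp ⟨⟨47136020,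 0, 0, 0, 0, 23369824, 0, 0, 0, ⟨0, 0⟩, 0⟩, 0, 0⟩ 0 0) (.pos 43 .mp ⟨⟨47566421, 0, 0, 0, 0, 23502456, 0, 0, 0, ⟨0, 0⟩, 0⟩, 0, 0⟩ 0 0)) (.cut .v 16809984 (.cut .l 153791 (.cut .l 76895 (.cut .d (-8192) (.pos 45 .mp ⟨⟨47011475, 0, 0, 0, 0, 24806898, 0, 0, 0, ⟨0, 0⟩, 0⟩, 0, 0⟩ 0 0) (.cut .s 10399744 (.pos 45 .mp ⟨⟨47512032, 0, 0, 0, 0, 22114028, 0, 0, 0, ⟨0, 0⟩, 0⟩, 0, 0⟩ 0 0) (.pos 45 .mp ⟨⟨47944560, 0, 0, 0, 0, 22236725, 0, 0, 0, ⟨0, 0⟩, 0⟩, 0, 0⟩ 0 0))) (.pos 45 .mp ⟨⟨47947973, 0, 0, 0, 0, 21389554, 0, 0, 0, ⟨0, 0⟩, 0⟩, 0, 0⟩ 0 0)) (.pos 45 .mp ⟨⟨0, 0, 0, 0, 0, 0, 0, 0, 0, ⟨0, 0⟩, 0⟩, 0, 0⟩ 0 0)) (.pos 46 .mp ⟨⟨62089097, 0, 0, 0,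 0, 0, 0, 0, 0, ⟨0, 0⟩, 0⟩, 0, 0⟩ 0 0))) (.cut .d (-16384) (.cut .s 10424320 (.pos 43 .mp ⟨⟨48003869, 0, 0, 0, 0, 23631020, 0, 0, 0, ⟨0, 0⟩, 0⟩, 0, 0⟩ 0 0) (.pos 43 .mp ⟨⟨48448488, 0, 0, 0, 0, 23755307, 0, 0, 0, ⟨0, 0⟩, 0⟩, 0, 0⟩ 0 0)) (.cut .v 16809984 (.cut .l 153791 (.cut .l 76895 (.cut .d (-8192) (.pos 45 .mp ⟨⟨47871531, 0, 0, 0, 0, 25109286, 0, 0, 0, ⟨0, 0⟩, 0⟩, 0, 0⟩ 0 0) (.cut .s 10424320 (.pos 45 .mp ⟨⟨48380594, 0, 0, 0, 0, 22360952, 0, 0, 0, ⟨0, 0⟩, 0⟩, 0, 0⟩ 0 0) (.pos 45 .mp ⟨⟨48820150, 0, 0, 0, 0, 22486683, 0, 0, 0, ⟨0, 0⟩, 0⟩, 0, 0⟩ 0 0))) (.pos 45 .mp ⟨⟨48825620, 0, 0, 0, 0, 21622188, 0, 0, 0, ⟨0, 0⟩, 0⟩, 0, 0⟩ 0 0))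 (.pos 45 .mp ⟨⟨0, 0, 0, 0, 0, 0, 0, 0, 0, ⟨0, 0⟩, 0⟩, 0, 0⟩ 0 0)) (.pos 46 .mp ⟨⟨63100428, 0, 0, 0, 0, 0, 0, 0, 0, ⟨0, 0⟩, 0⟩, 0, 0⟩ 0 0)))) (.cut .s 10461184 (.cut .d (-16384) (.cut .s 10448896 (.pos 43 .mp ⟨⟨48900407, 0, 0, 0, 0, 23875109, 0, 0, 0, ⟨0, 0⟩, 0⟩, 0, 0⟩ 0 0) (.pos 43 .mp ⟨⟨49359751, 0, 0, 0, 0, 23990213, 0, 0, 0, ⟨0, 0⟩, 0⟩, 0, 0⟩ 0 0)) (.cut .v 16809984 (.cut .l 153791 (.cut .l 76895 (.cut .d (-8192) (.pos 45 .mp ⟨⟨48745192, 0, 0, 0, 0, 25424002, 0, 0, 0, ⟨0, 0⟩, 0⟩, 0, 0⟩ 0 0) (.cut .s 10448896 (.pos 45 .mp ⟨⟨49263247, 0, 0, 0, 0, 22613894, 0, 0, 0, ⟨0, 0⟩, 0⟩, 0, 0⟩ 0 0) (.pos 45 .mp ⟨⟨49709903, 0, 0, 0, 0, 22742556,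 0, 0, 0, ⟨0, 0⟩, 0⟩, 0, 0⟩ 0 0))) (.pos 45 .mp ⟨⟨49717487, 0, 0, 0, 0, 21855348, 0, 0, 0, ⟨0, 0⟩, 0⟩, 0, 0⟩ 0 0)) (.pos 45 .mp ⟨⟨0, 0, 0, 0, 0, 0, 0, 0, 0, ⟨0, 0⟩, 0⟩, 0, 0⟩ 0 0)) (.pos 46 .mp ⟨⟨64132332, 0, 0, 0, 0, 0, 0, 0, 0, ⟨0, 0⟩, 0⟩, 0, 0⟩ 0 0))) (.cut .d (-16384) (.cut .s 10473472 (.pos 43 .mp ⟨⟨49826649, 0, 0, 0, 0, 24100408, 0, 0, 0, ⟨0, 0⟩, 0⟩, 0, 0⟩ 0 0) (.pos 43 .mp ⟨⟨50301228, 0, 0, 0, 0, 24205480, 0, 0, 0, ⟨0, 0⟩, 0⟩, 0, 0⟩ 0 0)) (.cut .v 16809984 (.cut .l 153791 (.cut .l 76895 (.cut .d (-8192) (.pos 45 .mp ⟨⟨49632594, 0, 0, 0, 0, 25751221, 0, 0, 0, ⟨0, 0⟩, 0⟩, 0, 0⟩ 0 0) (.cut .s 10473472 (.pos 45 .mp ⟨⟨50160136,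 0, 0, 0, 0, 22872646, 0, 0, 0, ⟨0, 0⟩, 0⟩, 0, 0⟩ 0 0) (.pos 45 .mp ⟨⟨50613965, 0, 0, 0, 0, 23004135, 0, 0, 0, ⟨0, 0⟩, 0⟩, 0, 0⟩ 0 0))) (.pos 45 .mp ⟨⟨50623722, 0, 0, 0, 0, 22088563, 0, 0, 0, ⟨0, 0⟩, 0⟩, 0, 0⟩ 0 0)) (.pos 45 .mp ⟨⟨0, 0, 0, 0, 0, 0, 0, 0, 0, ⟨0, 0⟩, 0⟩, 0, 0⟩ 0 0)) (.pos 46 .mp ⟨⟨65185013, 0, 0, 0, 0, 0, 0, 0, 0, ⟨0, 0⟩, 0⟩, 0, 0⟩ 0 0))))) (.pos 44 .mp ⟨⟨65528895, 0, 0, 0, 0, 0, 0, 0, 0, ⟨0, 0⟩, 0⟩, 0, 0⟩ 0 0)))) (.pos 36 .mp ⟨⟨66857224, 0, 0, 0, 0, 0, 0, 0, 0, ⟨0, 0⟩, 0⟩, 0, 0⟩ 0 0)))))) (.pos 32 .mp ⟨⟨74831090, 0, 0, 0, 0, 0, 0, 0, 0, ⟨0, 0⟩, 0⟩, 0, 0⟩ 0 0))) (.void 30 ⟨⟨100000, 0, 0, 0, 0, 0, 0, 0, 0, ⟨0, 0⟩, 0⟩,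 0, 0⟩ 0 0))) (.void 28 ⟨⟨100000, 0, 0, 0, 0, 0, 0, 0, 0, ⟨0, 0⟩, 0⟩, 0, 0⟩ 0 0))) (.void 26 ⟨⟨100000, 0, 0, 0, 0, 0, 0, 0, 0, ⟨0, 0⟩, 0⟩, 0, 0⟩ 0 0))) (.void 24 ⟨⟨100000, 0, 0, 0, 0, 0, 0, 0, 0, ⟨0, 0⟩, 0⟩, 0, 0⟩ 0 0))) (.void 22 ⟨⟨100000, 0, 0, 0, 0, 0, 0, 0, 0, ⟨0, 0⟩, 0⟩, 0, 0⟩ 0 0)) (.void 103 ⟨⟨100000, 0, 0, 0, 0, 0, 0, 0, 0, ⟨0, 0⟩, 0⟩, 0, 0⟩ 0 0))) (.cut .v 16777216 (.cut .d 5556092 (.cut .v 8388608 (.cut .v 4194304 (.void 4 ⟨⟨0, 0, 66667, 0, 0, 0, 0, 0, 0, ⟨0, 0⟩, 0⟩, 0, 33333⟩ 0 0) (.pos 5 .pm ⟨⟨0, 0, 977530, 0, 0, 0, 0, 0, 0, ⟨0, 0⟩, 0⟩, 0, 0⟩ 0 0)) (.pos 3 .pm ⟨⟨0, 0, 0, 0, 0, 0, 0, 0, 0, ⟨0, 0⟩, 0⟩, 0, 0⟩ 0 0)) (.void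 1 ⟨⟨0, 0, 0, 0, 0, 0, 0, 0, 0, ⟨0, 0⟩, 0⟩, 0, 100000⟩ 0 0)) (.cut .d 5556092 (.cut .v 33554432 (.cut .v 25165824 (.cut .d 2778046 (.cut .d 1389023 (.cut .v 20971520 (.cut .d 694511 (.cut .v 18874368 (.cut .d 347255 (.cut .v 17825792 (.cut .s 10289152 (.pos 27 .pp ⟨⟨47244589, 0, 0, 0, 0, 0, 0, 0, 0, ⟨0, 0⟩, 0⟩, 496023, 0⟩ 0 0) (.pos 27 .pp ⟨⟨55532307, 0, 0, 0, 0, 0, 0, 0, 0, ⟨0, 0⟩, 0⟩, 339756, 0⟩ 0 0)) (.pos 28 .pp ⟨⟨65025750, 0, 0, 0, 0, 0, 0, 0, 0, ⟨0, 0⟩, 0⟩, 0, 0⟩ 0 0)) (.pos 25 .pp ⟨⟨0, 0, 0, 0, 0, 0, 0, 0, 0, ⟨0, 0⟩, 0⟩, 0, 754857⟩ 0 0)) (.cut .d 347255 (.pos 26 .pp ⟨⟨85245930, 0, 0, 0, 0, 0, 0, 0, 0, ⟨0, 0⟩, 0⟩, 0, 0⟩ 0 0)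 (.pos 26 .pp ⟨⟨63656373, 0, 0, 0, 0, 0, 0, 0, 0, ⟨0, 0⟩, 0⟩, 0, 0⟩ 0 0))) (.pos 23 .pp ⟨⟨0, 0, 0, 0, 0, 0, 0, 0, 0, ⟨0, 0⟩, 0⟩, 0, 792134⟩ 0 0)) (.cut .d 694511 (.cut .v 23068672 (.cut .v 22020096 (.pos 57 .pp ⟨⟨92210050, 0, 0, 0, 0, 0, 0, 0, 0, ⟨0, 0⟩, 0⟩, 0, 0⟩ 0 0) (.pos 58 .pp ⟨⟨104096225, 0, 0, 0, 0, 0, 0, 0, 0, ⟨0, 0⟩, 0⟩, 0, 0⟩ 0 0)) (.pos 56 .pp ⟨⟨0, 0, 0, 0, 0, 0, 0, 0, 0, ⟨0, 0⟩, 0⟩, 14977240, 0⟩ 0 0)) (.cut .v 23068672 (.pos 55 .pp ⟨⟨0, 0, 0, 0, 0, 0, 445320, 0, 0, ⟨0, 0⟩, 0⟩, 7935436, 0⟩ 0 0) (.cut .v 24117248 (.pos 59 .pp ⟨⟨0, 0, 0, 0, 0, 0, 289034, 0, 0, ⟨0, 0⟩, 0⟩, 9604958, 0⟩ 0 0) (.pos 60 .pp ⟨⟨0, 0, 0, 0, 0, 0,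 166644, 0, 0, ⟨0, 0⟩, 0⟩, 10952031, 0⟩ 0 0))))) (.pos 21 .pp ⟨⟨0, 0, 0, 0, 0, 0, 0, 0, 0, ⟨0, 0⟩, 0⟩, 0, 855505⟩ 0 0)) (.pos 21 .pp ⟨⟨0, 0, 0, 0, 0, 0, 0, 0, 0, ⟨0, 0⟩, 0⟩, 0, 62012328⟩ 0 0)) (.cut .d 2778046 (.cut .d 1389023 (.cut .v 29360128 (.cut .d 694511 (.void 91 ⟨⟨0, 0, 0, 0, 0, 0, 0, 0, 0, ⟨0, 0⟩, 0⟩, 100000, 0⟩ 0 0) (.cut .d 1041767 (.pos 91 .pp ⟨⟨0, 0, 0, 0, 0, 0, 0, 0, 0, ⟨0, 0⟩, 0⟩, 15259955, 0⟩ 0 0) (.pos 91 .pp ⟨⟨0, 0, 0, 0, 0, 0, 0, 0, 0, ⟨0, 0⟩, 0⟩, 11841939, 0⟩ 0 0))) (.void 92 ⟨⟨0, 0, 0, 0, 0, 0, 0, 0, 0, ⟨0, 0⟩, 0⟩, 100000, 0⟩ 0 0)) (.cut .v 29360128 (.pos 91 .pp ⟨⟨0, 0, 0, 0, 0, 0, 106890, 0, 0, ⟨0, 0⟩, 0⟩, 8884962,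 0⟩ 0 0) (.pos 92 .pp ⟨⟨0, 0, 0, 0, 0, 0, 0, 0, 0, ⟨0, 0⟩, 0⟩, 12616899, 0⟩ 0 0))) (.pos 22 .pp ⟨⟨0, 0, 0, 0, 0, 0, 2801275, 0, 0, ⟨0, 0⟩, 0⟩, 0, 0⟩ 0 0))) (.cut .v 50331648 (.cut .d 2778046 (.cut .v 41943040 (.pos 108 .pp ⟨⟨0, 0, 0, 0, 0, 0, 0, 0, 0, ⟨0, 0⟩, 0⟩, 26008956, 0⟩ 0 0) (.void 109 ⟨⟨0, 0, 0, 0, 0, 0, 0, 0, 0, ⟨0, 0⟩, 0⟩, 100000, 0⟩ 0 0)) (.pos 106 .pp ⟨⟨0, 0, 0, 0, 0, 0, 89508064, 0, 0, ⟨0, 0⟩, 0⟩, 8058434, 0⟩ 0 0)) (.void 107 ⟨⟨0, 0, 0, 0, 0, 0, 100000, 0, 0, ⟨0, 0⟩, 0⟩, 0, 0⟩ 0 0))) (.void 102 ⟨⟨0, 52405, 0, 0, 0, 0, 6545, 0, 0, ⟨0, 0⟩, 0⟩, 0, 41050⟩ 0 0)))),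
    by decide +kernel⟩

def covers14 : cell.Covers Vale.Agent.P237.Petty.Cor.Grid.N12.table row14.1 :=
  ⟨(.cut .d 0 (.cut .v 16777216 (.cut .d (-8388608) (.void 1 ⟨⟨0, 0, 0, 0, 0, 100000, 0, 0, 0, ⟨0, 0⟩, 0⟩, 0, 0⟩ 0 0) (.cut .d (-4194304) (.void 1 ⟨⟨0, 0, 0, 0, 0, 100000, 0, 0, 0, ⟨0, 0⟩, 0⟩, 0, 0⟩ 0 0) (.cut .d (-2097152) (.void 1 ⟨⟨0, 0, 0, 0, 0, 100000, 0, 0, 0, ⟨0, 0⟩, 0⟩, 0, 0⟩ 0 0) (.cut .d (-1048576) (.void 1 ⟨⟨0, 0, 0, 0, 0, 100000, 0, 0, 0, ⟨0, 0⟩, 0⟩, 0, 0⟩ 0 0) (.cut .d (-524288) (.void 1 ⟨⟨0, 0, 0, 0, 0, 100000, 0, 0, 0, ⟨0, 0⟩, 0⟩, 0, 0⟩ 0 0) (.cut .d (-262144) (.void 1 ⟨⟨0, 0, 0, 0, 0, 100000, 0, 0, 0, ⟨0, 0⟩, 0⟩,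 0, 0⟩ 0 0) (.cut .d (-131072) (.void 1 ⟨⟨0, 0, 0, 0, 0, 100000, 0, 0, 0, ⟨0, 0⟩, 0⟩, 0, 0⟩ 0 0) (.cut .d (-65536) (.void 1 ⟨⟨0, 0, 0, 0, 0, 100000, 0, 0, 0, ⟨0, 0⟩, 0⟩, 0, 0⟩ 0 0) (.cut .v 8388608 (.cut .v 4194304 (.void 4 ⟨⟨0, 0, 100000, 0, 0, 0, 0, 0, 0, ⟨0, 0⟩, 0⟩, 0, 0⟩ 0 0) (.pos 5 .mm ⟨⟨0, 0, 1654578, 0, 0, 34342597, 0, 0, 0, ⟨0, 0⟩, 0⟩, 0, 0⟩ 0 0)) (.cut .s 10682368 (.pos 3 .mm ⟨⟨0, 0, 0, 0, 0, 102192786, 0, 0, 0, ⟨0, 0⟩, 0⟩, 0, 0⟩ 0 0) (.pos 3 .mm ⟨⟨0, 0, 0, 0, 0, 117797078, 0, 0, 0, ⟨0, 0⟩, 0⟩, 0, 0⟩ 0 0))))))))))) (.cut .v 33554432 (.cut .v 25165824 (.cut .d (-8388608) (.void 21 ⟨⟨0, 0, 0, 0, 0, 100000, 0, 0, 0, ⟨0, 0⟩,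 0⟩, 0, 0⟩ 0 0) (.cut .v 20971520 (.cut .d (-4194304) (.void 23 ⟨⟨100000, 0, 0, 0, 0, 0, 0, 0, 0, ⟨0, 0⟩, 0⟩, 0, 0⟩ 0 0) (.cut .v 18874368 (.cut .d (-2097152) (.void 25 ⟨⟨100000, 0, 0, 0, 0, 0, 0, 0, 0, ⟨0, 0⟩, 0⟩, 0, 0⟩ 0 0) (.cut .v 17825792 (.cut .d (-1048576) (.void 27 ⟨⟨100000, 0, 0, 0, 0, 0, 0, 0, 0, ⟨0, 0⟩, 0⟩, 0, 0⟩ 0 0) (.cut .v 17301504 (.cut .d (-524288) (.void 29 ⟨⟨100000, 0, 0, 0, 0, 0, 0, 0, 0, ⟨0, 0⟩, 0⟩, 0, 0⟩ 0 0) (.cut .v 17039360 (.cut .d (-262144) (.void 31 ⟨⟨100000, 0, 0, 0, 0, 0, 0, 0, 0, ⟨0, 0⟩, 0⟩, 0, 0⟩ 0 0) (.cut .d (-131072) (.void 31 ⟨⟨100000, 0, 0, 0, 0, 0, 0, 0, 0, ⟨0, 0⟩, 0⟩, 0, 0⟩ 0 0) (.cut .d (-65536)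 (.void 31 ⟨⟨0, 0, 0, 0, 0, 100000, 0, 0, 0, ⟨0, 0⟩, 0⟩, 0, 0⟩ 0 0) (.cut .d (-32768) (.cut .s 10682368 (.cut .d (-49152) (.void 31 ⟨⟨0, 0, 0, 0, 0, 100000, 0, 0, 0, ⟨0, 0⟩, 0⟩, 0, 0⟩ 0 0) (.cut .d (-40960) (.void 31 ⟨⟨0, 0, 0, 0, 0, 100000, 0, 0, 0, ⟨0, 0⟩, 0⟩, 0, 0⟩ 0 0) (.cut .d (-36864) (.void 31 ⟨⟨0, 0, 0, 0, 0, 100000, 0, 0, 0, ⟨0, 0⟩, 0⟩, 0, 0⟩ 0 0) (.cut .d (-34816) (.void 31 ⟨⟨0, 0, 0, 0, 0, 100000, 0, 0, 0, ⟨0, 0⟩, 0⟩, 0, 0⟩ 0 0) (.cut .v 16908288 (.cut .v 16842752 (.pos 43 .mp ⟨⟨50521400, 0, 0, 0, 0, 38833313, 0, 0, 0, ⟨0, 0⟩, 0⟩, 0, 0⟩ 0 0) (.pos 44 .mp ⟨⟨71864146, 0, 0, 0, 0, 4827794, 0, 0, 0, ⟨0, 0⟩, 0⟩, 0, 0⟩ 0 0))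 (.void 36 ⟨⟨100000, 0, 0, 0, 0, 0, 0, 0, 0, ⟨0, 0⟩, 0⟩, 0, 0⟩ 0 0)))))) (.void 31 ⟨⟨0, 0, 0, 0, 0, 100000, 0, 0, 0, ⟨0, 0⟩, 0⟩, 0, 0⟩ 0 0)) (.cut .s 10682368 (.cut .v 16908288 (.cut .s 10584064 (.cut .v 16842752 (.cut .s 10534912 (.cut .s 10510336 (.cut .d (-16384) (.cut .s 10498048 (.pos 43 .mp ⟨⟨50768117, 0, 0, 0, 0, 24332737, 0, 0, 0, ⟨0, 0⟩, 0⟩, 0, 0⟩ 0 0) (.pos 43 .mp ⟨⟨51192717, 0, 0, 0, 0, 24511600, 0, 0, 0, ⟨0, 0⟩, 0⟩, 0, 0⟩ 0 0)) (.cut .v 16809984 (.cut .l 153791 (.cut .l 76895 (.cut .d (-8192) (.pos 45 .mp ⟨⟨50667990, 0, 0, 0, 0, 25785884, 0, 0, 0, ⟨0, 0⟩, 0⟩, 0, 0⟩ 0 0) (.cut .s 10498048 (.pos 45 .mp ⟨⟨51070226, 0, 0,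 0, 0, 23141986, 0, 0, 0, ⟨0, 0⟩, 0⟩, 0, 0⟩ 0 0) (.pos 45 .mp ⟨⟨51533568, 0, 0, 0, 0, 23250903, 0, 0, 0, ⟨0, 0⟩, 0⟩, 0, 0⟩ 0 0))) (.pos 45 .mp ⟨⟨51545850, 0, 0, 0, 0, 22375443, 0, 0, 0, ⟨0, 0⟩, 0⟩, 0, 0⟩ 0 0)) (.pos 45 .mp ⟨⟨0, 0, 0, 0, 0, 0, 0, 0, 0, ⟨0, 0⟩, 0⟩, 0, 0⟩ 0 0)) (.pos 46 .mp ⟨⟨66257747, 0, 0, 0, 0, 0, 0, 0, 0, ⟨0, 0⟩, 0⟩, 0, 0⟩ 0 0))) (.cut .d (-16384) (.cut .s 10522624 (.pos 43 .mp ⟨⟨51622755, 0, 0, 0, 0, 24691142, 0, 0, 0, ⟨0, 0⟩, 0⟩, 0, 0⟩ 0 0) (.pos 43 .mp ⟨⟨52058389, 0, 0, 0, 0, 24871105, 0, 0, 0, ⟨0, 0⟩, 0⟩, 0, 0⟩ 0 0)) (.cut .v 16809984 (.cut .l 153791 (.cut .l 76895 (.cut .d (-8192) (.pos 45 .mp ⟨⟨51596649, 0,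 0, 0, 0, 26032722, 0, 0, 0, ⟨0, 0⟩, 0⟩, 0, 0⟩ 0 0) (.cut .s 10522624 (.pos 45 .mp ⟨⟨51999151, 0, 0, 0, 0, 23365789, 0, 0, 0, ⟨0, 0⟩, 0⟩, 0, 0⟩ 0 0) (.pos 45 .mp ⟨⟨52468799, 0, 0, 0, 0, 23483420, 0, 0, 0, ⟨0, 0⟩, 0⟩, 0, 0⟩ 0 0))) (.pos 45 .mp ⟨⟨52483660, 0, 0, 0, 0, 22615353, 0, 0, 0, ⟨0, 0⟩, 0⟩, 0, 0⟩ 0 0)) (.pos 45 .mp ⟨⟨0, 0, 0, 0, 0, 0, 0, 0, 0, ⟨0, 0⟩, 0⟩, 0, 0⟩ 0 0)) (.pos 46 .mp ⟨⟨67301407, 0, 0, 0, 0, 0, 0, 0, 0, ⟨0, 0⟩, 0⟩, 0, 0⟩ 0 0)))) (.cut .s 10559488 (.cut .d (-16384) (.cut .s 10547200 (.pos 43 .mp ⟨⟨52499781, 0, 0, 0, 0, 25051235, 0, 0, 0, ⟨0, 0⟩, 0⟩, 0, 0⟩ 0 0) (.pos 43 .mp ⟨⟨52947092, 0, 0, 0, 0, 25231273, 0, 0,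 0, ⟨0, 0⟩, 0⟩, 0, 0⟩ 0 0)) (.cut .v 16809984 (.cut .l 153791 (.cut .s 10547200 (.cut .s 10541056 (.pos 45 .mp ⟨⟨53224956, 0, 0, 0, 0, 23058503, 0, 0, 0, ⟨0, 0⟩, 0⟩, 0, 0⟩ 0 0) (.pos 45 .mp ⟨⟨53446242, 0, 0, 0, 0, 23143090, 0, 0, 0, ⟨0, 0⟩, 0⟩, 0, 0⟩ 0 0)) (.cut .s 10553344 (.pos 45 .mp ⟨⟨53669107, 0, 0, 0, 0, 23227578, 0, 0, 0, ⟨0, 0⟩, 0⟩, 0, 0⟩ 0 0) (.pos 45 .mp ⟨⟨53893576, 0, 0, 0, 0, 23311932, 0, 0, 0, ⟨0, 0⟩, 0⟩, 0, 0⟩ 0 0))) (.pos 45 .mp ⟨⟨0, 0, 0, 0, 0, 0, 0, 0, 0, ⟨0, 0⟩, 0⟩, 0, 0⟩ 0 0)) (.pos 46 .mp ⟨⟨68369130, 0, 0, 0, 0, 0, 0, 0, 0, ⟨0, 0⟩, 0⟩, 0, 0⟩ 0 0))) (.cut .d (-16384) (.cut .s 10571776 (.pos 43 .mp ⟨⟨53400484, 0,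 0, 0, 0, 25410958, 0, 0, 0, ⟨0, 0⟩, 0⟩, 0, 0⟩ 0 0) (.pos 43 .mp ⟨⟨53860119, 0, 0, 0, 0, 25590031, 0, 0, 0, ⟨0, 0⟩, 0⟩, 0, 0⟩ 0 0)) (.cut .l 153791 (.cut .v 16809984 (.cut .s 10571776 (.cut .s 10565632 (.pos 45 .mp ⟨⟨54119673, 0, 0, 0, 0, 23396116, 0, 0, 0, ⟨0, 0⟩, 0⟩, 0, 0⟩ 0 0) (.pos 45 .mp ⟨⟨54347422, 0, 0, 0, 0, 23480094, 0, 0, 0, ⟨0, 0⟩, 0⟩, 0, 0⟩ 0 0)) (.cut .s 10577920 (.pos 45 .mp ⟨⟨54576848, 0, 0, 0, 0, 23563832, 0, 0, 0, ⟨0, 0⟩, 0⟩, 0, 0⟩ 0 0) (.pos 45 .mp ⟨⟨54807975, 0, 0, 0, 0, 23647291, 0, 0, 0, ⟨0, 0⟩, 0⟩, 0, 0⟩ 0 0))) (.pos 46 .mp ⟨⟨60927791, 0, 0, 0, 0, 14606258, 0, 0, 0, ⟨0, 0⟩, 0⟩, 0, 0⟩ 0 0)) (.pos 43 .mp ⟨⟨54024540,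 0, 0, 0, 0, 0, 0, 0, 0, ⟨0, 0⟩, 0⟩, 0, 0⟩ 0 0))))) (.pos 44 .mp ⟨⟨69894842, 0, 0, 0, 0, 0, 0, 0, 0, ⟨0, 0⟩, 0⟩, 0, 0⟩ 0 0)) (.cut .v 16842752 (.cut .s 10633216 (.cut .s 10608640 (.cut .d (-16384) (.cut .s 10596352 (.pos 43 .mp ⟨⟨54326159, 0, 0, 0, 0, 25768229, 0, 0, 0, ⟨0, 0⟩, 0⟩, 0, 0⟩ 0 0) (.pos 43 .mp ⟨⟨54029367, 0, 0, 0, 0, 27448083, 0, 0, 0, ⟨0, 0⟩, 0⟩, 0, 0⟩ 0 0)) (.cut .l 153791 (.cut .v 16809984 (.cut .s 10596352 (.cut .s 10590208 (.pos 45 .mp ⟨⟨55040828, 0, 0, 0, 0, 23730437, 0, 0, 0, ⟨0, 0⟩, 0⟩, 0, 0⟩ 0 0) (.pos 45 .mp ⟨⟨55275431, 0, 0, 0, 0, 23813233, 0, 0, 0, ⟨0, 0⟩, 0⟩, 0, 0⟩ 0 0)) (.cut .s 10602496 (.pos 45 .mp ⟨⟨55501367,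 0, 0, 0, 0, 23913661, 0, 0, 0, ⟨0, 0⟩, 0⟩, 0, 0⟩ 0 0) (.pos 45 .mp ⟨⟨55722036, 0, 0, 0, 0, 24025878, 0, 0, 0, ⟨0, 0⟩, 0⟩, 0, 0⟩ 0 0))) (.pos 46 .mp ⟨⟨61981202, 0, 0, 0, 0, 14755820, 0, 0, 0, ⟨0, 0⟩, 0⟩, 0, 0⟩ 0 0)) (.pos 43 .mp ⟨⟨55010852, 0, 0, 0, 0, 0, 0, 0, 0, ⟨0, 0⟩, 0⟩, 0, 0⟩ 0 0))) (.cut .d (-16384) (.cut .s 10620928 (.pos 43 .mp ⟨⟨54518116, 0, 0, 0, 0, 27606670, 0, 0, 0, ⟨0, 0⟩, 0⟩, 0, 0⟩ 0 0) (.pos 43 .mp ⟨⟨55011022, 0, 0, 0, 0, 27768914, 0, 0, 0, ⟨0, 0⟩, 0⟩, 0, 0⟩ 0 0)) (.cut .l 153791 (.cut .v 16809984 (.cut .s 10620928 (.cut .s 10614784 (.pos 45 .mp ⟨⟨55945749, 0, 0, 0, 0, 24135557, 0, 0, 0, ⟨0, 0⟩, 0⟩, 0, 0⟩ 0 0) (.pos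 45 .mp ⟨⟨56172552, 0, 0, 0, 0, 24242621, 0, 0, 0, ⟨0, 0⟩, 0⟩, 0, 0⟩ 0 0)) (.cut .s 10627072 (.pos 45 .mp ⟨⟨56402493, 0, 0, 0, 0, 24346989, 0, 0, 0, ⟨0, 0⟩, 0⟩, 0, 0⟩ 0 0) (.pos 45 .mp ⟨⟨56635619, 0, 0, 0, 0, 24448583, 0, 0, 0, ⟨0, 0⟩, 0⟩, 0, 0⟩ 0 0))) (.pos 46 .mp ⟨⟨63071001, 0, 0, 0, 0, 14887204, 0, 0, 0, ⟨0, 0⟩, 0⟩, 0, 0⟩ 0 0)) (.pos 43 .mp ⟨⟨56013719, 0, 0, 0, 0, 0, 0, 0, 0, ⟨0, 0⟩, 0⟩, 0, 0⟩ 0 0)))) (.cut .s 10657792 (.cut .d (-16384) (.cut .s 10645504 (.pos 43 .mp ⟨⟨55508107, 0, 0, 0, 0, 27934842, 0, 0, 0, ⟨0, 0⟩, 0⟩, 0, 0⟩ 0 0) (.pos 43 .mp ⟨⟨56009393, 0, 0, 0, 0, 28104479, 0, 0, 0, ⟨0, 0⟩, 0⟩, 0, 0⟩ 0 0)) (.cut .l 153791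 (.cut .v 16809984 (.cut .s 10645504 (.cut .s 10639360 (.pos 45 .mp ⟨⟨56871978, 0, 0, 0, 0, 24547324, 0, 0, 0, ⟨0, 0⟩, 0⟩, 0, 0⟩ 0 0) (.pos 45 .mp ⟨⟨57111617, 0, 0, 0, 0, 24643134, 0, 0, 0, ⟨0, 0⟩, 0⟩, 0, 0⟩ 0 0)) (.cut .s 10651648 (.pos 45 .mp ⟨⟨57354583, 0, 0, 0, 0, 24735934, 0, 0, 0, ⟨0, 0⟩, 0⟩, 0, 0⟩ 0 0) (.pos 45 .mp ⟨⟨57600922, 0, 0, 0, 0, 24825646, 0, 0, 0, ⟨0, 0⟩, 0⟩, 0, 0⟩ 0 0))) (.pos 46 .mp ⟨⟨64197024, 0, 0, 0, 0, 15000525, 0, 0, 0, ⟨0, 0⟩, 0⟩, 0, 0⟩ 0 0)) (.pos 43 .mp ⟨⟨56784778, 0, 0, 0, 0, 24113719, 0, 0, 0, ⟨0, 0⟩, 0⟩, 0, 0⟩ 0 0))) (.cut .d (-16384) (.cut .s 10670080 (.pos 43 .mp ⟨⟨56514902, 0, 0, 0, 0, 28277851, 0,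 0, 0, ⟨0, 0⟩, 0⟩, 0, 0⟩ 0 0) (.pos 43 .mp ⟨⟨57024657, 0, 0, 0, 0, 28454984, 0, 0, 0, ⟨0, 0⟩, 0⟩, 0, 0⟩ 0 0)) (.cut .l 153791 (.cut .v 16809984 (.cut .s 10670080 (.cut .s 10663936 (.pos 45 .mp ⟨⟨57850682, 0, 0, 0, 0, 24912192, 0, 0, 0, ⟨0, 0⟩, 0⟩, 0, 0⟩ 0 0) (.pos 45 .mp ⟨⟨58103909, 0, 0, 0, 0, 24995493, 0, 0, 0, ⟨0, 0⟩, 0⟩, 0, 0⟩ 0 0)) (.cut .s 10676224 (.pos 45 .mp ⟨⟨58360649, 0, 0, 0, 0, 25075471, 0, 0, 0, ⟨0, 0⟩, 0⟩, 0, 0⟩ 0 0) (.pos 45 .mp ⟨⟨58620950, 0, 0, 0, 0, 25152048, 0, 0, 0, ⟨0, 0⟩, 0⟩, 0, 0⟩ 0 0))) (.pos 46 .mp ⟨⟨65347725, 0, 0, 0, 0, 15112335, 0, 0, 0, ⟨0, 0⟩, 0⟩, 0, 0⟩ 0 0)) (.pos 43 .mp ⟨⟨57818005, 0, 0, 0, 0, 24388212,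 0, 0, 0, ⟨0, 0⟩, 0⟩, 0, 0⟩ 0 0))))) (.cut .s 10633216 (.pos 44 .mp ⟨⟨66841155, 0, 0, 0, 0, 9065461, 0, 0, 0, ⟨0, 0⟩, 0⟩, 0, 0⟩ 0 0) (.pos 44 .mp ⟨⟨69247666, 0, 0, 0, 0, 9067035, 0, 0, 0, ⟨0, 0⟩, 0⟩, 0, 0⟩ 0 0)))) (.pos 36 .mp ⟨⟨73889061, 0, 0, 0, 0, 0, 0, 0, 0, ⟨0, 0⟩, 0⟩, 0, 0⟩ 0 0)) (.cut .v 16908288 (.cut .s 10780672 (.cut .s 10731520 (.cut .v 16842752 (.cut .s 10706944 (.cut .d (-16384) (.cut .s 10694656 (.pos 43 .mp ⟨⟨57538680, 0, 0, 0, 0, 28635905, 0, 0, 0, ⟨0, 0⟩, 0⟩, 0, 0⟩ 0 0) (.pos 43 .mp ⟨⟨58056995, 0, 0, 0, 0, 28820639, 0, 0, 0, ⟨0, 0⟩, 0⟩, 0, 0⟩ 0 0)) (.cut .l 153791 (.cut .v 16809984 (.cut .s 10694656 (.cut .s 10688512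 (.pos 45 .mp ⟨⟨58884857, 0, 0, 0, 0, 25225146, 0, 0, 0, ⟨0, 0⟩, 0⟩, 0, 0⟩ 0 0) (.pos 45 .mp ⟨⟨59152416, 0, 0, 0, 0, 25294688, 0, 0, 0, ⟨0, 0⟩, 0⟩, 0, 0⟩ 0 0)) (.cut .s 10700800 (.pos 45 .mp ⟨⟨59423675, 0, 0, 0, 0, 25360596, 0, 0, 0, ⟨0, 0⟩, 0⟩, 0, 0⟩ 0 0) (.pos 45 .mp ⟨⟨59698679, 0, 0, 0, 0, 25422791, 0, 0, 0, ⟨0, 0⟩, 0⟩, 0, 0⟩ 0 0))) (.pos 46 .mp ⟨⟨66543838, 0, 0, 0, 0, 15192602, 0, 0, 0, ⟨0, 0⟩, 0⟩, 0, 0⟩ 0 0)) (.pos 43 .mp ⟨⟨58868238, 0, 0, 0, 0, 24668206, 0, 0, 0, ⟨0, 0⟩, 0⟩, 0, 0⟩ 0 0))) (.cut .d (-16384) (.cut .s 10719232 (.pos 43 .mp ⟨⟨58579624, 0, 0, 0, 0, 29009214, 0, 0, 0, ⟨0, 0⟩, 0⟩, 0, 0⟩ 0 0) (.pos 43 .mp ⟨⟨59106591,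 0, 0, 0, 0, 29201657, 0, 0, 0, ⟨0, 0⟩, 0⟩, 0, 0⟩ 0 0)) (.cut .l 153791 (.cut .v 16809984 (.cut .s 10719232 (.cut .s 10713088 (.pos 45 .mp ⟨⟨59977473, 0, 0, 0, 0, 25481197, 0, 0, 0, ⟨0, 0⟩, 0⟩, 0, 0⟩ 0 0) (.pos 45 .mp ⟨⟨60260104, 0, 0, 0, 0, 25535736, 0, 0, 0, ⟨0, 0⟩, 0⟩, 0, 0⟩ 0 0)) (.cut .s 10725376 (.pos 45 .mp ⟨⟨60546618, 0, 0, 0, 0, 25586330, 0, 0, 0, ⟨0, 0⟩, 0⟩, 0, 0⟩ 0 0) (.pos 45 .mp ⟨⟨60837059, 0, 0, 0, 0, 25632902, 0, 0, 0, ⟨0, 0⟩, 0⟩, 0, 0⟩ 0 0))) (.pos 46 .mp ⟨⟨67787935, 0, 0, 0, 0, 15237421, 0, 0, 0, ⟨0, 0⟩, 0⟩, 0, 0⟩ 0 0)) (.pos 43 .mp ⟨⟨59935664, 0, 0, 0, 0, 24953085, 0, 0, 0, ⟨0, 0⟩, 0⟩, 0, 0⟩ 0 0)))) (.pos 44 .mp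 ⟨⟨71825710, 0, 0, 0, 0, 8956111, 0, 0, 0, ⟨0, 0⟩, 0⟩, 0, 0⟩ 0 0)) (.cut .v 16842752 (.cut .s 10756096 (.cut .d (-16384) (.cut .s 10743808 (.pos 43 .mp ⟨⟨59637919, 0, 0, 0, 0, 29397995, 0, 0, 0, ⟨0, 0⟩, 0⟩, 0, 0⟩ 0 0) (.pos 43 .mp ⟨⟨60173632, 0, 0, 0, 0, 29598255, 0, 0, 0, ⟨0, 0⟩, 0⟩, 0, 0⟩ 0 0)) (.cut .l 153791 (.cut .v 16809984 (.cut .s 10743808 (.cut .s 10737664 (.pos 45 .mp ⟨⟨61131474, 0, 0, 0, 0, 25675374, 0, 0, 0, ⟨0, 0⟩, 0⟩, 0, 0⟩ 0 0) (.pos 45 .mp ⟨⟨61429909, 0, 0, 0, 0, 25713669, 0, 0, 0, ⟨0, 0⟩, 0⟩, 0, 0⟩ 0 0)) (.cut .s 10749952 (.pos 45 .mp ⟨⟨61732408, 0, 0, 0, 0, 25747711, 0, 0, 0, ⟨0, 0⟩, 0⟩, 0, 0⟩ 0 0) (.pos 45 .mp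 ⟨⟨62039016, 0, 0, 0, 0, 25777421, 0, 0, 0, ⟨0, 0⟩, 0⟩, 0, 0⟩ 0 0))) (.pos 46 .mp ⟨⟨69082613, 0, 0, 0, 0, 15242823, 0, 0, 0, ⟨0, 0⟩, 0⟩, 0, 0⟩ 0 0)) (.pos 43 .mp ⟨⟨61020471, 0, 0, 0, 0, 25242230, 0, 0, 0, ⟨0, 0⟩, 0⟩, 0, 0⟩ 0 0))) (.cut .d (-16384) (.cut .s 10768384 (.pos 43 .mp ⟨⟨60713754, 0, 0, 0, 0, 29802465, 0, 0, 0, ⟨0, 0⟩, 0⟩, 0, 0⟩ 0 0) (.pos 43 .mp ⟨⟨61258308, 0, 0, 0, 0, 30010652, 0, 0, 0, ⟨0, 0⟩, 0⟩, 0, 0⟩ 0 0)) (.cut .l 153791 (.cut .v 16809984 (.cut .s 10768384 (.cut .s 10762240 (.pos 45 .mp ⟨⟨62349780, 0, 0, 0, 0, 25802722, 0, 0, 0, ⟨0, 0⟩, 0⟩, 0, 0⟩ 0 0) (.pos 45 .mp ⟨⟨62657357, 0, 0, 0, 0, 25836437, 0, 0, 0, ⟨0, 0⟩,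 0⟩, 0, 0⟩ 0 0)) (.cut .s 10774528 (.pos 45 .mp ⟨⟨62953777, 0, 0, 0, 0, 25892502, 0, 0, 0, ⟨0, 0⟩, 0⟩, 0, 0⟩ 0 0) (.pos 45 .mp ⟨⟨63252723, 0, 0, 0, 0, 25947048, 0, 0, 0, ⟨0, 0⟩, 0⟩, 0, 0⟩ 0 0))) (.pos 46 .mp ⟨⟨70430495, 0, 0, 0, 0, 15204774, 0, 0, 0, ⟨0, 0⟩, 0⟩, 0, 0⟩ 0 0)) (.pos 43 .mp ⟨⟨62122851, 0, 0, 0, 0, 25535017, 0, 0, 0, ⟨0, 0⟩, 0⟩, 0, 0⟩ 0 0)))) (.pos 44 .mp ⟨⟨74604711, 0, 0, 0, 0, 8688664, 0, 0, 0, ⟨0, 0⟩, 0⟩, 0, 0⟩ 0 0))) (.cut .s 10829824 (.cut .v 16842752 (.cut .s 10805248 (.cut .d (-16384) (.cut .s 10792960 (.pos 43 .mp ⟨⟨61807320, 0, 0, 0, 0, 30222845, 0, 0, 0, ⟨0, 0⟩, 0⟩, 0, 0⟩ 0 0) (.pos 43 .mp ⟨⟨62360813, 0, 0,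 0, 0, 30439071, 0, 0, 0, ⟨0, 0⟩, 0⟩, 0, 0⟩ 0 0)) (.cut .l 153791 (.cut .v 16809984 (.cut .s 10792960 (.cut .s 10786816 (.pos 45 .mp ⟨⟨63554221, 0, 0, 0, 0, 26000031, 0, 0, 0, ⟨0, 0⟩, 0⟩, 0, 0⟩ 0 0) (.pos 45 .mp ⟨⟨63858298, 0, 0, 0, 0, 26051411, 0, 0, 0, ⟨0, 0⟩, 0⟩, 0, 0⟩ 0 0)) (.cut .s 10799104 (.pos 45 .mp ⟨⟨64164982, 0, 0, 0, 0, 26101144, 0, 0, 0, ⟨0, 0⟩, 0⟩, 0, 0⟩ 0 0) (.pos 45 .mp ⟨⟨64474299, 0, 0, 0, 0, 26149189, 0, 0, 0, ⟨0, 0⟩, 0⟩, 0, 0⟩ 0 0))) (.pos 46 .mp ⟨⟨71834235, 0, 0, 0, 0, 15119176, 0, 0, 0, ⟨0, 0⟩, 0⟩, 0, 0⟩ 0 0)) (.pos 43 .mp ⟨⟨63243000, 0, 0, 0, 0, 25830819, 0, 0, 0, ⟨0, 0⟩, 0⟩, 0, 0⟩ 0 0))) (.cut .d (-16384) (.cut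 .s 10817536 (.pos 43 .mp ⟨⟨62918812, 0, 0, 0, 0, 30659360, 0, 0, 0, ⟨0, 0⟩, 0⟩, 0, 0⟩ 0 0) (.pos 43 .mp ⟨⟨63481343, 0, 0, 0, 0, 30883740, 0, 0, 0, ⟨0, 0⟩, 0⟩, 0, 0⟩ 0 0)) (.cut .v 16809984 (.cut .l 153791 (.cut .s 10817536 (.cut .s 10811392 (.pos 45 .mp ⟨⟨64786278, 0, 0, 0, 0, 26195503, 0, 0, 0, ⟨0, 0⟩, 0⟩, 0, 0⟩ 0 0) (.pos 45 .mp ⟨⟨65100946, 0, 0, 0, 0, 26240044, 0, 0, 0, ⟨0, 0⟩, 0⟩, 0, 0⟩ 0 0)) (.cut .s 10823680 (.pos 45 .mp ⟨⟨65418330, 0, 0, 0, 0, 26282768, 0, 0, 0, ⟨0, 0⟩, 0⟩, 0, 0⟩ 0 0) (.pos 45 .mp ⟨⟨65738458, 0, 0, 0, 0, 26323633, 0, 0, 0, ⟨0, 0⟩, 0⟩, 0, 0⟩ 0 0))) (.pos 45 .mp ⟨⟨62551822, 0, 0, 0, 0, 28824061, 0, 0, 0, ⟨0,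 0⟩, 0⟩, 0, 0⟩ 0 0)) (.pos 46 .mp ⟨⟨70142494, 0, 0, 0, 0, 19024517, 0, 0, 0, ⟨0, 0⟩, 0⟩, 0, 0⟩ 0 0)))) (.pos 44 .mp ⟨⟨84009551, 0, 0, 0, 0, 0, 0, 0, 0, ⟨0, 0⟩, 0⟩, 0, 0⟩ 0 0)) (.cut .v 16842752 (.cut .s 10854400 (.cut .d (-16384) (.cut .s 10842112 (.pos 43 .mp ⟨⟨64048429, 0, 0, 0, 0, 31112239, 0, 0, 0, ⟨0, 0⟩, 0⟩, 0, 0⟩ 0 0) (.pos 43 .mp ⟨⟨64620098, 0, 0, 0, 0, 31344887, 0, 0, 0, ⟨0, 0⟩, 0⟩, 0, 0⟩ 0 0)) (.cut .v 16809984 (.cut .l 153791 (.cut .d (-8192) (.pos 45 .mp ⟨⟨64153899, 0, 0, 0, 0, 31323341, 0, 0, 0, ⟨0, 0⟩, 0⟩, 0, 0⟩ 0 0) (.cut .s 10842112 (.pos 45 .mp ⟨⟨65595701, 0, 0, 0, 0, 27248936, 0, 0, 0, ⟨0, 0⟩, 0⟩, 0, 0⟩ 0 0) (.pos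 45 .mp ⟨⟨66162325, 0, 0, 0, 0, 27462656, 0, 0, 0, ⟨0, 0⟩, 0⟩, 0, 0⟩ 0 0))) (.pos 45 .mp ⟨⟨63669789, 0, 0, 0, 0, 29186064, 0, 0, 0, ⟨0, 0⟩, 0⟩, 0, 0⟩ 0 0)) (.pos 46 .mp ⟨⟨71601869, 0, 0, 0, 0, 18921920, 0, 0, 0, ⟨0, 0⟩, 0⟩, 0, 0⟩ 0 0))) (.cut .d (-16384) (.cut .s 10866688 (.pos 43 .mp ⟨⟨65196373, 0, 0, 0, 0, 31581714, 0, 0, 0, ⟨0, 0⟩, 0⟩, 0, 0⟩ 0 0) (.pos 43 .mp ⟨⟨65777281, 0, 0, 0, 0, 31822749, 0, 0, 0, ⟨0, 0⟩, 0⟩, 0, 0⟩ 0 0)) (.cut .v 16809984 (.cut .s 10866688 (.cut .s 10860544 (.pos 45 .mp ⟨⟨67557768, 0, 0, 0, 0, 26292296, 0, 0, 0, ⟨0, 0⟩, 0⟩, 0, 0⟩ 0 0) (.pos 45 .mp ⟨⟨67892980, 0, 0, 0, 0, 26327029, 0, 0, 0, ⟨0, 0⟩, 0⟩, 0, 0⟩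 0 0)) (.pos 45 .mp ⟨⟨66867562, 0, 0, 0, 0, 28706254, 0, 0, 0, ⟨0, 0⟩, 0⟩, 0, 0⟩ 0 0)) (.pos 46 .mp ⟨⟨73123195, 0, 0, 0, 0, 18762377, 0, 0, 0, ⟨0, 0⟩, 0⟩, 0, 0⟩ 0 0)))) (.pos 44 .mp ⟨⟨86699305, 0, 0, 0, 0, 0, 0, 0, 0, ⟨0, 0⟩, 0⟩, 0, 0⟩ 0 0)))) (.pos 36 .mp ⟨⟨84039752, 0, 0, 0, 0, 0, 0, 0, 0, ⟨0, 0⟩, 0⟩, 0, 0⟩ 0 0))))))) (.pos 32 .mp ⟨⟨96183718, 0, 0, 0, 0, 0, 0, 0, 0, ⟨0, 0⟩, 0⟩, 0, 0⟩ 0 0))) (.void 30 ⟨⟨100000, 0, 0, 0, 0, 0, 0, 0, 0, ⟨0, 0⟩, 0⟩, 0, 0⟩ 0 0))) (.void 28 ⟨⟨100000, 0, 0, 0, 0, 0, 0, 0, 0, ⟨0, 0⟩, 0⟩, 0, 0⟩ 0 0))) (.void 26 ⟨⟨100000, 0, 0, 0, 0, 0, 0, 0, 0, ⟨0, 0⟩, 0⟩, 0, 0⟩ 0 0))) (.void 24 ⟨⟨100000, 0, 0, 0, 0, 0,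 0, 0, 0, ⟨0, 0⟩, 0⟩, 0, 0⟩ 0 0))) (.void 22 ⟨⟨100000, 0, 0, 0, 0, 0, 0, 0, 0, ⟨0, 0⟩, 0⟩, 0, 0⟩ 0 0)) (.void 103 ⟨⟨100000, 0, 0, 0, 0, 0, 0, 0, 0, ⟨0, 0⟩, 0⟩, 0, 0⟩ 0 0))) (.cut .v 16777216 (.cut .v 8388608 (.cut .v 4194304 (.void 4 ⟨⟨0, 0, 66667, 0, 0, 0, 0, 0, 0, ⟨0, 0⟩, 0⟩, 0, 33333⟩ 0 0) (.pos 5 .pm ⟨⟨0, 0, 1654578, 0, 0, 0, 0, 0, 0, ⟨0, 0⟩, 0⟩, 0, 0⟩ 0 0)) (.pos 3 .pm ⟨⟨0, 0, 0, 0, 0, 0, 0, 0, 0, ⟨0, 0⟩, 0⟩, 0, 0⟩ 0 0)) (.cut .d 5033166 (.cut .v 33554432 (.cut .d 2516583 (.cut .v 25165824 (.cut .d 1258291 (.cut .v 20971520 (.cut .d 629145 (.cut .v 18874368 (.cut .d 314572 (.cut .d 157286 (.cut .v 17825792 (.cut .v 17301504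 (.cut .s 10682368 (.pos 29 .pp ⟨⟨53906836, 0, 0, 0, 0, 0, 0, 0, 0, ⟨0, 0⟩, 0⟩, 1677437, 0⟩ 0 0) (.pos 29 .pp ⟨⟨62623121, 0, 0, 0, 0, 0, 0, 0, 0, ⟨0, 0⟩, 0⟩, 1747935, 0⟩ 0 0)) (.pos 30 .pp ⟨⟨77659318, 0, 0, 0, 0, 0, 0, 0, 0, ⟨0, 0⟩, 0⟩, 0, 0⟩ 0 0)) (.pos 28 .pp ⟨⟨90630455, 0, 0, 0, 0, 0, 0, 0, 0, ⟨0, 0⟩, 0⟩, 0, 0⟩ 0 0)) (.pos 25 .pp ⟨⟨62955309, 0, 0, 0, 0, 0, 0, 0, 0, ⟨0, 0⟩, 0⟩, 0, 27184⟩ 0 0)) (.pos 25 .pp ⟨⟨0, 0, 0, 0, 0, 0, 0, 0, 0, ⟨0, 0⟩, 0⟩, 0, 715680⟩ 0 0)) (.cut .d 314572 (.pos 26 .pp ⟨⟨110011610, 0, 0, 0, 0, 0, 0, 0, 0, ⟨0, 0⟩, 0⟩, 0, 0⟩ 0 0) (.pos 26 .pp ⟨⟨82809097, 0, 0, 0, 0, 0, 0, 0, 0, ⟨0, 0⟩, 0⟩, 0, 0⟩ 0 0))) (.pos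 23 .pp ⟨⟨0, 0, 0, 0, 0, 0, 0, 0, 0, ⟨0, 0⟩, 0⟩, 0, 751023⟩ 0 0)) (.cut .d 629145 (.cut .v 23068672 (.cut .v 22020096 (.cut .d 314572 (.void 57 ⟨⟨0, 0, 0, 0, 0, 0, 0, 0, 0, ⟨0, 0⟩, 0⟩, 100000, 0⟩ 0 0) (.pos 57 .pp ⟨⟨109424041, 0, 0, 0, 0, 0, 0, 0, 0, ⟨0, 0⟩, 0⟩, 0, 0⟩ 0 0)) (.pos 58 .pp ⟨⟨133772276, 0, 0, 0, 0, 0, 0, 0, 0, ⟨0, 0⟩, 0⟩, 0, 0⟩ 0 0)) (.pos 56 .pp ⟨⟨0, 0, 0, 0, 0, 0, 0, 0, 0, ⟨0, 0⟩, 0⟩, 19708641, 0⟩ 0 0)) (.cut .v 23068672 (.pos 55 .pp ⟨⟨0, 0, 0, 0, 0, 0, 285871, 0, 0, ⟨0, 0⟩, 0⟩, 10614487, 0⟩ 0 0) (.cut .v 24117248 (.pos 59 .pp ⟨⟨0, 0, 0, 0, 0, 0, 143218, 0, 0, ⟨0, 0⟩, 0⟩, 12771096, 0⟩ 0 0) (.pos 60 .pp ⟨⟨0, 0, 0, 0,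 0, 0, 0, 0, 0, ⟨0, 0⟩, 0⟩, 14486764, 0⟩ 0 0))))) (.pos 21 .pp ⟨⟨0, 0, 0, 0, 0, 0, 0, 0, 0, ⟨0, 0⟩, 0⟩, 0, 811104⟩ 0 0)) (.cut .d 1258291 (.cut .v 29360128 (.cut .d 629145 (.void 91 ⟨⟨0, 0, 0, 0, 0, 0, 0, 0, 0, ⟨0, 0⟩, 0⟩, 100000, 0⟩ 0 0) (.cut .d 943718 (.pos 91 .pp ⟨⟨0, 0, 0, 0, 0, 0, 0, 0, 0, ⟨0, 0⟩, 0⟩, 19433469, 0⟩ 0 0) (.pos 91 .pp ⟨⟨0, 0, 0, 0, 0, 0, 0, 0, 0, ⟨0, 0⟩, 0⟩, 15047245, 0⟩ 0 0))) (.void 92 ⟨⟨0, 0, 0, 0, 0, 0, 0, 0, 0, ⟨0, 0⟩, 0⟩, 100000, 0⟩ 0 0)) (.cut .v 29360128 (.pos 91 .pp ⟨⟨0, 0, 0, 0, 0, 0, 29465, 0, 0, ⟨0, 0⟩, 0⟩, 11770152, 0⟩ 0 0) (.pos 92 .pp ⟨⟨0, 0, 0, 0, 0, 0, 0, 0, 0, ⟨0, 0⟩, 0⟩, 16763293, 0⟩ 0 0))))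 (.cut .v 25165824 (.pos 21 .pp ⟨⟨0, 0, 0, 0, 0, 0, 0, 0, 0, ⟨0, 0⟩, 0⟩, 0, 675920⟩ 0 0) (.pos 22 .pp ⟨⟨0, 0, 0, 0, 0, 0, 2669258, 0, 0, ⟨0, 0⟩, 0⟩, 0, 0⟩ 0 0))) (.cut .v 50331648 (.cut .d 2516583 (.pos 106 .pp ⟨⟨0, 0, 0, 0, 0, 0, 0, 0, 0, ⟨0, 0⟩, 0⟩, 38902044, 0⟩ 0 0) (.pos 106 .pp ⟨⟨0, 0, 0, 0, 0, 0, 10775565, 0, 0, ⟨0, 0⟩, 0⟩, 15150541, 0⟩ 0 0)) (.void 107 ⟨⟨0, 90886, 0, 0, 0, 0, 0, 0, 0, ⟨0, 0⟩, 0⟩, 9114, 0⟩ 0 0))) (.pos 102 .pp ⟨⟨0, 241706058, 0, 0, 0, 0, 10445251, 0, 0, ⟨0, 0⟩, 0⟩, 0, 203164524⟩ 0 0)))),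
    by decide +kernel⟩

def covers15 : cell.Covers Vale.Agent.P237.Petty.Cor.Grid.N12.table row15.1 :=
  ⟨(.cut .d 0 (.cut .v 16777216 (.cut .d (-8388608) (.void 1 ⟨⟨0, 0, 0, 0, 0, 100000, 0, 0, 0, ⟨0, 0⟩, 0⟩, 0, 0⟩ 0 0) (.cut .d (-4194304) (.void 1 ⟨⟨0, 0, 0, 0, 0, 100000, 0, 0, 0, ⟨0, 0⟩, 0⟩, 0, 0⟩ 0 0) (.cut .d (-2097152) (.void 1 ⟨⟨0, 0, 0, 0, 0, 100000, 0, 0, 0, ⟨0, 0⟩, 0⟩, 0, 0⟩ 0 0) (.cut .d (-1048576) (.void 1 ⟨⟨0, 0, 0, 0, 0, 100000, 0, 0, 0, ⟨0, 0⟩, 0⟩, 0, 0⟩ 0 0) (.cut .d (-524288) (.void 1 ⟨⟨0, 0, 0, 0, 0, 100000, 0, 0, 0, ⟨0, 0⟩, 0⟩, 0, 0⟩ 0 0) (.cut .d (-262144) (.void 1 ⟨⟨0, 0, 0, 0, 0, 100000, 0, 0, 0, ⟨0, 0⟩, 0⟩,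 0, 0⟩ 0 0) (.cut .d (-131072) (.void 1 ⟨⟨0, 0, 0, 0, 0, 100000, 0, 0, 0, ⟨0, 0⟩, 0⟩, 0, 0⟩ 0 0) (.cut .d (-65536) (.void 1 ⟨⟨0, 0, 0, 0, 0, 100000, 0, 0, 0, ⟨0, 0⟩, 0⟩, 0, 0⟩ 0 0) (.cut .d (-32768) (.void 1 ⟨⟨0, 0, 0, 0, 0, 100000, 0, 0, 0, ⟨0, 0⟩, 0⟩, 0, 0⟩ 0 0) (.cut .v 8388608 (.cut .v 4194304 (.void 4 ⟨⟨0, 0, 100000, 0, 0, 0, 0, 0, 0, ⟨0, 0⟩, 0⟩, 0, 0⟩ 0 0) (.pos 5 .mm ⟨⟨0, 0, 2511862, 0, 0, 44980957, 0, 0, 0, ⟨0, 0⟩, 0⟩, 0, 0⟩ 0 0)) (.cut .s 11108352 (.pos 3 .mm ⟨⟨0, 0, 0, 0, 0, 138498973, 0, 0, 0, ⟨0, 0⟩, 0⟩, 0, 0⟩ 0 0) (.pos 3 .mm ⟨⟨0, 0, 0, 0, 0, 163391322, 0, 0, 0, ⟨0, 0⟩, 0⟩, 0, 0⟩ 0 0)))))))))))) (.cut .v 67108864 (.cut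 .v 33554432 (.cut .v 25165824 (.cut .d (-8388608) (.void 21 ⟨⟨0, 0, 0, 0, 0, 100000, 0, 0, 0, ⟨0, 0⟩, 0⟩, 0, 0⟩ 0 0) (.cut .v 20971520 (.cut .d (-4194304) (.void 23 ⟨⟨100000, 0, 0, 0, 0, 0, 0, 0, 0, ⟨0, 0⟩, 0⟩, 0, 0⟩ 0 0) (.cut .v 18874368 (.cut .d (-2097152) (.void 25 ⟨⟨100000, 0, 0, 0, 0, 0, 0, 0, 0, ⟨0, 0⟩, 0⟩, 0, 0⟩ 0 0) (.cut .v 17825792 (.cut .d (-1048576) (.void 27 ⟨⟨100000, 0, 0, 0, 0, 0, 0, 0, 0, ⟨0, 0⟩, 0⟩, 0, 0⟩ 0 0) (.cut .v 17301504 (.cut .d (-524288) (.void 29 ⟨⟨100000, 0, 0, 0, 0, 0, 0, 0, 0, ⟨0, 0⟩, 0⟩, 0, 0⟩ 0 0) (.cut .v 17039360 (.cut .d (-262144) (.void 31 ⟨⟨100000, 0, 0, 0, 0, 0, 0, 0, 0, ⟨0, 0⟩, 0⟩, 0, 0⟩ 0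 0) (.cut .d (-131072) (.void 31 ⟨⟨100000, 0, 0, 0, 0, 0, 0, 0, 0, ⟨0, 0⟩, 0⟩, 0, 0⟩ 0 0) (.cut .d (-65536) (.void 31 ⟨⟨0, 0, 0, 0, 0, 100000, 0, 0, 0, ⟨0, 0⟩, 0⟩, 0, 0⟩ 0 0) (.cut .d (-32768) (.void 31 ⟨⟨0, 0, 0, 0, 0, 100000, 0, 0, 0, ⟨0, 0⟩, 0⟩, 0, 0⟩ 0 0) (.cut .s 11108352 (.cut .v 16908288 (.cut .s 10993664 (.cut .s 10936320 (.cut .v 16842752 (.cut .s 10907648 (.cut .d (-16384) (.cut .s 10893312 (.pos 43 .mp ⟨⟨66366682, 0, 0, 0, 0, 32163910, 0, 0, 0, ⟨0, 0⟩, 0⟩, 0, 0⟩ 0 0) (.pos 43 .mp ⟨⟨67056734, 0, 0, 0, 0, 32332184, 0, 0, 0, ⟨0, 0⟩, 0⟩, 0, 0⟩ 0 0)) (.cut .v 16809984 (.cut .l 153791 (.cut .d (-8192) (.pos 45 .mp ⟨⟨66470334,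 0, 0, 0, 0, 32515831, 0, 0, 0, ⟨0, 0⟩, 0⟩, 0, 0⟩ 0 0) (.cut .s 10893312 (.pos 45 .mp ⟨⟨68060137, 0, 0, 0, 0, 27902696, 0, 0, 0, ⟨0, 0⟩, 0⟩, 0, 0⟩ 0 0) (.pos 45 .mp ⟨⟨68764396, 0, 0, 0, 0, 28046754, 0, 0, 0, ⟨0, 0⟩, 0⟩, 0, 0⟩ 0 0))) (.pos 45 .mp ⟨⟨65963577, 0, 0, 0, 0, 30179179, 0, 0, 0, ⟨0, 0⟩, 0⟩, 0, 0⟩ 0 0)) (.pos 46 .mp ⟨⟨75138007, 0, 0, 0, 0, 18024284, 0, 0, 0, ⟨0, 0⟩, 0⟩, 0, 0⟩ 0 0))) (.cut .d (-16384) (.cut .s 10921984 (.pos 43 .mp ⟨⟨67753921, 0, 0, 0, 0, 32506830, 0, 0, 0, ⟨0, 0⟩, 0⟩, 0, 0⟩ 0 0) (.pos 43 .mp ⟨⟨68458290, 0, 0, 0, 0, 32687902, 0, 0, 0, ⟨0, 0⟩, 0⟩, 0, 0⟩ 0 0)) (.cut .l 153791 (.cut .v 16809984 (.cut .s 10921984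 (.cut .s 10914816 (.pos 45 .mp ⟨⟨69761155, 0, 0, 0, 0, 27547238, 0, 0, 0, ⟨0, 0⟩, 0⟩, 0, 0⟩ 0 0) (.pos 45 .mp ⟨⟨70070530, 0, 0, 0, 0, 27699179, 0, 0, 0, ⟨0, 0⟩, 0⟩, 0, 0⟩ 0 0)) (.cut .s 10929152 (.pos 45 .mp ⟨⟨70382388, 0, 0, 0, 0, 27851566, 0, 0, 0, ⟨0, 0⟩, 0⟩, 0, 0⟩ 0 0) (.pos 45 .mp ⟨⟨70653540, 0, 0, 0, 0, 28080713, 0, 0, 0, ⟨0, 0⟩, 0⟩, 0, 0⟩ 0 0))) (.pos 46 .mp ⟨⟨90871240, 0, 0, 0, 0, 0, 0, 0, 0, ⟨0, 0⟩, 0⟩, 0, 0⟩ 0 0)) (.pos 43 .mp ⟨⟨69816380, 0, 0, 0, 0, 26772094, 0, 0, 0, ⟨0, 0⟩, 0⟩, 0, 0⟩ 0 0)))) (.pos 44 .mp ⟨⟨89857158, 0, 0, 0, 0, 0, 0, 0, 0, ⟨0, 0⟩, 0⟩, 0, 0⟩ 0 0)) (.cut .v 16842752 (.cut .s 10964992 (.cut .d (-16384)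 (.cut .s 10950656 (.pos 43 .mp ⟨⟨69169887, 0, 0, 0, 0, 32875454, 0, 0, 0, ⟨0, 0⟩, 0⟩, 0, 0⟩ 0 0) (.pos 43 .mp ⟨⟨69888761, 0, 0, 0, 0, 33069543, 0, 0, 0, ⟨0, 0⟩, 0⟩, 0, 0⟩ 0 0)) (.cut .l 153791 (.cut .v 16809984 (.cut .s 10950656 (.cut .s 10943488 (.pos 45 .mp ⟨⟨70908331, 0, 0, 0, 0, 28343723, 0, 0, 0, ⟨0, 0⟩, 0⟩, 0, 0⟩ 0 0) (.pos 45 .mp ⟨⟨71167138, 0, 0, 0, 0, 28604622, 0, 0, 0, ⟨0, 0⟩, 0⟩, 0, 0⟩ 0 0)) (.cut .s 10957824 (.pos 45 .mp ⟨⟨71430067, 0, 0, 0, 0, 28863236, 0, 0, 0, ⟨0, 0⟩, 0⟩, 0, 0⟩ 0 0) (.pos 45 .mp ⟨⟨71697222, 0, 0, 0, 0, 29119393, 0, 0, 0, ⟨0, 0⟩, 0⟩, 0, 0⟩ 0 0))) (.pos 46 .mp ⟨⟨92556580, 0, 0, 0, 0, 0, 0, 0, 0, ⟨0,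 0⟩, 0⟩, 0, 0⟩ 0 0)) (.pos 43 .mp ⟨⟨71292359, 0, 0, 0, 0, 27094363, 0, 0, 0, ⟨0, 0⟩, 0⟩, 0, 0⟩ 0 0))) (.cut .d (-16384) (.cut .s 10979328 (.pos 43 .mp ⟨⟨70614959, 0, 0, 0, 0, 33270225, 0, 0, 0, ⟨0, 0⟩, 0⟩, 0, 0⟩ 0 0) (.pos 43 .mp ⟨⟨71348529, 0, 0, 0, 0, 33477556, 0, 0, 0, ⟨0, 0⟩, 0⟩, 0, 0⟩ 0 0)) (.cut .l 153791 (.cut .v 16809984 (.cut .s 10979328 (.cut .s 10972160 (.pos 45 .mp ⟨⟨71968707, 0, 0, 0, 0, 29372918, 0, 0, 0, ⟨0, 0⟩, 0⟩, 0, 0⟩ 0 0) (.pos 45 .mp ⟨⟨72244627, 0, 0, 0, 0, 29623639, 0, 0, 0, ⟨0, 0⟩, 0⟩, 0, 0⟩ 0 0)) (.cut .s 10986496 (.pos 45 .mp ⟨⟨72525085, 0, 0, 0, 0, 29871383, 0, 0, 0, ⟨0, 0⟩, 0⟩, 0, 0⟩ 0 0) (.pos 45 .mp ⟨⟨72810185,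 0, 0, 0, 0, 30115977, 0, 0, 0, ⟨0, 0⟩, 0⟩, 0, 0⟩ 0 0))) (.pos 46 .mp ⟨⟨94282985, 0, 0, 0, 0, 0, 0, 0, 0, ⟨0, 0⟩, 0⟩, 0, 0⟩ 0 0)) (.pos 43 .mp ⟨⟨72797446, 0, 0, 0, 0, 27434166, 0, 0, 0, ⟨0, 0⟩, 0⟩, 0, 0⟩ 0 0)))) (.pos 44 .mp ⟨⟨93223495, 0, 0, 0, 0, 0, 0, 0, 0, ⟨0, 0⟩, 0⟩, 0, 0⟩ 0 0))) (.cut .s 11051008 (.cut .v 16842752 (.cut .s 11022336 (.cut .d (-16384) (.cut .s 11008000 (.pos 43 .mp ⟨⟨72089521, 0, 0, 0, 0, 33691593, 0, 0, 0, ⟨0, 0⟩, 0⟩, 0, 0⟩ 0 0) (.pos 43 .mp ⟨⟨72837984, 0, 0, 0, 0, 33912394, 0, 0, 0, ⟨0, 0⟩, 0⟩, 0, 0⟩ 0 0)) (.cut .l 153791 (.cut .v 16809984 (.cut .s 11008000 (.cut .s 11000832 (.pos 45 .mp ⟨⟨73100029, 0, 0, 0,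 0, 30357247, 0, 0, 0, ⟨0, 0⟩, 0⟩, 0, 0⟩ 0 0) (.pos 45 .mp ⟨⟨73424296, 0, 0, 0, 0, 30546472, 0, 0, 0, ⟨0, 0⟩, 0⟩, 0, 0⟩ 0 0)) (.cut .s 11015168 (.pos 45 .mp ⟨⟨73773507, 0, 0, 0, 0, 30699160, 0, 0, 0, ⟨0, 0⟩, 0⟩, 0, 0⟩ 0 0) (.pos 45 .mp ⟨⟨74125684, 0, 0, 0, 0, 30851384, 0, 0, 0, ⟨0, 0⟩, 0⟩, 0, 0⟩ 0 0))) (.pos 46 .mp ⟨⟨96049748, 0, 0, 0, 0, 0, 0, 0, 0, ⟨0, 0⟩, 0⟩, 0, 0⟩ 0 0)) (.pos 43 .mp ⟨⟨74332035, 0, 0, 0, 0, 27790176, 0, 0, 0, ⟨0, 0⟩, 0⟩, 0, 0⟩ 0 0))) (.cut .d (-16384) (.cut .s 11036672 (.pos 43 .mp ⟨⟨73593968, 0, 0, 0, 0, 34140017, 0, 0, 0, ⟨0, 0⟩, 0⟩, 0, 0⟩ 0 0) (.cut .s 11043840 (.pos 43 .mp ⟨⟨74357524, 0, 0, 0, 0, 33882181,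 0, 0, 0, ⟨0, 0⟩, 0⟩, 0, 0⟩ 0 0) (.pos 43 .mp ⟨⟨74742157, 0, 0, 0, 0, 33998449, 0, 0, 0, ⟨0, 0⟩, 0⟩, 0, 0⟩ 0 0))) (.cut .l 153791 (.cut .v 16809984 (.cut .s 11036672 (.cut .s 11029504 (.pos 45 .mp ⟨⟨74480873, 0, 0, 0, 0, 31003065, 0, 0, 0, ⟨0, 0⟩, 0⟩, 0, 0⟩ 0 0) (.cut .s 11033088 (.pos 45 .mp ⟨⟨75865789, 0, 0, 0, 0, 29275930, 0, 0, 0, ⟨0, 0⟩, 0⟩, 0, 0⟩ 0 0) (.pos 45 .mp ⟨⟨76046408, 0, 0, 0, 0, 29347251, 0, 0, 0, ⟨0, 0⟩, 0⟩, 0, 0⟩ 0 0))) (.cut .d (-8192) (.pos 45 .mp ⟨⟨74447133, 0, 0, 0, 0, 33873413, 0, 0, 0, ⟨0, 0⟩, 0⟩, 0, 0⟩ 0 0) (.cut .s 11043840 (.pos 45 .mp ⟨⟨75759273, 0, 0, 0, 0, 30280353, 0, 0, 0, ⟨0, 0⟩, 0⟩, 0, 0⟩ 0 0) (.pos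 45 .mp ⟨⟨76161969, 0, 0, 0, 0, 30361998, 0, 0, 0, ⟨0, 0⟩, 0⟩, 0, 0⟩ 0 0)))) (.pos 46 .mp ⟨⟨97856174, 0, 0, 0, 0, 0, 0, 0, 0, ⟨0, 0⟩, 0⟩, 0, 0⟩ 0 0)) (.pos 43 .mp ⟨⟨75896530, 0, 0, 0, 0, 28161050, 0, 0, 0, ⟨0, 0⟩, 0⟩, 0, 0⟩ 0 0)))) (.pos 44 .mp ⟨⟨96752778, 0, 0, 0, 0, 0, 0, 0, 0, ⟨0, 0⟩, 0⟩, 0, 0⟩ 0 0)) (.cut .v 16842752 (.cut .s 11079680 (.cut .d (-16384) (.cut .d (-24576) (.pos 43 .mp ⟨⟨75724747, 0, 0, 0, 0, 35357862, 0, 0, 0, ⟨0, 0⟩, 0⟩, 0, 0⟩ 0 0) (.cut .v 16809984 (.pos 45 .mp ⟨⟨0, 0, 0, 0, 0, 160017709, 0, 0, 0, ⟨0, 0⟩, 0⟩, 0, 0⟩ 0 0) (.cut .s 11065344 (.pos 46 .mp ⟨⟨78849149, 0, 0, 0, 0, 28108166, 0, 0, 0, ⟨0, 0⟩, 0⟩, 0, 0⟩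 0 0) (.pos 46 .mp ⟨⟨79666211, 0, 0, 0, 0, 28289227, 0, 0, 0, ⟨0, 0⟩, 0⟩, 0, 0⟩ 0 0)))) (.cut .l 153791 (.cut .v 16809984 (.cut .s 11065344 (.cut .d (-8192) (.pos 45 .mp ⟨⟨75216898, 0, 0, 0, 0, 34113335, 0, 0, 0, ⟨0, 0⟩, 0⟩, 0, 0⟩ 0 0) (.cut .s 11058176 (.pos 45 .mp ⟨⟨76565936, 0, 0, 0, 0, 30446145, 0, 0, 0, ⟨0, 0⟩, 0⟩, 0, 0⟩ 0 0) (.pos 45 .mp ⟨⟨76971155, 0, 0, 0, 0, 30532835, 0, 0, 0, ⟨0, 0⟩, 0⟩, 0, 0⟩ 0 0))) (.cut .d (-8192) (.pos 45 .mp ⟨⟨75994314, 0, 0, 0, 0, 34360251, 0, 0, 0, ⟨0, 0⟩, 0⟩, 0, 0⟩ 0 0) (.cut .s 11072512 (.pos 45 .mp ⟨⟨77377606, 0, 0, 0, 0, 30622112, 0, 0, 0, ⟨0, 0⟩, 0⟩, 0, 0⟩ 0 0) (.pos 45 .mp ⟨⟨77785269, 0, 0,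 0, 0, 30714018, 0, 0, 0, ⟨0, 0⟩, 0⟩, 0, 0⟩ 0 0)))) (.pos 46 .mp ⟨⟨99701577, 0, 0, 0, 0, 0, 0, 0, 0, ⟨0, 0⟩, 0⟩, 0, 0⟩ 0 0)) (.pos 43 .mp ⟨⟨77491342, 0, 0, 0, 0, 28545439, 0, 0, 0, ⟨0, 0⟩, 0⟩, 0, 0⟩ 0 0))) (.cut .d (-16384) (.cut .d (-24576) (.pos 43 .mp ⟨⟨77306453, 0, 0, 0, 0, 35884490, 0, 0, 0, ⟨0, 0⟩, 0⟩, 0, 0⟩ 0 0) (.cut .v 16809984 (.pos 45 .mp ⟨⟨0, 0, 0, 0, 0, 163397803, 0, 0, 0, ⟨0, 0⟩, 0⟩, 0, 0⟩ 0 0) (.cut .s 11094016 (.pos 46 .mp ⟨⟨80491438, 0, 0, 0, 0, 28475623, 0, 0, 0, ⟨0, 0⟩, 0⟩, 0, 0⟩ 0 0) (.pos 46 .mp ⟨⟨81324886, 0, 0, 0, 0, 28667349, 0, 0, 0, ⟨0, 0⟩, 0⟩, 0, 0⟩ 0 0)))) (.cut .l 153791 (.cut .v 16809984 (.cut .s 11094016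 (.cut .d (-8192) (.pos 45 .mp ⟨⟨76779432, 0, 0, 0, 0, 34614223, 0, 0, 0, ⟨0, 0⟩, 0⟩, 0, 0⟩ 0 0) (.cut .s 11086848 (.pos 45 .mp ⟨⟨78194126, 0, 0, 0, 0, 30808596, 0, 0, 0, ⟨0, 0⟩, 0⟩, 0, 0⟩ 0 0) (.pos 45 .mp ⟨⟨78599267, 0, 0, 0, 0, 30914529, 0, 0, 0, ⟨0, 0⟩, 0⟩, 0, 0⟩ 0 0))) (.cut .d (-8192) (.pos 45 .mp ⟨⟨77572305, 0, 0, 0, 0, 34875312, 0, 0, 0, ⟨0, 0⟩, 0⟩, 0, 0⟩ 0 0) (.cut .s 11101184 (.pos 45 .mp ⟨⟨79003557, 0, 0, 0, 0, 31026773, 0, 0, 0, ⟨0, 0⟩, 0⟩, 0, 0⟩ 0 0) (.pos 45 .mp ⟨⟨79409836, 0, 0, 0, 0, 31140315, 0, 0, 0, ⟨0, 0⟩, 0⟩, 0, 0⟩ 0 0)))) (.pos 46 .mp ⟨⟨101585283, 0, 0, 0, 0, 0, 0, 0, 0, ⟨0, 0⟩, 0⟩, 0, 0⟩ 0 0)) (.pos 43 .mp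 ⟨⟨79116890, 0, 0, 0, 0, 28941981, 0, 0, 0, ⟨0, 0⟩, 0⟩, 0, 0⟩ 0 0)))) (.pos 44 .mp ⟨⟨100439455, 0, 0, 0, 0, 0, 0, 0, 0, ⟨0, 0⟩, 0⟩, 0, 0⟩ 0 0)))) (.pos 36 .mp ⟨⟨97341923, 0, 0, 0, 0, 0, 0, 0, 0, ⟨0, 0⟩, 0⟩, 0, 0⟩ 0 0)) (.cut .v 16908288 (.cut .s 11223040 (.cut .s 11165696 (.cut .v 16842752 (.cut .s 11137024 (.cut .d (-16384) (.cut .d (-24576) (.pos 43 .mp ⟨⟨78919742, 0, 0, 0, 0, 36439147, 0, 0, 0, ⟨0, 0⟩, 0⟩, 0, 0⟩ 0 0) (.cut .v 16809984 (.pos 45 .mp ⟨⟨0, 0, 0, 0, 0, 166868880, 0, 0, 0, ⟨0, 0⟩, 0⟩, 0, 0⟩ 0 0) (.cut .s 11122688 (.pos 46 .mp ⟨⟨82166611, 0, 0, 0, 0, 28864396, 0, 0, 0, ⟨0, 0⟩, 0⟩, 0, 0⟩ 0 0) (.pos 46 .mp ⟨⟨83016670,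 0, 0, 0, 0, 29066758, 0, 0, 0, ⟨0, 0⟩, 0⟩, 0, 0⟩ 0 0)))) (.cut .l 153791 (.cut .v 16809984 (.cut .s 11122688 (.cut .d (-8192) (.pos 45 .mp ⟨⟨78372986, 0, 0, 0, 0, 35143579, 0, 0, 0, ⟨0, 0⟩, 0⟩, 0, 0⟩ 0 0) (.cut .s 11115520 (.pos 45 .mp ⟨⟨79818111, 0, 0, 0, 0, 31255151, 0, 0, 0, ⟨0, 0⟩, 0⟩, 0, 0⟩ 0 0) (.pos 45 .mp ⟨⟨80228389, 0, 0, 0, 0, 31371276, 0, 0, 0, ⟨0, 0⟩, 0⟩, 0, 0⟩ 0 0))) (.cut .d (-8192) (.pos 45 .mp ⟨⟨79181529, 0, 0, 0, 0, 35419086, 0, 0, 0, ⟨0, 0⟩, 0⟩, 0, 0⟩ 0 0) (.cut .s 11129856 (.pos 45 .mp ⟨⟨80640676, 0, 0, 0, 0, 31488684, 0, 0, 0, ⟨0, 0⟩, 0⟩, 0, 0⟩ 0 0) (.pos 45 .mp ⟨⟨81054980, 0, 0, 0, 0, 31607371, 0, 0, 0, ⟨0,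 0⟩, 0⟩, 0, 0⟩ 0 0)))) (.pos 46 .mp ⟨⟨103506631, 0, 0, 0, 0, 0, 0, 0, 0, ⟨0, 0⟩, 0⟩, 0, 0⟩ 0 0)) (.pos 43 .mp ⟨⟨80773602, 0, 0, 0, 0, 29349301, 0, 0, 0, ⟨0, 0⟩, 0⟩, 0, 0⟩ 0 0))) (.cut .d (-16384) (.cut .d (-24576) (.pos 43 .mp ⟨⟨80565048, 0, 0, 0, 0, 37022318, 0, 0, 0, ⟨0, 0⟩, 0⟩, 0, 0⟩ 0 0) (.cut .v 16809984 (.pos 45 .mp ⟨⟨0, 0, 0, 0, 0, 170432455, 0, 0, 0, ⟨0, 0⟩, 0⟩, 0, 0⟩ 0 0) (.cut .s 11151360 (.pos 46 .mp ⟨⟨83875120, 0, 0, 0, 0, 29274427, 0, 0, 0, ⟨0, 0⟩, 0⟩, 0, 0⟩ 0 0) (.pos 46 .mp ⟨⟨84742019, 0, 0, 0, 0, 29487394, 0, 0, 0, ⟨0, 0⟩, 0⟩, 0, 0⟩ 0 0)))) (.cut .l 153791 (.cut .v 16809984 (.cut .s 11151360 (.cut .d (-8192) (.pos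 45 .mp ⟨⟨79997986, 0, 0, 0, 0, 35701897, 0, 0, 0, ⟨0, 0⟩, 0⟩, 0, 0⟩ 0 0) (.cut .s 11144192 (.pos 45 .mp ⟨⟨81471307, 0, 0, 0, 0, 31727332, 0, 0, 0, ⟨0, 0⟩, 0⟩, 0, 0⟩ 0 0) (.pos 45 .mp ⟨⟨81889665, 0, 0, 0, 0, 31848561, 0, 0, 0, ⟨0, 0⟩, 0⟩, 0, 0⟩ 0 0))) (.cut .d (-8192) (.pos 45 .mp ⟨⟨80822414, 0, 0, 0, 0, 35992074, 0, 0, 0, ⟨0, 0⟩, 0⟩, 0, 0⟩ 0 0) (.cut .s 11158528 (.pos 45 .mp ⟨⟨82310060, 0, 0, 0, 0, 31971054, 0, 0, 0, ⟨0, 0⟩, 0⟩, 0, 0⟩ 0 0) (.pos 45 .mp ⟨⟨82732499, 0, 0, 0, 0, 32094804, 0, 0, 0, ⟨0, 0⟩, 0⟩, 0, 0⟩ 0 0)))) (.pos 46 .mp ⟨⟨105464967, 0, 0, 0, 0, 0, 0, 0, 0, ⟨0, 0⟩, 0⟩, 0, 0⟩ 0 0)) (.pos 43 .mp ⟨⟨82461915, 0, 0, 0, 0,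 29766013, 0, 0, 0, ⟨0, 0⟩, 0⟩, 0, 0⟩ 0 0)))) (.pos 44 .mp ⟨⟨104278151, 0, 0, 0, 0, 0, 0, 0, 0, ⟨0, 0⟩, 0⟩, 0, 0⟩ 0 0)) (.cut .v 16842752 (.cut .s 11194368 (.cut .d (-16384) (.cut .d (-24576) (.pos 43 .mp ⟨⟨82242812, 0, 0, 0, 0, 37634497, 0, 0, 0, ⟨0, 0⟩, 0⟩, 0, 0⟩ 0 0) (.cut .v 16809984 (.pos 45 .mp ⟨⟨0, 0, 0, 0, 0, 174090077, 0, 0, 0, ⟨0, 0⟩, 0⟩, 0, 0⟩ 0 0) (.cut .s 11180032 (.pos 46 .mp ⟨⟨82830827, 0, 0, 0, 0, 34542582, 0, 0, 0, ⟨0, 0⟩, 0⟩, 0, 0⟩ 0 0) (.pos 46 .mp ⟨⟨83713894, 0, 0, 0, 0, 34771635, 0, 0, 0, ⟨0, 0⟩, 0⟩, 0, 0⟩ 0 0)))) (.cut .l 153791 (.cut .v 16809984 (.cut .s 11180032 (.cut .d (-8192) (.pos 45 .mp ⟨⟨81654868, 0,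 0, 0, 0, 36289683, 0, 0, 0, ⟨0, 0⟩, 0⟩, 0, 0⟩ 0 0) (.cut .s 11172864 (.pos 45 .mp ⟨⟨83156991, 0, 0, 0, 0, 32219807, 0, 0, 0, ⟨0, 0⟩, 0⟩, 0, 0⟩ 0 0) (.pos 45 .mp ⟨⟨83583541, 0, 0, 0, 0, 32346056, 0, 0, 0, ⟨0, 0⟩, 0⟩, 0, 0⟩ 0 0))) (.cut .d (-8192) (.pos 45 .mp ⟨⟨82495402, 0, 0, 0, 0, 36594788, 0, 0, 0, ⟨0, 0⟩, 0⟩, 0, 0⟩ 0 0) (.cut .s 11187200 (.pos 45 .mp ⟨⟨84012157, 0, 0, 0, 0, 32473548, 0, 0, 0, ⟨0, 0⟩, 0⟩, 0, 0⟩ 0 0) (.pos 45 .mp ⟨⟨84442846, 0, 0, 0, 0, 32602275, 0, 0, 0, ⟨0, 0⟩, 0⟩, 0, 0⟩ 0 0)))) (.pos 46 .mp ⟨⟨107459649, 0, 0, 0, 0, 0, 0, 0, 0, ⟨0, 0⟩, 0⟩, 0, 0⟩ 0 0)) (.pos 43 .mp ⟨⟨84182274, 0, 0, 0, 0, 30190717, 0, 0, 0, ⟨0,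 0⟩, 0⟩, 0, 0⟩ 0 0))) (.cut .d (-16384) (.cut .s 11208704 (.cut .s 11201536 (.pos 43 .mp ⟨⟨83271315, 0, 0, 0, 0, 36852554, 0, 0, 0, ⟨0, 0⟩, 0⟩, 0, 0⟩ 0 0) (.pos 43 .mp ⟨⟨83699557, 0, 0, 0, 0, 37008768, 0, 0, 0, ⟨0, 0⟩, 0⟩, 0, 0⟩ 0 0)) (.pos 43 .mp ⟨⟨84129860, 0, 0, 0, 0, 37747510, 0, 0, 0, ⟨0, 0⟩, 0⟩, 0, 0⟩ 0 0)) (.cut .l 153791 (.cut .v 16809984 (.cut .s 11208704 (.cut .d (-8192) (.pos 45 .mp ⟨⟨83344074, 0, 0, 0, 0, 36907455, 0, 0, 0, ⟨0, 0⟩, 0⟩, 0, 0⟩ 0 0) (.cut .s 11201536 (.pos 45 .mp ⟨⟨84875615, 0, 0, 0, 0, 32732233, 0, 0, 0, ⟨0, 0⟩, 0⟩, 0, 0⟩ 0 0) (.pos 45 .mp ⟨⟨85307159, 0, 0, 0, 0, 32869304, 0, 0, 0, ⟨0, 0⟩, 0⟩, 0, 0⟩ 0 0)))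 (.cut .d (-8192) (.pos 45 .mp ⟨⟨84200940, 0, 0, 0, 0, 37227749, 0, 0, 0, ⟨0, 0⟩, 0⟩, 0, 0⟩ 0 0) (.cut .s 11215872 (.pos 45 .mp ⟨⟨85733896, 0, 0, 0, 0, 33019866, 0, 0, 0, ⟨0, 0⟩, 0⟩, 0, 0⟩ 0 0) (.pos 45 .mp ⟨⟨86161413, 0, 0, 0, 0, 33174003, 0, 0, 0, ⟨0, 0⟩, 0⟩, 0, 0⟩ 0 0)))) (.pos 46 .mp ⟨⟨109490045, 0, 0, 0, 0, 0, 0, 0, 0, ⟨0, 0⟩, 0⟩, 0, 0⟩ 0 0)) (.pos 43 .mp ⟨⟨85935134, 0, 0, 0, 0, 30622002, 0, 0, 0, ⟨0, 0⟩, 0⟩, 0, 0⟩ 0 0)))) (.pos 44 .mp ⟨⟨108263659, 0, 0, 0, 0, 0, 0, 0, 0, ⟨0, 0⟩, 0⟩, 0, 0⟩ 0 0))) (.cut .s 11280384 (.cut .v 16842752 (.cut .s 11251712 (.cut .d (-16384) (.cut .s 11237376 (.pos 43 .mp ⟨⟨84996682, 0, 0, 0, 0, 38077090,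 0, 0, 0, ⟨0, 0⟩, 0⟩, 0, 0⟩ 0 0) (.pos 43 .mp ⟨⟨85871839, 0, 0, 0, 0, 38414437, 0, 0, 0, ⟨0, 0⟩, 0⟩, 0, 0⟩ 0 0)) (.cut .l 153791 (.cut .v 16809984 (.cut .s 11237376 (.cut .d (-8192) (.pos 45 .mp ⟨⟨85066059, 0, 0, 0, 0, 37555737, 0, 0, 0, ⟨0, 0⟩, 0⟩, 0, 0⟩ 0 0) (.cut .s 11230208 (.pos 45 .mp ⟨⟨86589688, 0, 0, 0, 0, 33331767, 0, 0, 0, ⟨0, 0⟩, 0⟩, 0, 0⟩ 0 0) (.pos 45 .mp ⟨⟨87018697, 0, 0, 0, 0, 33493209, 0, 0, 0, ⟨0, 0⟩, 0⟩, 0, 0⟩ 0 0))) (.cut .d (-8192) (.pos 45 .mp ⟨⟨85939487, 0, 0, 0, 0, 37891486, 0, 0, 0, ⟨0, 0⟩, 0⟩, 0, 0⟩ 0 0) (.cut .s 11244544 (.pos 45 .mp ⟨⟨87448415, 0, 0, 0, 0, 33658383, 0, 0, 0, ⟨0, 0⟩, 0⟩, 0, 0⟩ 0 0) (.pos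 45 .mp ⟨⟨87878818, 0, 0, 0, 0, 33827341, 0, 0, 0, ⟨0, 0⟩, 0⟩, 0, 0⟩ 0 0)))) (.pos 46 .mp ⟨⟨111555534, 0, 0, 0, 0, 0, 0, 0, 0, ⟨0, 0⟩, 0⟩, 0, 0⟩ 0 0)) (.pos 43 .mp ⟨⟨87720959, 0, 0, 0, 0, 31058441, 0, 0, 0, ⟨0, 0⟩, 0⟩, 0, 0⟩ 0 0))) (.cut .d (-16384) (.cut .s 11266048 (.pos 43 .mp ⟨⟨86755390, 0, 0, 0, 0, 38759621, 0, 0, 0, ⟨0, 0⟩, 0⟩, 0, 0⟩ 0 0) (.pos 43 .mp ⟨⟨87647396, 0, 0, 0, 0, 39112709, 0, 0, 0, ⟨0, 0⟩, 0⟩, 0, 0⟩ 0 0)) (.cut .l 153791 (.cut .v 16809984 (.cut .s 11266048 (.cut .s 11258880 (.pos 45 .mp ⟨⟨87717563, 0, 0, 0, 0, 35102692, 0, 0, 0, ⟨0, 0⟩, 0⟩, 0, 0⟩ 0 0) (.pos 45 .mp ⟨⟨88198632, 0, 0, 0, 0, 35192104, 0, 0, 0, ⟨0, 0⟩,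 0⟩, 0, 0⟩ 0 0)) (.cut .s 11273216 (.pos 45 .mp ⟨⟨88684342, 0, 0, 0, 0, 35278221, 0, 0, 0, ⟨0, 0⟩, 0⟩, 0, 0⟩ 0 0) (.pos 45 .mp ⟨⟨89183349, 0, 0, 0, 0, 35346653, 0, 0, 0, ⟨0, 0⟩, 0⟩, 0, 0⟩ 0 0))) (.pos 46 .mp ⟨⟨113655503, 0, 0, 0, 0, 0, 0, 0, 0, ⟨0, 0⟩, 0⟩, 0, 0⟩ 0 0)) (.pos 43 .mp ⟨⟨89540222, 0, 0, 0, 0, 31498593, 0, 0, 0, ⟨0, 0⟩, 0⟩, 0, 0⟩ 0 0)))) (.pos 44 .mp ⟨⟨112390936, 0, 0, 0, 0, 0, 0, 0, 0, ⟨0, 0⟩, 0⟩, 0, 0⟩ 0 0)) (.cut .v 16842752 (.cut .s 11309056 (.cut .d (-16384) (.cut .s 11294720 (.pos 43 .mp ⟨⟨88547915, 0, 0, 0, 0, 39473770, 0, 0, 0, ⟨0, 0⟩, 0⟩, 0, 0⟩ 0 0) (.pos 43 .mp ⟨⟨89457010, 0, 0, 0, 0, 39842876, 0, 0, 0, ⟨0, 0⟩,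 0⟩, 0, 0⟩ 0 0)) (.cut .l 153791 (.cut .v 16809984 (.cut .s 11294720 (.cut .s 11287552 (.pos 45 .mp ⟨⟨89745514, 0, 0, 0, 0, 35314456, 0, 0, 0, ⟨0, 0⟩, 0⟩, 0, 0⟩ 0 0) (.pos 45 .mp ⟨⟨90316514, 0, 0, 0, 0, 35271907, 0, 0, 0, ⟨0, 0⟩, 0⟩, 0, 0⟩ 0 0)) (.cut .s 11301888 (.pos 45 .mp ⟨⟨90896447, 0, 0, 0, 0, 35218834, 0, 0, 0, ⟨0, 0⟩, 0⟩, 0, 0⟩ 0 0) (.pos 45 .mp ⟨⟨91485411, 0, 0, 0, 0, 35155063, 0, 0, 0, ⟨0, 0⟩, 0⟩, 0, 0⟩ 0 0))) (.pos 46 .mp ⟨⟨115789350, 0, 0, 0, 0, 0, 0, 0, 0, ⟨0, 0⟩, 0⟩, 0, 0⟩ 0 0)) (.pos 43 .mp ⟨⟨91393408, 0, 0, 0, 0, 31941002, 0, 0, 0, ⟨0, 0⟩, 0⟩, 0, 0⟩ 0 0))) (.cut .d (-16384) (.cut .s 11323392 (.pos 43 .mp ⟨⟨90374742,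 0, 0, 0, 0, 40220098, 0, 0, 0, ⟨0, 0⟩, 0⟩, 0, 0⟩ 0 0) (.pos 43 .mp ⟨⟨91301172, 0, 0, 0, 0, 40605505, 0, 0, 0, ⟨0, 0⟩, 0⟩, 0, 0⟩ 0 0)) (.cut .l 153791 (.cut .v 16809984 (.cut .d (-8192) (.pos 45 .mp ⟨⟨90433362, 0, 0, 0, 0, 40962079, 0, 0, 0, ⟨0, 0⟩, 0⟩, 0, 0⟩ 0 0) (.cut .l 76895 (.cut .v 16793600 (.cut .d (-4096) (.pos 47 .mp ⟨⟨90463610, 0, 0, 0, 0, 40692822, 0, 0, 0, ⟨0, 0⟩, 0⟩, 0, 0⟩ 0 0) (.cut .s 11323392 (.cut .s 11316224 (.pos 47 .mp ⟨⟨92273879, 0, 0, 0, 0, 34729214, 0, 0, 0, ⟨0, 0⟩, 0⟩, 0, 0⟩ 0 0) (.pos 47 .mp ⟨⟨92788236, 0, 0, 0, 0, 34812028, 0, 0, 0, ⟨0, 0⟩, 0⟩, 0, 0⟩ 0 0)) (.pos 47 .mp ⟨⟨92925396, 0, 0, 0, 0, 35704093, 0,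 0, 0, ⟨0, 0⟩, 0⟩, 0, 0⟩ 0 0))) (.pos 48 .mp ⟨⟨117684130, 0, 0, 0, 0, 0, 0, 0, 0, ⟨0, 0⟩, 0⟩, 0, 0⟩ 0 0)) (.pos 45 .mp ⟨⟨92729640, 0, 0, 0, 0, 32995151, 0, 0, 0, ⟨0, 0⟩, 0⟩, 0, 0⟩ 0 0))) (.pos 46 .mp ⟨⟨117956482, 0, 0, 0, 0, 0, 0, 0, 0, ⟨0, 0⟩, 0⟩, 0, 0⟩ 0 0)) (.pos 43 .mp ⟨⟨93281009, 0, 0, 0, 0, 32384198, 0, 0, 0, ⟨0, 0⟩, 0⟩, 0, 0⟩ 0 0)))) (.pos 44 .mp ⟨⟨116655099, 0, 0, 0, 0, 0, 0, 0, 0, ⟨0, 0⟩, 0⟩, 0, 0⟩ 0 0)))) (.pos 36 .mp ⟨⟨113202143, 0, 0, 0, 0, 0, 0, 0, 0, ⟨0, 0⟩, 0⟩, 0, 0⟩ 0 0))))))) (.pos 32 .mp ⟨⟨129744849, 0, 0, 0, 0, 0, 0, 0, 0, ⟨0, 0⟩, 0⟩, 0, 0⟩ 0 0))) (.void 30 ⟨⟨100000, 0, 0, 0, 0, 0, 0, 0, 0, ⟨0, 0⟩, 0⟩, 0, 0⟩ 0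 0))) (.void 28 ⟨⟨100000, 0, 0, 0, 0, 0, 0, 0, 0, ⟨0, 0⟩, 0⟩, 0, 0⟩ 0 0))) (.void 26 ⟨⟨100000, 0, 0, 0, 0, 0, 0, 0, 0, ⟨0, 0⟩, 0⟩, 0, 0⟩ 0 0))) (.void 24 ⟨⟨100000, 0, 0, 0, 0, 0, 0, 0, 0, ⟨0, 0⟩, 0⟩, 0, 0⟩ 0 0))) (.void 22 ⟨⟨100000, 0, 0, 0, 0, 0, 0, 0, 0, ⟨0, 0⟩, 0⟩, 0, 0⟩ 0 0)) (.void 103 ⟨⟨100000, 0, 0, 0, 0, 0, 0, 0, 0, ⟨0, 0⟩, 0⟩, 0, 0⟩ 0 0)) (.void 114 ⟨⟨100000, 0, 0, 0, 0, 0, 0, 0, 0, ⟨0, 0⟩, 0⟩, 0, 0⟩ 0 0))) (.cut .v 16777216 (.cut .v 8388608 (.cut .v 4194304 (.void 4 ⟨⟨0, 0, 66667, 0, 0, 0, 0, 0, 0, ⟨0, 0⟩, 0⟩, 0, 33333⟩ 0 0) (.pos 5 .pm ⟨⟨0, 0, 2511862, 0, 0, 0, 0, 0, 0, ⟨0, 0⟩, 0⟩, 0, 0⟩ 0 0)) (.pos 3 .pm ⟨⟨0, 0, 0, 0,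 0, 0, 0, 0, 0, ⟨0, 0⟩, 0⟩, 0, 0⟩ 0 0)) (.cut .v 67108864 (.cut .d 4548041 (.cut .v 33554432 (.cut .d 2274020 (.cut .v 25165824 (.cut .d 1137010 (.cut .v 20971520 (.cut .d 568505 (.cut .v 18874368 (.cut .d 284252 (.cut .d 142126 (.cut .v 17825792 (.cut .d 71063 (.cut .v 17301504 (.cut .s 11108352 (.pos 29 .pp ⟨⟨75974291, 0, 0, 0, 0, 0, 0, 0, 0, ⟨0, 0⟩, 0⟩, 1475344, 0⟩ 0 0) (.pos 29 .pp ⟨⟨89508687, 0, 0, 0, 0, 0, 0, 0, 0, ⟨0, 0⟩, 0⟩, 1604402, 0⟩ 0 0)) (.pos 30 .pp ⟨⟨108501360, 0, 0, 0, 0, 0, 0, 0, 0, ⟨0, 0⟩, 0⟩, 0, 0⟩ 0 0)) (.pos 27 .pp ⟨⟨77454546, 0, 0, 0, 0, 0, 0, 0, 0, ⟨0, 0⟩, 0⟩, 0, 56204⟩ 0 0)) (.pos 28 .pp ⟨⟨121765089, 0, 0,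 0, 0, 0, 0, 0, 0, ⟨0, 0⟩, 0⟩, 0, 0⟩ 0 0)) (.pos 25 .pp ⟨⟨83168476, 0, 0, 0, 0, 0, 0, 0, 0, ⟨0, 0⟩, 0⟩, 0, 13905⟩ 0 0)) (.pos 25 .pp ⟨⟨0, 0, 0, 0, 0, 0, 0, 0, 0, ⟨0, 0⟩, 0⟩, 0, 666616⟩ 0 0)) (.cut .d 284252 (.pos 26 .pp ⟨⟨147376947, 0, 0, 0, 0, 0, 0, 0, 0, ⟨0, 0⟩, 0⟩, 0, 0⟩ 0 0) (.pos 26 .pp ⟨⟨108043416, 0, 0, 0, 0, 0, 0, 0, 0, ⟨0, 0⟩, 0⟩, 0, 0⟩ 0 0))) (.pos 23 .pp ⟨⟨0, 0, 0, 0, 0, 0, 0, 0, 0, ⟨0, 0⟩, 0⟩, 0, 699535⟩ 0 0)) (.cut .d 568505 (.cut .v 23068672 (.cut .d 284252 (.void 55 ⟨⟨0, 0, 0, 0, 0, 0, 0, 0, 0, ⟨0, 0⟩, 0⟩, 100000, 0⟩ 0 0) (.cut .v 22020096 (.cut .d 426378 (.pos 57 .pp ⟨⟨160576122, 0, 0, 0, 0, 0, 0, 0, 0, ⟨0, 0⟩, 0⟩,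 0, 0⟩ 0 0) (.pos 57 .pp ⟨⟨127567534, 0, 0, 0, 0, 0, 0, 0, 0, ⟨0, 0⟩, 0⟩, 0, 0⟩ 0 0)) (.pos 58 .pp ⟨⟨170143340, 0, 0, 0, 0, 0, 0, 0, 0, ⟨0, 0⟩, 0⟩, 0, 0⟩ 0 0))) (.pos 56 .pp ⟨⟨0, 0, 0, 0, 0, 0, 0, 0, 0, ⟨0, 0⟩, 0⟩, 28311276, 0⟩ 0 0)) (.cut .v 23068672 (.pos 55 .pp ⟨⟨0, 0, 0, 0, 0, 0, 177256, 0, 0, ⟨0, 0⟩, 0⟩, 13728822, 0⟩ 0 0) (.cut .v 24117248 (.pos 59 .pp ⟨⟨0, 0, 0, 0, 0, 0, 0, 0, 0, ⟨0, 0⟩, 0⟩, 16902842, 0⟩ 0 0) (.pos 60 .pp ⟨⟨0, 0, 0, 0, 0, 0, 0, 0, 0, ⟨0, 0⟩, 0⟩, 19042934, 0⟩ 0 0))))) (.pos 21 .pp ⟨⟨0, 0, 0, 0, 0, 0, 0, 0, 0, ⟨0, 0⟩, 0⟩, 0, 755498⟩ 0 0)) (.cut .d 1137010 (.cut .v 29360128 (.cut .d 568505 (.void 91 ⟨⟨0, 0, 0,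 0, 0, 0, 0, 0, 0, ⟨0, 0⟩, 0⟩, 100000, 0⟩ 0 0) (.cut .d 852757 (.pos 91 .pp ⟨⟨0, 0, 0, 0, 0, 0, 0, 0, 0, ⟨0, 0⟩, 0⟩, 25464075, 0⟩ 0 0) (.pos 91 .pp ⟨⟨0, 0, 0, 0, 0, 0, 0, 0, 0, ⟨0, 0⟩, 0⟩, 19146644, 0⟩ 0 0))) (.void 92 ⟨⟨0, 0, 0, 0, 0, 0, 0, 0, 0, ⟨0, 0⟩, 0⟩, 100000, 0⟩ 0 0)) (.pos 22 .pp ⟨⟨0, 0, 0, 0, 0, 0, 55289, 0, 0, ⟨0, 0⟩, 0⟩, 17349284, 0⟩ 0 0))) (.pos 20 .pp ⟨⟨0, 0, 0, 0, 0, 0, 2495833, 0, 0, ⟨0, 0⟩, 0⟩, 0, 0⟩ 0 0)) (.cut .v 50331648 (.cut .d 2274020 (.pos 106 .pp ⟨⟨0, 0, 0, 0, 0, 0, 0, 0, 0, ⟨0, 0⟩, 0⟩, 50665723, 0⟩ 0 0) (.pos 106 .pp ⟨⟨0, 0, 0, 0, 0, 0, 0, 0, 0, ⟨0, 0⟩, 0⟩, 18791939, 0⟩ 0 0)) (.void 107 ⟨⟨0, 91123, 0, 0,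 0, 0, 0, 0, 0, ⟨0, 0⟩, 0⟩, 8877, 0⟩ 0 0))) (.pos 102 .pp ⟨⟨0, 0, 0, 0, 0, 0, 0, 0, 0, ⟨0, 0⟩, 0⟩, 0, 41480072⟩ 0 0)) (.void 114 ⟨⟨0, 0, 0, 44122, 0, 0, 0, 0, 0, ⟨0, 0⟩, 0⟩, 55878, 0⟩ 0 0)))),
    by decide +kernel⟩

theorem covers16 : cell.Covers Vale.Agent.P237.Petty.Cor.Grid.N12.table row16.1 :=
  ⟨(.cut .d 0 (.cut .v 16777216 (.cut .d (-8388608) (.void 1 ⟨⟨0, 0, 0, 0, 0, 100000, 0, 0, 0, ⟨0, 0⟩, 0⟩, 0, 0⟩ 0 0) (.cut .d (-4194304) (.void 1 ⟨⟨0, 0, 0, 0, 0, 100000, 0, 0, 0, ⟨0, 0⟩, 0⟩, 0, 0⟩ 0 0) (.cut .d (-2097152) (.void 1 ⟨⟨0, 0, 0, 0, 0, 100000, 0, 0, 0, ⟨0, 0⟩, 0⟩, 0, 0⟩ 0 0) (.cut .d (-1048576) (.void 1 ⟨⟨0, 0, 0, 0, 0, 100000,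 0, 0, 0, ⟨0, 0⟩, 0⟩, 0, 0⟩ 0 0) (.cut .d (-524288) (.void 1 ⟨⟨0, 0, 0, 0, 0, 100000, 0, 0, 0, ⟨0, 0⟩, 0⟩, 0, 0⟩ 0 0) (.cut .d (-262144) (.void 1 ⟨⟨0, 0, 0, 0, 0, 100000, 0, 0, 0, ⟨0, 0⟩, 0⟩, 0, 0⟩ 0 0) (.cut .d (-131072) (.void 1 ⟨⟨0, 0, 0, 0, 0, 100000, 0, 0, 0, ⟨0, 0⟩, 0⟩, 0, 0⟩ 0 0) (.cut .d (-65536) (.void 1 ⟨⟨0, 0, 0, 0, 0, 100000, 0, 0, 0, ⟨0, 0⟩, 0⟩, 0, 0⟩ 0 0) (.cut .d (-32768) (.void 1 ⟨⟨0, 0, 0, 0, 0, 100000, 0, 0, 0, ⟨0, 0⟩, 0⟩, 0, 0⟩ 0 0) (.cut .v 8388608 (.cut .v 4194304 (.void 4 ⟨⟨0, 0, 100000, 0, 0, 0, 0, 0, 0, ⟨0, 0⟩, 0⟩, 0, 0⟩ 0 0) (.pos 5 .mm ⟨⟨0, 0, 3811499, 0, 0, 62454839, 0, 0, 0, ⟨0, 0⟩, 0⟩, 0, 0⟩ 0 0)) (.cut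 .s 11534336 (.pos 3 .mm ⟨⟨0, 0, 0, 0, 0, 191987304, 0, 0, 0, ⟨0, 0⟩, 0⟩, 0, 0⟩ 0 0) (.pos 3 .mm ⟨⟨0, 0, 0, 0, 0, 221376480, 0, 0, 0, ⟨0, 0⟩, 0⟩, 0, 0⟩ 0 0)))))))))))) (.cut .v 67108864 (.cut .v 33554432 (.cut .v 25165824 (.cut .d (-8388608) (.void 21 ⟨⟨100000, 0, 0, 0, 0, 0, 0, 0, 0, ⟨0, 0⟩, 0⟩, 0, 0⟩ 0 0) (.cut .v 20971520 (.cut .d (-4194304) (.void 23 ⟨⟨100000, 0, 0, 0, 0, 0, 0, 0, 0, ⟨0, 0⟩, 0⟩, 0, 0⟩ 0 0) (.cut .v 18874368 (.cut .d (-2097152) (.void 25 ⟨⟨100000, 0, 0, 0, 0, 0, 0, 0, 0, ⟨0, 0⟩, 0⟩, 0, 0⟩ 0 0) (.cut .v 17825792 (.cut .d (-1048576) (.void 27 ⟨⟨100000, 0, 0, 0, 0, 0, 0, 0, 0, ⟨0, 0⟩, 0⟩, 0, 0⟩ 0 0) (.cut .v 17301504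 (.cut .d (-524288) (.void 29 ⟨⟨100000, 0, 0, 0, 0, 0, 0, 0, 0, ⟨0, 0⟩, 0⟩, 0, 0⟩ 0 0) (.cut .v 17039360 (.cut .d (-262144) (.void 31 ⟨⟨100000, 0, 0, 0, 0, 0, 0, 0, 0, ⟨0, 0⟩, 0⟩, 0, 0⟩ 0 0) (.cut .d (-131072) (.void 31 ⟨⟨100000, 0, 0, 0, 0, 0, 0, 0, 0, ⟨0, 0⟩, 0⟩, 0, 0⟩ 0 0) (.cut .d (-65536) (.void 31 ⟨⟨100000, 0, 0, 0, 0, 0, 0, 0, 0, ⟨0, 0⟩, 0⟩, 0, 0⟩ 0 0) (.cut .d (-32768) (.void 31 ⟨⟨0, 0, 0, 0, 0, 100000, 0, 0, 0, ⟨0, 0⟩, 0⟩, 0, 0⟩ 0 0) (.cut .s 11534336 (.cut .v 16908288 (.cut .s 11436032 (.cut .s 11386880 (.cut .v 16842752 (.cut .s 11362304 (.cut .d (-16384) (.pos 43 .mp ⟨⟨92234389, 0, 0, 0, 0, 41949839, 0, 0, 0, ⟨0, 0⟩,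 0⟩, 0, 0⟩ 0 0) (.cut .l 153791 (.cut .v 16809984 (.cut .d (-8192) (.pos 45 .mp ⟨⟨92289273, 0, 0, 0, 0, 41412324, 0, 0, 0, ⟨0, 0⟩, 0⟩, 0, 0⟩ 0 0) (.cut .s 11350016 (.pos 45 .mp ⟨⟨94319500, 0, 0, 0, 0, 35260918, 0, 0, 0, ⟨0, 0⟩, 0⟩, 0, 0⟩ 0 0) (.pos 45 .mp ⟨⟨95144736, 0, 0, 0, 0, 35434742, 0, 0, 0, ⟨0, 0⟩, 0⟩, 0, 0⟩ 0 0))) (.pos 46 .mp ⟨⟨120289045, 0, 0, 0, 0, 0, 0, 0, 0, ⟨0, 0⟩, 0⟩, 0, 0⟩ 0 0)) (.pos 43 .mp ⟨⟨95093926, 0, 0, 0, 0, 33132194, 0, 0, 0, ⟨0, 0⟩, 0⟩, 0, 0⟩ 0 0))) (.cut .d (-16384) (.cut .s 11374592 (.pos 43 .mp ⟨⟨93863318, 0, 0, 0, 0, 41221690, 0, 0, 0, ⟨0, 0⟩, 0⟩, 0, 0⟩ 0 0) (.pos 43 .mp ⟨⟨94688635, 0, 0, 0, 0, 41430805,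 0, 0, 0, ⟨0, 0⟩, 0⟩, 0, 0⟩ 0 0)) (.cut .l 153791 (.cut .v 16809984 (.cut .d (-8192) (.pos 45 .mp ⟨⟨93913235, 0, 0, 0, 0, 41842225, 0, 0, 0, ⟨0, 0⟩, 0⟩, 0, 0⟩ 0 0) (.cut .l 76895 (.cut .d (-4096) (.pos 45 .mp ⟨⟨96009827, 0, 0, 0, 0, 37516772, 0, 0, 0, ⟨0, 0⟩, 0⟩, 0, 0⟩ 0 0) (.cut .s 11374592 (.pos 45 .mp ⟨⟨95558656, 0, 0, 0, 0, 36250740, 0, 0, 0, ⟨0, 0⟩, 0⟩, 0, 0⟩ 0 0) (.pos 45 .mp ⟨⟨96408519, 0, 0, 0, 0, 36414222, 0, 0, 0, ⟨0, 0⟩, 0⟩, 0, 0⟩ 0 0))) (.pos 45 .mp ⟨⟨96191126, 0, 0, 0, 0, 34185473, 0, 0, 0, ⟨0, 0⟩, 0⟩, 0, 0⟩ 0 0))) (.pos 46 .mp ⟨⟨122221276, 0, 0, 0, 0, 0, 0, 0, 0, ⟨0, 0⟩, 0⟩, 0, 0⟩ 0 0)) (.pos 43 .mp ⟨⟨96771531, 0, 0,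 0, 0, 33537587, 0, 0, 0, ⟨0, 0⟩, 0⟩, 0, 0⟩ 0 0)))) (.pos 44 .mp ⟨⟨121325378, 0, 0, 0, 0, 0, 0, 0, 0, ⟨0, 0⟩, 0⟩, 0, 0⟩ 0 0)) (.cut .v 16842752 (.cut .d (-16384) (.cut .l 153791 (.void 43 ⟨⟨0, 0, 0, 0, 0, 100000, 0, 0, 0, ⟨0, 0⟩, 0⟩, 0, 0⟩ 0 0) (.cut .s 11411456 (.pos 43 .mp ⟨⟨95521246, 0, 0, 0, 0, 42020127, 0, 0, 0, ⟨0, 0⟩, 0⟩, 0, 0⟩ 0 0) (.pos 43 .mp ⟨⟨97208535, 0, 0, 0, 0, 42555685, 0, 0, 0, ⟨0, 0⟩, 0⟩, 0, 0⟩ 0 0))) (.cut .l 153791 (.cut .v 16809984 (.cut .s 11411456 (.cut .d (-8192) (.pos 45 .mp ⟨⟨95566053, 0, 0, 0, 0, 42299768, 0, 0, 0, ⟨0, 0⟩, 0⟩, 0, 0⟩ 0 0) (.cut .l 76895 (.cut .d (-4096) (.pos 45 .mp ⟨⟨97577337, 0, 0, 0,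 0, 38184683, 0, 0, 0, ⟨0, 0⟩, 0⟩, 0, 0⟩ 0 0) (.cut .s 11399168 (.pos 45 .mp ⟨⟨97251095, 0, 0, 0, 0, 36613023, 0, 0, 0, ⟨0, 0⟩, 0⟩, 0, 0⟩ 0 0) (.cut .s 11405312 (.pos 45 .mp ⟨⟨97792472, 0, 0, 0, 0, 37125428, 0, 0, 0, ⟨0, 0⟩, 0⟩, 0, 0⟩ 0 0) (.pos 45 .mp ⟨⟨98196408, 0, 0, 0, 0, 37262814, 0, 0, 0, ⟨0, 0⟩, 0⟩, 0, 0⟩ 0 0)))) (.pos 45 .mp ⟨⟨97883221, 0, 0, 0, 0, 34627540, 0, 0, 0, ⟨0, 0⟩, 0⟩, 0, 0⟩ 0 0))) (.cut .d (-8192) (.pos 45 .mp ⟨⟨97248087, 0, 0, 0, 0, 42785386, 0, 0, 0, ⟨0, 0⟩, 0⟩, 0, 0⟩ 0 0) (.cut .l 76895 (.cut .v 16793600 (.cut .d (-4096) (.pos 47 .mp ⟨⟨97268862, 0, 0, 0, 0, 42515562, 0, 0, 0, ⟨0, 0⟩, 0⟩, 0, 0⟩ 0 0) (.cut .l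 38447 (.cut .d (-2048) (.pos 47 .mp ⟨⟨99235573, 0, 0, 0, 0, 38433354, 0, 0, 0, ⟨0, 0⟩, 0⟩, 0, 0⟩ 0 0) (.cut .s 11423744 (.pos 47 .mp ⟨⟨98547605, 0, 0, 0, 0, 37660786, 0, 0, 0, ⟨0, 0⟩, 0⟩, 0, 0⟩ 0 0) (.pos 47 .mp ⟨⟨99409613, 0, 0, 0, 0, 37881323, 0, 0, 0, ⟨0, 0⟩, 0⟩, 0, 0⟩ 0 0))) (.pos 47 .mp ⟨⟨99300486, 0, 0, 0, 0, 35428500, 0, 0, 0, ⟨0, 0⟩, 0⟩, 0, 0⟩ 0 0))) (.pos 48 .mp ⟨⟨125918213, 0, 0, 0, 0, 0, 0, 0, 0, ⟨0, 0⟩, 0⟩, 0, 0⟩ 0 0)) (.pos 45 .mp ⟨⟨99605130, 0, 0, 0, 0, 35085845, 0, 0, 0, ⟨0, 0⟩, 0⟩, 0, 0⟩ 0 0)))) (.pos 46 .mp ⟨⟨124700141, 0, 0, 0, 0, 0, 0, 0, 0, ⟨0, 0⟩, 0⟩, 0, 0⟩ 0 0)) (.cut .s 11411456 (.pos 43 .mp ⟨⟨98478955, 0,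 0, 0, 0, 33959909, 0, 0, 0, ⟨0, 0⟩, 0⟩, 0, 0⟩ 0 0) (.pos 43 .mp ⟨⟨100216572, 0, 0, 0, 0, 34397957, 0, 0, 0, ⟨0, 0⟩, 0⟩, 0, 0⟩ 0 0)))) (.pos 44 .mp ⟨⟨125278622, 0, 0, 0, 0, 0, 0, 0, 0, ⟨0, 0⟩, 0⟩, 0, 0⟩ 0 0))) (.cut .s 11485184 (.cut .v 16842752 (.cut .d (-16384) (.cut .l 153791 (.void 43 ⟨⟨0, 0, 0, 0, 0, 100000, 0, 0, 0, ⟨0, 0⟩, 0⟩, 0, 0⟩ 0 0) (.cut .s 11460608 (.pos 43 .mp ⟨⟨98925553, 0, 0, 0, 0, 43113285, 0, 0, 0, ⟨0, 0⟩, 0⟩, 0, 0⟩ 0 0) (.cut .s 11472896 (.pos 43 .mp ⟨⟨100854808, 0, 0, 0, 0, 42160626, 0, 0, 0, ⟨0, 0⟩, 0⟩, 0, 0⟩ 0 0) (.pos 43 .mp ⟨⟨101701581, 0, 0, 0, 0, 42513879, 0, 0, 0, ⟨0, 0⟩, 0⟩, 0, 0⟩ 0 0)))) (.cut .l 153791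 (.cut .v 16809984 (.cut .s 11460608 (.cut .d (-8192) (.pos 45 .mp ⟨⟨98959702, 0, 0, 0, 0, 43299521, 0, 0, 0, ⟨0, 0⟩, 0⟩, 0, 0⟩ 0 0) (.cut .l 76895 (.cut .v 16793600 (.cut .d (-4096) (.pos 47 .mp ⟨⟨98977792, 0, 0, 0, 0, 43029984, 0, 0, 0, ⟨0, 0⟩, 0⟩, 0, 0⟩ 0 0) (.cut .l 38447 (.cut .d (-2048) (.pos 47 .mp ⟨⟨100883825, 0, 0, 0, 0, 39099494, 0, 0, 0, ⟨0, 0⟩, 0⟩, 0, 0⟩ 0 0) (.cut .v 16785408 (.cut .l 19223 (.cut .d (-1024) (.pos 81 .mp ⟨⟨100909477, 0, 0, 0, 0, 38884587, 0, 0, 0, ⟨0, 0⟩, 0⟩, 0, 0⟩ 0 0) (.cut .s 11448320 (.pos 81 .mp ⟨⟨100066311, 0, 0, 0, 0, 38437497, 0, 0, 0, ⟨0, 0⟩, 0⟩, 0, 0⟩ 0 0) (.cut .s 11454464 (.pos 81 .mp ⟨⟨101030329,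 0, 0, 0, 0, 38343514, 0, 0, 0, ⟨0, 0⟩, 0⟩, 0, 0⟩ 0 0) (.pos 81 .mp ⟨⟨101453308, 0, 0, 0, 0, 38487022, 0, 0, 0, ⟨0, 0⟩, 0⟩, 0, 0⟩ 0 0)))) (.pos 81 .mp ⟨⟨100888498, 0, 0, 0, 0, 36088431, 0, 0, 0, ⟨0, 0⟩, 0⟩, 0, 0⟩ 0 0)) (.pos 82 .mp ⟨⟨124090256, 0, 0, 0, 0, 0, 0, 0, 0, ⟨0, 0⟩, 0⟩, 0, 0⟩ 0 0))) (.pos 47 .mp ⟨⟨101044559, 0, 0, 0, 0, 35912205, 0, 0, 0, ⟨0, 0⟩, 0⟩, 0, 0⟩ 0 0))) (.pos 48 .mp ⟨⟨127967881, 0, 0, 0, 0, 0, 0, 0, 0, ⟨0, 0⟩, 0⟩, 0, 0⟩ 0 0)) (.pos 45 .mp ⟨⟨101357228, 0, 0, 0, 0, 35559187, 0, 0, 0, ⟨0, 0⟩, 0⟩, 0, 0⟩ 0 0))) (.cut .d (-8192) (.cut .s 11472896 (.pos 45 .mp ⟨⟨100701272, 0, 0, 0, 0, 42559671, 0, 0, 0, ⟨0, 0⟩, 0⟩, 0,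 0⟩ 0 0) (.pos 45 .mp ⟨⟨101583408, 0, 0, 0, 0, 42825779, 0, 0, 0, ⟨0, 0⟩, 0⟩, 0, 0⟩ 0 0)) (.cut .l 76895 (.cut .v 16793600 (.cut .d (-4096) (.pos 47 .mp ⟨⟨100716602, 0, 0, 0, 0, 43573413, 0, 0, 0, ⟨0, 0⟩, 0⟩, 0, 0⟩ 0 0) (.cut .l 38447 (.cut .v 16785408 (.cut .d (-2048) (.pos 81 .mp ⟨⟨100724525, 0, 0, 0, 0, 43438378, 0, 0, 0, ⟨0, 0⟩, 0⟩, 0, 0⟩ 0 0) (.cut .l 19223 (.cut .d (-1024) (.pos 81 .mp ⟨⟨102600914, 0, 0, 0, 0, 39544582, 0, 0, 0, ⟨0, 0⟩, 0⟩, 0, 0⟩ 0 0) (.cut .v 16781312 (.cut .l 9611 (.cut .d (-512) (.pos 83 .mp ⟨⟨102606216, 0, 0, 0, 0, 39453866, 0, 0, 0, ⟨0, 0⟩, 0⟩, 0, 0⟩ 0 0) (.cut .v 16779264 (.cut .l 4805 (.cut .s 11472896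 (.cut .s 11466752 (.pos 85 .mp ⟨⟨102132171, 0, 0, 0, 0, 38131029, 0, 0, 0, ⟨0, 0⟩, 0⟩, 0, 0⟩ 0 0) (.pos 85 .mp ⟨⟨102554964, 0, 0, 0, 0, 38285690, 0, 0, 0, ⟨0, 0⟩, 0⟩, 0, 0⟩ 0 0)) (.cut .s 11479040 (.pos 85 .mp ⟨⟨102980615, 0, 0, 0, 0, 38440309, 0, 0, 0, ⟨0, 0⟩, 0⟩, 0, 0⟩ 0 0) (.pos 85 .mp ⟨⟨103409158, 0, 0, 0, 0, 38594834, 0, 0, 0, ⟨0, 0⟩, 0⟩, 0, 0⟩ 0 0))) (.pos 85 .mp ⟨⟨102538893, 0, 0, 0, 0, 36727839, 0, 0, 0, ⟨0, 0⟩, 0⟩, 0, 0⟩ 0 0)) (.pos 86 .mp ⟨⟨126046079, 0, 0, 0, 0, 0, 0, 0, 0, ⟨0, 0⟩, 0⟩, 0, 0⟩ 0 0))) (.pos 83 .mp ⟨⟨102578842, 0, 0, 0, 0, 36682309, 0, 0, 0, ⟨0, 0⟩, 0⟩, 0, 0⟩ 0 0)) (.pos 84 .mp ⟨⟨126066093, 0, 0, 0, 0, 0,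 0, 0, 0, ⟨0, 0⟩, 0⟩, 0, 0⟩ 0 0))) (.pos 81 .mp ⟨⟨102658846, 0, 0, 0, 0, 36591534, 0, 0, 0, ⟨0, 0⟩, 0⟩, 0, 0⟩ 0 0))) (.pos 82 .mp ⟨⟨129906696, 0, 0, 0, 0, 0, 0, 0, 0, ⟨0, 0⟩, 0⟩, 0, 0⟩ 0 0)) (.pos 47 .mp ⟨⟨102819011, 0, 0, 0, 0, 36410000, 0, 0, 0, ⟨0, 0⟩, 0⟩, 0, 0⟩ 0 0))) (.pos 48 .mp ⟨⟨130057027, 0, 0, 0, 0, 0, 0, 0, 0, ⟨0, 0⟩, 0⟩, 0, 0⟩ 0 0)) (.pos 45 .mp ⟨⟨103139900, 0, 0, 0, 0, 36046352, 0, 0, 0, ⟨0, 0⟩, 0⟩, 0, 0⟩ 0 0)))) (.pos 46 .mp ⟨⟨128796110, 0, 0, 0, 0, 0, 0, 0, 0, ⟨0, 0⟩, 0⟩, 0, 0⟩ 0 0)) (.cut .s 11460608 (.pos 43 .mp ⟨⟨101984763, 0, 0, 0, 0, 34850519, 0, 0, 0, ⟨0, 0⟩, 0⟩, 0, 0⟩ 0 0) (.pos 43 .mp ⟨⟨103783916, 0, 0, 0,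 0, 35316371, 0, 0, 0, ⟨0, 0⟩, 0⟩, 0, 0⟩ 0 0)))) (.cut .s 11460608 (.pos 44 .mp ⟨⟨128856016, 0, 0, 0, 0, 0, 0, 0, 0, ⟨0, 0⟩, 0⟩, 0, 0⟩ 0 0) (.pos 44 .mp ⟨⟨130959852, 0, 0, 0, 0, 0, 0, 0, 0, ⟨0, 0⟩, 0⟩, 0, 0⟩ 0 0))) (.cut .v 16842752 (.cut .d (-16384) (.cut .l 153791 (.void 43 ⟨⟨0, 0, 0, 0, 0, 100000, 0, 0, 0, ⟨0, 0⟩, 0⟩, 0, 0⟩ 0 0) (.cut .d (-24576) (.pos 43 .mp ⟨⟨103347937, 0, 0, 0, 0, 48013899, 0, 0, 0, ⟨0, 0⟩, 0⟩, 0, 0⟩ 0 0) (.cut .v 16809984 (.pos 45 .mp ⟨⟨0, 0, 0, 0, 0, 219143366, 0, 0, 0, ⟨0, 0⟩, 0⟩, 0, 0⟩ 0 0) (.cut .l 230687 (.pos 46 .mp ⟨⟨104418715, 0, 0, 0, 0, 44829499, 0, 0, 0, ⟨0, 0⟩, 0⟩, 0, 0⟩ 0 0) (.cut .s 11509760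 (.pos 46 .mp ⟨⟨106276538, 0, 0, 0, 0, 36458875, 0, 0, 0, ⟨0, 0⟩, 0⟩, 0, 0⟩ 0 0) (.pos 46 .mp ⟨⟨104676809, 0, 0, 0, 0, 43309845, 0, 0, 0, ⟨0, 0⟩, 0⟩, 0, 0⟩ 0 0)))))) (.cut .l 153791 (.cut .v 16809984 (.cut .s 11509760 (.cut .d (-8192) (.cut .s 11497472 (.pos 45 .mp ⟨⟨102473177, 0, 0, 0, 0, 43099230, 0, 0, 0, ⟨0, 0⟩, 0⟩, 0, 0⟩ 0 0) (.pos 45 .mp ⟨⟨103370626, 0, 0, 0, 0, 43380082, 0, 0, 0, ⟨0, 0⟩, 0⟩, 0, 0⟩ 0 0)) (.cut .l 76895 (.cut .v 16793600 (.cut .d (-4096) (.pos 47 .mp ⟨⟨102485672, 0, 0, 0, 0, 44146307, 0, 0, 0, ⟨0, 0⟩, 0⟩, 0, 0⟩ 0 0) (.cut .l 38447 (.cut .v 16785408 (.cut .d (-2048) (.pos 81 .mp ⟨⟨102492182, 0, 0, 0, 0, 44011452,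 0, 0, 0, ⟨0, 0⟩, 0⟩, 0, 0⟩ 0 0) (.cut .l 19223 (.cut .v 16781312 (.cut .d (-1024) (.pos 83 .mp ⟨⟨102495512, 0, 0, 0, 0, 43943944, 0, 0, 0, ⟨0, 0⟩, 0⟩, 0, 0⟩ 0 0) (.cut .l 9611 (.cut .d (-512) (.pos 83 .mp ⟨⟨104350312, 0, 0, 0, 0, 40087414, 0, 0, 0, ⟨0, 0⟩, 0⟩, 0, 0⟩ 0 0) (.cut .v 16779264 (.cut .l 4805 (.cut .s 11497472 (.cut .s 11491328 (.pos 85 .mp ⟨⟨103840627, 0, 0, 0, 0, 38749214, 0, 0, 0, ⟨0, 0⟩, 0⟩, 0, 0⟩ 0 0) (.pos 85 .mp ⟨⟨104275058, 0, 0, 0, 0, 38903397, 0, 0, 0, ⟨0, 0⟩, 0⟩, 0, 0⟩ 0 0)) (.cut .s 11503616 (.pos 85 .mp ⟨⟨104712486, 0, 0, 0, 0, 39057332, 0, 0, 0, ⟨0, 0⟩, 0⟩, 0, 0⟩ 0 0) (.pos 85 .mp ⟨⟨105152946, 0, 0, 0, 0,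 39210966, 0, 0, 0, ⟨0, 0⟩, 0⟩, 0, 0⟩ 0 0))) (.pos 85 .mp ⟨⟨104336762, 0, 0, 0, 0, 37248032, 0, 0, 0, ⟨0, 0⟩, 0⟩, 0, 0⟩ 0 0)) (.pos 86 .mp ⟨⟨128104621, 0, 0, 0, 0, 0, 0, 0, 0, ⟨0, 0⟩, 0⟩, 0, 0⟩ 0 0))) (.pos 83 .mp ⟨⟨104377759, 0, 0, 0, 0, 37201139, 0, 0, 0, ⟨0, 0⟩, 0⟩, 0, 0⟩ 0 0))) (.pos 84 .mp ⟨⟨131955487, 0, 0, 0, 0, 0, 0, 0, 0, ⟨0, 0⟩, 0⟩, 0, 0⟩ 0 0)) (.pos 81 .mp ⟨⟨104459863, 0, 0, 0, 0, 37107642, 0, 0, 0, ⟨0, 0⟩, 0⟩, 0, 0⟩ 0 0))) (.pos 82 .mp ⟨⟨132032260, 0, 0, 0, 0, 0, 0, 0, 0, ⟨0, 0⟩, 0⟩, 0, 0⟩ 0 0)) (.pos 47 .mp ⟨⟨104624230, 0, 0, 0, 0, 36920664, 0, 0, 0, ⟨0, 0⟩, 0⟩, 0, 0⟩ 0 0))) (.pos 48 .mp ⟨⟨132185091, 0, 0, 0, 0, 0, 0,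 0, 0, ⟨0, 0⟩, 0⟩, 0, 0⟩ 0 0)) (.pos 45 .mp ⟨⟨104953535, 0, 0, 0, 0, 36546117, 0, 0, 0, ⟨0, 0⟩, 0⟩, 0, 0⟩ 0 0))) (.cut .d (-8192) (.cut .s 11522048 (.pos 45 .mp ⟨⟨104275805, 0, 0, 0, 0, 43668394, 0, 0, 0, ⟨0, 0⟩, 0⟩, 0, 0⟩ 0 0) (.pos 45 .mp ⟨⟨105188763, 0, 0, 0, 0, 43964225, 0, 0, 0, ⟨0, 0⟩, 0⟩, 0, 0⟩ 0 0)) (.cut .l 76895 (.cut .v 16793600 (.cut .d (-4096) (.pos 47 .mp ⟨⟨104285390, 0, 0, 0, 0, 44749132, 0, 0, 0, ⟨0, 0⟩, 0⟩, 0, 0⟩ 0 0) (.cut .l 38447 (.cut .v 16785408 (.cut .d (-2048) (.pos 81 .mp ⟨⟨104290449, 0, 0, 0, 0, 44614478, 0, 0, 0, ⟨0, 0⟩, 0⟩, 0, 0⟩ 0 0) (.cut .l 19223 (.cut .v 16781312 (.cut .d (-1024) (.pos 83 .mp ⟨⟨104293054,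 0, 0, 0, 0, 44547071, 0, 0, 0, ⟨0, 0⟩, 0⟩, 0, 0⟩ 0 0) (.cut .l 9611 (.cut .s 11522048 (.cut .s 11515904 (.pos 83 .mp ⟨⟨105600982, 0, 0, 0, 0, 39357127, 0, 0, 0, ⟨0, 0⟩, 0⟩, 0, 0⟩ 0 0) (.pos 83 .mp ⟨⟨106047630, 0, 0, 0, 0, 39509969, 0, 0, 0, ⟨0, 0⟩, 0⟩, 0, 0⟩ 0 0)) (.cut .s 11528192 (.pos 83 .mp ⟨⟨106497416, 0, 0, 0, 0, 39662350, 0, 0, 0, ⟨0, 0⟩, 0⟩, 0, 0⟩ 0 0) (.pos 83 .mp ⟨⟨106950378, 0, 0, 0, 0, 39814217, 0, 0, 0, ⟨0, 0⟩, 0⟩, 0, 0⟩ 0 0))) (.pos 83 .mp ⟨⟨106207691, 0, 0, 0, 0, 37731815, 0, 0, 0, ⟨0, 0⟩, 0⟩, 0, 0⟩ 0 0))) (.pos 84 .mp ⟨⟨134118078, 0, 0, 0, 0, 0, 0, 0, 0, ⟨0, 0⟩, 0⟩, 0, 0⟩ 0 0)) (.pos 81 .mp ⟨⟨106291944, 0, 0, 0,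 0, 37635527, 0, 0, 0, ⟨0, 0⟩, 0⟩, 0, 0⟩ 0 0))) (.pos 82 .mp ⟨⟨134196134, 0, 0, 0, 0, 0, 0, 0, 0, ⟨0, 0⟩, 0⟩, 0, 0⟩ 0 0)) (.pos 47 .mp ⟨⟨106460612, 0, 0, 0, 0, 37442968, 0, 0, 0, ⟨0, 0⟩, 0⟩, 0, 0⟩ 0 0))) (.pos 48 .mp ⟨⟨134351520, 0, 0, 0, 0, 0, 0, 0, 0, ⟨0, 0⟩, 0⟩, 0, 0⟩ 0 0)) (.pos 45 .mp ⟨⟨106798531, 0, 0, 0, 0, 37057245, 0, 0, 0, ⟨0, 0⟩, 0⟩, 0, 0⟩ 0 0)))) (.pos 46 .mp ⟨⟨133048597, 0, 0, 0, 0, 0, 0, 0, 0, ⟨0, 0⟩, 0⟩, 0, 0⟩ 0 0)) (.cut .s 11509760 (.pos 43 .mp ⟨⟨105614425, 0, 0, 0, 0, 35794279, 0, 0, 0, ⟨0, 0⟩, 0⟩, 0, 0⟩ 0 0) (.pos 43 .mp ⟨⟨107476695, 0, 0, 0, 0, 36282997, 0, 0, 0, ⟨0, 0⟩, 0⟩, 0, 0⟩ 0 0)))) (.cut .s 11509760 (.pos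 44 .mp ⟨⟨133102935, 0, 0, 0, 0, 0, 0, 0, 0, ⟨0, 0⟩, 0⟩, 0, 0⟩ 0 0) (.pos 44 .mp ⟨⟨135284707, 0, 0, 0, 0, 0, 0, 0, 0, ⟨0, 0⟩, 0⟩, 0, 0⟩ 0 0))))) (.pos 36 .mp ⟨⟨130113516, 0, 0, 0, 0, 0, 0, 0, 0, ⟨0, 0⟩, 0⟩, 0, 0⟩ 0 0)) (.cut .v 16908288 (.cut .s 11632640 (.cut .s 11583488 (.cut .v 16842752 (.cut .d (-16384) (.cut .d (-24576) (.pos 43 .mp ⟨⟨107039338, 0, 0, 0, 0, 49477197, 0, 0, 0, ⟨0, 0⟩, 0⟩, 0, 0⟩ 0 0) (.cut .l 153791 (.void 43 ⟨⟨0, 0, 0, 0, 0, 100000, 0, 0, 0, ⟨0, 0⟩, 0⟩, 0, 0⟩ 0 0) (.cut .v 16809984 (.pos 45 .mp ⟨⟨0, 0, 0, 0, 0, 227210352, 0, 0, 0, ⟨0, 0⟩, 0⟩, 0, 0⟩ 0 0) (.cut .l 230687 (.pos 46 .mp ⟨⟨108115057, 0, 0, 0, 0, 46175800,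 0, 0, 0, ⟨0, 0⟩, 0⟩, 0, 0⟩ 0 0) (.cut .s 11558912 (.pos 46 .mp ⟨⟨106523234, 0, 0, 0, 0, 43921127, 0, 0, 0, ⟨0, 0⟩, 0⟩, 0, 0⟩ 0 0) (.pos 46 .mp ⟨⟨108401444, 0, 0, 0, 0, 44550862, 0, 0, 0, ⟨0, 0⟩, 0⟩, 0, 0⟩ 0 0)))))) (.cut .l 153791 (.cut .v 16809984 (.cut .s 11558912 (.cut .d (-8192) (.cut .s 11546624 (.pos 45 .mp ⟨⟨106109550, 0, 0, 0, 0, 44267634, 0, 0, 0, ⟨0, 0⟩, 0⟩, 0, 0⟩ 0 0) (.pos 45 .mp ⟨⟨107038218, 0, 0, 0, 0, 44578683, 0, 0, 0, ⟨0, 0⟩, 0⟩, 0, 0⟩ 0 0)) (.cut .l 76895 (.cut .v 16793600 (.cut .d (-4096) (.pos 47 .mp ⟨⟨106116149, 0, 0, 0, 0, 45382361, 0, 0, 0, ⟨0, 0⟩, 0⟩, 0, 0⟩ 0 0) (.cut .l 38447 (.cut .v 16785408 (.cut .d (-2048)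 (.pos 81 .mp ⟨⟨106119718, 0, 0, 0, 0, 45247932, 0, 0, 0, ⟨0, 0⟩, 0⟩, 0, 0⟩ 0 0) (.cut .l 19223 (.cut .v 16781312 (.cut .d (-1024) (.pos 83 .mp ⟨⟨106121580, 0, 0, 0, 0, 45180635, 0, 0, 0, ⟨0, 0⟩, 0⟩, 0, 0⟩ 0 0) (.cut .l 9611 (.cut .s 11546624 (.cut .s 11540480 (.pos 83 .mp ⟨⟨107406550, 0, 0, 0, 0, 39965516, 0, 0, 0, ⟨0, 0⟩, 0⟩, 0, 0⟩ 0 0) (.pos 83 .mp ⟨⟨107865970, 0, 0, 0, 0, 40116191, 0, 0, 0, ⟨0, 0⟩, 0⟩, 0, 0⟩ 0 0)) (.cut .s 11552768 (.pos 83 .mp ⟨⟨108328673, 0, 0, 0, 0, 40266189, 0, 0, 0, ⟨0, 0⟩, 0⟩, 0, 0⟩ 0 0) (.pos 83 .mp ⟨⟨108794696, 0, 0, 0, 0, 40415455, 0, 0, 0, ⟨0, 0⟩, 0⟩, 0, 0⟩ 0 0))) (.pos 83 .mp ⟨⟨108069038, 0, 0, 0,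 0, 38273100, 0, 0, 0, ⟨0, 0⟩, 0⟩, 0, 0⟩ 0 0))) (.pos 84 .mp ⟨⟨136318409, 0, 0, 0, 0, 0, 0, 0, 0, ⟨0, 0⟩, 0⟩, 0, 0⟩ 0 0)) (.pos 81 .mp ⟨⟨108155490, 0, 0, 0, 0, 38173952, 0, 0, 0, ⟨0, 0⟩, 0⟩, 0, 0⟩ 0 0))) (.pos 82 .mp ⟨⟨136397774, 0, 0, 0, 0, 0, 0, 0, 0, ⟨0, 0⟩, 0⟩, 0, 0⟩ 0 0)) (.pos 47 .mp ⟨⟨108328560, 0, 0, 0, 0, 37975670, 0, 0, 0, ⟨0, 0⟩, 0⟩, 0, 0⟩ 0 0))) (.pos 48 .mp ⟨⟨136555769, 0, 0, 0, 0, 0, 0, 0, 0, ⟨0, 0⟩, 0⟩, 0, 0⟩ 0 0)) (.pos 45 .mp ⟨⟨108675294, 0, 0, 0, 0, 37578490, 0, 0, 0, ⟨0, 0⟩, 0⟩, 0, 0⟩ 0 0))) (.cut .d (-8192) (.cut .s 11571200 (.pos 45 .mp ⟨⟨107974816, 0, 0, 0, 0, 44897431, 0, 0, 0, ⟨0, 0⟩, 0⟩, 0, 0⟩ 0 0) (.pos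 45 .mp ⟨⟨108919397, 0, 0, 0, 0, 45223940, 0, 0, 0, ⟨0, 0⟩, 0⟩, 0, 0⟩ 0 0)) (.cut .l 76895 (.cut .v 16793600 (.cut .d (-4096) (.pos 47 .mp ⟨⟨107978350, 0, 0, 0, 0, 46046478, 0, 0, 0, ⟨0, 0⟩, 0⟩, 0, 0⟩ 0 0) (.cut .l 38447 (.cut .v 16785408 (.cut .d (-2048) (.pos 81 .mp ⟨⟨107980391, 0, 0, 0, 0, 45912295, 0, 0, 0, ⟨0, 0⟩, 0⟩, 0, 0⟩ 0 0) (.cut .l 19223 (.cut .v 16781312 (.cut .d (-1024) (.pos 83 .mp ⟨⟨107981490, 0, 0, 0, 0, 45845121, 0, 0, 0, ⟨0, 0⟩, 0⟩, 0, 0⟩ 0 0) (.cut .l 9611 (.cut .s 11571200 (.cut .s 11565056 (.pos 83 .mp ⟨⟨109264077, 0, 0, 0, 0, 40563932, 0, 0, 0, ⟨0, 0⟩, 0⟩, 0, 0⟩ 0 0) (.pos 83 .mp ⟨⟨109736851, 0, 0, 0, 0, 40711566,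 0, 0, 0, ⟨0, 0⟩, 0⟩, 0, 0⟩ 0 0)) (.cut .s 11577344 (.pos 83 .mp ⟨⟨110213056, 0, 0, 0, 0, 40858299, 0, 0, 0, ⟨0, 0⟩, 0⟩, 0, 0⟩ 0 0) (.pos 83 .mp ⟨⟨110692729, 0, 0, 0, 0, 41004077, 0, 0, 0, ⟨0, 0⟩, 0⟩, 0, 0⟩ 0 0))) (.pos 83 .mp ⟨⟨109962208, 0, 0, 0, 0, 38823744, 0, 0, 0, ⟨0, 0⟩, 0⟩, 0, 0⟩ 0 0))) (.pos 84 .mp ⟨⟨138555941, 0, 0, 0, 0, 0, 0, 0, 0, ⟨0, 0⟩, 0⟩, 0, 0⟩ 0 0)) (.pos 81 .mp ⟨⟨110050911, 0, 0, 0, 0, 38721663, 0, 0, 0, ⟨0, 0⟩, 0⟩, 0, 0⟩ 0 0))) (.pos 82 .mp ⟨⟨138636642, 0, 0, 0, 0, 0, 0, 0, 0, ⟨0, 0⟩, 0⟩, 0, 0⟩ 0 0)) (.pos 47 .mp ⟨⟨110228485, 0, 0, 0, 0, 38517517, 0, 0, 0, ⟨0, 0⟩, 0⟩, 0, 0⟩ 0 0))) (.pos 48 .mp ⟨⟨138797297, 0,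 0, 0, 0, 0, 0, 0, 0, ⟨0, 0⟩, 0⟩, 0, 0⟩ 0 0)) (.pos 45 .mp ⟨⟨110584238, 0, 0, 0, 0, 38108592, 0, 0, 0, ⟨0, 0⟩, 0⟩, 0, 0⟩ 0 0)))) (.pos 46 .mp ⟨⟨137453197, 0, 0, 0, 0, 0, 0, 0, 0, ⟨0, 0⟩, 0⟩, 0, 0⟩ 0 0)) (.cut .s 11558912 (.pos 43 .mp ⟨⟨109371134, 0, 0, 0, 0, 36781267, 0, 0, 0, ⟨0, 0⟩, 0⟩, 0, 0⟩ 0 0) (.cut .s 11571200 (.pos 43 .mp ⟨⟨110330549, 0, 0, 0, 0, 38471167, 0, 0, 0, ⟨0, 0⟩, 0⟩, 0, 0⟩ 0 0) (.pos 43 .mp ⟨⟨111298163, 0, 0, 0, 0, 38737012, 0, 0, 0, ⟨0, 0⟩, 0⟩, 0, 0⟩ 0 0))))) (.cut .s 11558912 (.pos 44 .mp ⟨⟨137504620, 0, 0, 0, 0, 0, 0, 0, 0, ⟨0, 0⟩, 0⟩, 0, 0⟩ 0 0) (.pos 44 .mp ⟨⟨139762128, 0, 0, 0, 0, 0, 0, 0, 0, ⟨0, 0⟩, 0⟩, 0,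 0⟩ 0 0))) (.cut .v 16842752 (.cut .d (-16384) (.cut .d (-24576) (.pos 43 .mp ⟨⟨110859617, 0, 0, 0, 0, 50996710, 0, 0, 0, ⟨0, 0⟩, 0⟩, 0, 0⟩ 0 0) (.cut .l 153791 (.void 43 ⟨⟨0, 0, 0, 0, 0, 100000, 0, 0, 0, ⟨0, 0⟩, 0⟩, 0, 0⟩ 0 0) (.cut .v 16809984 (.pos 45 .mp ⟨⟨0, 0, 0, 0, 0, 235654958, 0, 0, 0, ⟨0, 0⟩, 0⟩, 0, 0⟩ 0 0) (.cut .l 230687 (.pos 46 .mp ⟨⟨112013373, 0, 0, 0, 0, 47457256, 0, 0, 0, ⟨0, 0⟩, 0⟩, 0, 0⟩ 0 0) (.cut .s 11608064 (.pos 46 .mp ⟨⟨110311855, 0, 0, 0, 0, 45198421, 0, 0, 0, ⟨0, 0⟩, 0⟩, 0, 0⟩ 0 0) (.pos 46 .mp ⟨⟨112254886, 0, 0, 0, 0, 45863157, 0, 0, 0, ⟨0, 0⟩, 0⟩, 0, 0⟩ 0 0)))))) (.cut .l 153791 (.cut .v 16809984 (.cut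 .s 11608064 (.cut .d (-8192) (.cut .s 11595776 (.pos 45 .mp ⟨⟨109872012, 0, 0, 0, 0, 45558271, 0, 0, 0, ⟨0, 0⟩, 0⟩, 0, 0⟩ 0 0) (.pos 45 .mp ⟨⟨110832715, 0, 0, 0, 0, 45900488, 0, 0, 0, ⟨0, 0⟩, 0⟩, 0, 0⟩ 0 0)) (.cut .l 76895 (.cut .v 16793600 (.cut .d (-4096) (.pos 47 .mp ⟨⟨109872402, 0, 0, 0, 0, 46741973, 0, 0, 0, ⟨0, 0⟩, 0⟩, 0, 0⟩ 0 0) (.cut .l 38447 (.cut .v 16785408 (.cut .d (-2048) (.pos 81 .mp ⟨⟨109872877, 0, 0, 0, 0, 46608060, 0, 0, 0, ⟨0, 0⟩, 0⟩, 0, 0⟩ 0 0) (.cut .l 19223 (.cut .v 16781312 (.cut .d (-1024) (.pos 83 .mp ⟨⟨109873193, 0, 0, 0, 0, 46541020, 0, 0, 0, ⟨0, 0⟩, 0⟩, 0, 0⟩ 0 0) (.cut .l 9611 (.cut .s 11595776 (.cut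 .s 11589632 (.pos 83 .mp ⟨⟨111175909, 0, 0, 0, 0, 41148841, 0, 0, 0, ⟨0, 0⟩, 0⟩, 0, 0⟩ 0 0) (.pos 83 .mp ⟨⟨111662631, 0, 0, 0, 0, 41292535, 0, 0, 0, ⟨0, 0⟩, 0⟩, 0, 0⟩ 0 0)) (.cut .s 11601920 (.pos 83 .mp ⟨⟨112152935, 0, 0, 0, 0, 41435101, 0, 0, 0, ⟨0, 0⟩, 0⟩, 0, 0⟩ 0 0) (.pos 83 .mp ⟨⟨112646858, 0, 0, 0, 0, 41576481, 0, 0, 0, ⟨0, 0⟩, 0⟩, 0, 0⟩ 0 0))) (.pos 83 .mp ⟨⟨111887620, 0, 0, 0, 0, 39382485, 0, 0, 0, ⟨0, 0⟩, 0⟩, 0, 0⟩ 0 0))) (.pos 84 .mp ⟨⟨140830144, 0, 0, 0, 0, 0, 0, 0, 0, ⟨0, 0⟩, 0⟩, 0, 0⟩ 0 0)) (.pos 81 .mp ⟨⟨111978624, 0, 0, 0, 0, 39277399, 0, 0, 0, ⟨0, 0⟩, 0⟩, 0, 0⟩ 0 0))) (.pos 82 .mp ⟨⟨140912207, 0, 0, 0, 0, 0, 0, 0,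 0, ⟨0, 0⟩, 0⟩, 0, 0⟩ 0 0)) (.pos 47 .mp ⟨⟨112160805, 0, 0, 0, 0, 39067242, 0, 0, 0, ⟨0, 0⟩, 0⟩, 0, 0⟩ 0 0))) (.pos 48 .mp ⟨⟨141075575, 0, 0, 0, 0, 0, 0, 0, 0, ⟨0, 0⟩, 0⟩, 0, 0⟩ 0 0)) (.pos 45 .mp ⟨⟨112525783, 0, 0, 0, 0, 38646280, 0, 0, 0, ⟨0, 0⟩, 0⟩, 0, 0⟩ 0 0))) (.cut .d (-8192) (.cut .s 11620352 (.pos 45 .mp ⟨⟨111801557, 0, 0, 0, 0, 46250653, 0, 0, 0, ⟨0, 0⟩, 0⟩, 0, 0⟩ 0 0) (.pos 45 .mp ⟨⟨112778593, 0, 0, 0, 0, 46608830, 0, 0, 0, ⟨0, 0⟩, 0⟩, 0, 0⟩ 0 0)) (.cut .l 76895 (.cut .v 16793600 (.cut .d (-4096) (.pos 47 .mp ⟨⟨111798724, 0, 0, 0, 0, 47469348, 0, 0, 0, ⟨0, 0⟩, 0⟩, 0, 0⟩ 0 0) (.cut .l 38447 (.cut .v 16785408 (.cut .d (-2048)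 (.pos 81 .mp ⟨⟨111797592, 0, 0, 0, 0, 47335728, 0, 0, 0, ⟨0, 0⟩, 0⟩, 0, 0⟩ 0 0) (.cut .l 19223 (.cut .v 16781312 (.cut .d (-1024) (.pos 83 .mp ⟨⟨111797106, 0, 0, 0, 0, 47268833, 0, 0, 0, ⟨0, 0⟩, 0⟩, 0, 0⟩ 0 0) (.cut .l 9611 (.cut .s 11620352 (.cut .s 11614208 (.pos 83 .mp ⟨⟨113144438, 0, 0, 0, 0, 41716617, 0, 0, 0, ⟨0, 0⟩, 0⟩, 0, 0⟩ 0 0) (.pos 83 .mp ⟨⟨113645715, 0, 0, 0, 0, 41855451, 0, 0, 0, ⟨0, 0⟩, 0⟩, 0, 0⟩ 0 0)) (.cut .s 11626496 (.pos 83 .mp ⟨⟨114150725, 0, 0, 0, 0, 41992924, 0, 0, 0, ⟨0, 0⟩, 0⟩, 0, 0⟩ 0 0) (.pos 83 .mp ⟨⟨114659508, 0, 0, 0, 0, 42128975, 0, 0, 0, ⟨0, 0⟩, 0⟩, 0, 0⟩ 0 0))) (.pos 83 .mp ⟨⟨113845698, 0, 0, 0,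 0, 39948049, 0, 0, 0, ⟨0, 0⟩, 0⟩, 0, 0⟩ 0 0))) (.pos 84 .mp ⟨⟨143140495, 0, 0, 0, 0, 0, 0, 0, 0, ⟨0, 0⟩, 0⟩, 0, 0⟩ 0 0)) (.pos 81 .mp ⟨⟨113939056, 0, 0, 0, 0, 39839884, 0, 0, 0, ⟨0, 0⟩, 0⟩, 0, 0⟩ 0 0))) (.pos 82 .mp ⟨⟨143223946, 0, 0, 0, 0, 0, 0, 0, 0, ⟨0, 0⟩, 0⟩, 0, 0⟩ 0 0)) (.pos 47 .mp ⟨⟨114125947, 0, 0, 0, 0, 39623566, 0, 0, 0, ⟨0, 0⟩, 0⟩, 0, 0⟩ 0 0))) (.pos 48 .mp ⟨⟨143390078, 0, 0, 0, 0, 0, 0, 0, 0, ⟨0, 0⟩, 0⟩, 0, 0⟩ 0 0)) (.pos 45 .mp ⟨⟨114500359, 0, 0, 0, 0, 39190269, 0, 0, 0, ⟨0, 0⟩, 0⟩, 0, 0⟩ 0 0)))) (.pos 46 .mp ⟨⟨142005620, 0, 0, 0, 0, 0, 0, 0, 0, ⟨0, 0⟩, 0⟩, 0, 0⟩ 0 0)) (.cut .d (-8192) (.cut .s 11608064 (.pos 43 .mp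 ⟨⟨113258207, 0, 0, 0, 0, 37959275, 0, 0, 0, ⟨0, 0⟩, 0⟩, 0, 0⟩ 0 0) (.pos 43 .mp ⟨⟨115251702, 0, 0, 0, 0, 38490604, 0, 0, 0, ⟨0, 0⟩, 0⟩, 0, 0⟩ 0 0)) (.pos 43 .mp ⟨⟨0, 0, 0, 0, 0, 0, 0, 0, 0, ⟨0, 0⟩, 0⟩, 0, 0⟩ 0 0)))) (.cut .s 11608064 (.pos 44 .mp ⟨⟨142056698, 0, 0, 0, 0, 0, 0, 0, 0, ⟨0, 0⟩, 0⟩, 0, 0⟩ 0 0) (.pos 44 .mp ⟨⟨144387799, 0, 0, 0, 0, 0, 0, 0, 0, ⟨0, 0⟩, 0⟩, 0, 0⟩ 0 0)))) (.cut .s 11681792 (.cut .v 16842752 (.cut .d (-16384) (.cut .l 153791 (.void 43 ⟨⟨0, 0, 0, 0, 0, 100000, 0, 0, 0, ⟨0, 0⟩, 0⟩, 0, 0⟩ 0 0) (.cut .s 11657216 (.cut .s 11644928 (.pos 43 .mp ⟨⟨113817786, 0, 0, 0, 0, 46833678, 0, 0, 0, ⟨0, 0⟩, 0⟩, 0, 0⟩ 0 0)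 (.pos 43 .mp ⟨⟨114843697, 0, 0, 0, 0, 47129324, 0, 0, 0, ⟨0, 0⟩, 0⟩, 0, 0⟩ 0 0)) (.pos 43 .mp ⟨⟨115780802, 0, 0, 0, 0, 49028300, 0, 0, 0, ⟨0, 0⟩, 0⟩, 0, 0⟩ 0 0))) (.cut .l 153791 (.cut .v 16809984 (.cut .s 11657216 (.cut .d (-8192) (.cut .s 11644928 (.pos 45 .mp ⟨⟨113763877, 0, 0, 0, 0, 46975082, 0, 0, 0, ⟨0, 0⟩, 0⟩, 0, 0⟩ 0 0) (.pos 45 .mp ⟨⟨114757462, 0, 0, 0, 0, 47349475, 0, 0, 0, ⟨0, 0⟩, 0⟩, 0, 0⟩ 0 0)) (.cut .l 76895 (.cut .v 16793600 (.cut .d (-4096) (.pos 47 .mp ⟨⟨113757740, 0, 0, 0, 0, 48229112, 0, 0, 0, ⟨0, 0⟩, 0⟩, 0, 0⟩ 0 0) (.cut .l 38447 (.cut .v 16785408 (.cut .d (-2048) (.pos 81 .mp ⟨⟨113754961, 0, 0, 0, 0, 48095809,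 0, 0, 0, ⟨0, 0⟩, 0⟩, 0, 0⟩ 0 0) (.cut .l 19223 (.cut .v 16781312 (.cut .d (-1024) (.pos 83 .mp ⟨⟨113753653, 0, 0, 0, 0, 48029072, 0, 0, 0, ⟨0, 0⟩, 0⟩, 0, 0⟩ 0 0) (.cut .l 9611 (.cut .d (-512) (.pos 83 .mp ⟨⟨115823796, 0, 0, 0, 0, 43673369, 0, 0, 0, ⟨0, 0⟩, 0⟩, 0, 0⟩ 0 0) (.cut .v 16779264 (.cut .l 4805 (.cut .s 11644928 (.cut .s 11638784 (.pos 85 .mp ⟨⟨115167210, 0, 0, 0, 0, 42271328, 0, 0, 0, ⟨0, 0⟩, 0⟩, 0, 0⟩ 0 0) (.pos 85 .mp ⟨⟨115683635, 0, 0, 0, 0, 42404395, 0, 0, 0, ⟨0, 0⟩, 0⟩, 0, 0⟩ 0 0)) (.cut .s 11651072 (.pos 85 .mp ⟨⟨116203950, 0, 0, 0, 0, 42535861, 0, 0, 0, ⟨0, 0⟩, 0⟩, 0, 0⟩ 0 0) (.pos 85 .mp ⟨⟨116728194, 0, 0, 0, 0,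 42665666, 0, 0, 0, ⟨0, 0⟩, 0⟩, 0, 0⟩ 0 0))) (.pos 85 .mp ⟨⟨115789054, 0, 0, 0, 0, 40574964, 0, 0, 0, ⟨0, 0⟩, 0⟩, 0, 0⟩ 0 0)) (.pos 86 .mp ⟨⟨141464721, 0, 0, 0, 0, 0, 0, 0, 0, ⟨0, 0⟩, 0⟩, 0, 0⟩ 0 0))) (.pos 83 .mp ⟨⟨115836875, 0, 0, 0, 0, 40519148, 0, 0, 0, ⟨0, 0⟩, 0⟩, 0, 0⟩ 0 0))) (.pos 84 .mp ⟨⟨145486478, 0, 0, 0, 0, 0, 0, 0, 0, ⟨0, 0⟩, 0⟩, 0, 0⟩ 0 0)) (.pos 81 .mp ⟨⟨115932639, 0, 0, 0, 0, 40407827, 0, 0, 0, ⟨0, 0⟩, 0⟩, 0, 0⟩ 0 0))) (.pos 82 .mp ⟨⟨145571341, 0, 0, 0, 0, 0, 0, 0, 0, ⟨0, 0⟩, 0⟩, 0, 0⟩ 0 0)) (.pos 47 .mp ⟨⟨116124347, 0, 0, 0, 0, 40185197, 0, 0, 0, ⟨0, 0⟩, 0⟩, 0, 0⟩ 0 0))) (.pos 48 .mp ⟨⟨145740287, 0, 0, 0, 0, 0, 0,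 0, 0, ⟨0, 0⟩, 0⟩, 0, 0⟩ 0 0)) (.pos 45 .mp ⟨⟨116508405, 0, 0, 0, 0, 39739262, 0, 0, 0, ⟨0, 0⟩, 0⟩, 0, 0⟩ 0 0))) (.cut .d (-8192) (.pos 45 .mp ⟨⟨115759406, 0, 0, 0, 0, 49286725, 0, 0, 0, ⟨0, 0⟩, 0⟩, 0, 0⟩ 0 0) (.cut .l 76895 (.cut .v 16793600 (.cut .d (-4096) (.pos 47 .mp ⟨⟨115749883, 0, 0, 0, 0, 49021785, 0, 0, 0, ⟨0, 0⟩, 0⟩, 0, 0⟩ 0 0) (.cut .l 38447 (.cut .v 16785408 (.cut .d (-2048) (.pos 81 .mp ⟨⟨115745416, 0, 0, 0, 0, 48888823, 0, 0, 0, ⟨0, 0⟩, 0⟩, 0, 0⟩ 0 0) (.cut .l 19223 (.cut .d (-1024) (.pos 81 .mp ⟨⟨115800663, 0, 0, 0, 0, 49535338, 0, 0, 0, ⟨0, 0⟩, 0⟩, 0, 0⟩ 0 0) (.cut .v 16781312 (.cut .l 9611 (.cut .d (-512) (.pos 83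 .mp ⟨⟨115770901, 0, 0, 0, 0, 49516739, 0, 0, 0, ⟨0, 0⟩, 0⟩, 0, 0⟩ 0 0) (.cut .v 16779264 (.cut .l 4805 (.cut .s 11669504 (.cut .s 11663360 (.pos 85 .mp ⟨⟨117256408, 0, 0, 0, 0, 42793749, 0, 0, 0, ⟨0, 0⟩, 0⟩, 0, 0⟩ 0 0) (.pos 85 .mp ⟨⟨117788631, 0, 0, 0, 0, 42920048, 0, 0, 0, ⟨0, 0⟩, 0⟩, 0, 0⟩ 0 0)) (.cut .s 11675648 (.pos 85 .mp ⟨⟨118324903, 0, 0, 0, 0, 43044501, 0, 0, 0, ⟨0, 0⟩, 0⟩, 0, 0⟩ 0 0) (.pos 85 .mp ⟨⟨118865263, 0, 0, 0, 0, 43167045, 0, 0, 0, ⟨0, 0⟩, 0⟩, 0, 0⟩ 0 0))) (.pos 85 .mp ⟨⟨117812543, 0, 0, 0, 0, 41151914, 0, 0, 0, ⟨0, 0⟩, 0⟩, 0, 0⟩ 0 0)) (.pos 86 .mp ⟨⟨143865300, 0, 0, 0, 0, 0, 0, 0, 0, ⟨0, 0⟩, 0⟩, 0, 0⟩ 0 0)))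 (.pos 83 .mp ⟨⟨117861593, 0, 0, 0, 0, 41094479, 0, 0, 0, ⟨0, 0⟩, 0⟩, 0, 0⟩ 0 0)) (.pos 84 .mp ⟨⟨143888261, 0, 0, 0, 0, 0, 0, 0, 0, ⟨0, 0⟩, 0⟩, 0, 0⟩ 0 0))) (.pos 81 .mp ⟨⟨117959817, 0, 0, 0, 0, 40979926, 0, 0, 0, ⟨0, 0⟩, 0⟩, 0, 0⟩ 0 0))) (.pos 82 .mp ⟨⟨147953883, 0, 0, 0, 0, 0, 0, 0, 0, ⟨0, 0⟩, 0⟩, 0, 0⟩ 0 0)) (.pos 47 .mp ⟨⟨118156448, 0, 0, 0, 0, 40750830, 0, 0, 0, ⟨0, 0⟩, 0⟩, 0, 0⟩ 0 0))) (.pos 48 .mp ⟨⟨148125692, 0, 0, 0, 0, 0, 0, 0, 0, ⟨0, 0⟩, 0⟩, 0, 0⟩ 0 0)) (.pos 45 .mp ⟨⟨118550366, 0, 0, 0, 0, 40291947, 0, 0, 0, ⟨0, 0⟩, 0⟩, 0, 0⟩ 0 0)))) (.pos 46 .mp ⟨⟨146701687, 0, 0, 0, 0, 0, 0, 0, 0, ⟨0, 0⟩, 0⟩, 0, 0⟩ 0 0)) (.cut .s 11657216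 (.cut .s 11644928 (.pos 43 .mp ⟨⟨116261131, 0, 0, 0, 0, 40089297, 0, 0, 0, ⟨0, 0⟩, 0⟩, 0, 0⟩ 0 0) (.pos 43 .mp ⟨⟨117279090, 0, 0, 0, 0, 40363223, 0, 0, 0, ⟨0, 0⟩, 0⟩, 0, 0⟩ 0 0)) (.pos 43 .mp ⟨⟨119340823, 0, 0, 0, 0, 39370994, 0, 0, 0, ⟨0, 0⟩, 0⟩, 0, 0⟩ 0 0)))) (.cut .s 11657216 (.pos 44 .mp ⟨⟨146754910, 0, 0, 0, 0, 0, 0, 0, 0, ⟨0, 0⟩, 0⟩, 0, 0⟩ 0 0) (.pos 44 .mp ⟨⟨149157515, 0, 0, 0, 0, 0, 0, 0, 0, ⟨0, 0⟩, 0⟩, 0, 0⟩ 0 0))) (.cut .v 16842752 (.cut .d (-16384) (.cut .l 153791 (.void 43 ⟨⟨0, 0, 0, 0, 0, 100000, 0, 0, 0, ⟨0, 0⟩, 0⟩, 0, 0⟩ 0 0) (.cut .s 11706368 (.pos 43 .mp ⟨⟨117816961, 0, 0, 0, 0, 49773684, 0, 0, 0, ⟨0, 0⟩, 0⟩, 0,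 0⟩ 0 0) (.pos 43 .mp ⟨⟨119887392, 0, 0, 0, 0, 50534222, 0, 0, 0, ⟨0, 0⟩, 0⟩, 0, 0⟩ 0 0))) (.cut .l 153791 (.cut .v 16809984 (.cut .s 11706368 (.cut .d (-8192) (.pos 45 .mp ⟨⟨117788587, 0, 0, 0, 0, 50112088, 0, 0, 0, ⟨0, 0⟩, 0⟩, 0, 0⟩ 0 0) (.cut .l 76895 (.cut .v 16793600 (.cut .d (-4096) (.pos 47 .mp ⟨⟨117775596, 0, 0, 0, 0, 49847895, 0, 0, 0, ⟨0, 0⟩, 0⟩, 0, 0⟩ 0 0) (.cut .l 38447 (.cut .d (-2048) (.pos 47 .mp ⟨⟨117886093, 0, 0, 0, 0, 50411973, 0, 0, 0, ⟨0, 0⟩, 0⟩, 0, 0⟩ 0 0) (.cut .v 16785408 (.cut .l 19223 (.cut .d (-1024) (.pos 81 .mp ⟨⟨117824699, 0, 0, 0, 0, 50375245, 0, 0, 0, ⟨0, 0⟩, 0⟩, 0, 0⟩ 0 0) (.cut .v 16781312 (.cut .l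 9611 (.cut .d (-512) (.pos 83 .mp ⟨⟨117794049, 0, 0, 0, 0, 50356954, 0, 0, 0, ⟨0, 0⟩, 0⟩, 0, 0⟩ 0 0) (.cut .s 11694080 (.cut .s 11687936 (.pos 83 .mp ⟨⟨119106502, 0, 0, 0, 0, 43891124, 0, 0, 0, ⟨0, 0⟩, 0⟩, 0, 0⟩ 0 0) (.pos 83 .mp ⟨⟨119645656, 0, 0, 0, 0, 44028788, 0, 0, 0, ⟨0, 0⟩, 0⟩, 0, 0⟩ 0 0)) (.pos 83 .mp ⟨⟨119944375, 0, 0, 0, 0, 44793719, 0, 0, 0, ⟨0, 0⟩, 0⟩, 0, 0⟩ 0 0))) (.pos 83 .mp ⟨⟨119920302, 0, 0, 0, 0, 41672728, 0, 0, 0, ⟨0, 0⟩, 0⟩, 0, 0⟩ 0 0)) (.pos 84 .mp ⟨⟨146340647, 0, 0, 0, 0, 0, 0, 0, 0, ⟨0, 0⟩, 0⟩, 0, 0⟩ 0 0))) (.pos 81 .mp ⟨⟨120021040, 0, 0, 0, 0, 41554864, 0, 0, 0, ⟨0, 0⟩, 0⟩, 0, 0⟩ 0 0)) (.pos 82 .mp ⟨⟨146383865,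 0, 0, 0, 0, 0, 0, 0, 0, ⟨0, 0⟩, 0⟩, 0, 0⟩ 0 0))) (.pos 47 .mp ⟨⟨120222703, 0, 0, 0, 0, 41319145, 0, 0, 0, ⟨0, 0⟩, 0⟩, 0, 0⟩ 0 0))) (.pos 48 .mp ⟨⟨150545790, 0, 0, 0, 0, 0, 0, 0, 0, ⟨0, 0⟩, 0⟩, 0, 0⟩ 0 0)) (.pos 45 .mp ⟨⟨120626698, 0, 0, 0, 0, 40846998, 0, 0, 0, ⟨0, 0⟩, 0⟩, 0, 0⟩ 0 0))) (.cut .d (-8192) (.pos 45 .mp ⟨⟨119851873, 0, 0, 0, 0, 50971377, 0, 0, 0, ⟨0, 0⟩, 0⟩, 0, 0⟩ 0 0) (.cut .l 76895 (.cut .d (-4096) (.pos 45 .mp ⟨⟨120072641, 0, 0, 0, 0, 51357324, 0, 0, 0, ⟨0, 0⟩, 0⟩, 0, 0⟩ 0 0) (.cut .v 16793600 (.cut .l 38447 (.cut .d (-2048) (.pos 47 .mp ⟨⟨119945916, 0, 0, 0, 0, 51285472, 0, 0, 0, ⟨0, 0⟩, 0⟩, 0, 0⟩ 0 0) (.cut .s 11718656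 (.cut .s 11712512 (.pos 47 .mp ⟨⟨121320864, 0, 0, 0, 0, 44376790, 0, 0, 0, ⟨0, 0⟩, 0⟩, 0, 0⟩ 0 0) (.pos 47 .mp ⟨⟨121875003, 0, 0, 0, 0, 44509961, 0, 0, 0, ⟨0, 0⟩, 0⟩, 0, 0⟩ 0 0)) (.pos 47 .mp ⟨⟨122434435, 0, 0, 0, 0, 44881506, 0, 0, 0, ⟨0, 0⟩, 0⟩, 0, 0⟩ 0 0))) (.pos 47 .mp ⟨⟨122323573, 0, 0, 0, 0, 41888806, 0, 0, 0, ⟨0, 0⟩, 0⟩, 0, 0⟩ 0 0)) (.pos 48 .mp ⟨⟨148976003, 0, 0, 0, 0, 0, 0, 0, 0, ⟨0, 0⟩, 0⟩, 0, 0⟩ 0 0))) (.pos 45 .mp ⟨⟨122737865, 0, 0, 0, 0, 41403075, 0, 0, 0, ⟨0, 0⟩, 0⟩, 0, 0⟩ 0 0)))) (.pos 46 .mp ⟨⟨151537327, 0, 0, 0, 0, 0, 0, 0, 0, ⟨0, 0⟩, 0⟩, 0, 0⟩ 0 0)) (.cut .s 11706368 (.pos 43 .mp ⟨⟨121437364, 0, 0, 0, 0, 39899448,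 0, 0, 0, ⟨0, 0⟩, 0⟩, 0, 0⟩ 0 0) (.pos 43 .mp ⟨⟨123569180, 0, 0, 0, 0, 40428282, 0, 0, 0, ⟨0, 0⟩, 0⟩, 0, 0⟩ 0 0)))) (.cut .s 11706368 (.pos 44 .mp ⟨⟨151595107, 0, 0, 0, 0, 0, 0, 0, 0, ⟨0, 0⟩, 0⟩, 0, 0⟩ 0 0) (.pos 44 .mp ⟨⟨154067183, 0, 0, 0, 0, 0, 0, 0, 0, ⟨0, 0⟩, 0⟩, 0, 0⟩ 0 0))))) (.pos 36 .mp ⟨⟨148294515, 0, 0, 0, 0, 0, 0, 0, 0, ⟨0, 0⟩, 0⟩, 0, 0⟩ 0 0))))))) (.pos 32 .mp ⟨⟨168720792, 0, 0, 0, 0, 0, 0, 0, 0, ⟨0, 0⟩, 0⟩, 0, 0⟩ 0 0))) (.void 30 ⟨⟨100000, 0, 0, 0, 0, 0, 0, 0, 0, ⟨0, 0⟩, 0⟩, 0, 0⟩ 0 0))) (.void 28 ⟨⟨100000, 0, 0, 0, 0, 0, 0, 0, 0, ⟨0, 0⟩, 0⟩, 0, 0⟩ 0 0))) (.void 26 ⟨⟨100000, 0, 0, 0, 0, 0, 0, 0, 0, ⟨0, 0⟩, 0⟩, 0, 0⟩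 0 0))) (.void 24 ⟨⟨100000, 0, 0, 0, 0, 0, 0, 0, 0, ⟨0, 0⟩, 0⟩, 0, 0⟩ 0 0))) (.void 22 ⟨⟨100000, 0, 0, 0, 0, 0, 0, 0, 0, ⟨0, 0⟩, 0⟩, 0, 0⟩ 0 0)) (.void 103 ⟨⟨100000, 0, 0, 0, 0, 0, 0, 0, 0, ⟨0, 0⟩, 0⟩, 0, 0⟩ 0 0)) (.void 114 ⟨⟨100000, 0, 0, 0, 0, 0, 0, 0, 0, ⟨0, 0⟩, 0⟩, 0, 0⟩ 0 0))) (.cut .v 16777216 (.cut .v 8388608 (.cut .v 4194304 (.cut .v 2097152 (.void 117 ⟨⟨0, 0, 66667, 0, 0, 0, 0, 0, 0, ⟨0, 0⟩, 0⟩, 0, 33333⟩ 0 0) (.pos 118 .pm ⟨⟨0, 0, 17963152, 0, 0, 0, 0, 0, 0, ⟨0, 0⟩, 0⟩, 0, 1127426⟩ 0 0)) (.pos 5 .pm ⟨⟨0, 0, 3811499, 0, 0, 0, 0, 0, 0, ⟨0, 0⟩, 0⟩, 0, 0⟩ 0 0)) (.pos 3 .pm ⟨⟨0, 0, 0, 0, 0, 0, 0, 0, 0, ⟨0, 0⟩, 0⟩, 0, 0⟩ 0 0))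 (.cut .v 67108864 (.cut .d 4024593 (.cut .v 33554432 (.cut .d 2012296 (.cut .v 25165824 (.cut .d 1006148 (.cut .v 20971520 (.cut .d 503074 (.cut .v 18874368 (.cut .d 251537 (.cut .d 125768 (.cut .v 17825792 (.cut .d 62884 (.cut .v 17301504 (.cut .s 11534336 (.pos 29 .pp ⟨⟨103235181, 0, 0, 0, 0, 0, 0, 0, 0, ⟨0, 0⟩, 0⟩, 1891818, 0⟩ 0 0) (.pos 29 .pp ⟨⟨118326612, 0, 0, 0, 0, 0, 0, 0, 0, ⟨0, 0⟩, 0⟩, 2108050, 0⟩ 0 0)) (.pos 30 .pp ⟨⟨142675899, 0, 0, 0, 0, 0, 0, 0, 0, ⟨0, 0⟩, 0⟩, 0, 0⟩ 0 0)) (.pos 27 .pp ⟨⟨105413233, 0, 0, 0, 0, 0, 0, 0, 0, ⟨0, 0⟩, 0⟩, 0, 47071⟩ 0 0)) (.pos 28 .pp ⟨⟨159231306, 0, 0, 0, 0, 0, 0, 0, 0, ⟨0, 0⟩, 0⟩, 0, 0⟩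 0 0)) (.pos 25 .pp ⟨⟨112587966, 0, 0, 0, 0, 0, 0, 0, 0, ⟨0, 0⟩, 0⟩, 0, 12260⟩ 0 0)) (.pos 25 .pp ⟨⟨0, 0, 0, 0, 0, 0, 0, 0, 0, ⟨0, 0⟩, 0⟩, 0, 591390⟩ 0 0)) (.cut .d 251537 (.pos 26 .pp ⟨⟨191510244, 0, 0, 0, 0, 0, 0, 0, 0, ⟨0, 0⟩, 0⟩, 0, 0⟩ 0 0) (.cut .v 19922944 (.pos 53 .pp ⟨⟨132507478, 0, 0, 0, 0, 0, 0, 0, 0, ⟨0, 0⟩, 0⟩, 0, 0⟩ 0 0) (.pos 54 .pp ⟨⟨157932695, 0, 0, 0, 0, 0, 0, 0, 0, ⟨0, 0⟩, 0⟩, 0, 0⟩ 0 0)))) (.pos 23 .pp ⟨⟨0, 0, 0, 0, 0, 0, 0, 0, 0, ⟨0, 0⟩, 0⟩, 0, 620594⟩ 0 0)) (.cut .d 503074 (.cut .v 23068672 (.cut .d 251537 (.void 55 ⟨⟨0, 0, 0, 0, 0, 0, 0, 0, 0, ⟨0, 0⟩, 0⟩, 100000, 0⟩ 0 0) (.cut .v 22020096 (.cut .d 377305 (.pos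 57 .pp ⟨⟨209080308, 0, 0, 0, 0, 0, 0, 0, 0, ⟨0, 0⟩, 0⟩, 0, 0⟩ 0 0) (.pos 57 .pp ⟨⟨169538769, 0, 0, 0, 0, 0, 0, 0, 0, ⟨0, 0⟩, 0⟩, 0, 0⟩ 0 0)) (.pos 58 .pp ⟨⟨94359195, 0, 0, 0, 0, 0, 0, 0, 0, ⟨0, 0⟩, 0⟩, 15864911, 0⟩ 0 0))) (.pos 56 .pp ⟨⟨0, 0, 0, 0, 0, 0, 0, 0, 0, ⟨0, 0⟩, 0⟩, 36701261, 0⟩ 0 0)) (.cut .v 23068672 (.pos 55 .pp ⟨⟨0, 0, 0, 0, 0, 0, 174898, 0, 0, ⟨0, 0⟩, 0⟩, 18323888, 0⟩ 0 0) (.pos 56 .pp ⟨⟨0, 0, 0, 0, 0, 0, 0, 0, 0, ⟨0, 0⟩, 0⟩, 23628124, 0⟩ 0 0)))) (.pos 21 .pp ⟨⟨0, 0, 0, 0, 0, 0, 0, 0, 0, ⟨0, 0⟩, 0⟩, 0, 670242⟩ 0 0)) (.cut .d 1006148 (.cut .v 29360128 (.cut .d 503074 (.void 91 ⟨⟨0, 0, 0, 0, 0, 0, 0, 0, 0, ⟨0, 0⟩, 0⟩,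 100000, 0⟩ 0 0) (.pos 91 .pp ⟨⟨0, 0, 0, 0, 0, 0, 0, 0, 0, ⟨0, 0⟩, 0⟩, 30959616, 0⟩ 0 0)) (.void 92 ⟨⟨0, 0, 0, 0, 0, 0, 0, 0, 0, ⟨0, 0⟩, 0⟩, 100000, 0⟩ 0 0)) (.pos 22 .pp ⟨⟨0, 0, 0, 0, 0, 0, 0, 0, 0, ⟨0, 0⟩, 0⟩, 23138218, 0⟩ 0 0))) (.pos 20 .pp ⟨⟨0, 0, 0, 0, 0, 0, 2221419, 0, 0, ⟨0, 0⟩, 0⟩, 0, 0⟩ 0 0)) (.cut .d 2012296 (.cut .v 50331648 (.pos 106 .pp ⟨⟨0, 0, 0, 0, 0, 0, 0, 0, 0, ⟨0, 0⟩, 0⟩, 64304822, 0⟩ 0 0) (.void 107 ⟨⟨0, 0, 0, 0, 0, 0, 0, 0, 0, ⟨0, 0⟩, 0⟩, 100000, 0⟩ 0 0)) (.pos 103 .pp ⟨⟨0, 0, 0, 0, 0, 0, 0, 0, 0, ⟨0, 0⟩, 0⟩, 33508023, 0⟩ 0 0))) (.pos 102 .pp ⟨⟨0, 0, 0, 0, 0, 0, 0, 0, 0, ⟨0, 0⟩, 0⟩, 0, 558535⟩ 0 0)) (.void 114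 ⟨⟨0, 0, 0, 44728, 0, 0, 0, 0, 0, ⟨0, 0⟩, 0⟩, 55272, 0⟩ 0 0)))),
    by decide +kernel⟩

def covers17 : cell.Covers Vale.Agent.P237.Petty.Cor.Grid.N12.table row17.1 :=
  ⟨(.cut .d 0 (.cut .v 16777216 (.cut .d (-8388608) (.void 1 ⟨⟨0, 0, 0, 0, 0, 100000, 0, 0, 0, ⟨0, 0⟩, 0⟩, 0, 0⟩ 0 0) (.cut .d (-4194304) (.void 1 ⟨⟨0, 0, 0, 0, 0, 100000, 0, 0, 0, ⟨0, 0⟩, 0⟩, 0, 0⟩ 0 0) (.cut .d (-2097152) (.void 1 ⟨⟨0, 0, 0, 0, 0, 100000, 0, 0, 0, ⟨0, 0⟩, 0⟩, 0, 0⟩ 0 0) (.cut .d (-1048576) (.void 1 ⟨⟨0, 0, 0, 0, 0, 100000, 0, 0, 0, ⟨0, 0⟩, 0⟩, 0, 0⟩ 0 0) (.cut .d (-524288) (.void 1 ⟨⟨0, 0, 0, 0, 0, 100000, 0, 0, 0, ⟨0, 0⟩, 0⟩, 0, 0⟩ 0 0) (.cut .d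 (-262144) (.void 1 ⟨⟨0, 0, 0, 0, 0, 100000, 0, 0, 0, ⟨0, 0⟩, 0⟩, 0, 0⟩ 0 0) (.cut .d (-131072) (.void 1 ⟨⟨0, 0, 0, 0, 0, 100000, 0, 0, 0, ⟨0, 0⟩, 0⟩, 0, 0⟩ 0 0) (.cut .d (-65536) (.void 1 ⟨⟨0, 0, 0, 0, 0, 100000, 0, 0, 0, ⟨0, 0⟩, 0⟩, 0, 0⟩ 0 0) (.cut .d (-32768) (.void 1 ⟨⟨0, 0, 0, 0, 0, 100000, 0, 0, 0, ⟨0, 0⟩, 0⟩, 0, 0⟩ 0 0) (.cut .v 8388608 (.cut .v 4194304 (.void 4 ⟨⟨0, 0, 100000, 0, 0, 0, 0, 0, 0, ⟨0, 0⟩, 0⟩, 0, 0⟩ 0 0) (.pos 5 .mm ⟨⟨0, 0, 5267234, 0, 0, 83501388, 0, 0, 0, ⟨0, 0⟩, 0⟩, 0, 0⟩ 0 0)) (.cut .s 11862016 (.pos 3 .mm ⟨⟨0, 0, 0, 0, 0, 251369252, 0, 0, 0, ⟨0, 0⟩, 0⟩, 0, 0⟩ 0 0) (.pos 3 .mm ⟨⟨0, 0, 0, 0, 0, 276560169,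 0, 0, 0, ⟨0, 0⟩, 0⟩, 0, 0⟩ 0 0)))))))))))) (.cut .v 67108864 (.cut .v 33554432 (.cut .v 25165824 (.cut .d (-8388608) (.void 21 ⟨⟨100000, 0, 0, 0, 0, 0, 0, 0, 0, ⟨0, 0⟩, 0⟩, 0, 0⟩ 0 0) (.cut .v 20971520 (.cut .d (-4194304) (.void 23 ⟨⟨100000, 0, 0, 0, 0, 0, 0, 0, 0, ⟨0, 0⟩, 0⟩, 0, 0⟩ 0 0) (.cut .v 18874368 (.cut .d (-2097152) (.void 25 ⟨⟨100000, 0, 0, 0, 0, 0, 0, 0, 0, ⟨0, 0⟩, 0⟩, 0, 0⟩ 0 0) (.cut .v 17825792 (.cut .d (-1048576) (.void 27 ⟨⟨100000, 0, 0, 0, 0, 0, 0, 0, 0, ⟨0, 0⟩, 0⟩, 0, 0⟩ 0 0) (.cut .v 17301504 (.cut .d (-524288) (.void 29 ⟨⟨100000, 0, 0, 0, 0, 0, 0, 0, 0, ⟨0, 0⟩, 0⟩, 0, 0⟩ 0 0) (.cut .v 17039360 (.cut .d (-262144)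 (.void 31 ⟨⟨100000, 0, 0, 0, 0, 0, 0, 0, 0, ⟨0, 0⟩, 0⟩, 0, 0⟩ 0 0) (.cut .d (-131072) (.void 31 ⟨⟨100000, 0, 0, 0, 0, 0, 0, 0, 0, ⟨0, 0⟩, 0⟩, 0, 0⟩ 0 0) (.cut .d (-65536) (.void 31 ⟨⟨100000, 0, 0, 0, 0, 0, 0, 0, 0, ⟨0, 0⟩, 0⟩, 0, 0⟩ 0 0) (.cut .d (-32768) (.void 31 ⟨⟨0, 0, 0, 0, 0, 100000, 0, 0, 0, ⟨0, 0⟩, 0⟩, 0, 0⟩ 0 0) (.cut .s 11862016 (.cut .v 16908288 (.cut .s 11796480 (.cut .v 16842752 (.cut .d (-16384) (.cut .d (-24576) (.void 43 ⟨⟨0, 0, 0, 0, 0, 100000, 0, 0, 0, ⟨0, 0⟩, 0⟩, 0, 0⟩ 0 0) (.cut .d (-20480) (.pos 43 .mp ⟨⟨122555630, 0, 0, 0, 0, 58904014, 0, 0, 0, ⟨0, 0⟩, 0⟩, 0, 0⟩ 0 0) (.cut .l 153791 (.void 43 ⟨⟨0, 0, 0, 0,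 0, 100000, 0, 0, 0, ⟨0, 0⟩, 0⟩, 0, 0⟩ 0 0) (.cut .s 11763712 (.pos 43 .mp ⟨⟨121988013, 0, 0, 0, 0, 52351124, 0, 0, 0, ⟨0, 0⟩, 0⟩, 0, 0⟩ 0 0) (.pos 43 .mp ⟨⟨124859326, 0, 0, 0, 0, 53245371, 0, 0, 0, ⟨0, 0⟩, 0⟩, 0, 0⟩ 0 0))))) (.cut .s 11763712 (.cut .l 153791 (.cut .v 16809984 (.cut .d (-8192) (.pos 45 .mp ⟨⟨121945432, 0, 0, 0, 0, 53037390, 0, 0, 0, ⟨0, 0⟩, 0⟩, 0, 0⟩ 0 0) (.cut .l 76895 (.cut .v 16793600 (.cut .d (-4096) (.pos 47 .mp ⟨⟨121925380, 0, 0, 0, 0, 52772660, 0, 0, 0, ⟨0, 0⟩, 0⟩, 0, 0⟩ 0 0) (.cut .l 38447 (.cut .v 16785408 (.cut .d (-2048) (.pos 81 .mp ⟨⟨121915664, 0, 0, 0, 0, 52639789, 0, 0, 0, ⟨0, 0⟩, 0⟩, 0, 0⟩ 0 0) (.cut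 .l 19223 (.cut .d (-1024) (.pos 81 .mp ⟨⟨121971077, 0, 0, 0, 0, 53591255, 0, 0, 0, ⟨0, 0⟩, 0⟩, 0, 0⟩ 0 0) (.cut .v 16781312 (.cut .l 9611 (.cut .d (-512) (.pos 83 .mp ⟨⟨121938613, 0, 0, 0, 0, 53573147, 0, 0, 0, ⟨0, 0⟩, 0⟩, 0, 0⟩ 0 0) (.cut .v 16779264 (.cut .l 4805 (.cut .s 11747328 (.cut .s 11739136 (.pos 85 .mp ⟨⟨123761180, 0, 0, 0, 0, 44547898, 0, 0, 0, ⟨0, 0⟩, 0⟩, 0, 0⟩ 0 0) (.pos 85 .mp ⟨⟨124416982, 0, 0, 0, 0, 44820681, 0, 0, 0, ⟨0, 0⟩, 0⟩, 0, 0⟩ 0 0)) (.cut .s 11755520 (.pos 85 .mp ⟨⟨125078697, 0, 0, 0, 0, 45094279, 0, 0, 0, ⟨0, 0⟩, 0⟩, 0, 0⟩ 0 0) (.pos 85 .mp ⟨⟨125746436, 0, 0, 0, 0, 45368529, 0, 0, 0, ⟨0, 0⟩, 0⟩, 0, 0⟩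 0 0))) (.pos 85 .mp ⟨⟨124806183, 0, 0, 0, 0, 42322668, 0, 0, 0, ⟨0, 0⟩, 0⟩, 0, 0⟩ 0 0)) (.pos 86 .mp ⟨⟨152042567, 0, 0, 0, 0, 0, 0, 0, 0, ⟨0, 0⟩, 0⟩, 0, 0⟩ 0 0))) (.pos 83 .mp ⟨⟨124859596, 0, 0, 0, 0, 42259372, 0, 0, 0, ⟨0, 0⟩, 0⟩, 0, 0⟩ 0 0)) (.pos 84 .mp ⟨⟨152067670, 0, 0, 0, 0, 0, 0, 0, 0, ⟨0, 0⟩, 0⟩, 0, 0⟩ 0 0))) (.pos 81 .mp ⟨⟨124966552, 0, 0, 0, 0, 42133228, 0, 0, 0, ⟨0, 0⟩, 0⟩, 0, 0⟩ 0 0))) (.pos 82 .mp ⟨⟨155742247, 0, 0, 0, 0, 0, 0, 0, 0, ⟨0, 0⟩, 0⟩, 0, 0⟩ 0 0)) (.pos 47 .mp ⟨⟨125180661, 0, 0, 0, 0, 41881007, 0, 0, 0, ⟨0, 0⟩, 0⟩, 0, 0⟩ 0 0))) (.pos 48 .mp ⟨⟨155923752, 0, 0, 0, 0, 0, 0, 0, 0, ⟨0, 0⟩, 0⟩, 0, 0⟩ 0 0)) (.pos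 45 .mp ⟨⟨125609580, 0, 0, 0, 0, 41375846, 0, 0, 0, ⟨0, 0⟩, 0⟩, 0, 0⟩ 0 0))) (.pos 46 .mp ⟨⟨156286489, 0, 0, 0, 0, 0, 0, 0, 0, ⟨0, 0⟩, 0⟩, 0, 0⟩ 0 0)) (.cut .s 11747328 (.pos 43 .mp ⟨⟨125008844, 0, 0, 0, 0, 41981415, 0, 0, 0, ⟨0, 0⟩, 0⟩, 0, 0⟩ 0 0) (.pos 43 .mp ⟨⟨126470225, 0, 0, 0, 0, 42361767, 0, 0, 0, ⟨0, 0⟩, 0⟩, 0, 0⟩ 0 0))) (.cut .l 153791 (.cut .v 16809984 (.cut .d (-8192) (.cut .s 11780096 (.pos 45 .mp ⟨⟨124804312, 0, 0, 0, 0, 51592427, 0, 0, 0, ⟨0, 0⟩, 0⟩, 0, 0⟩ 0 0) (.pos 45 .mp ⟨⟨126259212, 0, 0, 0, 0, 52017800, 0, 0, 0, ⟨0, 0⟩, 0⟩, 0, 0⟩ 0 0)) (.cut .s 11780096 (.cut .s 11771904 (.pos 45 .mp ⟨⟨127150212, 0, 0, 0, 0, 44552375,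 0, 0, 0, ⟨0, 0⟩, 0⟩, 0, 0⟩ 0 0) (.pos 45 .mp ⟨⟨127888585, 0, 0, 0, 0, 44734067, 0, 0, 0, ⟨0, 0⟩, 0⟩, 0, 0⟩ 0 0)) (.cut .s 11788288 (.pos 45 .mp ⟨⟨128631321, 0, 0, 0, 0, 44919037, 0, 0, 0, ⟨0, 0⟩, 0⟩, 0, 0⟩ 0 0) (.cut .s 11792384 (.pos 45 .mp ⟨⟨129238074, 0, 0, 0, 0, 45117883, 0, 0, 0, ⟨0, 0⟩, 0⟩, 0, 0⟩ 0 0) (.pos 45 .mp ⟨⟨129586691, 0, 0, 0, 0, 45253052, 0, 0, 0, ⟨0, 0⟩, 0⟩, 0, 0⟩ 0 0))))) (.pos 46 .mp ⟨⟨159722172, 0, 0, 0, 0, 0, 0, 0, 0, ⟨0, 0⟩, 0⟩, 0, 0⟩ 0 0)) (.cut .s 11780096 (.pos 43 .mp ⟨⟨127949012, 0, 0, 0, 0, 42750694, 0, 0, 0, ⟨0, 0⟩, 0⟩, 0, 0⟩ 0 0) (.pos 43 .mp ⟨⟨129445365, 0, 0, 0, 0, 43147709, 0, 0, 0, ⟨0, 0⟩, 0⟩, 0,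 0⟩ 0 0))))) (.cut .s 11763712 (.pos 44 .mp ⟨⟨157013187, 0, 0, 0, 0, 0, 0, 0, 0, ⟨0, 0⟩, 0⟩, 0, 0⟩ 0 0) (.pos 44 .mp ⟨⟨160465654, 0, 0, 0, 0, 0, 0, 0, 0, ⟨0, 0⟩, 0⟩, 0, 0⟩ 0 0))) (.cut .d (-16384) (.cut .d (-24576) (.void 35 ⟨⟨0, 0, 0, 0, 0, 100000, 0, 0, 0, ⟨0, 0⟩, 0⟩, 0, 0⟩ 0 0) (.cut .v 16842752 (.cut .v 16809984 (.pos 45 .mp ⟨⟨0, 0, 0, 0, 0, 282522456, 0, 0, 0, ⟨0, 0⟩, 0⟩, 0, 0⟩ 0 0) (.cut .l 153791 (.void 46 ⟨⟨100000, 0, 0, 0, 0, 0, 0, 0, 0, ⟨0, 0⟩, 0⟩, 0, 0⟩ 0 0) (.cut .l 230687 (.pos 46 .mp ⟨⟨131256922, 0, 0, 0, 0, 56961670, 0, 0, 0, ⟨0, 0⟩, 0⟩, 0, 0⟩ 0 0) (.cut .s 11829248 (.pos 46 .mp ⟨⟨128302212, 0, 0, 0, 0, 52562474, 0,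 0, 0, ⟨0, 0⟩, 0⟩, 0, 0⟩ 0 0) (.pos 46 .mp ⟨⟨131322689, 0, 0, 0, 0, 53579046, 0, 0, 0, ⟨0, 0⟩, 0⟩, 0, 0⟩ 0 0))))) (.pos 44 .mp ⟨⟨165298686, 0, 0, 0, 0, 0, 0, 0, 0, ⟨0, 0⟩, 0⟩, 0, 0⟩ 0 0))) (.cut .v 16842752 (.cut .s 11829248 (.cut .s 11812864 (.cut .l 153791 (.cut .d (-8192) (.pos 43 .mp ⟨⟨128235156, 0, 0, 0, 0, 52750072, 0, 0, 0, ⟨0, 0⟩, 0⟩, 0, 0⟩ 0 0) (.cut .v 16809984 (.cut .l 76895 (.cut .d (-4096) (.pos 45 .mp ⟨⟨127950134, 0, 0, 0, 0, 52627821, 0, 0, 0, ⟨0, 0⟩, 0⟩, 0, 0⟩ 0 0) (.cut .s 11804672 (.pos 45 .mp ⟨⟨129493724, 0, 0, 0, 0, 46291640, 0, 0, 0, ⟨0, 0⟩, 0⟩, 0, 0⟩ 0 0) (.pos 45 .mp ⟨⟨130261056, 0, 0, 0, 0, 46461083, 0, 0,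 0, ⟨0, 0⟩, 0⟩, 0, 0⟩ 0 0))) (.pos 45 .mp ⟨⟨130052618, 0, 0, 0, 0, 44627188, 0, 0, 0, ⟨0, 0⟩, 0⟩, 0, 0⟩ 0 0)) (.pos 46 .mp ⟨⟨157703728, 0, 0, 0, 0, 0, 0, 0, 0, ⟨0, 0⟩, 0⟩, 0, 0⟩ 0 0))) (.pos 43 .mp ⟨⟨130959443, 0, 0, 0, 0, 43552324, 0, 0, 0, ⟨0, 0⟩, 0⟩, 0, 0⟩ 0 0)) (.cut .l 153791 (.cut .d (-8192) (.pos 43 .mp ⟨⟨129729935, 0, 0, 0, 0, 53214467, 0, 0, 0, ⟨0, 0⟩, 0⟩, 0, 0⟩ 0 0) (.cut .v 16809984 (.cut .l 76895 (.cut .d (-4096) (.pos 45 .mp ⟨⟨129438934, 0, 0, 0, 0, 53095698, 0, 0, 0, ⟨0, 0⟩, 0⟩, 0, 0⟩ 0 0) (.cut .s 11821056 (.pos 45 .mp ⟨⟨131027214, 0, 0, 0, 0, 46645182, 0, 0, 0, ⟨0, 0⟩, 0⟩, 0, 0⟩ 0 0) (.pos 45 .mp ⟨⟨131787140, 0, 0,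 0, 0, 46854302, 0, 0, 0, ⟨0, 0⟩, 0⟩, 0, 0⟩ 0 0))) (.pos 45 .mp ⟨⟨131568685, 0, 0, 0, 0, 45060052, 0, 0, 0, ⟨0, 0⟩, 0⟩, 0, 0⟩ 0 0)) (.pos 46 .mp ⟨⟨159423015, 0, 0, 0, 0, 0, 0, 0, 0, ⟨0, 0⟩, 0⟩, 0, 0⟩ 0 0))) (.pos 43 .mp ⟨⟨132491409, 0, 0, 0, 0, 43964047, 0, 0, 0, ⟨0, 0⟩, 0⟩, 0, 0⟩ 0 0))) (.cut .s 11845632 (.cut .l 153791 (.cut .d (-8192) (.pos 43 .mp ⟨⟨131242269, 0, 0, 0, 0, 53696620, 0, 0, 0, ⟨0, 0⟩, 0⟩, 0, 0⟩ 0 0) (.cut .v 16809984 (.cut .l 76895 (.cut .d (-4096) (.pos 45 .mp ⟨⟨130945203, 0, 0, 0, 0, 53581393, 0, 0, 0, ⟨0, 0⟩, 0⟩, 0, 0⟩ 0 0) (.cut .s 11837440 (.pos 45 .mp ⟨⟨132551508, 0, 0, 0, 0, 47066672, 0, 0, 0, ⟨0, 0⟩, 0⟩,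 0, 0⟩ 0 0) (.pos 45 .mp ⟨⟨133320339, 0, 0, 0, 0, 47282274, 0, 0, 0, ⟨0, 0⟩, 0⟩, 0, 0⟩ 0 0))) (.pos 45 .mp ⟨⟨133102548, 0, 0, 0, 0, 45499895, 0, 0, 0, ⟨0, 0⟩, 0⟩, 0, 0⟩ 0 0)) (.pos 46 .mp ⟨⟨161169375, 0, 0, 0, 0, 0, 0, 0, 0, ⟨0, 0⟩, 0⟩, 0, 0⟩ 0 0))) (.pos 43 .mp ⟨⟨134041428, 0, 0, 0, 0, 44382384, 0, 0, 0, ⟨0, 0⟩, 0⟩, 0, 0⟩ 0 0)) (.cut .l 153791 (.cut .d (-8192) (.pos 43 .mp ⟨⟨132772321, 0, 0, 0, 0, 54196731, 0, 0, 0, ⟨0, 0⟩, 0⟩, 0, 0⟩ 0 0) (.cut .v 16809984 (.cut .l 76895 (.cut .d (-4096) (.pos 45 .mp ⟨⟨132469101, 0, 0, 0, 0, 54085104, 0, 0, 0, ⟨0, 0⟩, 0⟩, 0, 0⟩ 0 0) (.cut .s 11853824 (.pos 45 .mp ⟨⟨134093654, 0, 0, 0, 0, 47501092,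 0, 0, 0, ⟨0, 0⟩, 0⟩, 0, 0⟩ 0 0) (.pos 45 .mp ⟨⟨134871472, 0, 0, 0, 0, 47723109, 0, 0, 0, ⟨0, 0⟩, 0⟩, 0, 0⟩ 0 0))) (.pos 45 .mp ⟨⟨134654373, 0, 0, 0, 0, 45946222, 0, 0, 0, ⟨0, 0⟩, 0⟩, 0, 0⟩ 0 0)) (.pos 46 .mp ⟨⟨162943053, 0, 0, 0, 0, 0, 0, 0, 0, ⟨0, 0⟩, 0⟩, 0, 0⟩ 0 0))) (.pos 43 .mp ⟨⟨135609667, 0, 0, 0, 0, 44806834, 0, 0, 0, ⟨0, 0⟩, 0⟩, 0, 0⟩ 0 0)))) (.pos 44 .mp ⟨⟨162266004, 0, 0, 0, 0, 0, 0, 0, 0, ⟨0, 0⟩, 0⟩, 0, 0⟩ 0 0)))) (.pos 36 .mp ⟨⟨164121924, 0, 0, 0, 0, 0, 0, 0, 0, ⟨0, 0⟩, 0⟩, 0, 0⟩ 0 0)) (.cut .v 16908288 (.cut .s 11927552 (.cut .d (-16384) (.cut .v 16842752 (.cut .d (-24576) (.void 43 ⟨⟨0, 0, 0, 0, 0, 100000, 0, 0, 0,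 ⟨0, 0⟩, 0⟩, 0, 0⟩ 0 0) (.cut .v 16809984 (.pos 45 .mp ⟨⟨0, 0, 0, 0, 0, 296580188, 0, 0, 0, ⟨0, 0⟩, 0⟩, 0, 0⟩ 0 0) (.cut .l 153791 (.void 46 ⟨⟨100000, 0, 0, 0, 0, 0, 0, 0, 0, ⟨0, 0⟩, 0⟩, 0, 0⟩ 0 0) (.cut .l 230687 (.pos 46 .mp ⟨⟨137656240, 0, 0, 0, 0, 58994971, 0, 0, 0, ⟨0, 0⟩, 0⟩, 0, 0⟩ 0 0) (.cut .d (-20480) (.pos 46 .mp ⟨⟨135059800, 0, 0, 0, 0, 60565773, 0, 0, 0, ⟨0, 0⟩, 0⟩, 0, 0⟩ 0 0) (.cut .s 11894784 (.pos 46 .mp ⟨⟨139125606, 0, 0, 0, 0, 44393470, 0, 0, 0, ⟨0, 0⟩, 0⟩, 0, 0⟩ 0 0) (.pos 46 .mp ⟨⟨142405587, 0, 0, 0, 0, 45227301, 0, 0, 0, ⟨0, 0⟩, 0⟩, 0, 0⟩ 0 0))))))) (.pos 44 .mp ⟨⟨175435807, 0, 0, 0, 0, 0, 0, 0, 0, ⟨0, 0⟩, 0⟩,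 0, 0⟩ 0 0)) (.cut .v 16842752 (.cut .s 11894784 (.cut .s 11878400 (.cut .l 153791 (.cut .d (-8192) (.pos 43 .mp ⟨⟨134320255, 0, 0, 0, 0, 54715000, 0, 0, 0, ⟨0, 0⟩, 0⟩, 0, 0⟩ 0 0) (.cut .v 16809984 (.cut .l 76895 (.cut .d (-4096) (.pos 45 .mp ⟨⟨134010791, 0, 0, 0, 0, 54607032, 0, 0, 0, ⟨0, 0⟩, 0⟩, 0, 0⟩ 0 0) (.cut .v 16793600 (.cut .s 11870208 (.pos 47 .mp ⟨⟨135389386, 0, 0, 0, 0, 48375036, 0, 0, 0, ⟨0, 0⟩, 0⟩, 0, 0⟩ 0 0) (.pos 47 .mp ⟨⟨136174869, 0, 0, 0, 0, 48605866, 0, 0, 0, ⟨0, 0⟩, 0⟩, 0, 0⟩ 0 0)) (.pos 48 .mp ⟨⟨164553315, 0, 0, 0, 0, 0, 0, 0, 0, ⟨0, 0⟩, 0⟩, 0, 0⟩ 0 0))) (.pos 45 .mp ⟨⟨136224325, 0, 0, 0, 0, 46398535, 0, 0, 0,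 ⟨0, 0⟩, 0⟩, 0, 0⟩ 0 0)) (.pos 46 .mp ⟨⟨164744292, 0, 0, 0, 0, 0, 0, 0, 0, ⟨0, 0⟩, 0⟩, 0, 0⟩ 0 0))) (.cut .s 11870208 (.pos 43 .mp ⟨⟨136400671, 0, 0, 0, 0, 46112807, 0, 0, 0, ⟨0, 0⟩, 0⟩, 0, 0⟩ 0 0) (.pos 43 .mp ⟨⟨137196294, 0, 0, 0, 0, 46334660, 0, 0, 0, ⟨0, 0⟩, 0⟩, 0, 0⟩ 0 0))) (.cut .l 153791 (.cut .d (-8192) (.pos 43 .mp ⟨⟨135886237, 0, 0, 0, 0, 55251631, 0, 0, 0, ⟨0, 0⟩, 0⟩, 0, 0⟩ 0 0) (.cut .v 16809984 (.cut .l 76895 (.cut .d (-4096) (.pos 45 .mp ⟨⟨135570439, 0, 0, 0, 0, 55147382, 0, 0, 0, ⟨0, 0⟩, 0⟩, 0, 0⟩ 0 0) (.cut .v 16793600 (.cut .s 11886592 (.pos 47 .mp ⟨⟨136964911, 0, 0, 0, 0, 48839856, 0, 0, 0, ⟨0, 0⟩, 0⟩, 0, 0⟩ 0 0)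 (.pos 47 .mp ⟨⟨137759533, 0, 0, 0, 0, 49076988, 0, 0, 0, ⟨0, 0⟩, 0⟩, 0, 0⟩ 0 0)) (.pos 48 .mp ⟨⟨166380236, 0, 0, 0, 0, 0, 0, 0, 0, ⟨0, 0⟩, 0⟩, 0, 0⟩ 0 0))) (.pos 45 .mp ⟨⟨137812574, 0, 0, 0, 0, 46856334, 0, 0, 0, ⟨0, 0⟩, 0⟩, 0, 0⟩ 0 0)) (.pos 46 .mp ⟨⟨166573343, 0, 0, 0, 0, 0, 0, 0, 0, ⟨0, 0⟩, 0⟩, 0, 0⟩ 0 0))) (.cut .s 11886592 (.pos 43 .mp ⟨⟨137996558, 0, 0, 0, 0, 46557793, 0, 0, 0, ⟨0, 0⟩, 0⟩, 0, 0⟩ 0 0) (.pos 43 .mp ⟨⟨138801483, 0, 0, 0, 0, 46782141, 0, 0, 0, ⟨0, 0⟩, 0⟩, 0, 0⟩ 0 0)))) (.cut .s 11911168 (.cut .l 153791 (.cut .d (-8192) (.pos 43 .mp ⟨⟨137470435, 0, 0, 0, 0, 55806829, 0, 0, 0, ⟨0, 0⟩, 0⟩, 0, 0⟩ 0 0) (.cut .v 16809984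 (.cut .l 76895 (.cut .d (-4096) (.pos 45 .mp ⟨⟨137148212, 0, 0, 0, 0, 55706360, 0, 0, 0, ⟨0, 0⟩, 0⟩, 0, 0⟩ 0 0) (.cut .v 16793600 (.cut .s 11902976 (.pos 47 .mp ⟨⟨138558758, 0, 0, 0, 0, 49317245, 0, 0, 0, ⟨0, 0⟩, 0⟩, 0, 0⟩ 0 0) (.pos 47 .mp ⟨⟨139362606, 0, 0, 0, 0, 49560606, 0, 0, 0, ⟨0, 0⟩, 0⟩, 0, 0⟩ 0 0)) (.pos 48 .mp ⟨⟨168235189, 0, 0, 0, 0, 0, 0, 0, 0, ⟨0, 0⟩, 0⟩, 0, 0⟩ 0 0))) (.pos 45 .mp ⟨⟨139419292, 0, 0, 0, 0, 47319114, 0, 0, 0, ⟨0, 0⟩, 0⟩, 0, 0⟩ 0 0)) (.pos 46 .mp ⟨⟨168430457, 0, 0, 0, 0, 0, 0, 0, 0, ⟨0, 0⟩, 0⟩, 0, 0⟩ 0 0))) (.cut .s 11902976 (.pos 43 .mp ⟨⟨139611091, 0, 0, 0, 0, 47007639, 0, 0, 0, ⟨0, 0⟩, 0⟩, 0, 0⟩ 0 0)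 (.pos 43 .mp ⟨⟨140425405, 0, 0, 0, 0, 47234225, 0, 0, 0, ⟨0, 0⟩, 0⟩, 0, 0⟩ 0 0))) (.cut .l 153791 (.cut .d (-8192) (.pos 43 .mp ⟨⟨139073020, 0, 0, 0, 0, 56380804, 0, 0, 0, ⟨0, 0⟩, 0⟩, 0, 0⟩ 0 0) (.cut .v 16809984 (.cut .l 76895 (.cut .d (-4096) (.pos 45 .mp ⟨⟨138744280, 0, 0, 0, 0, 56284176, 0, 0, 0, ⟨0, 0⟩, 0⟩, 0, 0⟩ 0 0) (.cut .v 16793600 (.cut .s 11919360 (.pos 47 .mp ⟨⟨140171099, 0, 0, 0, 0, 49807054, 0, 0, 0, ⟨0, 0⟩, 0⟩, 0, 0⟩ 0 0) (.pos 47 .mp ⟨⟨140984260, 0, 0, 0, 0, 50056570, 0, 0, 0, ⟨0, 0⟩, 0⟩, 0, 0⟩ 0 0)) (.pos 48 .mp ⟨⟨170118429, 0, 0, 0, 0, 0, 0, 0, 0, ⟨0, 0⟩, 0⟩, 0, 0⟩ 0 0))) (.pos 45 .mp ⟨⟨141044651, 0, 0, 0, 0, 47786364,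 0, 0, 0, ⟨0, 0⟩, 0⟩, 0, 0⟩ 0 0)) (.pos 46 .mp ⟨⟨170315891, 0, 0, 0, 0, 0, 0, 0, 0, ⟨0, 0⟩, 0⟩, 0, 0⟩ 0 0))) (.cut .s 11919360 (.pos 43 .mp ⟨⟨141244447, 0, 0, 0, 0, 47461834, 0, 0, 0, ⟨0, 0⟩, 0⟩, 0, 0⟩ 0 0) (.pos 43 .mp ⟨⟨142068239, 0, 0, 0, 0, 47690400, 0, 0, 0, ⟨0, 0⟩, 0⟩, 0, 0⟩ 0 0))))) (.pos 44 .mp ⟨⟨169595184, 0, 0, 0, 0, 0, 0, 0, 0, ⟨0, 0⟩, 0⟩, 0, 0⟩ 0 0))) (.cut .d (-16384) (.cut .d (-24576) (.void 35 ⟨⟨0, 0, 0, 0, 0, 100000, 0, 0, 0, ⟨0, 0⟩, 0⟩, 0, 0⟩ 0 0) (.cut .v 16842752 (.cut .d (-20480) (.pos 43 .mp ⟨⟨140956221, 0, 0, 0, 0, 66441401, 0, 0, 0, ⟨0, 0⟩, 0⟩, 0, 0⟩ 0 0) (.cut .v 16809984 (.pos 45 .mp ⟨⟨0, 0, 0, 0, 0, 311543921,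 0, 0, 0, ⟨0, 0⟩, 0⟩, 0, 0⟩ 0 0) (.cut .l 153791 (.void 46 ⟨⟨100000, 0, 0, 0, 0, 0, 0, 0, 0, ⟨0, 0⟩, 0⟩, 0, 0⟩ 0 0) (.cut .l 230687 (.pos 46 .mp ⟨⟨144284077, 0, 0, 0, 0, 61455979, 0, 0, 0, ⟨0, 0⟩, 0⟩, 0, 0⟩ 0 0) (.cut .s 11960320 (.pos 46 .mp ⟨⟨145762307, 0, 0, 0, 0, 46103386, 0, 0, 0, ⟨0, 0⟩, 0⟩, 0, 0⟩ 0 0) (.pos 46 .mp ⟨⟨144131484, 0, 0, 0, 0, 57359125, 0, 0, 0, ⟨0, 0⟩, 0⟩, 0, 0⟩ 0 0)))))) (.pos 44 .mp ⟨⟨180555440, 0, 0, 0, 0, 0, 0, 0, 0, ⟨0, 0⟩, 0⟩, 0, 0⟩ 0 0))) (.cut .v 16842752 (.cut .s 11960320 (.cut .s 11943936 (.cut .l 153791 (.cut .d (-8192) (.pos 43 .mp ⟨⟨140694166, 0, 0, 0, 0, 56973767, 0, 0, 0, ⟨0, 0⟩, 0⟩, 0, 0⟩ 0 0)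 (.cut .v 16809984 (.cut .l 76895 (.cut .d (-4096) (.pos 45 .mp ⟨⟨140358815, 0, 0, 0, 0, 56881043, 0, 0, 0, ⟨0, 0⟩, 0⟩, 0, 0⟩ 0 0) (.cut .v 16793600 (.cut .s 11935744 (.pos 47 .mp ⟨⟨141802110, 0, 0, 0, 0, 50309133, 0, 0, 0, ⟨0, 0⟩, 0⟩, 0, 0⟩ 0 0) (.pos 47 .mp ⟨⟨142624671, 0, 0, 0, 0, 50564725, 0, 0, 0, ⟨0, 0⟩, 0⟩, 0, 0⟩ 0 0)) (.pos 48 .mp ⟨⟨172030215, 0, 0, 0, 0, 0, 0, 0, 0, ⟨0, 0⟩, 0⟩, 0, 0⟩ 0 0))) (.pos 45 .mp ⟨⟨142688830, 0, 0, 0, 0, 48257574, 0, 0, 0, ⟨0, 0⟩, 0⟩, 0, 0⟩ 0 0)) (.pos 46 .mp ⟨⟨172229905, 0, 0, 0, 0, 0, 0, 0, 0, ⟨0, 0⟩, 0⟩, 0, 0⟩ 0 0))) (.cut .s 11935744 (.pos 43 .mp ⟨⟨142896803, 0, 0, 0, 0, 47919860, 0, 0, 0, ⟨0,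 0⟩, 0⟩, 0, 0⟩ 0 0) (.pos 43 .mp ⟨⟨143730162, 0, 0, 0, 0, 48150147, 0, 0, 0, ⟨0, 0⟩, 0⟩, 0, 0⟩ 0 0))) (.cut .l 153791 (.cut .d (-8192) (.pos 43 .mp ⟨⟨142334047, 0, 0, 0, 0, 57585932, 0, 0, 0, ⟨0, 0⟩, 0⟩, 0, 0⟩ 0 0) (.cut .v 16809984 (.cut .l 76895 (.cut .d (-4096) (.pos 45 .mp ⟨⟨141991993, 0, 0, 0, 0, 57497174, 0, 0, 0, ⟨0, 0⟩, 0⟩, 0, 0⟩ 0 0) (.cut .v 16793600 (.cut .s 11952128 (.pos 47 .mp ⟨⟨143451966, 0, 0, 0, 0, 50823326, 0, 0, 0, ⟨0, 0⟩, 0⟩, 0, 0⟩ 0 0) (.pos 47 .mp ⟨⟨144284017, 0, 0, 0, 0, 51084915, 0, 0, 0, ⟨0, 0⟩, 0⟩, 0, 0⟩ 0 0)) (.pos 48 .mp ⟨⟨173970810, 0, 0, 0, 0, 0, 0, 0, 0, ⟨0, 0⟩, 0⟩, 0, 0⟩ 0 0))) (.pos 45 .mp ⟨⟨144352005,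 0, 0, 0, 0, 48732225, 0, 0, 0, ⟨0, 0⟩, 0⟩, 0, 0⟩ 0 0)) (.pos 46 .mp ⟨⟨174172760, 0, 0, 0, 0, 0, 0, 0, 0, ⟨0, 0⟩, 0⟩, 0, 0⟩ 0 0))) (.cut .s 11952128 (.pos 43 .mp ⟨⟨144568338, 0, 0, 0, 0, 48381197, 0, 0, 0, ⟨0, 0⟩, 0⟩, 0, 0⟩ 0 0) (.pos 43 .mp ⟨⟨145411355, 0, 0, 0, 0, 48612944, 0, 0, 0, ⟨0, 0⟩, 0⟩, 0, 0⟩ 0 0)))) (.cut .s 11976704 (.cut .l 153791 (.cut .d (-8192) (.pos 43 .mp ⟨⟨143992842, 0, 0, 0, 0, 58217517, 0, 0, 0, ⟨0, 0⟩, 0⟩, 0, 0⟩ 0 0) (.cut .v 16809984 (.cut .l 76895 (.cut .d (-4096) (.pos 45 .mp ⟨⟨143643990, 0, 0, 0, 0, 58132788, 0, 0, 0, ⟨0, 0⟩, 0⟩, 0, 0⟩ 0 0) (.cut .s 11968512 (.pos 45 .mp ⟨⟨145402680, 0, 0, 0, 0, 50892136,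 0, 0, 0, ⟨0, 0⟩, 0⟩, 0, 0⟩ 0 0) (.pos 45 .mp ⟨⟨146245815, 0, 0, 0, 0, 51156991, 0, 0, 0, ⟨0, 0⟩, 0⟩, 0, 0⟩ 0 0))) (.pos 45 .mp ⟨⟨146034359, 0, 0, 0, 0, 49209798, 0, 0, 0, ⟨0, 0⟩, 0⟩, 0, 0⟩ 0 0)) (.pos 46 .mp ⟨⟨176144725, 0, 0, 0, 0, 0, 0, 0, 0, ⟨0, 0⟩, 0⟩, 0, 0⟩ 0 0))) (.cut .s 11968512 (.pos 43 .mp ⟨⟨146259235, 0, 0, 0, 0, 48845322, 0, 0, 0, ⟨0, 0⟩, 0⟩, 0, 0⟩ 0 0) (.pos 43 .mp ⟨⟨147112002, 0, 0, 0, 0, 49078264, 0, 0, 0, ⟨0, 0⟩, 0⟩, 0, 0⟩ 0 0))) (.cut .l 153791 (.cut .d (-8192) (.pos 43 .mp ⟨⟨145670731, 0, 0, 0, 0, 58868741, 0, 0, 0, ⟨0, 0⟩, 0⟩, 0, 0⟩ 0 0) (.cut .v 16809984 (.cut .l 76895 (.cut .d (-4096) (.pos 45 .mp ⟨⟨145314985,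 0, 0, 0, 0, 58788106, 0, 0, 0, ⟨0, 0⟩, 0⟩, 0, 0⟩ 0 0) (.cut .s 11984896 (.pos 45 .mp ⟨⟨147093783, 0, 0, 0, 0, 51424757, 0, 0, 0, ⟨0, 0⟩, 0⟩, 0, 0⟩ 0 0) (.pos 45 .mp ⟨⟨147946607, 0, 0, 0, 0, 51695413, 0, 0, 0, ⟨0, 0⟩, 0⟩, 0, 0⟩ 0 0))) (.pos 45 .mp ⟨⟨147736075, 0, 0, 0, 0, 49689766, 0, 0, 0, ⟨0, 0⟩, 0⟩, 0, 0⟩ 0 0)) (.pos 46 .mp ⟨⟨178146069, 0, 0, 0, 0, 0, 0, 0, 0, ⟨0, 0⟩, 0⟩, 0, 0⟩ 0 0))) (.pos 43 .mp ⟨⟨148832290, 0, 0, 0, 0, 48361429, 0, 0, 0, ⟨0, 0⟩, 0⟩, 0, 0⟩ 0 0)))) (.pos 44 .mp ⟨⟨177375116, 0, 0, 0, 0, 0, 0, 0, 0, ⟨0, 0⟩, 0⟩, 0, 0⟩ 0 0)))) (.pos 36 .mp ⟨⟨179238797, 0, 0, 0, 0, 0, 0, 0, 0, ⟨0, 0⟩, 0⟩, 0, 0⟩ 0 0))))))) (.pos 32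 .mp ⟨⟨201719150, 0, 0, 0, 0, 0, 0, 0, 0, ⟨0, 0⟩, 0⟩, 0, 0⟩ 0 0))) (.void 30 ⟨⟨100000, 0, 0, 0, 0, 0, 0, 0, 0, ⟨0, 0⟩, 0⟩, 0, 0⟩ 0 0))) (.void 28 ⟨⟨100000, 0, 0, 0, 0, 0, 0, 0, 0, ⟨0, 0⟩, 0⟩, 0, 0⟩ 0 0))) (.void 26 ⟨⟨100000, 0, 0, 0, 0, 0, 0, 0, 0, ⟨0, 0⟩, 0⟩, 0, 0⟩ 0 0))) (.void 24 ⟨⟨100000, 0, 0, 0, 0, 0, 0, 0, 0, ⟨0, 0⟩, 0⟩, 0, 0⟩ 0 0))) (.void 22 ⟨⟨100000, 0, 0, 0, 0, 0, 0, 0, 0, ⟨0, 0⟩, 0⟩, 0, 0⟩ 0 0)) (.void 103 ⟨⟨100000, 0, 0, 0, 0, 0, 0, 0, 0, ⟨0, 0⟩, 0⟩, 0, 0⟩ 0 0)) (.void 114 ⟨⟨100000, 0, 0, 0, 0, 0, 0, 0, 0, ⟨0, 0⟩, 0⟩, 0, 0⟩ 0 0))) (.cut .v 16777216 (.cut .v 8388608 (.cut .v 4194304 (.cut .v 2097152 (.void 117 ⟨⟨0, 0,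 66667, 0, 0, 0, 0, 0, 0, ⟨0, 0⟩, 0⟩, 0, 33333⟩ 0 0) (.pos 118 .pm ⟨⟨0, 0, 19111090, 0, 0, 0, 0, 0, 0, ⟨0, 0⟩, 0⟩, 0, 194671⟩ 0 0)) (.pos 5 .pm ⟨⟨0, 0, 5267234, 0, 0, 0, 0, 0, 0, ⟨0, 0⟩, 0⟩, 0, 0⟩ 0 0)) (.pos 3 .pm ⟨⟨0, 0, 0, 0, 0, 0, 0, 0, 0, ⟨0, 0⟩, 0⟩, 0, 0⟩ 0 0)) (.cut .v 67108864 (.cut .d 3608508 (.cut .v 33554432 (.cut .d 1804254 (.cut .v 25165824 (.cut .d 902127 (.cut .v 20971520 (.cut .d 451063 (.cut .v 18874368 (.cut .d 225531 (.cut .d 112765 (.cut .v 17825792 (.cut .v 17301504 (.cut .s 11862016 (.pos 29 .pp ⟨⟨126511929, 0, 0, 0, 0, 0, 0, 0, 0, ⟨0, 0⟩, 0⟩, 3295209, 0⟩ 0 0) (.pos 29 .pp ⟨⟨138864633, 0, 0, 0, 0, 0, 0, 0, 0,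 ⟨0, 0⟩, 0⟩, 3517546, 0⟩ 0 0)) (.pos 30 .pp ⟨⟨169529283, 0, 0, 0, 0, 0, 0, 0, 0, ⟨0, 0⟩, 0⟩, 0, 0⟩ 0 0)) (.pos 28 .pp ⟨⟨193020639, 0, 0, 0, 0, 0, 0, 0, 0, ⟨0, 0⟩, 0⟩, 0, 0⟩ 0 0)) (.pos 25 .pp ⟨⟨144611427, 0, 0, 0, 0, 0, 0, 0, 0, ⟨0, 0⟩, 0⟩, 0, 15845⟩ 0 0)) (.pos 25 .pp ⟨⟨0, 0, 0, 0, 0, 0, 0, 0, 0, ⟨0, 0⟩, 0⟩, 0, 515305⟩ 0 0)) (.cut .d 225531 (.pos 26 .pp ⟨⟨230508038, 0, 0, 0, 0, 0, 0, 0, 0, ⟨0, 0⟩, 0⟩, 0, 0⟩ 0 0) (.pos 26 .pp ⟨⟨184837454, 0, 0, 0, 0, 0, 0, 0, 0, ⟨0, 0⟩, 0⟩, 0, 0⟩ 0 0))) (.pos 23 .pp ⟨⟨0, 0, 0, 0, 0, 0, 0, 0, 0, ⟨0, 0⟩, 0⟩, 0, 540752⟩ 0 0)) (.cut .d 451063 (.cut .v 23068672 (.cut .d 225531 (.void 55 ⟨⟨0, 0, 0, 0,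 0, 0, 0, 0, 0, ⟨0, 0⟩, 0⟩, 100000, 0⟩ 0 0) (.cut .v 22020096 (.pos 57 .pp ⟨⟨232543817, 0, 0, 0, 0, 0, 0, 0, 0, ⟨0, 0⟩, 0⟩, 0, 0⟩ 0 0) (.pos 58 .pp ⟨⟨0, 0, 0, 0, 0, 0, 0, 0, 0, ⟨0, 0⟩, 0⟩, 33390226, 0⟩ 0 0))) (.pos 56 .pp ⟨⟨0, 0, 0, 0, 0, 0, 0, 0, 0, ⟨0, 0⟩, 0⟩, 41990180, 0⟩ 0 0)) (.cut .v 23068672 (.pos 55 .pp ⟨⟨0, 0, 0, 0, 0, 0, 160520, 0, 0, ⟨0, 0⟩, 0⟩, 23618167, 0⟩ 0 0) (.pos 56 .pp ⟨⟨0, 0, 0, 0, 0, 0, 0, 0, 0, ⟨0, 0⟩, 0⟩, 30241625, 0⟩ 0 0)))) (.pos 21 .pp ⟨⟨0, 0, 0, 0, 0, 0, 0, 0, 0, ⟨0, 0⟩, 0⟩, 0, 584012⟩ 0 0)) (.cut .d 902127 (.cut .v 29360128 (.cut .d 451063 (.void 91 ⟨⟨0, 0, 0, 0, 0, 0, 0, 0, 0, ⟨0, 0⟩, 0⟩, 100000, 0⟩ 0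 0) (.pos 91 .pp ⟨⟨0, 0, 0, 0, 0, 0, 0, 0, 0, ⟨0, 0⟩, 0⟩, 37967737, 0⟩ 0 0)) (.void 92 ⟨⟨0, 0, 0, 0, 0, 0, 0, 0, 0, ⟨0, 0⟩, 0⟩, 100000, 0⟩ 0 0)) (.pos 22 .pp ⟨⟨0, 0, 0, 0, 0, 0, 0, 0, 0, ⟨0, 0⟩, 0⟩, 28796229, 0⟩ 0 0))) (.pos 20 .pp ⟨⟨0, 0, 0, 0, 0, 0, 1939441, 0, 0, ⟨0, 0⟩, 0⟩, 0, 0⟩ 0 0)) (.cut .d 1804254 (.cut .v 50331648 (.pos 106 .pp ⟨⟨0, 0, 0, 0, 0, 0, 0, 0, 0, ⟨0, 0⟩, 0⟩, 75958285, 0⟩ 0 0) (.void 107 ⟨⟨0, 0, 0, 0, 0, 0, 0, 0, 0, ⟨0, 0⟩, 0⟩, 100000, 0⟩ 0 0)) (.pos 103 .pp ⟨⟨0, 0, 0, 0, 0, 0, 0, 0, 0, ⟨0, 0⟩, 0⟩, 41584413, 0⟩ 0 0))) (.pos 102 .pp ⟨⟨0, 0, 0, 0, 0, 0, 0, 0, 0, ⟨0, 0⟩, 0⟩, 0, 486677⟩ 0 0)) (.void 114 ⟨⟨0, 0, 0,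 45129, 0, 0, 0, 0, 0, ⟨0, 0⟩, 0⟩, 54871, 0⟩ 0 0)))),
    by decide +kernel⟩

def covers18 : cell.Covers Vale.Agent.P237.Petty.Cor.Grid.N12.table row18.1 :=
  ⟨(.cut .d 0 (.cut .v 16777216 (.cut .d (-8388608) (.void 1 ⟨⟨0, 0, 0, 0, 0, 100000, 0, 0, 0, ⟨0, 0⟩, 0⟩, 0, 0⟩ 0 0) (.cut .d (-4194304) (.void 1 ⟨⟨0, 0, 0, 0, 0, 100000, 0, 0, 0, ⟨0, 0⟩, 0⟩, 0, 0⟩ 0 0) (.cut .d (-2097152) (.void 1 ⟨⟨0, 0, 0, 0, 0, 100000, 0, 0, 0, ⟨0, 0⟩, 0⟩, 0, 0⟩ 0 0) (.cut .d (-1048576) (.void 1 ⟨⟨0, 0, 0, 0, 0, 100000, 0, 0, 0, ⟨0, 0⟩, 0⟩, 0, 0⟩ 0 0) (.cut .d (-524288) (.void 1 ⟨⟨0, 0, 0, 0, 0, 100000, 0, 0, 0, ⟨0, 0⟩, 0⟩, 0, 0⟩ 0 0) (.cut .d (-262144)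 (.void 1 ⟨⟨0, 0, 0, 0, 0, 100000, 0, 0, 0, ⟨0, 0⟩, 0⟩, 0, 0⟩ 0 0) (.cut .d (-131072) (.void 1 ⟨⟨0, 0, 0, 0, 0, 100000, 0, 0, 0, ⟨0, 0⟩, 0⟩, 0, 0⟩ 0 0) (.cut .d (-65536) (.void 1 ⟨⟨0, 0, 0, 0, 0, 100000, 0, 0, 0, ⟨0, 0⟩, 0⟩, 0, 0⟩ 0 0) (.cut .d (-32768) (.void 1 ⟨⟨0, 0, 0, 0, 0, 100000, 0, 0, 0, ⟨0, 0⟩, 0⟩, 0, 0⟩ 0 0) (.cut .v 8388608 (.cut .v 4194304 (.void 4 ⟨⟨0, 0, 100000, 0, 0, 0, 0, 0, 0, ⟨0, 0⟩, 0⟩, 0, 0⟩ 0 0) (.pos 5 .mm ⟨⟨0, 0, 6466486, 0, 0, 101861099, 0, 0, 0, ⟨0, 0⟩, 0⟩, 0, 0⟩ 0 0)) (.cut .s 12124160 (.pos 3 .mm ⟨⟨0, 0, 0, 0, 0, 304906619, 0, 0, 0, ⟨0, 0⟩, 0⟩, 0, 0⟩ 0 0) (.pos 3 .mm ⟨⟨0, 0, 0, 0, 0, 336083633, 0, 0, 0,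 ⟨0, 0⟩, 0⟩, 0, 0⟩ 0 0)))))))))))) (.cut .v 67108864 (.cut .v 33554432 (.cut .v 25165824 (.cut .d (-8388608) (.void 21 ⟨⟨100000, 0, 0, 0, 0, 0, 0, 0, 0, ⟨0, 0⟩, 0⟩, 0, 0⟩ 0 0) (.cut .v 20971520 (.cut .d (-4194304) (.void 23 ⟨⟨100000, 0, 0, 0, 0, 0, 0, 0, 0, ⟨0, 0⟩, 0⟩, 0, 0⟩ 0 0) (.cut .v 18874368 (.cut .d (-2097152) (.void 25 ⟨⟨100000, 0, 0, 0, 0, 0, 0, 0, 0, ⟨0, 0⟩, 0⟩, 0, 0⟩ 0 0) (.cut .d (-1048576) (.void 25 ⟨⟨100000, 0, 0, 0, 0, 0, 0, 0, 0, ⟨0, 0⟩, 0⟩, 0, 0⟩ 0 0) (.cut .v 17825792 (.cut .v 17301504 (.cut .d (-524288) (.void 29 ⟨⟨100000, 0, 0, 0, 0, 0, 0, 0, 0, ⟨0, 0⟩, 0⟩, 0, 0⟩ 0 0) (.cut .v 17039360 (.cut .d (-262144) (.void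 31 ⟨⟨100000, 0, 0, 0, 0, 0, 0, 0, 0, ⟨0, 0⟩, 0⟩, 0, 0⟩ 0 0) (.cut .d (-131072) (.void 31 ⟨⟨100000, 0, 0, 0, 0, 0, 0, 0, 0, ⟨0, 0⟩, 0⟩, 0, 0⟩ 0 0) (.cut .d (-65536) (.void 31 ⟨⟨100000, 0, 0, 0, 0, 0, 0, 0, 0, ⟨0, 0⟩, 0⟩, 0, 0⟩ 0 0) (.cut .d (-32768) (.void 31 ⟨⟨0, 0, 0, 0, 0, 100000, 0, 0, 0, ⟨0, 0⟩, 0⟩, 0, 0⟩ 0 0) (.cut .s 12124160 (.cut .v 16908288 (.cut .d (-16384) (.cut .d (-24576) (.void 35 ⟨⟨0, 0, 0, 0, 0, 100000, 0, 0, 0, ⟨0, 0⟩, 0⟩, 0, 0⟩ 0 0) (.cut .l 153791 (.void 35 ⟨⟨0, 0, 0, 0, 0, 100000, 0, 0, 0, ⟨0, 0⟩, 0⟩, 0, 0⟩ 0 0) (.cut .l 230687 (.void 35 ⟨⟨0, 0, 0, 0, 0, 100000, 0, 0, 0, ⟨0, 0⟩, 0⟩, 0, 0⟩ 0 0) (.cut .v 16842752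 (.cut .v 16809984 (.pos 45 .mp ⟨⟨0, 0, 0, 0, 0, 316594056, 0, 0, 0, ⟨0, 0⟩, 0⟩, 0, 0⟩ 0 0) (.cut .s 12058624 (.cut .s 12025856 (.pos 46 .mp ⟨⟨147522738, 0, 0, 0, 0, 59672253, 0, 0, 0, ⟨0, 0⟩, 0⟩, 0, 0⟩ 0 0) (.pos 46 .mp ⟨⟨150997125, 0, 0, 0, 0, 60874163, 0, 0, 0, ⟨0, 0⟩, 0⟩, 0, 0⟩ 0 0)) (.cut .s 12091392 (.pos 46 .mp ⟨⟨154556079, 0, 0, 0, 0, 62136877, 0, 0, 0, ⟨0, 0⟩, 0⟩, 0, 0⟩ 0 0) (.pos 46 .mp ⟨⟨158201252, 0, 0, 0, 0, 63457835, 0, 0, 0, ⟨0, 0⟩, 0⟩, 0, 0⟩ 0 0)))) (.cut .s 12058624 (.pos 44 .mp ⟨⟨189842889, 0, 0, 0, 0, 0, 0, 0, 0, ⟨0, 0⟩, 0⟩, 0, 0⟩ 0 0) (.pos 44 .mp ⟨⟨198541458, 0, 0, 0, 0, 0, 0, 0, 0, ⟨0, 0⟩, 0⟩, 0, 0⟩ 0 0))))))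 (.cut .s 12058624 (.cut .v 16842752 (.cut .s 12025856 (.cut .s 12009472 (.cut .l 153791 (.cut .d (-8192) (.pos 43 .mp ⟨⟨147397597, 0, 0, 0, 0, 59465246, 0, 0, 0, ⟨0, 0⟩, 0⟩, 0, 0⟩ 0 0) (.cut .v 16809984 (.cut .l 76895 (.cut .d (-4096) (.pos 45 .mp ⟨⟨147030545, 0, 0, 0, 0, 59399627, 0, 0, 0, ⟨0, 0⟩, 0⟩, 0, 0⟩ 0 0) (.cut .s 12001280 (.pos 45 .mp ⟨⟨148804711, 0, 0, 0, 0, 51969952, 0, 0, 0, ⟨0, 0⟩, 0⟩, 0, 0⟩ 0 0) (.pos 45 .mp ⟨⟨149667658, 0, 0, 0, 0, 52203368, 0, 0, 0, ⟨0, 0⟩, 0⟩, 0, 0⟩ 0 0))) (.pos 45 .mp ⟨⟨149458503, 0, 0, 0, 0, 50279850, 0, 0, 0, ⟨0, 0⟩, 0⟩, 0, 0⟩ 0 0)) (.pos 46 .mp ⟨⟨180177063, 0, 0, 0, 0, 0, 0, 0, 0, ⟨0, 0⟩, 0⟩,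 0, 0⟩ 0 0))) (.cut .s 12001280 (.pos 43 .mp ⟨⟨149700715, 0, 0, 0, 0, 49836074, 0, 0, 0, ⟨0, 0⟩, 0⟩, 0, 0⟩ 0 0) (.pos 43 .mp ⟨⟨150574019, 0, 0, 0, 0, 50071631, 0, 0, 0, ⟨0, 0⟩, 0⟩, 0, 0⟩ 0 0))) (.cut .l 153791 (.cut .d (-8192) (.pos 43 .mp ⟨⟨149117593, 0, 0, 0, 0, 60005624, 0, 0, 0, ⟨0, 0⟩, 0⟩, 0, 0⟩ 0 0) (.cut .v 16809984 (.cut .l 76895 (.cut .d (-4096) (.pos 45 .mp ⟨⟨148742955, 0, 0, 0, 0, 59945461, 0, 0, 0, ⟨0, 0⟩, 0⟩, 0, 0⟩ 0 0) (.cut .s 12017664 (.pos 45 .mp ⟨⟨150535810, 0, 0, 0, 0, 52441133, 0, 0, 0, ⟨0, 0⟩, 0⟩, 0, 0⟩ 0 0) (.pos 45 .mp ⟨⟨151409193, 0, 0, 0, 0, 52683226, 0, 0, 0, ⟨0, 0⟩, 0⟩, 0, 0⟩ 0 0))) (.pos 45 .mp ⟨⟨151201441,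 0, 0, 0, 0, 50771880, 0, 0, 0, ⟨0, 0⟩, 0⟩, 0, 0⟩ 0 0)) (.pos 46 .mp ⟨⟨182157298, 0, 0, 0, 0, 0, 0, 0, 0, ⟨0, 0⟩, 0⟩, 0, 0⟩ 0 0))) (.cut .s 12017664 (.pos 43 .mp ⟨⟨151452624, 0, 0, 0, 0, 50310063, 0, 0, 0, ⟨0, 0⟩, 0⟩, 0, 0⟩ 0 0) (.pos 43 .mp ⟨⟨152336554, 0, 0, 0, 0, 50551292, 0, 0, 0, ⟨0, 0⟩, 0⟩, 0, 0⟩ 0 0)))) (.cut .s 12042240 (.cut .l 153791 (.cut .d (-8192) (.pos 43 .mp ⟨⟨150858030, 0, 0, 0, 0, 60569136, 0, 0, 0, ⟨0, 0⟩, 0⟩, 0, 0⟩ 0 0) (.cut .v 16809984 (.cut .l 76895 (.cut .d (-4096) (.pos 45 .mp ⟨⟨150475688, 0, 0, 0, 0, 60514525, 0, 0, 0, ⟨0, 0⟩, 0⟩, 0, 0⟩ 0 0) (.cut .v 16793600 (.cut .s 12034048 (.pos 47 .mp ⟨⟨151993734, 0,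 0, 0, 0, 53408615, 0, 0, 0, ⟨0, 0⟩, 0⟩, 0, 0⟩ 0 0) (.pos 47 .mp ⟨⟨152876080, 0, 0, 0, 0, 53662086, 0, 0, 0, ⟨0, 0⟩, 0⟩, 0, 0⟩ 0 0)) (.pos 48 .mp ⟨⟨183956557, 0, 0, 0, 0, 0, 0, 0, 0, ⟨0, 0⟩, 0⟩, 0, 0⟩ 0 0))) (.pos 45 .mp ⟨⟨152965448, 0, 0, 0, 0, 51275253, 0, 0, 0, ⟨0, 0⟩, 0⟩, 0, 0⟩ 0 0)) (.pos 46 .mp ⟨⟨184170151, 0, 0, 0, 0, 0, 0, 0, 0, ⟨0, 0⟩, 0⟩, 0, 0⟩ 0 0))) (.cut .s 12034048 (.pos 43 .mp ⟨⟨153225835, 0, 0, 0, 0, 50795242, 0, 0, 0, ⟨0, 0⟩, 0⟩, 0, 0⟩ 0 0) (.pos 43 .mp ⟨⟨154120493, 0, 0, 0, 0, 51041835, 0, 0, 0, ⟨0, 0⟩, 0⟩, 0, 0⟩ 0 0))) (.cut .l 153791 (.cut .d (-8192) (.pos 43 .mp ⟨⟨152619103, 0, 0, 0, 0, 61156058, 0, 0, 0, ⟨0,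 0⟩, 0⟩, 0, 0⟩ 0 0) (.cut .v 16809984 (.cut .l 76895 (.cut .d (-4096) (.pos 45 .mp ⟨⟨152228938, 0, 0, 0, 0, 61107096, 0, 0, 0, ⟨0, 0⟩, 0⟩, 0, 0⟩ 0 0) (.cut .v 16793600 (.cut .s 12050432 (.pos 47 .mp ⟨⟨153763723, 0, 0, 0, 0, 53919841, 0, 0, 0, ⟨0, 0⟩, 0⟩, 0, 0⟩ 0 0) (.cut .s 12054528 (.pos 47 .mp ⟨⟨154974186, 0, 0, 0, 0, 53393659, 0, 0, 0, ⟨0, 0⟩, 0⟩, 0, 0⟩ 0 0) (.pos 47 .mp ⟨⟨155411557, 0, 0, 0, 0, 53542075, 0, 0, 0, ⟨0, 0⟩, 0⟩, 0, 0⟩ 0 0))) (.pos 48 .mp ⟨⟨185999948, 0, 0, 0, 0, 0, 0, 0, 0, ⟨0, 0⟩, 0⟩, 0, 0⟩ 0 0))) (.pos 45 .mp ⟨⟨154750729, 0, 0, 0, 0, 51789355, 0, 0, 0, ⟨0, 0⟩, 0⟩, 0, 0⟩ 0 0)) (.pos 46 .mp ⟨⟨186215928, 0, 0, 0,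 0, 0, 0, 0, 0, ⟨0, 0⟩, 0⟩, 0, 0⟩ 0 0))) (.cut .s 12050432 (.pos 43 .mp ⟨⟨155020554, 0, 0, 0, 0, 51290993, 0, 0, 0, ⟨0, 0⟩, 0⟩, 0, 0⟩ 0 0) (.pos 43 .mp ⟨⟨155926045, 0, 0, 0, 0, 51542639, 0, 0, 0, ⟨0, 0⟩, 0⟩, 0, 0⟩ 0 0))))) (.pos 44 .mp ⟨⟨185546889, 0, 0, 0, 0, 0, 0, 0, 0, ⟨0, 0⟩, 0⟩, 0, 0⟩ 0 0)) (.cut .v 16842752 (.cut .s 12091392 (.cut .s 12075008 (.cut .l 153791 (.cut .d (-8192) (.pos 43 .mp ⟨⟨154401009, 0, 0, 0, 0, 61766672, 0, 0, 0, ⟨0, 0⟩, 0⟩, 0, 0⟩ 0 0) (.cut .v 16809984 (.cut .l 76895 (.cut .d (-4096) (.pos 45 .mp ⟨⟨154002900, 0, 0, 0, 0, 61723457, 0, 0, 0, ⟨0, 0⟩, 0⟩, 0, 0⟩ 0 0) (.cut .v 16793600 (.cut .l 38447 (.cut .d (-2048)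 (.pos 47 .mp ⟨⟨153804696, 0, 0, 0, 0, 61700437, 0, 0, 0, ⟨0, 0⟩, 0⟩, 0, 0⟩ 0 0) (.cut .s 12066816 (.pos 47 .mp ⟨⟨155136397, 0, 0, 0, 0, 55114361, 0, 0, 0, ⟨0, 0⟩, 0⟩, 0, 0⟩ 0 0) (.pos 47 .mp ⟨⟨156043866, 0, 0, 0, 0, 55375759, 0, 0, 0, ⟨0, 0⟩, 0⟩, 0, 0⟩ 0 0))) (.pos 47 .mp ⟨⟨155961374, 0, 0, 0, 0, 53042887, 0, 0, 0, ⟨0, 0⟩, 0⟩, 0, 0⟩ 0 0)) (.pos 48 .mp ⟨⟨188076535, 0, 0, 0, 0, 0, 0, 0, 0, ⟨0, 0⟩, 0⟩, 0, 0⟩ 0 0))) (.pos 45 .mp ⟨⟨156557491, 0, 0, 0, 0, 52313568, 0, 0, 0, ⟨0, 0⟩, 0⟩, 0, 0⟩ 0 0)) (.pos 46 .mp ⟨⟨188294939, 0, 0, 0, 0, 0, 0, 0, 0, ⟨0, 0⟩, 0⟩, 0, 0⟩ 0 0))) (.cut .s 12066816 (.pos 43 .mp ⟨⟨156836991, 0, 0, 0, 0, 51796693,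 0, 0, 0, ⟨0, 0⟩, 0⟩, 0, 0⟩ 0 0) (.pos 43 .mp ⟨⟨157753418, 0, 0, 0, 0, 52053079, 0, 0, 0, ⟨0, 0⟩, 0⟩, 0, 0⟩ 0 0))) (.cut .l 153791 (.cut .d (-8192) (.pos 43 .mp ⟨⟨156203945, 0, 0, 0, 0, 62401263, 0, 0, 0, ⟨0, 0⟩, 0⟩, 0, 0⟩ 0 0) (.cut .v 16809984 (.cut .l 76895 (.cut .d (-4096) (.pos 45 .mp ⟨⟨155797771, 0, 0, 0, 0, 62363894, 0, 0, 0, ⟨0, 0⟩, 0⟩, 0, 0⟩ 0 0) (.cut .v 16793600 (.cut .l 38447 (.cut .d (-2048) (.pos 47 .mp ⟨⟨155595546, 0, 0, 0, 0, 62343778, 0, 0, 0, ⟨0, 0⟩, 0⟩, 0, 0⟩ 0 0) (.cut .s 12083200 (.pos 47 .mp ⟨⟨156955394, 0, 0, 0, 0, 55644102, 0, 0, 0, ⟨0, 0⟩, 0⟩, 0, 0⟩ 0 0) (.pos 47 .mp ⟨⟨157870953, 0, 0, 0, 0, 55919480, 0,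 0, 0, ⟨0, 0⟩, 0⟩, 0, 0⟩ 0 0))) (.pos 47 .mp ⟨⟨157779375, 0, 0, 0, 0, 53590777, 0, 0, 0, ⟨0, 0⟩, 0⟩, 0, 0⟩ 0 0)) (.pos 48 .mp ⟨⟨190186632, 0, 0, 0, 0, 0, 0, 0, 0, ⟨0, 0⟩, 0⟩, 0, 0⟩ 0 0))) (.pos 45 .mp ⟨⟨158385942, 0, 0, 0, 0, 52847270, 0, 0, 0, ⟨0, 0⟩, 0⟩, 0, 0⟩ 0 0)) (.pos 46 .mp ⟨⟨190407499, 0, 0, 0, 0, 0, 0, 0, 0, ⟨0, 0⟩, 0⟩, 0, 0⟩ 0 0))) (.cut .s 12083200 (.pos 43 .mp ⟨⟨158675355, 0, 0, 0, 0, 52311716, 0, 0, 0, ⟨0, 0⟩, 0⟩, 0, 0⟩ 0 0) (.pos 43 .mp ⟨⟨159602827, 0, 0, 0, 0, 52572525, 0, 0, 0, ⟨0, 0⟩, 0⟩, 0, 0⟩ 0 0)))) (.cut .s 12107776 (.cut .l 153791 (.cut .d (-8192) (.pos 43 .mp ⟨⟨158028116, 0, 0, 0, 0, 63060120, 0, 0, 0, ⟨0,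 0⟩, 0⟩, 0, 0⟩ 0 0) (.cut .v 16809984 (.cut .l 76895 (.cut .d (-4096) (.pos 45 .mp ⟨⟨157613754, 0, 0, 0, 0, 63028696, 0, 0, 0, ⟨0, 0⟩, 0⟩, 0, 0⟩ 0 0) (.cut .v 16793600 (.cut .l 38447 (.cut .d (-2048) (.pos 47 .mp ⟨⟨157407446, 0, 0, 0, 0, 63011534, 0, 0, 0, ⟨0, 0⟩, 0⟩, 0, 0⟩ 0 0) (.cut .s 12099584 (.pos 47 .mp ⟨⟨158790516, 0, 0, 0, 0, 56201983, 0, 0, 0, ⟨0, 0⟩, 0⟩, 0, 0⟩ 0 0) (.pos 47 .mp ⟨⟨159714055, 0, 0, 0, 0, 56491704, 0, 0, 0, ⟨0, 0⟩, 0⟩, 0, 0⟩ 0 0))) (.pos 47 .mp ⟨⟨159619106, 0, 0, 0, 0, 54147780, 0, 0, 0, ⟨0, 0⟩, 0⟩, 0, 0⟩ 0 0)) (.pos 48 .mp ⟨⟨192330557, 0, 0, 0, 0, 0, 0, 0, 0, ⟨0, 0⟩, 0⟩, 0, 0⟩ 0 0))) (.pos 45 .mp ⟨⟨160236297,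 0, 0, 0, 0, 53389833, 0, 0, 0, ⟨0, 0⟩, 0⟩, 0, 0⟩ 0 0)) (.pos 46 .mp ⟨⟨192553926, 0, 0, 0, 0, 0, 0, 0, 0, ⟨0, 0⟩, 0⟩, 0, 0⟩ 0 0))) (.cut .s 12099584 (.pos 43 .mp ⟨⟨160535863, 0, 0, 0, 0, 52835427, 0, 0, 0, ⟨0, 0⟩, 0⟩, 0, 0⟩ 0 0) (.pos 43 .mp ⟨⟨161474488, 0, 0, 0, 0, 53100342, 0, 0, 0, ⟨0, 0⟩, 0⟩, 0, 0⟩ 0 0))) (.cut .l 153791 (.cut .d (-8192) (.pos 43 .mp ⟨⟨159873724, 0, 0, 0, 0, 63743537, 0, 0, 0, ⟨0, 0⟩, 0⟩, 0, 0⟩ 0 0) (.cut .v 16809984 (.cut .l 76895 (.cut .d (-4096) (.pos 45 .mp ⟨⟨159451051, 0, 0, 0, 0, 63718159, 0, 0, 0, ⟨0, 0⟩, 0⟩, 0, 0⟩ 0 0) (.cut .v 16793600 (.cut .l 38447 (.cut .d (-2048) (.pos 47 .mp ⟨⟨159240598, 0, 0, 0,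 0, 63704001, 0, 0, 0, ⟨0, 0⟩, 0⟩, 0, 0⟩ 0 0) (.cut .s 12115968 (.pos 47 .mp ⟨⟨160641542, 0, 0, 0, 0, 56788733, 0, 0, 0, ⟨0, 0⟩, 0⟩, 0, 0⟩ 0 0) (.pos 47 .mp ⟨⟨161572950, 0, 0, 0, 0, 57093165, 0, 0, 0, ⟨0, 0⟩, 0⟩, 0, 0⟩ 0 0))) (.pos 47 .mp ⟨⟨161480781, 0, 0, 0, 0, 54713267, 0, 0, 0, ⟨0, 0⟩, 0⟩, 0, 0⟩ 0 0)) (.pos 48 .mp ⟨⟨194508633, 0, 0, 0, 0, 0, 0, 0, 0, ⟨0, 0⟩, 0⟩, 0, 0⟩ 0 0))) (.pos 45 .mp ⟨⟨162108771, 0, 0, 0, 0, 53940625, 0, 0, 0, ⟨0, 0⟩, 0⟩, 0, 0⟩ 0 0)) (.pos 46 .mp ⟨⟨194734544, 0, 0, 0, 0, 0, 0, 0, 0, ⟨0, 0⟩, 0⟩, 0, 0⟩ 0 0))) (.cut .s 12115968 (.pos 43 .mp ⟨⟨162418731, 0, 0, 0, 0, 53367190, 0, 0, 0, ⟨0, 0⟩, 0⟩, 0, 0⟩ 0 0) (.pos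 43 .mp ⟨⟨163368619, 0, 0, 0, 0, 53635891, 0, 0, 0, ⟨0, 0⟩, 0⟩, 0, 0⟩ 0 0))))) (.pos 44 .mp ⟨⟨193975951, 0, 0, 0, 0, 0, 0, 0, 0, ⟨0, 0⟩, 0⟩, 0, 0⟩ 0 0)))) (.pos 36 .mp ⟨⟨196079680, 0, 0, 0, 0, 0, 0, 0, 0, ⟨0, 0⟩, 0⟩, 0, 0⟩ 0 0)) (.cut .v 16908288 (.cut .d (-16384) (.cut .d (-24576) (.void 35 ⟨⟨0, 0, 0, 0, 0, 100000, 0, 0, 0, ⟨0, 0⟩, 0⟩, 0, 0⟩ 0 0) (.cut .l 153791 (.void 35 ⟨⟨0, 0, 0, 0, 0, 100000, 0, 0, 0, ⟨0, 0⟩, 0⟩, 0, 0⟩ 0 0) (.cut .l 230687 (.void 35 ⟨⟨0, 0, 0, 0, 0, 100000, 0, 0, 0, ⟨0, 0⟩, 0⟩, 0, 0⟩ 0 0) (.cut .v 16842752 (.cut .d (-20480) (.pos 43 .mp ⟨⟨162143168, 0, 0, 0, 0, 91206280, 0, 0, 0, ⟨0, 0⟩, 0⟩, 0, 0⟩ 0 0) (.cut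 .v 16809984 (.pos 45 .mp ⟨⟨0, 0, 0, 0, 0, 348907845, 0, 0, 0, ⟨0, 0⟩, 0⟩, 0, 0⟩ 0 0) (.cut .s 12189696 (.cut .s 12156928 (.pos 46 .mp ⟨⟨161934339, 0, 0, 0, 0, 64203663, 0, 0, 0, ⟨0, 0⟩, 0⟩, 0, 0⟩ 0 0) (.pos 46 .mp ⟨⟨165757087, 0, 0, 0, 0, 65634081, 0, 0, 0, ⟨0, 0⟩, 0⟩, 0, 0⟩ 0 0)) (.cut .s 12222464 (.pos 46 .mp ⟨⟨169671290, 0, 0, 0, 0, 67125389, 0, 0, 0, ⟨0, 0⟩, 0⟩, 0, 0⟩ 0 0) (.pos 46 .mp ⟨⟨173678798, 0, 0, 0, 0, 68675827, 0, 0, 0, ⟨0, 0⟩, 0⟩, 0, 0⟩ 0 0))))) (.cut .s 12189696 (.pos 44 .mp ⟨⟨207649125, 0, 0, 0, 0, 0, 0, 0, 0, ⟨0, 0⟩, 0⟩, 0, 0⟩ 0 0) (.pos 44 .mp ⟨⟨217151690, 0, 0, 0, 0, 0, 0, 0, 0, ⟨0, 0⟩, 0⟩, 0, 0⟩ 0 0)))))) (.cut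 .s 12189696 (.cut .v 16842752 (.cut .s 12156928 (.cut .s 12140544 (.cut .l 153791 (.cut .d (-8192) (.pos 43 .mp ⟨⟨161740979, 0, 0, 0, 0, 64451810, 0, 0, 0, ⟨0, 0⟩, 0⟩, 0, 0⟩ 0 0) (.cut .v 16809984 (.cut .l 76895 (.cut .d (-4096) (.pos 45 .mp ⟨⟨161309869, 0, 0, 0, 0, 64432580, 0, 0, 0, ⟨0, 0⟩, 0⟩, 0, 0⟩ 0 0) (.cut .v 16793600 (.cut .l 38447 (.cut .d (-2048) (.pos 47 .mp ⟨⟨161095210, 0, 0, 0, 0, 64421477, 0, 0, 0, ⟨0, 0⟩, 0⟩, 0, 0⟩ 0 0) (.cut .s 12132352 (.pos 47 .mp ⟨⟨162508248, 0, 0, 0, 0, 57405093, 0, 0, 0, ⟨0, 0⟩, 0⟩, 0, 0⟩ 0 0) (.pos 47 .mp ⟨⟨163447408, 0, 0, 0, 0, 57724612, 0, 0, 0, ⟨0, 0⟩, 0⟩, 0, 0⟩ 0 0))) (.pos 47 .mp ⟨⟨163364616,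 0, 0, 0, 0, 55286604, 0, 0, 0, ⟨0, 0⟩, 0⟩, 0, 0⟩ 0 0)) (.pos 48 .mp ⟨⟨196721188, 0, 0, 0, 0, 0, 0, 0, 0, ⟨0, 0⟩, 0⟩, 0, 0⟩ 0 0))) (.pos 45 .mp ⟨⟨164003583, 0, 0, 0, 0, 54499007, 0, 0, 0, ⟨0, 0⟩, 0⟩, 0, 0⟩ 0 0)) (.pos 46 .mp ⟨⟨196949680, 0, 0, 0, 0, 0, 0, 0, 0, ⟨0, 0⟩, 0⟩, 0, 0⟩ 0 0))) (.cut .s 12132352 (.pos 43 .mp ⟨⟨164324180, 0, 0, 0, 0, 53906363, 0, 0, 0, ⟨0, 0⟩, 0⟩, 0, 0⟩ 0 0) (.pos 43 .mp ⟨⟨165285443, 0, 0, 0, 0, 54178525, 0, 0, 0, ⟨0, 0⟩, 0⟩, 0, 0⟩ 0 0))) (.cut .l 153791 (.cut .d (-8192) (.pos 43 .mp ⟨⟨163630091, 0, 0, 0, 0, 65185242, 0, 0, 0, ⟨0, 0⟩, 0⟩, 0, 0⟩ 0 0) (.cut .v 16809984 (.cut .l 76895 (.cut .d (-4096) (.pos 45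 .mp ⟨⟨163190418, 0, 0, 0, 0, 65172263, 0, 0, 0, ⟨0, 0⟩, 0⟩, 0, 0⟩ 0 0) (.cut .v 16793600 (.cut .l 38447 (.cut .d (-2048) (.pos 47 .mp ⟨⟨162971489, 0, 0, 0, 0, 65164266, 0, 0, 0, ⟨0, 0⟩, 0⟩, 0, 0⟩ 0 0) (.cut .s 12148736 (.pos 47 .mp ⟨⟨164390400, 0, 0, 0, 0, 58051819, 0, 0, 0, ⟨0, 0⟩, 0⟩, 0, 0⟩ 0 0) (.pos 47 .mp ⟨⟨165337195, 0, 0, 0, 0, 58386810, 0, 0, 0, ⟨0, 0⟩, 0⟩, 0, 0⟩ 0 0))) (.pos 47 .mp ⟨⟨165270834, 0, 0, 0, 0, 55867152, 0, 0, 0, ⟨0, 0⟩, 0⟩, 0, 0⟩ 0 0)) (.pos 48 .mp ⟨⟨198968553, 0, 0, 0, 0, 0, 0, 0, 0, ⟨0, 0⟩, 0⟩, 0, 0⟩ 0 0))) (.pos 45 .mp ⟨⟨165920955, 0, 0, 0, 0, 55064337, 0, 0, 0, ⟨0, 0⟩, 0⟩, 0, 0⟩ 0 0)) (.pos 46 .mp ⟨⟨199199668,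 0, 0, 0, 0, 0, 0, 0, 0, ⟨0, 0⟩, 0⟩, 0, 0⟩ 0 0))) (.cut .s 12148736 (.pos 43 .mp ⟨⟨166252435, 0, 0, 0, 0, 54452297, 0, 0, 0, ⟨0, 0⟩, 0⟩, 0, 0⟩ 0 0) (.pos 43 .mp ⟨⟨167225186, 0, 0, 0, 0, 54727595, 0, 0, 0, ⟨0, 0⟩, 0⟩, 0, 0⟩ 0 0)))) (.cut .s 12173312 (.cut .l 153791 (.cut .d (-8192) (.pos 43 .mp ⟨⟨165541274, 0, 0, 0, 0, 65944139, 0, 0, 0, ⟨0, 0⟩, 0⟩, 0, 0⟩ 0 0) (.cut .v 16809984 (.cut .l 76895 (.cut .d (-4096) (.pos 45 .mp ⟨⟨165092910, 0, 0, 0, 0, 65937516, 0, 0, 0, ⟨0, 0⟩, 0⟩, 0, 0⟩ 0 0) (.cut .v 16793600 (.cut .s 12165120 (.pos 47 .mp ⟨⟨166761663, 0, 0, 0, 0, 57965870, 0, 0, 0, ⟨0, 0⟩, 0⟩, 0, 0⟩ 0 0) (.pos 47 .mp ⟨⟨167731952, 0,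 0, 0, 0, 58285180, 0, 0, 0, ⟨0, 0⟩, 0⟩, 0, 0⟩ 0 0)) (.pos 48 .mp ⟨⟨201251067, 0, 0, 0, 0, 0, 0, 0, 0, ⟨0, 0⟩, 0⟩, 0, 0⟩ 0 0))) (.pos 45 .mp ⟨⟨167861113, 0, 0, 0, 0, 55635966, 0, 0, 0, ⟨0, 0⟩, 0⟩, 0, 0⟩ 0 0)) (.pos 46 .mp ⟨⟨201484845, 0, 0, 0, 0, 0, 0, 0, 0, ⟨0, 0⟩, 0⟩, 0, 0⟩ 0 0))) (.cut .s 12165120 (.pos 43 .mp ⟨⟨168203723, 0, 0, 0, 0, 55004339, 0, 0, 0, ⟨0, 0⟩, 0⟩, 0, 0⟩ 0 0) (.pos 43 .mp ⟨⟨169188076, 0, 0, 0, 0, 55282445, 0, 0, 0, ⟨0, 0⟩, 0⟩, 0, 0⟩ 0 0))) (.cut .l 153791 (.cut .d (-8192) (.pos 43 .mp ⟨⟨167474744, 0, 0, 0, 0, 66728811, 0, 0, 0, ⟨0, 0⟩, 0⟩, 0, 0⟩ 0 0) (.cut .v 16809984 (.cut .l 76895 (.cut .d (-4096) (.pos 45 .mp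 ⟨⟨167017561, 0, 0, 0, 0, 66728649, 0, 0, 0, ⟨0, 0⟩, 0⟩, 0, 0⟩ 0 0) (.cut .v 16793600 (.cut .s 12181504 (.pos 47 .mp ⟨⟨168707971, 0, 0, 0, 0, 58608399, 0, 0, 0, ⟨0, 0⟩, 0⟩, 0, 0⟩ 0 0) (.pos 47 .mp ⟨⟨169689750, 0, 0, 0, 0, 58935500, 0, 0, 0, ⟨0, 0⟩, 0⟩, 0, 0⟩ 0 0)) (.pos 48 .mp ⟨⟨203569071, 0, 0, 0, 0, 0, 0, 0, 0, ⟨0, 0⟩, 0⟩, 0, 0⟩ 0 0))) (.pos 45 .mp ⟨⟨169824285, 0, 0, 0, 0, 56213241, 0, 0, 0, ⟨0, 0⟩, 0⟩, 0, 0⟩ 0 0)) (.pos 46 .mp ⟨⟨203805553, 0, 0, 0, 0, 0, 0, 0, 0, ⟨0, 0⟩, 0⟩, 0, 0⟩ 0 0))) (.cut .s 12181504 (.pos 43 .mp ⟨⟨170178274, 0, 0, 0, 0, 55561830, 0, 0, 0, ⟨0, 0⟩, 0⟩, 0, 0⟩ 0 0) (.pos 43 .mp ⟨⟨171174346, 0, 0, 0, 0, 55842412,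 0, 0, 0, ⟨0, 0⟩, 0⟩, 0, 0⟩ 0 0))))) (.pos 44 .mp ⟨⟨202909290, 0, 0, 0, 0, 0, 0, 0, 0, ⟨0, 0⟩, 0⟩, 0, 0⟩ 0 0)) (.cut .v 16842752 (.cut .s 12222464 (.cut .s 12206080 (.cut .l 153791 (.cut .d (-8192) (.pos 43 .mp ⟨⟨169430721, 0, 0, 0, 0, 67539572, 0, 0, 0, ⟨0, 0⟩, 0⟩, 0, 0⟩ 0 0) (.cut .v 16809984 (.cut .l 76895 (.cut .d (-4096) (.pos 45 .mp ⟨⟨168964589, 0, 0, 0, 0, 67545979, 0, 0, 0, ⟨0, 0⟩, 0⟩, 0, 0⟩ 0 0) (.cut .s 12197888 (.pos 45 .mp ⟨⟨171004652, 0, 0, 0, 0, 58728491, 0, 0, 0, ⟨0, 0⟩, 0⟩, 0, 0⟩ 0 0) (.pos 45 .mp ⟨⟨171999800, 0, 0, 0, 0, 59060134, 0, 0, 0, ⟨0, 0⟩, 0⟩, 0, 0⟩ 0 0))) (.pos 45 .mp ⟨⟨171810702, 0, 0, 0, 0, 56795503, 0,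 0, 0, ⟨0, 0⟩, 0⟩, 0, 0⟩ 0 0)) (.pos 46 .mp ⟨⟨206162140, 0, 0, 0, 0, 0, 0, 0, 0, ⟨0, 0⟩, 0⟩, 0, 0⟩ 0 0))) (.cut .s 12197888 (.pos 43 .mp ⟨⟨172176321, 0, 0, 0, 0, 56124106, 0, 0, 0, ⟨0, 0⟩, 0⟩, 0, 0⟩ 0 0) (.pos 43 .mp ⟨⟨173184230, 0, 0, 0, 0, 56406830, 0, 0, 0, ⟨0, 0⟩, 0⟩, 0, 0⟩ 0 0))) (.cut .l 153791 (.cut .d (-8192) (.pos 43 .mp ⟨⟨171409428, 0, 0, 0, 0, 68376744, 0, 0, 0, ⟨0, 0⟩, 0⟩, 0, 0⟩ 0 0) (.cut .v 16809984 (.cut .l 76895 (.cut .d (-4096) (.pos 45 .mp ⟨⟨170934216, 0, 0, 0, 0, 68389826, 0, 0, 0, ⟨0, 0⟩, 0⟩, 0, 0⟩ 0 0) (.cut .s 12214272 (.pos 45 .mp ⟨⟨173000806, 0, 0, 0, 0, 59395560, 0, 0, 0, ⟨0, 0⟩, 0⟩, 0, 0⟩ 0 0) (.pos 45 .mp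 ⟨⟨174007699, 0, 0, 0, 0, 59734739, 0, 0, 0, ⟨0, 0⟩, 0⟩, 0, 0⟩ 0 0))) (.pos 45 .mp ⟨⟨173820601, 0, 0, 0, 0, 57382085, 0, 0, 0, ⟨0, 0⟩, 0⟩, 0, 0⟩ 0 0)) (.pos 46 .mp ⟨⟨208554957, 0, 0, 0, 0, 0, 0, 0, 0, ⟨0, 0⟩, 0⟩, 0, 0⟩ 0 0))) (.cut .s 12214272 (.pos 43 .mp ⟨⟨174198103, 0, 0, 0, 0, 56690498, 0, 0, 0, ⟨0, 0⟩, 0⟩, 0, 0⟩ 0 0) (.pos 43 .mp ⟨⟨175217968, 0, 0, 0, 0, 56975025, 0, 0, 0, ⟨0, 0⟩, 0⟩, 0, 0⟩ 0 0)))) (.cut .s 12238848 (.cut .l 153791 (.cut .d (-8192) (.pos 43 .mp ⟨⟨173411092, 0, 0, 0, 0, 69240650, 0, 0, 0, ⟨0, 0⟩, 0⟩, 0, 0⟩ 0 0) (.cut .v 16809984 (.cut .l 76895 (.cut .d (-4096) (.pos 45 .mp ⟨⟨172926666, 0, 0, 0, 0, 69260517, 0,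 0, 0, ⟨0, 0⟩, 0⟩, 0, 0⟩ 0 0) (.cut .s 12230656 (.pos 45 .mp ⟨⟨175020508, 0, 0, 0, 0, 60077645, 0, 0, 0, ⟨0, 0⟩, 0⟩, 0, 0⟩ 0 0) (.pos 45 .mp ⟨⟨176021776, 0, 0, 0, 0, 60460395, 0, 0, 0, ⟨0, 0⟩, 0⟩, 0, 0⟩ 0 0))) (.pos 45 .mp ⟨⟨175854220, 0, 0, 0, 0, 57972318, 0, 0, 0, ⟨0, 0⟩, 0⟩, 0, 0⟩ 0 0)) (.pos 46 .mp ⟨⟨210984364, 0, 0, 0, 0, 0, 0, 0, 0, ⟨0, 0⟩, 0⟩, 0, 0⟩ 0 0))) (.cut .s 12230656 (.pos 43 .mp ⟨⟨176243858, 0, 0, 0, 0, 57260327, 0, 0, 0, ⟨0, 0⟩, 0⟩, 0, 0⟩ 0 0) (.pos 43 .mp ⟨⟨177275803, 0, 0, 0, 0, 57546319, 0, 0, 0, ⟨0, 0⟩, 0⟩, 0, 0⟩ 0 0))) (.cut .l 153791 (.cut .d (-8192) (.pos 43 .mp ⟨⟨175435941, 0, 0, 0, 0, 70131619, 0, 0, 0, ⟨0,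 0⟩, 0⟩, 0, 0⟩ 0 0) (.cut .v 16809984 (.cut .l 76895 (.cut .d (-4096) (.pos 45 .mp ⟨⟨174942169, 0, 0, 0, 0, 70158381, 0, 0, 0, ⟨0, 0⟩, 0⟩, 0, 0⟩ 0 0) (.cut .s 12247040 (.pos 45 .mp ⟨⟨177015852, 0, 0, 0, 0, 60874057, 0, 0, 0, ⟨0, 0⟩, 0⟩, 0, 0⟩ 0 0) (.pos 45 .mp ⟨⟨178013396, 0, 0, 0, 0, 61296637, 0, 0, 0, ⟨0, 0⟩, 0⟩, 0, 0⟩ 0 0))) (.pos 45 .mp ⟨⟨177911800, 0, 0, 0, 0, 58565524, 0, 0, 0, ⟨0, 0⟩, 0⟩, 0, 0⟩ 0 0)) (.pos 46 .mp ⟨⟨213450721, 0, 0, 0, 0, 0, 0, 0, 0, ⟨0, 0⟩, 0⟩, 0, 0⟩ 0 0))) (.pos 43 .mp ⟨⟨179357980, 0, 0, 0, 0, 56760258, 0, 0, 0, ⟨0, 0⟩, 0⟩, 0, 0⟩ 0 0)))) (.pos 44 .mp ⟨⟨212351831, 0, 0, 0, 0, 0, 0, 0, 0, ⟨0, 0⟩, 0⟩, 0, 0⟩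 0 0)))) (.pos 36 .mp ⟨⟨214519955, 0, 0, 0, 0, 0, 0, 0, 0, ⟨0, 0⟩, 0⟩, 0, 0⟩ 0 0))))))) (.pos 32 .mp ⟨⟨241644890, 0, 0, 0, 0, 0, 0, 0, 0, ⟨0, 0⟩, 0⟩, 0, 0⟩ 0 0))) (.void 30 ⟨⟨100000, 0, 0, 0, 0, 0, 0, 0, 0, ⟨0, 0⟩, 0⟩, 0, 0⟩ 0 0)) (.void 28 ⟨⟨100000, 0, 0, 0, 0, 0, 0, 0, 0, ⟨0, 0⟩, 0⟩, 0, 0⟩ 0 0)))) (.void 26 ⟨⟨100000, 0, 0, 0, 0, 0, 0, 0, 0, ⟨0, 0⟩, 0⟩, 0, 0⟩ 0 0))) (.void 24 ⟨⟨100000, 0, 0, 0, 0, 0, 0, 0, 0, ⟨0, 0⟩, 0⟩, 0, 0⟩ 0 0))) (.void 22 ⟨⟨100000, 0, 0, 0, 0, 0, 0, 0, 0, ⟨0, 0⟩, 0⟩, 0, 0⟩ 0 0)) (.void 103 ⟨⟨100000, 0, 0, 0, 0, 0, 0, 0, 0, ⟨0, 0⟩, 0⟩, 0, 0⟩ 0 0)) (.void 114 ⟨⟨100000, 0, 0, 0, 0, 0, 0, 0, 0, ⟨0, 0⟩, 0⟩, 0, 0⟩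 0 0))) (.cut .v 16777216 (.cut .v 8388608 (.cut .v 4194304 (.cut .v 2097152 (.cut .v 1048576 (.void 119 ⟨⟨0, 0, 19122, 0, 0, 0, 0, 0, 80878, ⟨0, 0⟩, 1983364⟩, 0, 0⟩ 0 0) (.pos 120 .pm ⟨⟨0, 0, 19639993, 0, 0, 0, 0, 0, 0, ⟨0, 0⟩, 0⟩, 0, 85026⟩ 0 0)) (.pos 118 .pm ⟨⟨0, 0, 21218712, 0, 0, 0, 0, 0, 0, ⟨0, 0⟩, 0⟩, 0, 173883⟩ 0 0)) (.pos 5 .pm ⟨⟨0, 0, 6466486, 0, 0, 0, 0, 0, 0, ⟨0, 0⟩, 0⟩, 0, 0⟩ 0 0)) (.pos 3 .pm ⟨⟨0, 0, 0, 0, 0, 0, 0, 0, 0, ⟨0, 0⟩, 0⟩, 0, 0⟩ 0 0)) (.cut .v 67108864 (.cut .d 3346276 (.cut .v 33554432 (.cut .d 1673138 (.cut .v 25165824 (.cut .d 836569 (.cut .v 20971520 (.cut .d 418284 (.cut .v 18874368 (.cut .d 209142 (.cut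 .d 104571 (.cut .v 17825792 (.cut .v 17301504 (.cut .s 12124160 (.pos 29 .pp ⟨⟨153153105, 0, 0, 0, 0, 0, 0, 0, 0, ⟨0, 0⟩, 0⟩, 3662739, 0⟩ 0 0) (.pos 29 .pp ⟨⟨168640360, 0, 0, 0, 0, 0, 0, 0, 0, ⟨0, 0⟩, 0⟩, 3845638, 0⟩ 0 0)) (.pos 30 .pp ⟨⟨202331337, 0, 0, 0, 0, 0, 0, 0, 0, ⟨0, 0⟩, 0⟩, 0, 0⟩ 0 0)) (.pos 28 .pp ⟨⟨230359235, 0, 0, 0, 0, 0, 0, 0, 0, ⟨0, 0⟩, 0⟩, 0, 0⟩ 0 0)) (.pos 25 .pp ⟨⟨172879579, 0, 0, 0, 0, 0, 0, 0, 0, ⟨0, 0⟩, 0⟩, 0, 12814⟩ 0 0)) (.pos 25 .pp ⟨⟨0, 0, 0, 0, 0, 0, 0, 0, 0, ⟨0, 0⟩, 0⟩, 0, 460279⟩ 0 0)) (.cut .d 209142 (.pos 26 .pp ⟨⟨274433301, 0, 0, 0, 0, 0, 0, 0, 0, ⟨0, 0⟩, 0⟩, 0, 0⟩ 0 0) (.pos 26 .pp ⟨⟨219891369, 0,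 0, 0, 0, 0, 0, 0, 0, ⟨0, 0⟩, 0⟩, 0, 0⟩ 0 0))) (.pos 23 .pp ⟨⟨0, 0, 0, 0, 0, 0, 0, 0, 0, ⟨0, 0⟩, 0⟩, 0, 483009⟩ 0 0)) (.cut .d 418284 (.cut .v 23068672 (.cut .d 209142 (.void 55 ⟨⟨0, 0, 0, 0, 0, 0, 0, 0, 0, ⟨0, 0⟩, 0⟩, 100000, 0⟩ 0 0) (.cut .v 22020096 (.cut .d 313713 (.pos 57 .pp ⟨⟨301227448, 0, 0, 0, 0, 0, 0, 0, 0, ⟨0, 0⟩, 0⟩, 0, 0⟩ 0 0) (.pos 57 .pp ⟨⟨256137920, 0, 0, 0, 0, 0, 0, 0, 0, ⟨0, 0⟩, 0⟩, 0, 0⟩ 0 0)) (.pos 58 .pp ⟨⟨0, 0, 0, 0, 0, 0, 0, 0, 0, ⟨0, 0⟩, 0⟩, 39721912, 0⟩ 0 0))) (.pos 56 .pp ⟨⟨0, 0, 0, 0, 0, 0, 0, 0, 0, ⟨0, 0⟩, 0⟩, 50928057, 0⟩ 0 0)) (.cut .v 23068672 (.pos 55 .pp ⟨⟨0, 0, 0, 0, 0, 0, 147480, 0, 0, ⟨0, 0⟩, 0⟩,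 28026764, 0⟩ 0 0) (.pos 56 .pp ⟨⟨0, 0, 0, 0, 0, 0, 0, 0, 0, ⟨0, 0⟩, 0⟩, 35957728, 0⟩ 0 0)))) (.pos 21 .pp ⟨⟨0, 0, 0, 0, 0, 0, 0, 0, 0, ⟨0, 0⟩, 0⟩, 0, 521650⟩ 0 0)) (.cut .d 836569 (.cut .d 418284 (.void 22 ⟨⟨0, 0, 0, 0, 0, 0, 0, 0, 0, ⟨0, 0⟩, 0⟩, 100000, 0⟩ 0 0) (.cut .v 29360128 (.pos 91 .pp ⟨⟨0, 0, 0, 0, 0, 0, 0, 0, 0, ⟨0, 0⟩, 0⟩, 44948891, 0⟩ 0 0) (.void 92 ⟨⟨0, 0, 0, 0, 0, 0, 0, 0, 0, ⟨0, 0⟩, 0⟩, 100000, 0⟩ 0 0))) (.pos 22 .pp ⟨⟨0, 0, 0, 0, 0, 0, 0, 0, 0, ⟨0, 0⟩, 0⟩, 33710507, 0⟩ 0 0))) (.pos 20 .pp ⟨⟨0, 0, 0, 0, 0, 0, 1734041, 0, 0, ⟨0, 0⟩, 0⟩, 0, 0⟩ 0 0)) (.cut .d 1673138 (.cut .v 50331648 (.pos 106 .pp ⟨⟨0, 0, 0, 0, 0, 0,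 0, 0, 0, ⟨0, 0⟩, 0⟩, 89170237, 0⟩ 0 0) (.void 107 ⟨⟨0, 0, 0, 0, 0, 0, 0, 0, 0, ⟨0, 0⟩, 0⟩, 100000, 0⟩ 0 0)) (.pos 103 .pp ⟨⟨0, 0, 0, 0, 0, 0, 0, 0, 0, ⟨0, 0⟩, 0⟩, 48131962, 0⟩ 0 0))) (.pos 102 .pp ⟨⟨0, 0, 0, 0, 0, 0, 0, 0, 0, ⟨0, 0⟩, 0⟩, 0, 434708⟩ 0 0)) (.void 114 ⟨⟨0, 0, 0, 45527, 0, 0, 0, 0, 0, ⟨0, 0⟩, 0⟩, 54473, 0⟩ 0 0)))),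
    by decide +kernel⟩

def covers19 : cell.Covers Vale.Agent.P237.Petty.Cor.Grid.N12.table row19.1 :=
  ⟨(.cut .d 0 (.cut .v 16777216 (.cut .d (-8388608) (.void 1 ⟨⟨0, 0, 0, 0, 0, 100000, 0, 0, 0, ⟨0, 0⟩, 0⟩, 0, 0⟩ 0 0) (.cut .d (-4194304) (.void 1 ⟨⟨0, 0, 0, 0, 0, 100000, 0, 0, 0, ⟨0, 0⟩, 0⟩, 0, 0⟩ 0 0) (.cut .d (-2097152) (.void 1 ⟨⟨0, 0, 0, 0, 0, 100000, 0, 0, 0, ⟨0, 0⟩, 0⟩, 0, 0⟩ 0 0) (.cut .d (-1048576) (.void 1 ⟨⟨0, 0, 0, 0, 0, 100000, 0, 0, 0, ⟨0, 0⟩, 0⟩, 0, 0⟩ 0 0) (.cut .d (-524288) (.void 1 ⟨⟨0, 0, 0, 0, 0, 100000, 0, 0, 0, ⟨0, 0⟩, 0⟩, 0, 0⟩ 0 0) (.cut .d (-262144) (.void 1 ⟨⟨0, 0, 0, 0, 0, 100000, 0, 0, 0, ⟨0, 0⟩, 0⟩,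 0, 0⟩ 0 0) (.cut .d (-131072) (.void 1 ⟨⟨0, 0, 0, 0, 0, 100000, 0, 0, 0, ⟨0, 0⟩, 0⟩, 0, 0⟩ 0 0) (.cut .d (-65536) (.void 1 ⟨⟨0, 0, 0, 0, 0, 100000, 0, 0, 0, ⟨0, 0⟩, 0⟩, 0, 0⟩ 0 0) (.cut .d (-32768) (.void 1 ⟨⟨0, 0, 0, 0, 0, 100000, 0, 0, 0, ⟨0, 0⟩, 0⟩, 0, 0⟩ 0 0) (.cut .v 8388608 (.cut .v 4194304 (.void 4 ⟨⟨0, 0, 100000, 0, 0, 0, 0, 0, 0, ⟨0, 0⟩, 0⟩, 0, 0⟩ 0 0) (.pos 5 .mm ⟨⟨0, 0, 7896578, 0, 0, 124762827, 0, 0, 0, ⟨0, 0⟩, 0⟩, 0, 0⟩ 0 0)) (.cut .s 12386304 (.pos 3 .mm ⟨⟨0, 0, 0, 0, 0, 371220525, 0, 0, 0, ⟨0, 0⟩, 0⟩, 0, 0⟩ 0 0) (.pos 3 .mm ⟨⟨0, 0, 0, 0, 0, 409282985, 0, 0, 0, ⟨0, 0⟩, 0⟩, 0, 0⟩ 0 0)))))))))))) (.cut .v 67108864 (.cut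 .v 33554432 (.cut .v 25165824 (.cut .d (-8388608) (.void 21 ⟨⟨100000, 0, 0, 0, 0, 0, 0, 0, 0, ⟨0, 0⟩, 0⟩, 0, 0⟩ 0 0) (.cut .v 20971520 (.cut .d (-4194304) (.void 23 ⟨⟨100000, 0, 0, 0, 0, 0, 0, 0, 0, ⟨0, 0⟩, 0⟩, 0, 0⟩ 0 0) (.cut .d (-2097152) (.void 23 ⟨⟨100000, 0, 0, 0, 0, 0, 0, 0, 0, ⟨0, 0⟩, 0⟩, 0, 0⟩ 0 0) (.cut .v 18874368 (.cut .d (-1048576) (.void 25 ⟨⟨100000, 0, 0, 0, 0, 0, 0, 0, 0, ⟨0, 0⟩, 0⟩, 0, 0⟩ 0 0) (.cut .v 17825792 (.cut .v 17301504 (.cut .d (-524288) (.void 29 ⟨⟨100000, 0, 0, 0, 0, 0, 0, 0, 0, ⟨0, 0⟩, 0⟩, 0, 0⟩ 0 0) (.cut .v 17039360 (.cut .d (-262144) (.void 31 ⟨⟨100000, 0, 0, 0, 0, 0, 0, 0, 0, ⟨0, 0⟩, 0⟩, 0, 0⟩ 0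 0) (.cut .d (-131072) (.void 31 ⟨⟨100000, 0, 0, 0, 0, 0, 0, 0, 0, ⟨0, 0⟩, 0⟩, 0, 0⟩ 0 0) (.cut .d (-65536) (.void 31 ⟨⟨100000, 0, 0, 0, 0, 0, 0, 0, 0, ⟨0, 0⟩, 0⟩, 0, 0⟩ 0 0) (.cut .d (-32768) (.void 31 ⟨⟨0, 0, 0, 0, 0, 100000, 0, 0, 0, ⟨0, 0⟩, 0⟩, 0, 0⟩ 0 0) (.cut .s 12386304 (.cut .v 16908288 (.cut .d (-16384) (.cut .d (-24576) (.void 35 ⟨⟨0, 0, 0, 0, 0, 100000, 0, 0, 0, ⟨0, 0⟩, 0⟩, 0, 0⟩ 0 0) (.cut .v 16842752 (.cut .l 153791 (.void 43 ⟨⟨0, 0, 0, 0, 0, 100000, 0, 0, 0, ⟨0, 0⟩, 0⟩, 0, 0⟩ 0 0) (.cut .d (-20480) (.void 43 ⟨⟨0, 0, 0, 0, 0, 100000, 0, 0, 0, ⟨0, 0⟩, 0⟩, 0, 0⟩ 0 0) (.cut .v 16809984 (.pos 45 .mp ⟨⟨0, 0, 0, 0, 0, 407252461,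 0, 0, 0, ⟨0, 0⟩, 0⟩, 0, 0⟩ 0 0) (.cut .l 230687 (.void 46 ⟨⟨0, 0, 0, 0, 0, 100000, 0, 0, 0, ⟨0, 0⟩, 0⟩, 0, 0⟩ 0 0) (.cut .s 12320768 (.cut .s 12288000 (.pos 46 .mp ⟨⟨177782031, 0, 0, 0, 0, 71441193, 0, 0, 0, ⟨0, 0⟩, 0⟩, 0, 0⟩ 0 0) (.pos 46 .mp ⟨⟨181991367, 0, 0, 0, 0, 72837205, 0, 0, 0, ⟨0, 0⟩, 0⟩, 0, 0⟩ 0 0)) (.cut .s 12353536 (.pos 46 .mp ⟨⟨186305626, 0, 0, 0, 0, 74318143, 0, 0, 0, ⟨0, 0⟩, 0⟩, 0, 0⟩ 0 0) (.pos 46 .mp ⟨⟨190726993, 0, 0, 0, 0, 75882031, 0, 0, 0, ⟨0, 0⟩, 0⟩, 0, 0⟩ 0 0))))))) (.pos 44 .mp ⟨⟨237043598, 0, 0, 0, 0, 0, 0, 0, 0, ⟨0, 0⟩, 0⟩, 0, 0⟩ 0 0))) (.cut .s 12320768 (.cut .v 16842752 (.cut .s 12288000 (.cut .s 12271616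 (.cut .l 153791 (.cut .d (-8192) (.pos 43 .mp ⟨⟨177943686, 0, 0, 0, 0, 69870407, 0, 0, 0, ⟨0, 0⟩, 0⟩, 0, 0⟩ 0 0) (.cut .v 16809984 (.cut .s 12263424 (.pos 45 .mp ⟨⟨180085845, 0, 0, 0, 0, 59984527, 0, 0, 0, ⟨0, 0⟩, 0⟩, 0, 0⟩ 0 0) (.cut .s 12267520 (.pos 45 .mp ⟨⟨181030323, 0, 0, 0, 0, 60053311, 0, 0, 0, ⟨0, 0⟩, 0⟩, 0, 0⟩ 0 0) (.pos 45 .mp ⟨⟨181502145, 0, 0, 0, 0, 60269417, 0, 0, 0, ⟨0, 0⟩, 0⟩, 0, 0⟩ 0 0))) (.pos 46 .mp ⟨⟨215954448, 0, 0, 0, 0, 0, 0, 0, 0, ⟨0, 0⟩, 0⟩, 0, 0⟩ 0 0))) (.cut .s 12263424 (.pos 43 .mp ⟨⟨180409729, 0, 0, 0, 0, 58519097, 0, 0, 0, ⟨0, 0⟩, 0⟩, 0, 0⟩ 0 0) (.pos 43 .mp ⟨⟨181467512, 0, 0, 0, 0, 58807732, 0, 0,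 0, ⟨0, 0⟩, 0⟩, 0, 0⟩ 0 0))) (.cut .l 153791 (.cut .d (-8192) (.pos 43 .mp ⟨⟨180031478, 0, 0, 0, 0, 70443624, 0, 0, 0, ⟨0, 0⟩, 0⟩, 0, 0⟩ 0 0) (.cut .v 16809984 (.cut .l 76895 (.cut .d (-4096) (.pos 45 .mp ⟨⟨179516586, 0, 0, 0, 0, 70489208, 0, 0, 0, ⟨0, 0⟩, 0⟩, 0, 0⟩ 0 0) (.cut .s 12279808 (.pos 45 .mp ⟨⟨181191343, 0, 0, 0, 0, 62097472, 0, 0, 0, ⟨0, 0⟩, 0⟩, 0, 0⟩ 0 0) (.pos 45 .mp ⟨⟨182281115, 0, 0, 0, 0, 62306321, 0, 0, 0, ⟨0, 0⟩, 0⟩, 0, 0⟩ 0 0))) (.pos 45 .mp ⟨⟨182104384, 0, 0, 0, 0, 59986815, 0, 0, 0, ⟨0, 0⟩, 0⟩, 0, 0⟩ 0 0)) (.pos 46 .mp ⟨⟨218311750, 0, 0, 0, 0, 0, 0, 0, 0, ⟨0, 0⟩, 0⟩, 0, 0⟩ 0 0))) (.cut .s 12279808 (.pos 43 .mp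 ⟨⟨182531868, 0, 0, 0, 0, 59100036, 0, 0, 0, ⟨0, 0⟩, 0⟩, 0, 0⟩ 0 0) (.pos 43 .mp ⟨⟨183602829, 0, 0, 0, 0, 59395909, 0, 0, 0, ⟨0, 0⟩, 0⟩, 0, 0⟩ 0 0)))) (.cut .s 12304384 (.cut .l 153791 (.cut .d (-8192) (.pos 43 .mp ⟨⟨182144592, 0, 0, 0, 0, 71046118, 0, 0, 0, ⟨0, 0⟩, 0⟩, 0, 0⟩ 0 0) (.cut .v 16809984 (.cut .l 76895 (.cut .d (-4096) (.pos 45 .mp ⟨⟨181618968, 0, 0, 0, 0, 71101354, 0, 0, 0, ⟨0, 0⟩, 0⟩, 0, 0⟩ 0 0) (.cut .s 12296192 (.pos 45 .mp ⟨⟨183343781, 0, 0, 0, 0, 62590194, 0, 0, 0, ⟨0, 0⟩, 0⟩, 0, 0⟩ 0 0) (.pos 45 .mp ⟨⟨184412984, 0, 0, 0, 0, 62879511, 0, 0, 0, ⟨0, 0⟩, 0⟩, 0, 0⟩ 0 0))) (.pos 45 .mp ⟨⟨184239462, 0, 0, 0, 0, 60609408,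 0, 0, 0, ⟨0, 0⟩, 0⟩, 0, 0⟩ 0 0)) (.pos 46 .mp ⟨⟨220709659, 0, 0, 0, 0, 0, 0, 0, 0, ⟨0, 0⟩, 0⟩, 0, 0⟩ 0 0))) (.cut .s 12296192 (.pos 43 .mp ⟨⟨184680429, 0, 0, 0, 0, 59695253, 0, 0, 0, ⟨0, 0⟩, 0⟩, 0, 0⟩ 0 0) (.pos 43 .mp ⟨⟨185764704, 0, 0, 0, 0, 59997967, 0, 0, 0, ⟨0, 0⟩, 0⟩, 0, 0⟩ 0 0))) (.cut .s 12312576 (.cut .v 16809984 (.cut .s 12308480 (.pos 45 .mp ⟨⟨184238604, 0, 0, 0, 0, 65412258, 0, 0, 0, ⟨0, 0⟩, 0⟩, 0, 0⟩ 0 0) (.pos 45 .mp ⟨⟨184693224, 0, 0, 0, 0, 65712929, 0, 0, 0, ⟨0, 0⟩, 0⟩, 0, 0⟩ 0 0)) (.pos 46 .mp ⟨⟨195057314, 0, 0, 0, 0, 48597094, 0, 0, 0, ⟨0, 0⟩, 0⟩, 0, 0⟩ 0 0)) (.cut .v 16809984 (.cut .s 12316672 (.pos 45 .mp ⟨⟨185167880,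 0, 0, 0, 0, 65982690, 0, 0, 0, ⟨0, 0⟩, 0⟩, 0, 0⟩ 0 0) (.pos 45 .mp ⟨⟨185645870, 0, 0, 0, 0, 66250897, 0, 0, 0, ⟨0, 0⟩, 0⟩, 0, 0⟩ 0 0)) (.pos 46 .mp ⟨⟨196022300, 0, 0, 0, 0, 49092532, 0, 0, 0, ⟨0, 0⟩, 0⟩, 0, 0⟩ 0 0))))) (.pos 44 .mp ⟨⟨222341456, 0, 0, 0, 0, 0, 0, 0, 0, ⟨0, 0⟩, 0⟩, 0, 0⟩ 0 0)) (.cut .v 16842752 (.cut .s 12353536 (.cut .s 12337152 (.cut .s 12328960 (.cut .v 16809984 (.cut .s 12324864 (.pos 45 .mp ⟨⟨186127232, 0, 0, 0, 0, 66517487, 0, 0, 0, ⟨0, 0⟩, 0⟩, 0, 0⟩ 0 0) (.cut .s 12326912 (.pos 45 .mp ⟨⟨188296698, 0, 0, 0, 0, 63566121, 0, 0, 0, ⟨0, 0⟩, 0⟩, 0, 0⟩ 0 0) (.pos 45 .mp ⟨⟨188512965, 0, 0, 0, 0, 63745349, 0, 0, 0,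 ⟨0, 0⟩, 0⟩, 0, 0⟩ 0 0))) (.pos 46 .mp ⟨⟨197004594, 0, 0, 0, 0, 49575916, 0, 0, 0, ⟨0, 0⟩, 0⟩, 0, 0⟩ 0 0)) (.cut .v 16809984 (.cut .d (-8192) (.pos 45 .mp ⟨⟨183944286, 0, 0, 0, 0, 74703588, 0, 0, 0, ⟨0, 0⟩, 0⟩, 0, 0⟩ 0 0) (.cut .s 12333056 (.pos 45 .mp ⟨⟨189176551, 0, 0, 0, 0, 63113565, 0, 0, 0, ⟨0, 0⟩, 0⟩, 0, 0⟩ 0 0) (.pos 45 .mp ⟨⟨189767950, 0, 0, 0, 0, 63189579, 0, 0, 0, ⟨0, 0⟩, 0⟩, 0, 0⟩ 0 0))) (.pos 46 .mp ⟨⟨198004650, 0, 0, 0, 0, 50046500, 0, 0, 0, ⟨0, 0⟩, 0⟩, 0, 0⟩ 0 0))) (.cut .s 12345344 (.cut .v 16809984 (.cut .d (-8192) (.pos 45 .mp ⟨⟨185021849, 0, 0, 0, 0, 75058302, 0, 0, 0, ⟨0, 0⟩, 0⟩, 0, 0⟩ 0 0) (.cut .s 12341248 (.pos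 45 .mp ⟨⟨190336549, 0, 0, 0, 0, 63312261, 0, 0, 0, ⟨0, 0⟩, 0⟩, 0, 0⟩ 0 0) (.pos 45 .mp ⟨⟨190892802, 0, 0, 0, 0, 63462334, 0, 0, 0, ⟨0, 0⟩, 0⟩, 0, 0⟩ 0 0))) (.pos 46 .mp ⟨⟨199022923, 0, 0, 0, 0, 50503531, 0, 0, 0, ⟨0, 0⟩, 0⟩, 0, 0⟩ 0 0)) (.cut .v 16809984 (.cut .d (-8192) (.pos 45 .mp ⟨⟨186105981, 0, 0, 0, 0, 75420540, 0, 0, 0, ⟨0, 0⟩, 0⟩, 0, 0⟩ 0 0) (.cut .s 12349440 (.pos 45 .mp ⟨⟨191450759, 0, 0, 0, 0, 63613859, 0, 0, 0, ⟨0, 0⟩, 0⟩, 0, 0⟩ 0 0) (.pos 45 .mp ⟨⟨192010425, 0, 0, 0, 0, 63766835, 0, 0, 0, ⟨0, 0⟩, 0⟩, 0, 0⟩ 0 0))) (.pos 46 .mp ⟨⟨200059871, 0, 0, 0, 0, 50946252, 0, 0, 0, ⟨0, 0⟩, 0⟩, 0, 0⟩ 0 0)))) (.cut .s 12369920 (.cut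 .s 12361728 (.cut .v 16809984 (.cut .d (-8192) (.pos 45 .mp ⟨⟨187196716, 0, 0, 0, 0, 75790348, 0, 0, 0, ⟨0, 0⟩, 0⟩, 0, 0⟩ 0 0) (.cut .s 12357632 (.pos 45 .mp ⟨⟨192571805, 0, 0, 0, 0, 63921260, 0, 0, 0, ⟨0, 0⟩, 0⟩, 0, 0⟩ 0 0) (.pos 45 .mp ⟨⟨193134904, 0, 0, 0, 0, 64077135, 0, 0, 0, ⟨0, 0⟩, 0⟩, 0, 0⟩ 0 0))) (.pos 46 .mp ⟨⟨201115955, 0, 0, 0, 0, 51373899, 0, 0, 0, ⟨0, 0⟩, 0⟩, 0, 0⟩ 0 0)) (.cut .v 16809984 (.cut .d (-8192) (.pos 45 .mp ⟨⟨188294089, 0, 0, 0, 0, 76167773, 0, 0, 0, ⟨0, 0⟩, 0⟩, 0, 0⟩ 0 0) (.cut .s 12365824 (.pos 45 .mp ⟨⟨193699725, 0, 0, 0, 0, 64234458, 0, 0, 0, ⟨0, 0⟩, 0⟩, 0, 0⟩ 0 0) (.pos 45 .mp ⟨⟨194266272, 0, 0, 0,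 0, 64393227, 0, 0, 0, ⟨0, 0⟩, 0⟩, 0, 0⟩ 0 0))) (.pos 46 .mp ⟨⟨202191639, 0, 0, 0, 0, 51785705, 0, 0, 0, ⟨0, 0⟩, 0⟩, 0, 0⟩ 0 0))) (.cut .s 12378112 (.cut .v 16809984 (.cut .d (-8192) (.pos 45 .mp ⟨⟨189398133, 0, 0, 0, 0, 76552860, 0, 0, 0, ⟨0, 0⟩, 0⟩, 0, 0⟩ 0 0) (.cut .s 12374016 (.pos 45 .mp ⟨⟨194834552, 0, 0, 0, 0, 64553443, 0, 0, 0, ⟨0, 0⟩, 0⟩, 0, 0⟩ 0 0) (.pos 45 .mp ⟨⟨195404568, 0, 0, 0, 0, 64715103, 0, 0, 0, ⟨0, 0⟩, 0⟩, 0, 0⟩ 0 0))) (.pos 46 .mp ⟨⟨203287388, 0, 0, 0, 0, 52180894, 0, 0, 0, ⟨0, 0⟩, 0⟩, 0, 0⟩ 0 0)) (.cut .v 16809984 (.cut .d (-8192) (.pos 45 .mp ⟨⟨190508886, 0, 0, 0, 0, 76945658, 0, 0, 0, ⟨0, 0⟩, 0⟩, 0, 0⟩ 0 0)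 (.cut .s 12382208 (.pos 45 .mp ⟨⟨195976325, 0, 0, 0, 0, 64878208, 0, 0, 0, ⟨0, 0⟩, 0⟩, 0, 0⟩ 0 0) (.pos 45 .mp ⟨⟨196549827, 0, 0, 0, 0, 65042755, 0, 0, 0, ⟨0, 0⟩, 0⟩, 0, 0⟩ 0 0))) (.pos 46 .mp ⟨⟨204403672, 0, 0, 0, 0, 52558688, 0, 0, 0, ⟨0, 0⟩, 0⟩, 0, 0⟩ 0 0))))) (.pos 44 .mp ⟨⟨232474088, 0, 0, 0, 0, 0, 0, 0, 0, ⟨0, 0⟩, 0⟩, 0, 0⟩ 0 0)))) (.pos 36 .mp ⟨⟨235095662, 0, 0, 0, 0, 0, 0, 0, 0, ⟨0, 0⟩, 0⟩, 0, 0⟩ 0 0)) (.cut .v 16908288 (.cut .d (-16384) (.cut .d (-24576) (.void 35 ⟨⟨0, 0, 0, 0, 0, 100000, 0, 0, 0, ⟨0, 0⟩, 0⟩, 0, 0⟩ 0 0) (.cut .d (-20480) (.void 35 ⟨⟨0, 0, 0, 0, 0, 100000, 0, 0, 0, ⟨0, 0⟩, 0⟩, 0, 0⟩ 0 0) (.cut .v 16842752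 (.cut .l 153791 (.void 43 ⟨⟨100000, 0, 0, 0, 0, 0, 0, 0, 0, ⟨0, 0⟩, 0⟩, 0, 0⟩ 0 0) (.cut .d (-18432) (.pos 43 .mp ⟨⟨195056152, 0, 0, 0, 0, 111093331, 0, 0, 0, ⟨0, 0⟩, 0⟩, 0, 0⟩ 0 0) (.cut .v 16809984 (.pos 45 .mp ⟨⟨0, 0, 0, 0, 0, 450239751, 0, 0, 0, ⟨0, 0⟩, 0⟩, 0, 0⟩ 0 0) (.cut .l 230687 (.void 46 ⟨⟨0, 0, 0, 0, 0, 100000, 0, 0, 0, ⟨0, 0⟩, 0⟩, 0, 0⟩ 0 0) (.cut .v 16826368 (.pos 115 .mp ⟨⟨0, 0, 0, 0, 0, 438785322, 0, 0, 0, ⟨0, 0⟩, 0⟩, 0, 0⟩ 0 0) (.cut .l 269135 (.pos 116 .mp ⟨⟨202819898, 0, 0, 0, 0, 98631276, 0, 0, 0, ⟨0, 0⟩, 0⟩, 0, 0⟩ 0 0) (.cut .s 12451840 (.pos 116 .mp ⟨⟨206267358, 0, 0, 0, 0, 58832986, 0, 0, 0, ⟨0, 0⟩, 0⟩, 0,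 0⟩ 0 0) (.pos 116 .mp ⟨⟨216219733, 0, 0, 0, 0, 61434291, 0, 0, 0, ⟨0, 0⟩, 0⟩, 0, 0⟩ 0 0)))))))) (.pos 44 .mp ⟨⟨256204662, 0, 0, 0, 0, 0, 0, 0, 0, ⟨0, 0⟩, 0⟩, 0, 0⟩ 0 0)))) (.cut .s 12451840 (.cut .v 16842752 (.cut .s 12419072 (.cut .s 12402688 (.cut .s 12394496 (.cut .v 16809984 (.cut .d (-8192) (.pos 45 .mp ⟨⟨191626381, 0, 0, 0, 0, 77346213, 0, 0, 0, ⟨0, 0⟩, 0⟩, 0, 0⟩ 0 0) (.cut .s 12390400 (.pos 45 .mp ⟨⟨197125079, 0, 0, 0, 0, 65208743, 0, 0, 0, ⟨0, 0⟩, 0⟩, 0, 0⟩ 0 0) (.pos 45 .mp ⟨⟨197702085, 0, 0, 0, 0, 65376172, 0, 0, 0, ⟨0, 0⟩, 0⟩, 0, 0⟩ 0 0))) (.pos 46 .mp ⟨⟨205540960, 0, 0, 0, 0, 52918301, 0, 0, 0, ⟨0, 0⟩, 0⟩, 0, 0⟩ 0 0))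 (.cut .v 16809984 (.cut .d (-8192) (.pos 45 .mp ⟨⟨192750654, 0, 0, 0, 0, 77754574, 0, 0, 0, ⟨0, 0⟩, 0⟩, 0, 0⟩ 0 0) (.cut .s 12398592 (.pos 45 .mp ⟨⟨198280851, 0, 0, 0, 0, 65545041, 0, 0, 0, ⟨0, 0⟩, 0⟩, 0, 0⟩ 0 0) (.pos 45 .mp ⟨⟨198861381, 0, 0, 0, 0, 65715348, 0, 0, 0, ⟨0, 0⟩, 0⟩, 0, 0⟩ 0 0))) (.pos 46 .mp ⟨⟨206699727, 0, 0, 0, 0, 53258943, 0, 0, 0, ⟨0, 0⟩, 0⟩, 0, 0⟩ 0 0))) (.cut .s 12410880 (.cut .v 16809984 (.cut .d (-8192) (.pos 45 .mp ⟨⟨193881741, 0, 0, 0, 0, 78170789, 0, 0, 0, ⟨0, 0⟩, 0⟩, 0, 0⟩ 0 0) (.cut .s 12406784 (.pos 45 .mp ⟨⟨199443679, 0, 0, 0, 0, 65887091, 0, 0, 0, ⟨0, 0⟩, 0⟩, 0, 0⟩ 0 0) (.pos 45 .mp ⟨⟨200027750, 0,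 0, 0, 0, 66060271, 0, 0, 0, ⟨0, 0⟩, 0⟩, 0, 0⟩ 0 0))) (.pos 46 .mp ⟨⟨207880449, 0, 0, 0, 0, 53579816, 0, 0, 0, ⟨0, 0⟩, 0⟩, 0, 0⟩ 0 0)) (.cut .v 16809984 (.cut .d (-8192) (.pos 45 .mp ⟨⟨195019679, 0, 0, 0, 0, 78594907, 0, 0, 0, ⟨0, 0⟩, 0⟩, 0, 0⟩ 0 0) (.cut .s 12414976 (.pos 45 .mp ⟨⟨200613600, 0, 0, 0, 0, 66234885, 0, 0, 0, ⟨0, 0⟩, 0⟩, 0, 0⟩ 0 0) (.pos 45 .mp ⟨⟨201201232, 0, 0, 0, 0, 66410933, 0, 0, 0, ⟨0, 0⟩, 0⟩, 0, 0⟩ 0 0))) (.pos 46 .mp ⟨⟨209083605, 0, 0, 0, 0, 53880118, 0, 0, 0, ⟨0, 0⟩, 0⟩, 0, 0⟩ 0 0)))) (.cut .s 12435456 (.cut .s 12427264 (.cut .v 16809984 (.cut .d (-8192) (.pos 45 .mp ⟨⟨196164504, 0, 0, 0, 0, 79026976, 0, 0,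 0, ⟨0, 0⟩, 0⟩, 0, 0⟩ 0 0) (.cut .s 12423168 (.pos 45 .mp ⟨⟨201790651, 0, 0, 0, 0, 66588412, 0, 0, 0, ⟨0, 0⟩, 0⟩, 0, 0⟩ 0 0) (.pos 45 .mp ⟨⟨202381863, 0, 0, 0, 0, 66767323, 0, 0, 0, ⟨0, 0⟩, 0⟩, 0, 0⟩ 0 0))) (.pos 46 .mp ⟨⟨210309677, 0, 0, 0, 0, 54159042, 0, 0, 0, ⟨0, 0⟩, 0⟩, 0, 0⟩ 0 0)) (.cut .v 16809984 (.cut .d (-8192) (.pos 45 .mp ⟨⟨197316253, 0, 0, 0, 0, 79467046, 0, 0, 0, ⟨0, 0⟩, 0⟩, 0, 0⟩ 0 0) (.cut .s 12431360 (.pos 45 .mp ⟨⟨202974872, 0, 0, 0, 0, 66947663, 0, 0, 0, ⟨0, 0⟩, 0⟩, 0, 0⟩ 0 0) (.pos 45 .mp ⟨⟨203569682, 0, 0, 0, 0, 67129431, 0, 0, 0, ⟨0, 0⟩, 0⟩, 0, 0⟩ 0 0))) (.pos 46 .mp ⟨⟨211559150, 0, 0, 0, 0, 54415773, 0, 0,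 0, ⟨0, 0⟩, 0⟩, 0, 0⟩ 0 0))) (.cut .s 12443648 (.cut .v 16809984 (.cut .d (-8192) (.pos 45 .mp ⟨⟨198474962, 0, 0, 0, 0, 79915167, 0, 0, 0, ⟨0, 0⟩, 0⟩, 0, 0⟩ 0 0) (.cut .s 12439552 (.pos 45 .mp ⟨⟨204166299, 0, 0, 0, 0, 67312627, 0, 0, 0, ⟨0, 0⟩, 0⟩, 0, 0⟩ 0 0) (.pos 45 .mp ⟨⟨204764728, 0, 0, 0, 0, 67497247, 0, 0, 0, ⟨0, 0⟩, 0⟩, 0, 0⟩ 0 0))) (.pos 46 .mp ⟨⟨212832512, 0, 0, 0, 0, 54649491, 0, 0, 0, ⟨0, 0⟩, 0⟩, 0, 0⟩ 0 0)) (.cut .v 16809984 (.cut .d (-8192) (.pos 45 .mp ⟨⟨199640669, 0, 0, 0, 0, 80371387, 0, 0, 0, ⟨0, 0⟩, 0⟩, 0, 0⟩ 0 0) (.cut .s 12447744 (.pos 45 .mp ⟨⟨205364972, 0, 0, 0, 0, 67683292, 0, 0, 0, ⟨0, 0⟩, 0⟩, 0, 0⟩ 0 0) (.pos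 45 .mp ⟨⟨205967038, 0, 0, 0, 0, 67870760, 0, 0, 0, ⟨0, 0⟩, 0⟩, 0, 0⟩ 0 0))) (.pos 46 .mp ⟨⟨214130251, 0, 0, 0, 0, 54859369, 0, 0, 0, ⟨0, 0⟩, 0⟩, 0, 0⟩ 0 0))))) (.pos 44 .mp ⟨⟨243234576, 0, 0, 0, 0, 0, 0, 0, 0, ⟨0, 0⟩, 0⟩, 0, 0⟩ 0 0)) (.cut .v 16842752 (.cut .s 12484608 (.cut .s 12468224 (.cut .s 12460032 (.cut .v 16809984 (.cut .d (-8192) (.pos 45 .mp ⟨⟨200813411, 0, 0, 0, 0, 80835759, 0, 0, 0, ⟨0, 0⟩, 0⟩, 0, 0⟩ 0 0) (.cut .s 12455936 (.pos 45 .mp ⟨⟨206570930, 0, 0, 0, 0, 68059649, 0, 0, 0, ⟨0, 0⟩, 0⟩, 0, 0⟩ 0 0) (.pos 45 .mp ⟨⟨207176653, 0, 0, 0, 0, 68249958, 0, 0, 0, ⟨0, 0⟩, 0⟩, 0, 0⟩ 0 0))) (.pos 46 .mp ⟨⟨215452862, 0, 0, 0,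 0, 55044577, 0, 0, 0, ⟨0, 0⟩, 0⟩, 0, 0⟩ 0 0)) (.cut .v 16809984 (.cut .d (-8192) (.pos 45 .mp ⟨⟨201993226, 0, 0, 0, 0, 81308333, 0, 0, 0, ⟨0, 0⟩, 0⟩, 0, 0⟩ 0 0) (.cut .s 12464128 (.pos 45 .mp ⟨⟨207784212, 0, 0, 0, 0, 68441686, 0, 0, 0, ⟨0, 0⟩, 0⟩, 0, 0⟩ 0 0) (.pos 45 .mp ⟨⟨208393611, 0, 0, 0, 0, 68634830, 0, 0, 0, ⟨0, 0⟩, 0⟩, 0, 0⟩ 0 0))) (.pos 46 .mp ⟨⟨216800841, 0, 0, 0, 0, 55204275, 0, 0, 0, ⟨0, 0⟩, 0⟩, 0, 0⟩ 0 0))) (.cut .s 12476416 (.cut .v 16809984 (.cut .d (-8192) (.pos 45 .mp ⟨⟨203180153, 0, 0, 0, 0, 81789159, 0, 0, 0, ⟨0, 0⟩, 0⟩, 0, 0⟩ 0 0) (.cut .s 12472320 (.pos 45 .mp ⟨⟨209004857, 0, 0, 0, 0, 68829390, 0, 0, 0, ⟨0, 0⟩,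 0⟩, 0, 0⟩ 0 0) (.pos 45 .mp ⟨⟨209617953, 0, 0, 0, 0, 69025364, 0, 0, 0, ⟨0, 0⟩, 0⟩, 0, 0⟩ 0 0))) (.pos 46 .mp ⟨⟨218174686, 0, 0, 0, 0, 55337619, 0, 0, 0, ⟨0, 0⟩, 0⟩, 0, 0⟩ 0 0)) (.cut .v 16809984 (.cut .d (-8192) (.pos 45 .mp ⟨⟨204374230, 0, 0, 0, 0, 82278290, 0, 0, 0, ⟨0, 0⟩, 0⟩, 0, 0⟩ 0 0) (.cut .s 12480512 (.pos 45 .mp ⟨⟨210232905, 0, 0, 0, 0, 69222751, 0, 0, 0, ⟨0, 0⟩, 0⟩, 0, 0⟩ 0 0) (.pos 45 .mp ⟨⟨210849717, 0, 0, 0, 0, 69421548, 0, 0, 0, ⟨0, 0⟩, 0⟩, 0, 0⟩ 0 0))) (.pos 46 .mp ⟨⟨219574898, 0, 0, 0, 0, 55443758, 0, 0, 0, ⟨0, 0⟩, 0⟩, 0, 0⟩ 0 0)))) (.cut .s 12500992 (.cut .s 12492800 (.cut .v 16809984 (.cut .d (-8192) (.pos 45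 .mp ⟨⟨205575495, 0, 0, 0, 0, 82775778, 0, 0, 0, ⟨0, 0⟩, 0⟩, 0, 0⟩ 0 0) (.cut .s 12488704 (.pos 45 .mp ⟨⟨211468396, 0, 0, 0, 0, 69621755, 0, 0, 0, ⟨0, 0⟩, 0⟩, 0, 0⟩ 0 0) (.pos 45 .mp ⟨⟨212088945, 0, 0, 0, 0, 69823369, 0, 0, 0, ⟨0, 0⟩, 0⟩, 0, 0⟩ 0 0))) (.pos 46 .mp ⟨⟨221001984, 0, 0, 0, 0, 55521835, 0, 0, 0, ⟨0, 0⟩, 0⟩, 0, 0⟩ 0 0)) (.cut .v 16809984 (.cut .d (-8192) (.pos 45 .mp ⟨⟨206783987, 0, 0, 0, 0, 83281673, 0, 0, 0, ⟨0, 0⟩, 0⟩, 0, 0⟩ 0 0) (.cut .s 12496896 (.pos 45 .mp ⟨⟨212711371, 0, 0, 0, 0, 70026389, 0, 0, 0, ⟨0, 0⟩, 0⟩, 0, 0⟩ 0 0) (.pos 45 .mp ⟨⟨213335677, 0, 0, 0, 0, 70230813, 0, 0, 0, ⟨0, 0⟩, 0⟩, 0, 0⟩ 0 0))) (.pos 46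 .mp ⟨⟨222456451, 0, 0, 0, 0, 55570988, 0, 0, 0, ⟨0, 0⟩, 0⟩, 0, 0⟩ 0 0))) (.cut .s 12509184 (.cut .v 16809984 (.cut .d (-8192) (.pos 45 .mp ⟨⟨207999747, 0, 0, 0, 0, 83796031, 0, 0, 0, ⟨0, 0⟩, 0⟩, 0, 0⟩ 0 0) (.cut .s 12505088 (.pos 45 .mp ⟨⟨213961870, 0, 0, 0, 0, 70436641, 0, 0, 0, ⟨0, 0⟩, 0⟩, 0, 0⟩ 0 0) (.pos 45 .mp ⟨⟨214589954, 0, 0, 0, 0, 70643869, 0, 0, 0, ⟨0, 0⟩, 0⟩, 0, 0⟩ 0 0))) (.pos 46 .mp ⟨⟨223938809, 0, 0, 0, 0, 55590345, 0, 0, 0, ⟨0, 0⟩, 0⟩, 0, 0⟩ 0 0)) (.cut .v 16809984 (.cut .d (-8192) (.pos 45 .mp ⟨⟨209222813, 0, 0, 0, 0, 84318903, 0, 0, 0, ⟨0, 0⟩, 0⟩, 0, 0⟩ 0 0) (.cut .s 12513280 (.pos 45 .mp ⟨⟨215219934, 0, 0, 0, 0,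 70852496, 0, 0, 0, ⟨0, 0⟩, 0⟩, 0, 0⟩ 0 0) (.pos 45 .mp ⟨⟨215851817, 0, 0, 0, 0, 71062521, 0, 0, 0, ⟨0, 0⟩, 0⟩, 0, 0⟩ 0 0))) (.pos 46 .mp ⟨⟨225449573, 0, 0, 0, 0, 55579031, 0, 0, 0, ⟨0, 0⟩, 0⟩, 0, 0⟩ 0 0))))) (.pos 44 .mp ⟨⟨254629232, 0, 0, 0, 0, 0, 0, 0, 0, ⟨0, 0⟩, 0⟩, 0, 0⟩ 0 0)))) (.pos 36 .mp ⟨⟨257392807, 0, 0, 0, 0, 0, 0, 0, 0, ⟨0, 0⟩, 0⟩, 0, 0⟩ 0 0))))))) (.pos 32 .mp ⟨⟨290446717, 0, 0, 0, 0, 0, 0, 0, 0, ⟨0, 0⟩, 0⟩, 0, 0⟩ 0 0))) (.void 30 ⟨⟨100000, 0, 0, 0, 0, 0, 0, 0, 0, ⟨0, 0⟩, 0⟩, 0, 0⟩ 0 0)) (.void 28 ⟨⟨100000, 0, 0, 0, 0, 0, 0, 0, 0, ⟨0, 0⟩, 0⟩, 0, 0⟩ 0 0))) (.void 26 ⟨⟨100000, 0, 0, 0, 0, 0, 0, 0, 0, ⟨0, 0⟩, 0⟩, 0, 0⟩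 0 0)))) (.void 24 ⟨⟨100000, 0, 0, 0, 0, 0, 0, 0, 0, ⟨0, 0⟩, 0⟩, 0, 0⟩ 0 0))) (.void 22 ⟨⟨100000, 0, 0, 0, 0, 0, 0, 0, 0, ⟨0, 0⟩, 0⟩, 0, 0⟩ 0 0)) (.void 103 ⟨⟨100000, 0, 0, 0, 0, 0, 0, 0, 0, ⟨0, 0⟩, 0⟩, 0, 0⟩ 0 0)) (.void 114 ⟨⟨100000, 0, 0, 0, 0, 0, 0, 0, 0, ⟨0, 0⟩, 0⟩, 0, 0⟩ 0 0))) (.cut .v 16777216 (.cut .v 8388608 (.cut .v 4194304 (.cut .v 2097152 (.cut .v 1048576 (.pos 119 .pm ⟨⟨0, 0, 30190483, 0, 0, 0, 0, 0, 38105264, ⟨0, 0⟩, 1983364⟩, 0, 0⟩ 0 0) (.pos 120 .pm ⟨⟨0, 0, 20576667, 0, 0, 0, 0, 0, 0, ⟨0, 0⟩, 0⟩, 0, 73155⟩ 0 0)) (.pos 118 .pm ⟨⟨0, 0, 22856357, 0, 0, 0, 0, 0, 0, ⟨0, 0⟩, 0⟩, 0, 94056⟩ 0 0)) (.pos 5 .pm ⟨⟨0, 0, 7896578,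 0, 0, 0, 0, 0, 0, ⟨0, 0⟩, 0⟩, 0, 0⟩ 0 0)) (.pos 3 .pm ⟨⟨0, 0, 0, 0, 0, 0, 0, 0, 0, ⟨0, 0⟩, 0⟩, 0, 0⟩ 0 0)) (.cut .v 67108864 (.cut .d 3095263 (.cut .v 33554432 (.cut .d 1547631 (.cut .v 25165824 (.cut .d 773815 (.cut .v 20971520 (.cut .d 386907 (.cut .v 18874368 (.cut .d 193453 (.cut .d 96726 (.cut .v 17825792 (.cut .v 17301504 (.cut .s 12386304 (.pos 29 .pp ⟨⟨186560944, 0, 0, 0, 0, 0, 0, 0, 0, ⟨0, 0⟩, 0⟩, 3927918, 0⟩ 0 0) (.pos 29 .pp ⟨⟨204672738, 0, 0, 0, 0, 0, 0, 0, 0, ⟨0, 0⟩, 0⟩, 4243607, 0⟩ 0 0)) (.pos 30 .pp ⟨⟨242066902, 0, 0, 0, 0, 0, 0, 0, 0, ⟨0, 0⟩, 0⟩, 0, 0⟩ 0 0)) (.pos 28 .pp ⟨⟨275561211, 0, 0, 0, 0, 0, 0, 0, 0, ⟨0, 0⟩,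 0⟩, 0, 0⟩ 0 0)) (.pos 25 .pp ⟨⟨206843608, 0, 0, 0, 0, 0, 0, 0, 0, ⟨0, 0⟩, 0⟩, 0, 11649⟩ 0 0)) (.pos 25 .pp ⟨⟨0, 0, 0, 0, 0, 0, 0, 0, 0, ⟨0, 0⟩, 0⟩, 0, 405058⟩ 0 0)) (.cut .d 193453 (.cut .v 19922944 (.pos 53 .pp ⟨⟨303551624, 0, 0, 0, 0, 0, 0, 0, 0, ⟨0, 0⟩, 0⟩, 0, 0⟩ 0 0) (.pos 54 .pp ⟨⟨349212454, 0, 0, 0, 0, 0, 0, 0, 0, ⟨0, 0⟩, 0⟩, 0, 0⟩ 0 0)) (.pos 26 .pp ⟨⟨262058386, 0, 0, 0, 0, 0, 0, 0, 0, ⟨0, 0⟩, 0⟩, 0, 0⟩ 0 0))) (.pos 23 .pp ⟨⟨0, 0, 0, 0, 0, 0, 0, 0, 0, ⟨0, 0⟩, 0⟩, 0, 425061⟩ 0 0)) (.cut .d 386907 (.cut .v 23068672 (.cut .d 193453 (.void 55 ⟨⟨0, 0, 0, 0, 0, 0, 0, 0, 0, ⟨0, 0⟩, 0⟩, 100000, 0⟩ 0 0) (.cut .d 290180 (.pos 55 .pp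 ⟨⟨397818559, 0, 0, 0, 0, 0, 0, 0, 0, ⟨0, 0⟩, 0⟩, 0, 0⟩ 0 0) (.cut .v 22020096 (.pos 57 .pp ⟨⟨303743907, 0, 0, 0, 0, 0, 0, 0, 0, ⟨0, 0⟩, 0⟩, 0, 0⟩ 0 0) (.pos 58 .pp ⟨⟨0, 0, 0, 0, 0, 0, 0, 0, 0, ⟨0, 0⟩, 0⟩, 43466998, 0⟩ 0 0)))) (.pos 56 .pp ⟨⟨0, 0, 0, 0, 0, 0, 0, 0, 0, ⟨0, 0⟩, 0⟩, 61655658, 0⟩ 0 0)) (.cut .v 23068672 (.pos 55 .pp ⟨⟨0, 0, 0, 0, 0, 0, 135745, 0, 0, ⟨0, 0⟩, 0⟩, 33328064, 0⟩ 0 0) (.pos 56 .pp ⟨⟨0, 0, 0, 0, 0, 0, 0, 0, 0, ⟨0, 0⟩, 0⟩, 42816035, 0⟩ 0 0)))) (.pos 21 .pp ⟨⟨0, 0, 0, 0, 0, 0, 0, 0, 0, ⟨0, 0⟩, 0⟩, 0, 459066⟩ 0 0)) (.cut .d 773815 (.cut .d 386907 (.void 22 ⟨⟨0, 0, 0, 0, 0, 0, 0, 0, 0, ⟨0, 0⟩, 0⟩, 100000, 0⟩ 0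 0) (.cut .v 29360128 (.pos 91 .pp ⟨⟨0, 0, 0, 0, 0, 0, 0, 0, 0, ⟨0, 0⟩, 0⟩, 53340020, 0⟩ 0 0) (.void 92 ⟨⟨0, 0, 0, 0, 0, 0, 0, 0, 0, ⟨0, 0⟩, 0⟩, 100000, 0⟩ 0 0))) (.pos 22 .pp ⟨⟨0, 0, 0, 0, 0, 0, 0, 0, 0, ⟨0, 0⟩, 0⟩, 39643136, 0⟩ 0 0))) (.pos 20 .pp ⟨⟨0, 0, 0, 0, 0, 0, 1527167, 0, 0, ⟨0, 0⟩, 0⟩, 0, 0⟩ 0 0)) (.cut .d 1547631 (.cut .v 50331648 (.pos 106 .pp ⟨⟨0, 0, 0, 0, 0, 0, 0, 0, 0, ⟨0, 0⟩, 0⟩, 104972638, 0⟩ 0 0) (.void 107 ⟨⟨0, 0, 0, 0, 0, 0, 0, 0, 0, ⟨0, 0⟩, 0⟩, 100000, 0⟩ 0 0)) (.pos 103 .pp ⟨⟨0, 0, 0, 0, 0, 0, 0, 0, 0, ⟨0, 0⟩, 0⟩, 55912333, 0⟩ 0 0))) (.pos 102 .pp ⟨⟨0, 0, 0, 0, 0, 0, 0, 0, 0, ⟨0, 0⟩, 0⟩, 0, 382555⟩ 0 0)) (.void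 114 ⟨⟨0, 0, 0, 45922, 0, 0, 0, 0, 0, ⟨0, 0⟩, 0⟩, 54078, 0⟩ 0 0)))),
    by decide +kernel⟩

def covers20 : cell.Covers Vale.Agent.P237.Petty.Cor.Grid.N12.table row20.1 :=
  ⟨(.cut .d 0 (.cut .v 16777216 (.cut .v 8388608 (.pos 2 .mm ⟨⟨0, 0, 375128893, 0, 0, 208258382, 0, 0, 0, ⟨0, 0⟩, 0⟩, 0, 0⟩ 0 0) (.cut .d (-8388608) (.void 3 ⟨⟨0, 0, 0, 0, 0, 100000, 0, 0, 0, ⟨0, 0⟩, 0⟩, 0, 0⟩ 0 0) (.cut .d (-4194304) (.void 3 ⟨⟨0, 0, 0, 0, 0, 100000, 0, 0, 0, ⟨0, 0⟩, 0⟩, 0, 0⟩ 0 0) (.cut .d (-2097152) (.void 3 ⟨⟨0, 0, 0, 0, 0, 100000, 0, 0, 0, ⟨0, 0⟩, 0⟩, 0, 0⟩ 0 0) (.cut .d (-1048576) (.void 3 ⟨⟨0, 0, 0, 0, 0, 100000, 0, 0, 0, ⟨0, 0⟩, 0⟩, 0,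 0⟩ 0 0) (.cut .d (-524288) (.void 3 ⟨⟨0, 0, 0, 0, 0, 100000, 0, 0, 0, ⟨0, 0⟩, 0⟩, 0, 0⟩ 0 0) (.cut .s 12615680 (.pos 3 .mm ⟨⟨0, 0, 0, 0, 0, 446897835, 0, 0, 0, ⟨0, 0⟩, 0⟩, 0, 0⟩ 0 0) (.pos 3 .mm ⟨⟨0, 0, 0, 0, 0, 483075507, 0, 0, 0, ⟨0, 0⟩, 0⟩, 0, 0⟩ 0 0)))))))) (.cut .v 268435456 (.cut .v 67108864 (.cut .v 33554432 (.cut .v 25165824 (.cut .d (-8388608) (.void 21 ⟨⟨100000, 0, 0, 0, 0, 0, 0, 0, 0, ⟨0, 0⟩, 0⟩, 0, 0⟩ 0 0) (.cut .v 20971520 (.cut .d (-4194304) (.void 23 ⟨⟨100000, 0, 0, 0, 0, 0, 0, 0, 0, ⟨0, 0⟩, 0⟩, 0, 0⟩ 0 0) (.cut .d (-2097152) (.void 23 ⟨⟨100000, 0, 0, 0, 0, 0, 0, 0, 0, ⟨0, 0⟩, 0⟩, 0, 0⟩ 0 0) (.cut .v 18874368 (.cut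 .d (-1048576) (.void 25 ⟨⟨100000, 0, 0, 0, 0, 0, 0, 0, 0, ⟨0, 0⟩, 0⟩, 0, 0⟩ 0 0) (.cut .v 17825792 (.cut .d (-524288) (.void 27 ⟨⟨100000, 0, 0, 0, 0, 0, 0, 0, 0, ⟨0, 0⟩, 0⟩, 0, 0⟩ 0 0) (.cut .v 17301504 (.cut .d (-262144) (.void 29 ⟨⟨100000, 0, 0, 0, 0, 0, 0, 0, 0, ⟨0, 0⟩, 0⟩, 0, 0⟩ 0 0) (.cut .v 17039360 (.cut .d (-131072) (.void 31 ⟨⟨100000, 0, 0, 0, 0, 0, 0, 0, 0, ⟨0, 0⟩, 0⟩, 0, 0⟩ 0 0) (.cut .d (-65536) (.void 31 ⟨⟨100000, 0, 0, 0, 0, 0, 0, 0, 0, ⟨0, 0⟩, 0⟩, 0, 0⟩ 0 0) (.cut .d (-32768) (.void 31 ⟨⟨100000, 0, 0, 0, 0, 0, 0, 0, 0, ⟨0, 0⟩, 0⟩, 0, 0⟩ 0 0) (.cut .d (-16384) (.cut .v 16908288 (.cut .v 16842752 (.cut .d (-24576) (.void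 43 ⟨⟨0, 0, 0, 0, 0, 100000, 0, 0, 0, ⟨0, 0⟩, 0⟩, 0, 0⟩ 0 0) (.cut .d (-20480) (.void 43 ⟨⟨0, 0, 0, 0, 0, 100000, 0, 0, 0, ⟨0, 0⟩, 0⟩, 0, 0⟩ 0 0) (.cut .d (-18432) (.void 43 ⟨⟨0, 0, 0, 0, 0, 100000, 0, 0, 0, ⟨0, 0⟩, 0⟩, 0, 0⟩ 0 0) (.cut .v 16809984 (.pos 45 .mp ⟨⟨0, 0, 0, 0, 0, 531781335, 0, 0, 0, ⟨0, 0⟩, 0⟩, 0, 0⟩ 0 0) (.cut .l 153791 (.void 46 ⟨⟨100000, 0, 0, 0, 0, 0, 0, 0, 0, ⟨0, 0⟩, 0⟩, 0, 0⟩ 0 0) (.cut .l 230687 (.void 46 ⟨⟨100000, 0, 0, 0, 0, 0, 0, 0, 0, ⟨0, 0⟩, 0⟩, 0, 0⟩ 0 0) (.cut .v 16826368 (.pos 115 .mp ⟨⟨0, 0, 0, 0, 0, 506279855, 0, 0, 0, ⟨0, 0⟩, 0⟩, 0, 0⟩ 0 0) (.cut .l 269135 (.void 116 ⟨⟨100000, 0, 0, 0, 0, 0, 0, 0,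 0, ⟨0, 0⟩, 0⟩, 0, 0⟩ 0 0) (.cut .s 12615680 (.cut .s 12566528 (.pos 116 .mp ⟨⟨224020829, 0, 0, 0, 0, 69684602, 0, 0, 0, ⟨0, 0⟩, 0⟩, 0, 0⟩ 0 0) (.pos 116 .mp ⟨⟨222673447, 0, 0, 0, 0, 91391902, 0, 0, 0, ⟨0, 0⟩, 0⟩, 0, 0⟩ 0 0)) (.cut .s 12664832 (.pos 116 .mp ⟨⟨230719435, 0, 0, 0, 0, 94656728, 0, 0, 0, ⟨0, 0⟩, 0⟩, 0, 0⟩ 0 0) (.pos 116 .mp ⟨⟨239073024, 0, 0, 0, 0, 98108794, 0, 0, 0, ⟨0, 0⟩, 0⟩, 0, 0⟩ 0 0))))))))))) (.pos 44 .mp ⟨⟨302181771, 0, 0, 0, 0, 0, 0, 0, 0, ⟨0, 0⟩, 0⟩, 0, 0⟩ 0 0)) (.void 36 ⟨⟨100000, 0, 0, 0, 0, 0, 0, 0, 0, ⟨0, 0⟩, 0⟩, 0, 0⟩ 0 0)) (.cut .v 16908288 (.cut .s 12615680 (.cut .s 12566528 (.cut .v 16842752 (.cut .s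 12541952 (.cut .s 12529664 (.cut .v 16809984 (.cut .d (-8192) (.pos 45 .mp ⟨⟨210451373, 0, 0, 0, 0, 85506052, 0, 0, 0, ⟨0, 0⟩, 0⟩, 0, 0⟩ 0 0) (.cut .l 153791 (.cut .l 76895 (.cut .d (-4096) (.pos 45 .mp ⟨⟨213985014, 0, 0, 0, 0, 81105590, 0, 0, 0, ⟨0, 0⟩, 0⟩, 0, 0⟩ 0 0) (.cut .s 12523520 (.pos 45 .mp ⟨⟨215486115, 0, 0, 0, 0, 73055165, 0, 0, 0, ⟨0, 0⟩, 0⟩, 0, 0⟩ 0 0) (.pos 45 .mp ⟨⟨216460354, 0, 0, 0, 0, 73270941, 0, 0, 0, ⟨0, 0⟩, 0⟩, 0, 0⟩ 0 0))) (.pos 45 .mp ⟨⟨216393712, 0, 0, 0, 0, 71082624, 0, 0, 0, ⟨0, 0⟩, 0⟩, 0, 0⟩ 0 0)) (.pos 45 .mp ⟨⟨0, 0, 0, 0, 0, 0, 0, 0, 0, ⟨0, 0⟩, 0⟩, 0, 0⟩ 0 0))) (.cut .s 12523520 (.pos 46 .mp ⟨⟨225404138,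 0, 0, 0, 0, 57882073, 0, 0, 0, ⟨0, 0⟩, 0⟩, 0, 0⟩ 0 0) (.pos 46 .mp ⟨⟨226256568, 0, 0, 0, 0, 58313967, 0, 0, 0, ⟨0, 0⟩, 0⟩, 0, 0⟩ 0 0))) (.cut .v 16809984 (.cut .d (-8192) (.pos 45 .mp ⟨⟨212313940, 0, 0, 0, 0, 86117052, 0, 0, 0, ⟨0, 0⟩, 0⟩, 0, 0⟩ 0 0) (.cut .l 153791 (.cut .l 76895 (.cut .d (-4096) (.pos 45 .mp ⟨⟨215876424, 0, 0, 0, 0, 81686015, 0, 0, 0, ⟨0, 0⟩, 0⟩, 0, 0⟩ 0 0) (.cut .s 12535808 (.pos 45 .mp ⟨⟨217438003, 0, 0, 0, 0, 73492752, 0, 0, 0, ⟨0, 0⟩, 0⟩, 0, 0⟩ 0 0) (.pos 45 .mp ⟨⟨218419041, 0, 0, 0, 0, 73720666, 0, 0, 0, ⟨0, 0⟩, 0⟩, 0, 0⟩ 0 0))) (.pos 45 .mp ⟨⟨218308402, 0, 0, 0, 0, 71659283, 0, 0, 0, ⟨0, 0⟩, 0⟩, 0, 0⟩ 0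 0)) (.pos 45 .mp ⟨⟨0, 0, 0, 0, 0, 0, 0, 0, 0, ⟨0, 0⟩, 0⟩, 0, 0⟩ 0 0))) (.cut .s 12535808 (.pos 46 .mp ⟨⟨227120629, 0, 0, 0, 0, 58737873, 0, 0, 0, ⟨0, 0⟩, 0⟩, 0, 0⟩ 0 0) (.pos 46 .mp ⟨⟨227996565, 0, 0, 0, 0, 59153386, 0, 0, 0, ⟨0, 0⟩, 0⟩, 0, 0⟩ 0 0)))) (.cut .s 12554240 (.cut .v 16809984 (.cut .d (-8192) (.pos 45 .mp ⟨⟨214194062, 0, 0, 0, 0, 86749110, 0, 0, 0, ⟨0, 0⟩, 0⟩, 0, 0⟩ 0 0) (.cut .l 153791 (.cut .l 76895 (.cut .d (-4096) (.pos 45 .mp ⟨⟨217785407, 0, 0, 0, 0, 82287748, 0, 0, 0, ⟨0, 0⟩, 0⟩, 0, 0⟩ 0 0) (.cut .s 12548096 (.pos 45 .mp ⟨⟨219386872, 0, 0, 0, 0, 73989278, 0, 0, 0, ⟨0, 0⟩, 0⟩, 0, 0⟩ 0 0) (.pos 45 .mp ⟨⟨220353552,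 0, 0, 0, 0, 74273504, 0, 0, 0, ⟨0, 0⟩, 0⟩, 0, 0⟩ 0 0))) (.pos 45 .mp ⟨⟨220241230, 0, 0, 0, 0, 72245311, 0, 0, 0, ⟨0, 0⟩, 0⟩, 0, 0⟩ 0 0)) (.pos 45 .mp ⟨⟨0, 0, 0, 0, 0, 0, 0, 0, 0, ⟨0, 0⟩, 0⟩, 0, 0⟩ 0 0))) (.cut .s 12548096 (.pos 46 .mp ⟨⟨228884620, 0, 0, 0, 0, 59560101, 0, 0, 0, ⟨0, 0⟩, 0⟩, 0, 0⟩ 0 0) (.pos 46 .mp ⟨⟨229785037, 0, 0, 0, 0, 59957609, 0, 0, 0, ⟨0, 0⟩, 0⟩, 0, 0⟩ 0 0))) (.cut .v 16809984 (.cut .l 153791 (.cut .d (-8192) (.pos 45 .mp ⟨⟨218855810, 0, 0, 0, 0, 84317675, 0, 0, 0, ⟨0, 0⟩, 0⟩, 0, 0⟩ 0 0) (.cut .l 76895 (.cut .d (-4096) (.pos 45 .mp ⟨⟨219712107, 0, 0, 0, 0, 82910998, 0, 0, 0, ⟨0, 0⟩, 0⟩, 0, 0⟩ 0 0) (.cut .s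 12560384 (.pos 45 .mp ⟨⟨221324787, 0, 0, 0, 0, 74561486, 0, 0, 0, ⟨0, 0⟩, 0⟩, 0, 0⟩ 0 0) (.pos 45 .mp ⟨⟨222300595, 0, 0, 0, 0, 74853205, 0, 0, 0, ⟨0, 0⟩, 0⟩, 0, 0⟩ 0 0))) (.pos 45 .mp ⟨⟨222192348, 0, 0, 0, 0, 72840282, 0, 0, 0, ⟨0, 0⟩, 0⟩, 0, 0⟩ 0 0))) (.pos 45 .mp ⟨⟨216310056, 0, 0, 0, 0, 83568719, 0, 0, 0, ⟨0, 0⟩, 0⟩, 0, 0⟩ 0 0)) (.cut .s 12560384 (.pos 46 .mp ⟨⟨230698064, 0, 0, 0, 0, 60345500, 0, 0, 0, ⟨0, 0⟩, 0⟩, 0, 0⟩ 0 0) (.pos 46 .mp ⟨⟨231623947, 0, 0, 0, 0, 60723359, 0, 0, 0, ⟨0, 0⟩, 0⟩, 0, 0⟩ 0 0))))) (.pos 44 .mp ⟨⟨265029901, 0, 0, 0, 0, 0, 0, 0, 0, ⟨0, 0⟩, 0⟩, 0, 0⟩ 0 0)) (.cut .v 16842752 (.cut .s 12591104 (.cut .s 12578816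 (.cut .v 16809984 (.cut .l 153791 (.cut .d (-8192) (.pos 45 .mp ⟨⟨220795091, 0, 0, 0, 0, 84973757, 0, 0, 0, ⟨0, 0⟩, 0⟩, 0, 0⟩ 0 0) (.cut .l 76895 (.cut .d (-4096) (.pos 45 .mp ⟨⟨221656667, 0, 0, 0, 0, 83555979, 0, 0, 0, ⟨0, 0⟩, 0⟩, 0, 0⟩ 0 0) (.cut .s 12572672 (.pos 45 .mp ⟨⟨223280996, 0, 0, 0, 0, 75148644, 0, 0, 0, ⟨0, 0⟩, 0⟩, 0, 0⟩ 0 0) (.pos 45 .mp ⟨⟨224266008, 0, 0, 0, 0, 75447785, 0, 0, 0, ⟨0, 0⟩, 0⟩, 0, 0⟩ 0 0))) (.pos 45 .mp ⟨⟨224161906, 0, 0, 0, 0, 73443764, 0, 0, 0, ⟨0, 0⟩, 0⟩, 0, 0⟩ 0 0))) (.pos 45 .mp ⟨⟨218217543, 0, 0, 0, 0, 84291353, 0, 0, 0, ⟨0, 0⟩, 0⟩, 0, 0⟩ 0 0)) (.cut .s 12572672 (.pos 46 .mp ⟨⟨232562936, 0, 0,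 0, 0, 61090773, 0, 0, 0, ⟨0, 0⟩, 0⟩, 0, 0⟩ 0 0) (.pos 46 .mp ⟨⟨233515278, 0, 0, 0, 0, 61447323, 0, 0, 0, ⟨0, 0⟩, 0⟩, 0, 0⟩ 0 0))) (.cut .v 16809984 (.cut .l 153791 (.cut .d (-8192) (.pos 45 .mp ⟨⟨222752665, 0, 0, 0, 0, 85651051, 0, 0, 0, ⟨0, 0⟩, 0⟩, 0, 0⟩ 0 0) (.cut .l 76895 (.cut .d (-4096) (.pos 45 .mp ⟨⟨223619235, 0, 0, 0, 0, 84222906, 0, 0, 0, ⟨0, 0⟩, 0⟩, 0, 0⟩ 0 0) (.cut .s 12584960 (.pos 45 .mp ⟨⟨225255651, 0, 0, 0, 0, 75750611, 0, 0, 0, ⟨0, 0⟩, 0⟩, 0, 0⟩ 0 0) (.pos 45 .mp ⟨⟨226249943, 0, 0, 0, 0, 76057103, 0, 0, 0, ⟨0, 0⟩, 0⟩, 0, 0⟩ 0 0))) (.pos 45 .mp ⟨⟨226150059, 0, 0, 0, 0, 74055325, 0, 0, 0, ⟨0, 0⟩, 0⟩, 0, 0⟩ 0 0))) (.pos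 45 .mp ⟨⟨220142883, 0, 0, 0, 0, 85023539, 0, 0, 0, ⟨0, 0⟩, 0⟩, 0, 0⟩ 0 0)) (.cut .s 12584960 (.pos 46 .mp ⟨⟨234481224, 0, 0, 0, 0, 61792589, 0, 0, 0, ⟨0, 0⟩, 0⟩, 0, 0⟩ 0 0) (.pos 46 .mp ⟨⟨235461027, 0, 0, 0, 0, 62126149, 0, 0, 0, ⟨0, 0⟩, 0⟩, 0, 0⟩ 0 0)))) (.cut .s 12603392 (.cut .v 16809984 (.cut .l 153791 (.cut .d (-8192) (.pos 45 .mp ⟨⟨224728683, 0, 0, 0, 0, 86349761, 0, 0, 0, ⟨0, 0⟩, 0⟩, 0, 0⟩ 0 0) (.cut .l 76895 (.cut .d (-4096) (.pos 45 .mp ⟨⟨225599957, 0, 0, 0, 0, 84911998, 0, 0, 0, ⟨0, 0⟩, 0⟩, 0, 0⟩ 0 0) (.cut .s 12597248 (.pos 45 .mp ⟨⟨227248905, 0, 0, 0, 0, 76367243, 0, 0, 0, ⟨0, 0⟩, 0⟩, 0, 0⟩ 0 0) (.pos 45 .mp ⟨⟨228252556,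 0, 0, 0, 0, 76681012, 0, 0, 0, ⟨0, 0⟩, 0⟩, 0, 0⟩ 0 0))) (.pos 45 .mp ⟨⟨228156962, 0, 0, 0, 0, 74674526, 0, 0, 0, ⟨0, 0⟩, 0⟩, 0, 0⟩ 0 0))) (.pos 45 .mp ⟨⟨222086224, 0, 0, 0, 0, 85764855, 0, 0, 0, ⟨0, 0⟩, 0⟩, 0, 0⟩ 0 0)) (.cut .s 12597248 (.pos 46 .mp ⟨⟨236454938, 0, 0, 0, 0, 62447578, 0, 0, 0, ⟨0, 0⟩, 0⟩, 0, 0⟩ 0 0) (.pos 46 .mp ⟨⟨237463212, 0, 0, 0, 0, 62756449, 0, 0, 0, ⟨0, 0⟩, 0⟩, 0, 0⟩ 0 0))) (.cut .v 16809984 (.cut .l 153791 (.cut .d (-8192) (.pos 45 .mp ⟨⟨226723299, 0, 0, 0, 0, 87070094, 0, 0, 0, ⟨0, 0⟩, 0⟩, 0, 0⟩ 0 0) (.cut .l 76895 (.cut .d (-4096) (.pos 45 .mp ⟨⟨227598984, 0, 0, 0, 0, 85623475, 0, 0, 0, ⟨0, 0⟩, 0⟩, 0, 0⟩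 0 0) (.cut .s 12609536 (.pos 45 .mp ⟨⟨229260916, 0, 0, 0, 0, 76998392, 0, 0, 0, ⟨0, 0⟩, 0⟩, 0, 0⟩ 0 0) (.pos 45 .mp ⟨⟨230274003, 0, 0, 0, 0, 77319363, 0, 0, 0, ⟨0, 0⟩, 0⟩, 0, 0⟩ 0 0))) (.pos 45 .mp ⟨⟨230182771, 0, 0, 0, 0, 75300928, 0, 0, 0, ⟨0, 0⟩, 0⟩, 0, 0⟩ 0 0))) (.pos 45 .mp ⟨⟨224047716, 0, 0, 0, 0, 86514872, 0, 0, 0, ⟨0, 0⟩, 0⟩, 0, 0⟩ 0 0)) (.cut .s 12609536 (.pos 46 .mp ⟨⟨238486103, 0, 0, 0, 0, 63052331, 0, 0, 0, ⟨0, 0⟩, 0⟩, 0, 0⟩ 0 0) (.pos 46 .mp ⟨⟨239523867, 0, 0, 0, 0, 63334794, 0, 0, 0, ⟨0, 0⟩, 0⟩, 0, 0⟩ 0 0))))) (.pos 44 .mp ⟨⟨274240261, 0, 0, 0, 0, 0, 0, 0, 0, ⟨0, 0⟩, 0⟩, 0, 0⟩ 0 0))) (.cut .s 12664832 (.cut .v 16842752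 (.cut .s 12640256 (.cut .s 12627968 (.cut .v 16809984 (.cut .l 153791 (.cut .d (-8192) (.pos 45 .mp ⟨⟨228736669, 0, 0, 0, 0, 87812260, 0, 0, 0, ⟨0, 0⟩, 0⟩, 0, 0⟩ 0 0) (.cut .l 76895 (.cut .d (-4096) (.pos 45 .mp ⟨⟨229616467, 0, 0, 0, 0, 86357561, 0, 0, 0, ⟨0, 0⟩, 0⟩, 0, 0⟩ 0 0) (.cut .s 12621824 (.pos 45 .mp ⟨⟨231291839, 0, 0, 0, 0, 77643907, 0, 0, 0, ⟨0, 0⟩, 0⟩, 0, 0⟩ 0 0) (.pos 45 .mp ⟨⟨232314443, 0, 0, 0, 0, 77972003, 0, 0, 0, ⟨0, 0⟩, 0⟩, 0, 0⟩ 0 0))) (.pos 45 .mp ⟨⟨232227647, 0, 0, 0, 0, 75934088, 0, 0, 0, ⟨0, 0⟩, 0⟩, 0, 0⟩ 0 0))) (.pos 45 .mp ⟨⟨226027512, 0, 0, 0, 0, 87273160, 0, 0, 0, ⟨0, 0⟩, 0⟩, 0, 0⟩ 0 0)) (.cut .s 12621824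 (.pos 46 .mp ⟨⟨240576762, 0, 0, 0, 0, 63603401, 0, 0, 0, ⟨0, 0⟩, 0⟩, 0, 0⟩ 0 0) (.pos 46 .mp ⟨⟨241645047, 0, 0, 0, 0, 63857717, 0, 0, 0, ⟨0, 0⟩, 0⟩, 0, 0⟩ 0 0))) (.cut .v 16809984 (.cut .l 153791 (.cut .d (-8192) (.pos 45 .mp ⟨⟨230768952, 0, 0, 0, 0, 88576470, 0, 0, 0, ⟨0, 0⟩, 0⟩, 0, 0⟩ 0 0) (.cut .s 12634112 (.cut .s 12631040 (.pos 45 .mp ⟨⟨234206153, 0, 0, 0, 0, 76502572, 0, 0, 0, ⟨0, 0⟩, 0⟩, 0, 0⟩ 0 0) (.pos 45 .mp ⟨⟨234724761, 0, 0, 0, 0, 76663230, 0, 0, 0, ⟨0, 0⟩, 0⟩, 0, 0⟩ 0 0)) (.cut .s 12637184 (.pos 45 .mp ⟨⟨235244586, 0, 0, 0, 0, 76824744, 0, 0, 0, ⟨0, 0⟩, 0⟩, 0, 0⟩ 0 0) (.pos 45 .mp ⟨⟨235765630, 0, 0, 0, 0, 76987110,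 0, 0, 0, ⟨0, 0⟩, 0⟩, 0, 0⟩ 0 0)))) (.pos 45 .mp ⟨⟨228025766, 0, 0, 0, 0, 88039286, 0, 0, 0, ⟨0, 0⟩, 0⟩, 0, 0⟩ 0 0)) (.cut .s 12634112 (.pos 46 .mp ⟨⟨242728980, 0, 0, 0, 0, 64097301, 0, 0, 0, ⟨0, 0⟩, 0⟩, 0, 0⟩ 0 0) (.pos 46 .mp ⟨⟨243828823, 0, 0, 0, 0, 64321712, 0, 0, 0, ⟨0, 0⟩, 0⟩, 0, 0⟩ 0 0)))) (.cut .s 12652544 (.cut .v 16809984 (.cut .l 153791 (.cut .d (-8192) (.pos 45 .mp ⟨⟨232820307, 0, 0, 0, 0, 89362938, 0, 0, 0, ⟨0, 0⟩, 0⟩, 0, 0⟩ 0 0) (.cut .l 76895 (.cut .d (-4096) (.pos 45 .mp ⟨⟨233707416, 0, 0, 0, 0, 87894467, 0, 0, 0, ⟨0, 0⟩, 0⟩, 0, 0⟩ 0 0) (.cut .s 12646400 (.pos 45 .mp ⟨⟨235411065, 0, 0, 0, 0, 78977414, 0, 0, 0, ⟨0,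 0⟩, 0⟩, 0, 0⟩ 0 0) (.pos 45 .mp ⟨⟨236452944, 0, 0, 0, 0, 79319524, 0, 0, 0, ⟨0, 0⟩, 0⟩, 0, 0⟩ 0 0))) (.pos 45 .mp ⟨⟨236375243, 0, 0, 0, 0, 77218889, 0, 0, 0, ⟨0, 0⟩, 0⟩, 0, 0⟩ 0 0))) (.pos 45 .mp ⟨⟨230042634, 0, 0, 0, 0, 88812813, 0, 0, 0, ⟨0, 0⟩, 0⟩, 0, 0⟩ 0 0)) (.cut .s 12646400 (.pos 46 .mp ⟨⟨244944837, 0, 0, 0, 0, 64530505, 0, 0, 0, ⟨0, 0⟩, 0⟩, 0, 0⟩ 0 0) (.pos 46 .mp ⟨⟨246077286, 0, 0, 0, 0, 64723232, 0, 0, 0, ⟨0, 0⟩, 0⟩, 0, 0⟩ 0 0))) (.cut .v 16809984 (.cut .l 153791 (.cut .d (-8192) (.pos 45 .mp ⟨⟨234890895, 0, 0, 0, 0, 90171881, 0, 0, 0, ⟨0, 0⟩, 0⟩, 0, 0⟩ 0 0) (.cut .l 76895 (.cut .d (-4096) (.pos 45 .mp ⟨⟨235781193, 0,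 0, 0, 0, 88697747, 0, 0, 0, ⟨0, 0⟩, 0⟩, 0, 0⟩ 0 0) (.cut .s 12658688 (.pos 45 .mp ⟨⟨237499692, 0, 0, 0, 0, 79665087, 0, 0, 0, ⟨0, 0⟩, 0⟩, 0, 0⟩ 0 0) (.pos 45 .mp ⟨⟨238551331, 0, 0, 0, 0, 80014082, 0, 0, 0, ⟨0, 0⟩, 0⟩, 0, 0⟩ 0 0))) (.pos 45 .mp ⟨⟨238478291, 0, 0, 0, 0, 77869626, 0, 0, 0, ⟨0, 0⟩, 0⟩, 0, 0⟩ 0 0))) (.pos 45 .mp ⟨⟨232078274, 0, 0, 0, 0, 89593302, 0, 0, 0, ⟨0, 0⟩, 0⟩, 0, 0⟩ 0 0)) (.cut .s 12658688 (.pos 46 .mp ⟨⟨247226435, 0, 0, 0, 0, 64899444, 0, 0, 0, ⟨0, 0⟩, 0⟩, 0, 0⟩ 0 0) (.pos 46 .mp ⟨⟨248392548, 0, 0, 0, 0, 65058689, 0, 0, 0, ⟨0, 0⟩, 0⟩, 0, 0⟩ 0 0))))) (.pos 44 .mp ⟨⟨283883328, 0, 0, 0, 0, 0, 0, 0, 0, ⟨0, 0⟩, 0⟩,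 0, 0⟩ 0 0)) (.cut .v 16842752 (.cut .s 12689408 (.cut .s 12677120 (.cut .v 16809984 (.cut .l 153791 (.cut .d (-8192) (.pos 45 .mp ⟨⟨236980881, 0, 0, 0, 0, 91003518, 0, 0, 0, ⟨0, 0⟩, 0⟩, 0, 0⟩ 0 0) (.cut .l 76895 (.cut .d (-4096) (.pos 45 .mp ⟨⟨237874050, 0, 0, 0, 0, 89524557, 0, 0, 0, ⟨0, 0⟩, 0⟩, 0, 0⟩ 0 0) (.cut .s 12670976 (.pos 45 .mp ⟨⟨239607882, 0, 0, 0, 0, 80366489, 0, 0, 0, ⟨0, 0⟩, 0⟩, 0, 0⟩ 0 0) (.pos 45 .mp ⟨⟨240669365, 0, 0, 0, 0, 80722286, 0, 0, 0, ⟨0, 0⟩, 0⟩, 0, 0⟩ 0 0))) (.pos 45 .mp ⟨⟨240601061, 0, 0, 0, 0, 78525314, 0, 0, 0, ⟨0, 0⟩, 0⟩, 0, 0⟩ 0 0))) (.pos 45 .mp ⟨⟨234132845, 0, 0, 0, 0, 90380309, 0, 0, 0, ⟨0, 0⟩,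 0⟩, 0, 0⟩ 0 0)) (.cut .s 12670976 (.pos 46 .mp ⟨⟨249575893, 0, 0, 0, 0, 65200510, 0, 0, 0, ⟨0, 0⟩, 0⟩, 0, 0⟩ 0 0) (.pos 46 .mp ⟨⟨250776739, 0, 0, 0, 0, 65324452, 0, 0, 0, ⟨0, 0⟩, 0⟩, 0, 0⟩ 0 0))) (.cut .v 16809984 (.cut .d (-8192) (.pos 45 .mp ⟨⟨236076708, 0, 0, 0, 0, 95151163, 0, 0, 0, ⟨0, 0⟩, 0⟩, 0, 0⟩ 0 0) (.cut .l 153791 (.cut .l 76895 (.cut .d (-4096) (.pos 45 .mp ⟨⟨239986148, 0, 0, 0, 0, 90375134, 0, 0, 0, ⟨0, 0⟩, 0⟩, 0, 0⟩ 0 0) (.cut .s 12683264 (.pos 45 .mp ⟨⟨241735801, 0, 0, 0, 0, 81081452, 0, 0, 0, ⟨0, 0⟩, 0⟩, 0, 0⟩ 0 0) (.pos 45 .mp ⟨⟨242807213, 0, 0, 0, 0, 81443965, 0, 0, 0, ⟨0, 0⟩, 0⟩, 0, 0⟩ 0 0))) (.pos 45 .mp ⟨⟨242743721,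 0, 0, 0, 0, 79185491, 0, 0, 0, ⟨0, 0⟩, 0⟩, 0, 0⟩ 0 0)) (.pos 45 .mp ⟨⟨0, 0, 0, 0, 0, 0, 0, 0, 0, ⟨0, 0⟩, 0⟩, 0, 0⟩ 0 0))) (.cut .s 12683264 (.pos 46 .mp ⟨⟨251995353, 0, 0, 0, 0, 65430053, 0, 0, 0, ⟨0, 0⟩, 0⟩, 0, 0⟩ 0 0) (.pos 46 .mp ⟨⟨253232008, 0, 0, 0, 0, 65516850, 0, 0, 0, ⟨0, 0⟩, 0⟩, 0, 0⟩ 0 0)))) (.cut .s 12701696 (.cut .v 16809984 (.cut .d (-8192) (.pos 45 .mp ⟨⟨238179291, 0, 0, 0, 0, 96052384, 0, 0, 0, ⟨0, 0⟩, 0⟩, 0, 0⟩ 0 0) (.cut .l 153791 (.cut .l 76895 (.cut .d (-4096) (.pos 45 .mp ⟨⟨242117648, 0, 0, 0, 0, 91249718, 0, 0, 0, ⟨0, 0⟩, 0⟩, 0, 0⟩ 0 0) (.cut .s 12695552 (.pos 45 .mp ⟨⟨243883620, 0, 0, 0, 0, 81809803, 0, 0,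 0, ⟨0, 0⟩, 0⟩, 0, 0⟩ 0 0) (.pos 45 .mp ⟨⟨244965045, 0, 0, 0, 0, 82178945, 0, 0, 0, ⟨0, 0⟩, 0⟩, 0, 0⟩ 0 0))) (.pos 45 .mp ⟨⟨244906444, 0, 0, 0, 0, 79849692, 0, 0, 0, ⟨0, 0⟩, 0⟩, 0, 0⟩ 0 0)) (.pos 45 .mp ⟨⟨0, 0, 0, 0, 0, 0, 0, 0, 0, ⟨0, 0⟩, 0⟩, 0, 0⟩ 0 0))) (.cut .s 12695552 (.pos 46 .mp ⟨⟨254486974, 0, 0, 0, 0, 65584378, 0, 0, 0, ⟨0, 0⟩, 0⟩, 0, 0⟩ 0 0) (.pos 46 .mp ⟨⟨255760526, 0, 0, 0, 0, 65632169, 0, 0, 0, ⟨0, 0⟩, 0⟩, 0, 0⟩ 0 0))) (.cut .v 16809984 (.cut .d (-8192) (.pos 45 .mp ⟨⟨240301451, 0, 0, 0, 0, 96977483, 0, 0, 0, ⟨0, 0⟩, 0⟩, 0, 0⟩ 0 0) (.cut .l 153791 (.cut .l 76895 (.cut .d (-4096) (.pos 45 .mp ⟨⟨244268715, 0, 0, 0, 0,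 92148553, 0, 0, 0, ⟨0, 0⟩, 0⟩, 0, 0⟩ 0 0) (.cut .s 12707840 (.pos 45 .mp ⟨⟨246051510, 0, 0, 0, 0, 82551368, 0, 0, 0, ⟨0, 0⟩, 0⟩, 0, 0⟩ 0 0) (.pos 45 .mp ⟨⟨247143035, 0, 0, 0, 0, 82927050, 0, 0, 0, ⟨0, 0⟩, 0⟩, 0, 0⟩ 0 0))) (.pos 45 .mp ⟨⟨247089401, 0, 0, 0, 0, 80517451, 0, 0, 0, ⟨0, 0⟩, 0⟩, 0, 0⟩ 0 0)) (.pos 45 .mp ⟨⟨243917805, 0, 0, 0, 0, 0, 0, 0, 0, ⟨0, 0⟩, 0⟩, 0, 0⟩ 0 0))) (.cut .s 12707840 (.pos 46 .mp ⟨⟨257052937, 0, 0, 0, 0, 65659750, 0, 0, 0, ⟨0, 0⟩, 0⟩, 0, 0⟩ 0 0) (.pos 46 .mp ⟨⟨258364485, 0, 0, 0, 0, 65666649, 0, 0, 0, ⟨0, 0⟩, 0⟩, 0, 0⟩ 0 0))))) (.pos 44 .mp ⟨⟨293962455, 0, 0, 0, 0, 0, 0, 0, 0, ⟨0, 0⟩, 0⟩, 0, 0⟩ 0 0))))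 (.pos 36 .mp ⟨⟨286572925, 0, 0, 0, 0, 0, 0, 0, 0, ⟨0, 0⟩, 0⟩, 0, 0⟩ 0 0)))))) (.pos 32 .mp ⟨⟨321000011, 0, 0, 0, 0, 0, 0, 0, 0, ⟨0, 0⟩, 0⟩, 0, 0⟩ 0 0))) (.void 30 ⟨⟨100000, 0, 0, 0, 0, 0, 0, 0, 0, ⟨0, 0⟩, 0⟩, 0, 0⟩ 0 0))) (.void 28 ⟨⟨100000, 0, 0, 0, 0, 0, 0, 0, 0, ⟨0, 0⟩, 0⟩, 0, 0⟩ 0 0))) (.void 26 ⟨⟨100000, 0, 0, 0, 0, 0, 0, 0, 0, ⟨0, 0⟩, 0⟩, 0, 0⟩ 0 0)))) (.void 24 ⟨⟨100000, 0, 0, 0, 0, 0, 0, 0, 0, ⟨0, 0⟩, 0⟩, 0, 0⟩ 0 0))) (.void 22 ⟨⟨100000, 0, 0, 0, 0, 0, 0, 0, 0, ⟨0, 0⟩, 0⟩, 0, 0⟩ 0 0)) (.void 103 ⟨⟨100000, 0, 0, 0, 0, 0, 0, 0, 0, ⟨0, 0⟩, 0⟩, 0, 0⟩ 0 0)) (.void 114 ⟨⟨100000, 0, 0, 0, 0, 0, 0, 0, 0, ⟨0, 0⟩, 0⟩, 0, 0⟩ 0 0))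 (.void 125 ⟨⟨93722, 0, 0, 5397, 0, 0, 801, 0, 0, ⟨0, 0⟩, 0⟩, 0, 0⟩ 0 0))) (.cut .v 16777216 (.cut .v 8388608 (.cut .v 4194304 (.cut .v 2097152 (.cut .v 1048576 (.pos 119 .pm ⟨⟨0, 0, 30144986, 0, 0, 0, 0, 0, 36636515, ⟨0, 0⟩, 1983364⟩, 0, 0⟩ 0 0) (.pos 120 .pm ⟨⟨0, 0, 22157504, 0, 0, 0, 0, 0, 0, ⟨0, 0⟩, 0⟩, 0, 64499⟩ 0 0)) (.pos 118 .pm ⟨⟨0, 0, 24983131, 0, 0, 0, 0, 0, 0, ⟨0, 0⟩, 0⟩, 0, 82927⟩ 0 0)) (.pos 5 .pm ⟨⟨0, 0, 9611672, 0, 0, 0, 0, 0, 0, ⟨0, 0⟩, 0⟩, 0, 0⟩ 0 0)) (.pos 3 .pm ⟨⟨0, 0, 0, 0, 0, 0, 0, 0, 0, ⟨0, 0⟩, 0⟩, 0, 0⟩ 0 0)) (.cut .v 268435456 (.cut .v 67108864 (.cut .d 2854763 (.cut .v 33554432 (.cut .d 1427381 (.cut .v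 25165824 (.cut .d 713690 (.cut .v 20971520 (.cut .d 356845 (.cut .v 18874368 (.cut .d 178422 (.cut .d 89211 (.cut .v 17825792 (.cut .v 17301504 (.cut .s 12615680 (.pos 29 .pp ⟨⟨215369965, 0, 0, 0, 0, 0, 0, 0, 0, ⟨0, 0⟩, 0⟩, 5743949, 0⟩ 0 0) (.pos 29 .pp ⟨⟨230613968, 0, 0, 0, 0, 0, 0, 0, 0, ⟨0, 0⟩, 0⟩, 6166860, 0⟩ 0 0)) (.pos 30 .pp ⟨⟨283812773, 0, 0, 0, 0, 0, 0, 0, 0, ⟨0, 0⟩, 0⟩, 0, 0⟩ 0 0)) (.pos 28 .pp ⟨⟨318888015, 0, 0, 0, 0, 0, 0, 0, 0, ⟨0, 0⟩, 0⟩, 0, 0⟩ 0 0)) (.pos 25 .pp ⟨⟨246084414, 0, 0, 0, 0, 0, 0, 0, 0, ⟨0, 0⟩, 0⟩, 0, 12037⟩ 0 0)) (.pos 25 .pp ⟨⟨0, 0, 0, 0, 0, 0, 0, 0, 0, ⟨0, 0⟩, 0⟩, 0, 348604⟩ 0 0)) (.cut .d 178422 (.pos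 26 .pp ⟨⟨377444673, 0, 0, 0, 0, 0, 0, 0, 0, ⟨0, 0⟩, 0⟩, 0, 0⟩ 0 0) (.pos 26 .pp ⟨⟨310992716, 0, 0, 0, 0, 0, 0, 0, 0, ⟨0, 0⟩, 0⟩, 0, 0⟩ 0 0))) (.pos 23 .pp ⟨⟨0, 0, 0, 0, 0, 0, 0, 0, 0, ⟨0, 0⟩, 0⟩, 0, 365819⟩ 0 0)) (.cut .d 356845 (.cut .v 23068672 (.cut .v 22020096 (.cut .d 178422 (.void 57 ⟨⟨0, 0, 0, 0, 0, 0, 0, 0, 0, ⟨0, 0⟩, 0⟩, 100000, 0⟩ 0 0) (.pos 57 .pp ⟨⟨382866559, 0, 0, 0, 0, 0, 0, 0, 0, ⟨0, 0⟩, 0⟩, 0, 0⟩ 0 0)) (.pos 58 .pp ⟨⟨0, 0, 0, 0, 0, 0, 0, 0, 0, ⟨0, 0⟩, 0⟩, 58563324, 0⟩ 0 0)) (.pos 56 .pp ⟨⟨0, 0, 0, 0, 0, 0, 0, 0, 0, ⟨0, 0⟩, 0⟩, 69221103, 0⟩ 0 0)) (.pos 24 .pp ⟨⟨0, 0, 0, 0, 0, 0, 36187, 0, 0, ⟨0, 0⟩, 0⟩, 44469964,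 0⟩ 0 0))) (.pos 21 .pp ⟨⟨0, 0, 0, 0, 0, 0, 0, 0, 0, ⟨0, 0⟩, 0⟩, 0, 395085⟩ 0 0)) (.cut .d 713690 (.cut .d 356845 (.void 22 ⟨⟨0, 0, 0, 0, 0, 0, 0, 0, 0, ⟨0, 0⟩, 0⟩, 100000, 0⟩ 0 0) (.pos 22 .pp ⟨⟨0, 0, 0, 0, 0, 0, 0, 0, 0, ⟨0, 0⟩, 0⟩, 67625997, 0⟩ 0 0)) (.pos 22 .pp ⟨⟨0, 0, 0, 0, 0, 0, 0, 0, 0, ⟨0, 0⟩, 0⟩, 46681472, 0⟩ 0 0))) (.pos 20 .pp ⟨⟨0, 0, 0, 0, 0, 0, 1315086, 0, 0, ⟨0, 0⟩, 0⟩, 0, 0⟩ 0 0)) (.cut .d 1427381 (.cut .v 50331648 (.pos 106 .pp ⟨⟨0, 0, 0, 0, 0, 0, 0, 0, 0, ⟨0, 0⟩, 0⟩, 119425028, 0⟩ 0 0) (.void 107 ⟨⟨0, 0, 0, 0, 0, 0, 0, 0, 0, ⟨0, 0⟩, 0⟩, 100000, 0⟩ 0 0)) (.pos 103 .pp ⟨⟨0, 0, 0, 0, 0, 0, 0, 0, 0, ⟨0, 0⟩, 0⟩, 65355412,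 0⟩ 0 0))) (.pos 102 .pp ⟨⟨0, 0, 0, 0, 0, 0, 0, 0, 0, ⟨0, 0⟩, 0⟩, 0, 329237⟩ 0 0)) (.void 114 ⟨⟨0, 0, 0, 46217, 0, 0, 0, 0, 0, ⟨0, 0⟩, 0⟩, 53783, 0⟩ 0 0)) (.void 125 ⟨⟨0, 0, 0, 0, 0, 0, 0, 0, 0, ⟨0, 0⟩, 0⟩, 100000, 0⟩ 0 0)))),
    by decide +kernel⟩

def covers21 : cell.Covers Vale.Agent.P237.Petty.Cor.Grid.N12.table row21.1 :=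
  ⟨(.cut .d 0 (.cut .v 16777216 (.cut .v 8388608 (.pos 2 .mm ⟨⟨0, 0, 411860915, 0, 0, 350126730, 0, 0, 0, ⟨0, 0⟩, 0⟩, 0, 0⟩ 0 0) (.cut .d (-8388608) (.void 3 ⟨⟨0, 0, 0, 0, 0, 100000, 0, 0, 0, ⟨0, 0⟩, 0⟩, 0, 0⟩ 0 0) (.cut .d (-4194304) (.void 3 ⟨⟨100000, 0, 0, 0, 0, 0, 0, 0, 0, ⟨0, 0⟩, 0⟩, 0, 0⟩ 0 0) (.cut .d (-2097152) (.void 3 ⟨⟨0, 0, 0, 0, 0, 100000, 0, 0, 0, ⟨0, 0⟩, 0⟩, 0, 0⟩ 0 0) (.cut .d (-1048576) (.void 3 ⟨⟨0, 0, 0, 0, 0, 100000, 0, 0, 0, ⟨0, 0⟩, 0⟩, 0, 0⟩ 0 0) (.cut .d (-524288) (.void 3 ⟨⟨0, 0, 0, 0, 0, 100000, 0, 0, 0, ⟨0, 0⟩, 0⟩, 0, 0⟩ 0 0) (.cut .s 12845056 (.pos 3 .mm ⟨⟨0, 0, 0, 0, 0, 536007767, 0, 0, 0, ⟨0, 0⟩, 0⟩,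 0, 0⟩ 0 0) (.pos 3 .mm ⟨⟨0, 0, 0, 0, 0, 595741032, 0, 0, 0, ⟨0, 0⟩, 0⟩, 0, 0⟩ 0 0)))))))) (.cut .v 268435456 (.cut .v 67108864 (.cut .v 33554432 (.cut .v 25165824 (.cut .d (-8388608) (.void 21 ⟨⟨100000, 0, 0, 0, 0, 0, 0, 0, 0, ⟨0, 0⟩, 0⟩, 0, 0⟩ 0 0) (.cut .d (-4194304) (.void 21 ⟨⟨100000, 0, 0, 0, 0, 0, 0, 0, 0, ⟨0, 0⟩, 0⟩, 0, 0⟩ 0 0) (.cut .v 20971520 (.cut .d (-2097152) (.void 23 ⟨⟨100000, 0, 0, 0, 0, 0, 0, 0, 0, ⟨0, 0⟩, 0⟩, 0, 0⟩ 0 0) (.cut .v 18874368 (.cut .d (-1048576) (.void 25 ⟨⟨100000, 0, 0, 0, 0, 0, 0, 0, 0, ⟨0, 0⟩, 0⟩, 0, 0⟩ 0 0) (.cut .v 17825792 (.cut .d (-524288) (.void 27 ⟨⟨100000, 0, 0, 0, 0, 0, 0, 0, 0, ⟨0, 0⟩,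 0⟩, 0, 0⟩ 0 0) (.cut .v 17301504 (.cut .d (-262144) (.void 29 ⟨⟨100000, 0, 0, 0, 0, 0, 0, 0, 0, ⟨0, 0⟩, 0⟩, 0, 0⟩ 0 0) (.cut .v 17039360 (.cut .d (-131072) (.void 31 ⟨⟨100000, 0, 0, 0, 0, 0, 0, 0, 0, ⟨0, 0⟩, 0⟩, 0, 0⟩ 0 0) (.cut .d (-65536) (.void 31 ⟨⟨100000, 0, 0, 0, 0, 0, 0, 0, 0, ⟨0, 0⟩, 0⟩, 0, 0⟩ 0 0) (.cut .d (-32768) (.void 31 ⟨⟨100000, 0, 0, 0, 0, 0, 0, 0, 0, ⟨0, 0⟩, 0⟩, 0, 0⟩ 0 0) (.cut .d (-16384) (.cut .s 12845056 (.cut .v 16908288 (.cut .v 16842752 (.pos 43 .mp ⟨⟨246363031, 0, 0, 0, 0, 143219768, 0, 0, 0, ⟨0, 0⟩, 0⟩, 0, 0⟩ 0 0) (.void 44 ⟨⟨100000, 0, 0, 0, 0, 0, 0, 0, 0, ⟨0, 0⟩, 0⟩, 0, 0⟩ 0 0)) (.void 36 ⟨⟨100000, 0,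 0, 0, 0, 0, 0, 0, 0, ⟨0, 0⟩, 0⟩, 0, 0⟩ 0 0)) (.void 31 ⟨⟨0, 0, 0, 0, 0, 100000, 0, 0, 0, ⟨0, 0⟩, 0⟩, 0, 0⟩ 0 0)) (.cut .s 12845056 (.cut .v 16908288 (.cut .s 12779520 (.cut .v 16842752 (.cut .s 12746752 (.cut .s 12730368 (.cut .d (-8192) (.cut .d (-12288) (.pos 43 .mp ⟨⟨244863194, 0, 0, 0, 0, 97324833, 0, 0, 0, ⟨0, 0⟩, 0⟩, 0, 0⟩ 0 0) (.cut .l 153791 (.pos 43 .mp ⟨⟨248042430, 0, 0, 0, 0, 92626531, 0, 0, 0, ⟨0, 0⟩, 0⟩, 0, 0⟩ 0 0) (.pos 43 .mp ⟨⟨250925676, 0, 0, 0, 0, 79427480, 0, 0, 0, ⟨0, 0⟩, 0⟩, 0, 0⟩ 0 0))) (.cut .l 153791 (.cut .v 16809984 (.cut .s 12722176 (.cut .s 12718080 (.pos 45 .mp ⟨⟨249382827, 0, 0, 0, 0, 81174298, 0, 0,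 0, ⟨0, 0⟩, 0⟩, 0, 0⟩ 0 0) (.pos 45 .mp ⟨⟨250121724, 0, 0, 0, 0, 81372603, 0, 0, 0, ⟨0, 0⟩, 0⟩, 0, 0⟩ 0 0)) (.cut .s 12726272 (.pos 45 .mp ⟨⟨250863031, 0, 0, 0, 0, 81573063, 0, 0, 0, ⟨0, 0⟩, 0⟩, 0, 0⟩ 0 0) (.pos 45 .mp ⟨⟨251606755, 0, 0, 0, 0, 81775671, 0, 0, 0, ⟨0, 0⟩, 0⟩, 0, 0⟩ 0 0))) (.pos 46 .mp ⟨⟨302819161, 0, 0, 0, 0, 0, 0, 0, 0, ⟨0, 0⟩, 0⟩, 0, 0⟩ 0 0)) (.pos 43 .mp ⟨⟨248711309, 0, 0, 0, 0, 0, 0, 0, 0, ⟨0, 0⟩, 0⟩, 0, 0⟩ 0 0))) (.cut .d (-8192) (.cut .l 153791 (.pos 43 .mp ⟨⟨251010312, 0, 0, 0, 0, 93511200, 0, 0, 0, ⟨0, 0⟩, 0⟩, 0, 0⟩ 0 0) (.cut .s 12738560 (.pos 43 .mp ⟨⟨246832858, 0, 0, 0, 0, 95067290, 0, 0, 0, ⟨0, 0⟩, 0⟩,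 0, 0⟩ 0 0) (.pos 43 .mp ⟨⟨248230004, 0, 0, 0, 0, 95716958, 0, 0, 0, ⟨0, 0⟩, 0⟩, 0, 0⟩ 0 0))) (.cut .l 153791 (.cut .v 16809984 (.cut .s 12738560 (.cut .s 12734464 (.pos 45 .mp ⟨⟨252352904, 0, 0, 0, 0, 81980421, 0, 0, 0, ⟨0, 0⟩, 0⟩, 0, 0⟩ 0 0) (.pos 45 .mp ⟨⟨253101484, 0, 0, 0, 0, 82187307, 0, 0, 0, ⟨0, 0⟩, 0⟩, 0, 0⟩ 0 0)) (.cut .s 12742656 (.pos 45 .mp ⟨⟨253852502, 0, 0, 0, 0, 82396321, 0, 0, 0, ⟨0, 0⟩, 0⟩, 0, 0⟩ 0 0) (.pos 45 .mp ⟨⟨254605966, 0, 0, 0, 0, 82607458, 0, 0, 0, ⟨0, 0⟩, 0⟩, 0, 0⟩ 0 0))) (.pos 46 .mp ⟨⟨306309101, 0, 0, 0, 0, 0, 0, 0, 0, ⟨0, 0⟩, 0⟩, 0, 0⟩ 0 0)) (.pos 43 .mp ⟨⟨251687355, 0, 0, 0, 0, 0, 0, 0, 0, ⟨0, 0⟩,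 0⟩, 0, 0⟩ 0 0)))) (.cut .s 12763136 (.cut .d (-8192) (.cut .l 153791 (.pos 43 .mp ⟨⟨254015942, 0, 0, 0, 0, 94443903, 0, 0, 0, ⟨0, 0⟩, 0⟩, 0, 0⟩ 0 0) (.cut .s 12754944 (.pos 43 .mp ⟨⟨249641389, 0, 0, 0, 0, 96365919, 0, 0, 0, ⟨0, 0⟩, 0⟩, 0, 0⟩ 0 0) (.pos 43 .mp ⟨⟨251067269, 0, 0, 0, 0, 97013694, 0, 0, 0, ⟨0, 0⟩, 0⟩, 0, 0⟩ 0 0))) (.cut .l 153791 (.cut .v 16809984 (.cut .s 12754944 (.cut .s 12750848 (.pos 45 .mp ⟨⟨255361882, 0, 0, 0, 0, 82820710, 0, 0, 0, ⟨0, 0⟩, 0⟩, 0, 0⟩ 0 0) (.pos 45 .mp ⟨⟨256120257, 0, 0, 0, 0, 83036072, 0, 0, 0, ⟨0, 0⟩, 0⟩, 0, 0⟩ 0 0)) (.cut .s 12759040 (.pos 45 .mp ⟨⟨256881099, 0, 0, 0, 0, 83253535, 0, 0, 0, ⟨0,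 0⟩, 0⟩, 0, 0⟩ 0 0) (.pos 45 .mp ⟨⟨257644415, 0, 0, 0, 0, 83473094, 0, 0, 0, ⟨0, 0⟩, 0⟩, 0, 0⟩ 0 0))) (.pos 46 .mp ⟨⟨309851852, 0, 0, 0, 0, 0, 0, 0, 0, ⟨0, 0⟩, 0⟩, 0, 0⟩ 0 0)) (.pos 43 .mp ⟨⟨254701546, 0, 0, 0, 0, 0, 0, 0, 0, ⟨0, 0⟩, 0⟩, 0, 0⟩ 0 0))) (.cut .d (-8192) (.cut .l 153791 (.pos 43 .mp ⟨⟨257059749, 0, 0, 0, 0, 95425309, 0, 0, 0, ⟨0, 0⟩, 0⟩, 0, 0⟩ 0 0) (.cut .s 12771328 (.pos 43 .mp ⟨⟨252507906, 0, 0, 0, 0, 97659801, 0, 0, 0, ⟨0, 0⟩, 0⟩, 0, 0⟩ 0 0) (.pos 43 .mp ⟨⟨253963558, 0, 0, 0, 0, 98303755, 0, 0, 0, ⟨0, 0⟩, 0⟩, 0, 0⟩ 0 0))) (.cut .l 153791 (.cut .v 16809984 (.cut .s 12771328 (.cut .s 12767232 (.pos 45 .mp ⟨⟨258410212,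 0, 0, 0, 0, 83694741, 0, 0, 0, ⟨0, 0⟩, 0⟩, 0, 0⟩ 0 0) (.cut .s 12769280 (.pos 45 .mp ⟨⟨258794043, 0, 0, 0, 0, 84220392, 0, 0, 0, ⟨0, 0⟩, 0⟩, 0, 0⟩ 0 0) (.pos 45 .mp ⟨⟨259178497, 0, 0, 0, 0, 84333354, 0, 0, 0, ⟨0, 0⟩, 0⟩, 0, 0⟩ 0 0))) (.cut .d (-4096) (.pos 45 .mp ⟨⟨257344317, 0, 0, 0, 0, 91088172, 0, 0, 0, ⟨0, 0⟩, 0⟩, 0, 0⟩ 0 0) (.cut .s 12775424 (.pos 45 .mp ⟨⟨258115037, 0, 0, 0, 0, 87330178, 0, 0, 0, ⟨0, 0⟩, 0⟩, 0, 0⟩ 0 0) (.pos 45 .mp ⟨⟨258894891, 0, 0, 0, 0, 87539226, 0, 0, 0, ⟨0, 0⟩, 0⟩, 0, 0⟩ 0 0)))) (.pos 46 .mp ⟨⟨313446975, 0, 0, 0, 0, 0, 0, 0, 0, ⟨0, 0⟩, 0⟩, 0, 0⟩ 0 0)) (.pos 43 .mp ⟨⟨257754322, 0, 0, 0, 0, 0, 0, 0, 0,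 ⟨0, 0⟩, 0⟩, 0, 0⟩ 0 0))))) (.pos 44 .mp ⟨⟨306511289, 0, 0, 0, 0, 0, 0, 0, 0, ⟨0, 0⟩, 0⟩, 0, 0⟩ 0 0)) (.cut .v 16842752 (.cut .s 12812288 (.cut .s 12795904 (.cut .d (-8192) (.cut .l 153791 (.pos 43 .mp ⟨⟨260142171, 0, 0, 0, 0, 96456097, 0, 0, 0, ⟨0, 0⟩, 0⟩, 0, 0⟩ 0 0) (.cut .s 12787712 (.pos 43 .mp ⟨⟨255434488, 0, 0, 0, 0, 98945068, 0, 0, 0, ⟨0, 0⟩, 0⟩, 0, 0⟩ 0 0) (.pos 43 .mp ⟨⟨256920959, 0, 0, 0, 0, 99583248, 0, 0, 0, ⟨0, 0⟩, 0⟩, 0, 0⟩ 0 0))) (.cut .v 16809984 (.cut .l 153791 (.cut .s 12787712 (.cut .d (-4096) (.pos 45 .mp ⟨⟨258818220, 0, 0, 0, 0, 91707258, 0, 0, 0, ⟨0, 0⟩, 0⟩, 0, 0⟩ 0 0) (.cut .s 12783616 (.pos 45 .mp ⟨⟨259676286,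 0, 0, 0, 0, 87752540, 0, 0, 0, ⟨0, 0⟩, 0⟩, 0, 0⟩ 0 0) (.pos 45 .mp ⟨⟨260459207, 0, 0, 0, 0, 87970163, 0, 0, 0, ⟨0, 0⟩, 0⟩, 0, 0⟩ 0 0))) (.cut .d (-4096) (.pos 45 .mp ⟨⟨260310968, 0, 0, 0, 0, 92318048, 0, 0, 0, ⟨0, 0⟩, 0⟩, 0, 0⟩ 0 0) (.cut .s 12791808 (.pos 45 .mp ⟨⟨261243639, 0, 0, 0, 0, 88192136, 0, 0, 0, ⟨0, 0⟩, 0⟩, 0, 0⟩ 0 0) (.pos 45 .mp ⟨⟨262029569, 0, 0, 0, 0, 88418504, 0, 0, 0, ⟨0, 0⟩, 0⟩, 0, 0⟩ 0 0)))) (.pos 45 .mp ⟨⟨259233702, 0, 0, 0, 0, 0, 0, 0, 0, ⟨0, 0⟩, 0⟩, 0, 0⟩ 0 0)) (.pos 46 .mp ⟨⟨309368408, 0, 0, 0, 0, 0, 0, 0, 0, ⟨0, 0⟩, 0⟩, 0, 0⟩ 0 0))) (.cut .d (-8192) (.cut .l 153791 (.pos 43 .mp ⟨⟨263263652, 0, 0, 0, 0, 97536961,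 0, 0, 0, ⟨0, 0⟩, 0⟩, 0, 0⟩ 0 0) (.cut .s 12804096 (.pos 43 .mp ⟨⟨258423236, 0, 0, 0, 0, 100217802, 0, 0, 0, ⟨0, 0⟩, 0⟩, 0, 0⟩ 0 0) (.pos 43 .mp ⟨⟨259941585, 0, 0, 0, 0, 100848231, 0, 0, 0, ⟨0, 0⟩, 0⟩, 0, 0⟩ 0 0))) (.cut .v 16809984 (.cut .l 153791 (.cut .s 12804096 (.cut .d (-4096) (.pos 45 .mp ⟨⟨261822939, 0, 0, 0, 0, 92919862, 0, 0, 0, ⟨0, 0⟩, 0⟩, 0, 0⟩ 0 0) (.cut .s 12800000 (.pos 45 .mp ⟨⟨262816981, 0, 0, 0, 0, 88649307, 0, 0, 0, ⟨0, 0⟩, 0⟩, 0, 0⟩ 0 0) (.pos 45 .mp ⟨⟨263605863, 0, 0, 0, 0, 88884591, 0, 0, 0, ⟨0, 0⟩, 0⟩, 0, 0⟩ 0 0))) (.cut .d (-4096) (.pos 45 .mp ⟨⟨263354515, 0, 0, 0, 0, 93512018, 0, 0, 0, ⟨0, 0⟩, 0⟩, 0, 0⟩ 0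 0) (.cut .s 12808192 (.pos 45 .mp ⟨⟨264396198, 0, 0, 0, 0, 89124398, 0, 0, 0, ⟨0, 0⟩, 0⟩, 0, 0⟩ 0 0) (.pos 45 .mp ⟨⟨265187972, 0, 0, 0, 0, 89368773, 0, 0, 0, ⟨0, 0⟩, 0⟩, 0, 0⟩ 0 0)))) (.pos 45 .mp ⟨⟨261061486, 0, 0, 0, 0, 89608735, 0, 0, 0, ⟨0, 0⟩, 0⟩, 0, 0⟩ 0 0)) (.pos 46 .mp ⟨⟨312976603, 0, 0, 0, 0, 0, 0, 0, 0, ⟨0, 0⟩, 0⟩, 0, 0⟩ 0 0)))) (.cut .s 12828672 (.cut .d (-8192) (.cut .l 153791 (.void 43 ⟨⟨0, 0, 0, 0, 0, 100000, 0, 0, 0, ⟨0, 0⟩, 0⟩, 0, 0⟩ 0 0) (.cut .s 12820480 (.pos 43 .mp ⟨⟨261476275, 0, 0, 0, 0, 101474034, 0, 0, 0, ⟨0, 0⟩, 0⟩, 0, 0⟩ 0 0) (.pos 43 .mp ⟨⟨263027575, 0, 0, 0, 0, 102094707, 0, 0, 0, ⟨0, 0⟩, 0⟩, 0, 0⟩ 0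 0))) (.cut .v 16809984 (.cut .l 153791 (.cut .s 12820480 (.cut .d (-4096) (.pos 45 .mp ⟨⟨264906078, 0, 0, 0, 0, 94093831, 0, 0, 0, ⟨0, 0⟩, 0⟩, 0, 0⟩ 0 0) (.cut .s 12816384 (.pos 45 .mp ⟨⟨265981170, 0, 0, 0, 0, 89617759, 0, 0, 0, ⟨0, 0⟩, 0⟩, 0, 0⟩ 0 0) (.pos 45 .mp ⟨⟨266775778, 0, 0, 0, 0, 89871402, 0, 0, 0, ⟨0, 0⟩, 0⟩, 0, 0⟩ 0 0))) (.cut .d (-4096) (.pos 45 .mp ⟨⟨266478013, 0, 0, 0, 0, 94664606, 0, 0, 0, ⟨0, 0⟩, 0⟩, 0, 0⟩ 0 0) (.cut .s 12824576 (.pos 45 .mp ⟨⟨267571779, 0, 0, 0, 0, 90129745, 0, 0, 0, ⟨0, 0⟩, 0⟩, 0, 0⟩ 0 0) (.pos 45 .mp ⟨⟨268369159, 0, 0, 0, 0, 90392835, 0, 0, 0, ⟨0, 0⟩, 0⟩, 0, 0⟩ 0 0)))) (.pos 45 .mp ⟨⟨264203248,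 0, 0, 0, 0, 90630966, 0, 0, 0, ⟨0, 0⟩, 0⟩, 0, 0⟩ 0 0)) (.pos 46 .mp ⟨⟨316649672, 0, 0, 0, 0, 0, 0, 0, 0, ⟨0, 0⟩, 0⟩, 0, 0⟩ 0 0))) (.cut .d (-8192) (.cut .l 153791 (.void 43 ⟨⟨0, 0, 0, 0, 0, 100000, 0, 0, 0, ⟨0, 0⟩, 0⟩, 0, 0⟩ 0 0) (.cut .s 12836864 (.pos 43 .mp ⟨⟨264595755, 0, 0, 0, 0, 102709744, 0, 0, 0, ⟨0, 0⟩, 0⟩, 0, 0⟩ 0 0) (.pos 43 .mp ⟨⟨266181089, 0, 0, 0, 0, 103318632, 0, 0, 0, ⟨0, 0⟩, 0⟩, 0, 0⟩ 0 0))) (.cut .v 16809984 (.cut .l 153791 (.cut .s 12836864 (.cut .d (-4096) (.pos 45 .mp ⟨⟨268070709, 0, 0, 0, 0, 95223649, 0, 0, 0, ⟨0, 0⟩, 0⟩, 0, 0⟩ 0 0) (.cut .s 12832768 (.pos 45 .mp ⟨⟨269167903, 0, 0, 0, 0, 90660716, 0, 0, 0,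 ⟨0, 0⟩, 0⟩, 0, 0⟩ 0 0) (.pos 45 .mp ⟨⟨269967994, 0, 0, 0, 0, 90933434, 0, 0, 0, ⟨0, 0⟩, 0⟩, 0, 0⟩ 0 0))) (.cut .d (-4096) (.pos 45 .mp ⟨⟨269684554, 0, 0, 0, 0, 95770257, 0, 0, 0, ⟨0, 0⟩, 0⟩, 0, 0⟩ 0 0) (.cut .s 12840960 (.pos 45 .mp ⟨⟨270769418, 0, 0, 0, 0, 91211036, 0, 0, 0, ⟨0, 0⟩, 0⟩, 0, 0⟩ 0 0) (.pos 45 .mp ⟨⟨271572158, 0, 0, 0, 0, 91493567, 0, 0, 0, ⟨0, 0⟩, 0⟩, 0, 0⟩ 0 0)))) (.pos 45 .mp ⟨⟨267384245, 0, 0, 0, 0, 91673378, 0, 0, 0, ⟨0, 0⟩, 0⟩, 0, 0⟩ 0 0)) (.pos 46 .mp ⟨⟨320388363, 0, 0, 0, 0, 0, 0, 0, 0, ⟨0, 0⟩, 0⟩, 0, 0⟩ 0 0))))) (.pos 44 .mp ⟨⟨321060173, 0, 0, 0, 0, 0, 0, 0, 0, ⟨0, 0⟩, 0⟩, 0, 0⟩ 0 0))) (.pos 36 .mp ⟨⟨319471304,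 0, 0, 0, 0, 0, 0, 0, 0, ⟨0, 0⟩, 0⟩, 0, 0⟩ 0 0)) (.cut .v 16908288 (.cut .s 12910592 (.cut .v 16842752 (.cut .s 12877824 (.cut .s 12861440 (.cut .d (-8192) (.cut .l 153791 (.void 43 ⟨⟨0, 0, 0, 0, 0, 100000, 0, 0, 0, ⟨0, 0⟩, 0⟩, 0, 0⟩ 0 0) (.cut .s 12853248 (.pos 43 .mp ⟨⟨267783850, 0, 0, 0, 0, 103920858, 0, 0, 0, ⟨0, 0⟩, 0⟩, 0, 0⟩ 0 0) (.pos 43 .mp ⟨⟨269404314, 0, 0, 0, 0, 104515904, 0, 0, 0, ⟨0, 0⟩, 0⟩, 0, 0⟩ 0 0))) (.cut .v 16809984 (.cut .l 153791 (.cut .s 12853248 (.cut .d (-4096) (.pos 45 .mp ⟨⟨271319942, 0, 0, 0, 0, 96303723, 0, 0, 0, ⟨0, 0⟩, 0⟩, 0, 0⟩ 0 0) (.cut .s 12849152 (.pos 45 .mp ⟨⟨272376198, 0, 0, 0, 0, 91781076, 0,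 0, 0, ⟨0, 0⟩, 0⟩, 0, 0⟩ 0 0) (.pos 45 .mp ⟨⟨273181523, 0, 0, 0, 0, 92073607, 0, 0, 0, ⟨0, 0⟩, 0⟩, 0, 0⟩ 0 0))) (.cut .d (-4096) (.pos 45 .mp ⟨⟨272977266, 0, 0, 0, 0, 96823336, 0, 0, 0, ⟨0, 0⟩, 0⟩, 0, 0⟩ 0 0) (.cut .s 12857344 (.pos 45 .mp ⟨⟨273988116, 0, 0, 0, 0, 92371209, 0, 0, 0, ⟨0, 0⟩, 0⟩, 0, 0⟩ 0 0) (.pos 45 .mp ⟨⟨274795961, 0, 0, 0, 0, 92673930, 0, 0, 0, ⟨0, 0⟩, 0⟩, 0, 0⟩ 0 0)))) (.pos 45 .mp ⟨⟨270604950, 0, 0, 0, 0, 92734664, 0, 0, 0, ⟨0, 0⟩, 0⟩, 0, 0⟩ 0 0)) (.pos 46 .mp ⟨⟨324193436, 0, 0, 0, 0, 0, 0, 0, 0, ⟨0, 0⟩, 0⟩, 0, 0⟩ 0 0))) (.cut .d (-8192) (.cut .l 153791 (.void 43 ⟨⟨0, 0, 0, 0, 0, 100000, 0, 0, 0, ⟨0, 0⟩, 0⟩, 0,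 0⟩ 0 0) (.cut .s 12869632 (.pos 43 .mp ⟨⟨271042759, 0, 0, 0, 0, 105103249, 0, 0, 0, ⟨0, 0⟩, 0⟩, 0, 0⟩ 0 0) (.pos 43 .mp ⟨⟨272699463, 0, 0, 0, 0, 105682368, 0, 0, 0, ⟨0, 0⟩, 0⟩, 0, 0⟩ 0 0))) (.cut .v 16809984 (.cut .l 153791 (.cut .s 12869632 (.cut .d (-4096) (.pos 45 .mp ⟨⟨274656923, 0, 0, 0, 0, 97328380, 0, 0, 0, ⟨0, 0⟩, 0⟩, 0, 0⟩ 0 0) (.cut .s 12865536 (.pos 45 .mp ⟨⟨275605041, 0, 0, 0, 0, 92981818, 0, 0, 0, ⟨0, 0⟩, 0⟩, 0, 0⟩ 0 0) (.pos 45 .mp ⟨⟨276415340, 0, 0, 0, 0, 93294920, 0, 0, 0, ⟨0, 0⟩, 0⟩, 0, 0⟩ 0 0))) (.cut .d (-4096) (.pos 45 .mp ⟨⟨276359312, 0, 0, 0, 0, 97818133, 0, 0, 0, ⟨0, 0⟩, 0⟩, 0, 0⟩ 0 0) (.cut .s 12873728 (.pos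 45 .mp ⟨⟨277226842, 0, 0, 0, 0, 93613285, 0, 0, 0, ⟨0, 0⟩, 0⟩, 0, 0⟩ 0 0) (.pos 45 .mp ⟨⟨278039529, 0, 0, 0, 0, 93936963, 0, 0, 0, ⟨0, 0⟩, 0⟩, 0, 0⟩ 0 0)))) (.pos 45 .mp ⟨⟨273865845, 0, 0, 0, 0, 93813498, 0, 0, 0, ⟨0, 0⟩, 0⟩, 0, 0⟩ 0 0)) (.pos 46 .mp ⟨⟨328065667, 0, 0, 0, 0, 0, 0, 0, 0, ⟨0, 0⟩, 0⟩, 0, 0⟩ 0 0)))) (.cut .s 12894208 (.cut .d (-8192) (.cut .l 153791 (.void 43 ⟨⟨0, 0, 0, 0, 0, 100000, 0, 0, 0, ⟨0, 0⟩, 0⟩, 0, 0⟩ 0 0) (.cut .s 12886016 (.pos 43 .mp ⟨⟨274374708, 0, 0, 0, 0, 106252733, 0, 0, 0, ⟨0, 0⟩, 0⟩, 0, 0⟩ 0 0) (.pos 43 .mp ⟨⟨276068775, 0, 0, 0, 0, 106813813, 0, 0, 0, ⟨0, 0⟩, 0⟩, 0, 0⟩ 0 0))) (.cut .v 16809984 (.cut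 .l 153791 (.cut .s 12886016 (.cut .d (-4096) (.pos 45 .mp ⟨⟨278084836, 0, 0, 0, 0, 98291868, 0, 0, 0, ⟨0, 0⟩, 0⟩, 0, 0⟩ 0 0) (.cut .s 12881920 (.pos 45 .mp ⟨⟨278853384, 0, 0, 0, 0, 94266003, 0, 0, 0, ⟨0, 0⟩, 0⟩, 0, 0⟩ 0 0) (.pos 45 .mp ⟨⟨279668390, 0, 0, 0, 0, 94600455, 0, 0, 0, ⟨0, 0⟩, 0⟩, 0, 0⟩ 0 0))) (.cut .s 12890112 (.pos 45 .mp ⟨⟨282574743, 0, 0, 0, 0, 91278954, 0, 0, 0, ⟨0, 0⟩, 0⟩, 0, 0⟩ 0 0) (.pos 45 .mp ⟨⟨283421190, 0, 0, 0, 0, 91561635, 0, 0, 0, ⟨0, 0⟩, 0⟩, 0, 0⟩ 0 0))) (.pos 45 .mp ⟨⟨277167421, 0, 0, 0, 0, 94908544, 0, 0, 0, ⟨0, 0⟩, 0⟩, 0, 0⟩ 0 0)) (.pos 46 .mp ⟨⟨332005841, 0, 0, 0, 0, 0, 0, 0, 0, ⟨0, 0⟩, 0⟩, 0, 0⟩ 0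 0))) (.cut .d (-8192) (.cut .l 153791 (.void 43 ⟨⟨0, 0, 0, 0, 0, 100000, 0, 0, 0, ⟨0, 0⟩, 0⟩, 0, 0⟩ 0 0) (.cut .s 12902400 (.pos 43 .mp ⟨⟨277781950, 0, 0, 0, 0, 107365071, 0, 0, 0, ⟨0, 0⟩, 0⟩, 0, 0⟩ 0 0) (.pos 43 .mp ⟨⟨279514516, 0, 0, 0, 0, 107905970, 0, 0, 0, ⟨0, 0⟩, 0⟩, 0, 0⟩ 0 0))) (.cut .v 16809984 (.cut .l 153791 (.cut .s 12902400 (.cut .s 12898304 (.pos 45 .mp ⟨⟨284270364, 0, 0, 0, 0, 91846154, 0, 0, 0, ⟨0, 0⟩, 0⟩, 0, 0⟩ 0 0) (.pos 45 .mp ⟨⟨285122275, 0, 0, 0, 0, 92132504, 0, 0, 0, ⟨0, 0⟩, 0⟩, 0, 0⟩ 0 0)) (.cut .s 12906496 (.pos 45 .mp ⟨⟨285976930, 0, 0, 0, 0, 92420676, 0, 0, 0, ⟨0, 0⟩, 0⟩, 0, 0⟩ 0 0) (.pos 45 .mp ⟨⟨286834338,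 0, 0, 0, 0, 92710660, 0, 0, 0, ⟨0, 0⟩, 0⟩, 0, 0⟩ 0 0))) (.pos 45 .mp ⟨⟨280510176, 0, 0, 0, 0, 96018449, 0, 0, 0, ⟨0, 0⟩, 0⟩, 0, 0⟩ 0 0)) (.pos 46 .mp ⟨⟨336014759, 0, 0, 0, 0, 0, 0, 0, 0, ⟨0, 0⟩, 0⟩, 0, 0⟩ 0 0))))) (.pos 44 .mp ⟨⟨336556197, 0, 0, 0, 0, 0, 0, 0, 0, ⟨0, 0⟩, 0⟩, 0, 0⟩ 0 0)) (.cut .v 16842752 (.cut .s 12943360 (.cut .s 12926976 (.cut .d (-8192) (.cut .l 153791 (.void 43 ⟨⟨0, 0, 0, 0, 0, 100000, 0, 0, 0, ⟨0, 0⟩, 0⟩, 0, 0⟩ 0 0) (.cut .s 12918784 (.pos 43 .mp ⟨⟨281266764, 0, 0, 0, 0, 108435965, 0, 0, 0, ⟨0, 0⟩, 0⟩, 0, 0⟩ 0 0) (.pos 43 .mp ⟨⟨283038981, 0, 0, 0, 0, 108954511, 0, 0, 0, ⟨0, 0⟩, 0⟩, 0, 0⟩ 0 0))) (.cut .v 16809984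 (.cut .l 153791 (.cut .s 12918784 (.cut .s 12914688 (.pos 45 .mp ⟨⟨287694506, 0, 0, 0, 0, 93002448, 0, 0, 0, ⟨0, 0⟩, 0⟩, 0, 0⟩ 0 0) (.pos 45 .mp ⟨⟨288557445, 0, 0, 0, 0, 93296031, 0, 0, 0, ⟨0, 0⟩, 0⟩, 0, 0⟩ 0 0)) (.cut .s 12922880 (.pos 45 .mp ⟨⟨289423161, 0, 0, 0, 0, 93591399, 0, 0, 0, ⟨0, 0⟩, 0⟩, 0, 0⟩ 0 0) (.pos 45 .mp ⟨⟨290291664, 0, 0, 0, 0, 93888544, 0, 0, 0, ⟨0, 0⟩, 0⟩, 0, 0⟩ 0 0))) (.pos 45 .mp ⟨⟨283894617, 0, 0, 0, 0, 97141846, 0, 0, 0, ⟨0, 0⟩, 0⟩, 0, 0⟩ 0 0)) (.pos 46 .mp ⟨⟨340093235, 0, 0, 0, 0, 0, 0, 0, 0, ⟨0, 0⟩, 0⟩, 0, 0⟩ 0 0))) (.cut .d (-8192) (.cut .d (-12288) (.pos 43 .mp ⟨⟨286000903, 0, 0, 0, 0, 113520617, 0,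 0, 0, ⟨0, 0⟩, 0⟩, 0, 0⟩ 0 0) (.cut .l 153791 (.void 43 ⟨⟨0, 0, 0, 0, 0, 100000, 0, 0, 0, ⟨0, 0⟩, 0⟩, 0, 0⟩ 0 0) (.pos 43 .mp ⟨⟨293115512, 0, 0, 0, 0, 92049964, 0, 0, 0, ⟨0, 0⟩, 0⟩, 0, 0⟩ 0 0))) (.cut .v 16809984 (.cut .l 153791 (.cut .s 12935168 (.cut .s 12931072 (.pos 45 .mp ⟨⟨291162961, 0, 0, 0, 0, 94187457, 0, 0, 0, ⟨0, 0⟩, 0⟩, 0, 0⟩ 0 0) (.pos 45 .mp ⟨⟨292037062, 0, 0, 0, 0, 94488127, 0, 0, 0, ⟨0, 0⟩, 0⟩, 0, 0⟩ 0 0)) (.cut .s 12939264 (.pos 45 .mp ⟨⟨292913976, 0, 0, 0, 0, 94790546, 0, 0, 0, ⟨0, 0⟩, 0⟩, 0, 0⟩ 0 0) (.pos 45 .mp ⟨⟨293793709, 0, 0, 0, 0, 95094705, 0, 0, 0, ⟨0, 0⟩, 0⟩, 0, 0⟩ 0 0))) (.pos 45 .mp ⟨⟨287321258, 0, 0,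 0, 0, 98277352, 0, 0, 0, ⟨0, 0⟩, 0⟩, 0, 0⟩ 0 0)) (.pos 46 .mp ⟨⟨344242098, 0, 0, 0, 0, 0, 0, 0, 0, ⟨0, 0⟩, 0⟩, 0, 0⟩ 0 0)))) (.cut .s 12959744 (.cut .d (-8192) (.cut .s 12951552 (.cut .s 12947456 (.pos 43 .mp ⟨⟨291753310, 0, 0, 0, 0, 103727868, 0, 0, 0, ⟨0, 0⟩, 0⟩, 0, 0⟩ 0 0) (.pos 43 .mp ⟨⟨292721183, 0, 0, 0, 0, 103890057, 0, 0, 0, ⟨0, 0⟩, 0⟩, 0, 0⟩ 0 0)) (.pos 43 .mp ⟨⟨293103922, 0, 0, 0, 0, 106626026, 0, 0, 0, ⟨0, 0⟩, 0⟩, 0, 0⟩ 0 0)) (.cut .l 153791 (.cut .v 16809984 (.cut .s 12951552 (.cut .s 12947456 (.pos 45 .mp ⟨⟨294676273, 0, 0, 0, 0, 95400593, 0, 0, 0, ⟨0, 0⟩, 0⟩, 0, 0⟩ 0 0) (.pos 45 .mp ⟨⟨295561674, 0, 0, 0, 0, 95708201,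 0, 0, 0, ⟨0, 0⟩, 0⟩, 0, 0⟩ 0 0)) (.cut .s 12955648 (.pos 45 .mp ⟨⟨296449922, 0, 0, 0, 0, 96017520, 0, 0, 0, ⟨0, 0⟩, 0⟩, 0, 0⟩ 0 0) (.pos 45 .mp ⟨⟨297341026, 0, 0, 0, 0, 96328541, 0, 0, 0, ⟨0, 0⟩, 0⟩, 0, 0⟩ 0 0))) (.pos 46 .mp ⟨⟨356327510, 0, 0, 0, 0, 0, 0, 0, 0, ⟨0, 0⟩, 0⟩, 0, 0⟩ 0 0)) (.pos 43 .mp ⟨⟨293297216, 0, 0, 0, 0, 95556919, 0, 0, 0, ⟨0, 0⟩, 0⟩, 0, 0⟩ 0 0))) (.cut .d (-8192) (.cut .s 12967936 (.pos 43 .mp ⟨⟨295074057, 0, 0, 0, 0, 106931599, 0, 0, 0, ⟨0, 0⟩, 0⟩, 0, 0⟩ 0 0) (.pos 43 .mp ⟨⟨297071870, 0, 0, 0, 0, 107213006, 0, 0, 0, ⟨0, 0⟩, 0⟩, 0, 0⟩ 0 0)) (.cut .l 153791 (.cut .v 16809984 (.cut .s 12967936 (.cut .s 12963840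 (.pos 45 .mp ⟨⟨298234993, 0, 0, 0, 0, 96641252, 0, 0, 0, ⟨0, 0⟩, 0⟩, 0, 0⟩ 0 0) (.pos 45 .mp ⟨⟨299131835, 0, 0, 0, 0, 96955645, 0, 0, 0, ⟨0, 0⟩, 0⟩, 0, 0⟩ 0 0)) (.cut .s 12972032 (.pos 45 .mp ⟨⟨300031558, 0, 0, 0, 0, 97271710, 0, 0, 0, ⟨0, 0⟩, 0⟩, 0, 0⟩ 0 0) (.pos 45 .mp ⟨⟨300961659, 0, 0, 0, 0, 97542362, 0, 0, 0, ⟨0, 0⟩, 0⟩, 0, 0⟩ 0 0))) (.pos 46 .mp ⟨⟨360518031, 0, 0, 0, 0, 0, 0, 0, 0, ⟨0, 0⟩, 0⟩, 0, 0⟩ 0 0)) (.pos 43 .mp ⟨⟨296839566, 0, 0, 0, 0, 96661622, 0, 0, 0, ⟨0, 0⟩, 0⟩, 0, 0⟩ 0 0))))) (.pos 44 .mp ⟨⟨353009391, 0, 0, 0, 0, 0, 0, 0, 0, ⟨0, 0⟩, 0⟩, 0, 0⟩ 0 0))) (.pos 36 .mp ⟨⟨350972203, 0, 0, 0, 0, 0, 0, 0, 0, ⟨0, 0⟩, 0⟩,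 0, 0⟩ 0 0))))))) (.pos 32 .mp ⟨⟨387497142, 0, 0, 0, 0, 0, 0, 0, 0, ⟨0, 0⟩, 0⟩, 0, 0⟩ 0 0))) (.void 30 ⟨⟨100000, 0, 0, 0, 0, 0, 0, 0, 0, ⟨0, 0⟩, 0⟩, 0, 0⟩ 0 0))) (.void 28 ⟨⟨100000, 0, 0, 0, 0, 0, 0, 0, 0, ⟨0, 0⟩, 0⟩, 0, 0⟩ 0 0))) (.void 26 ⟨⟨100000, 0, 0, 0, 0, 0, 0, 0, 0, ⟨0, 0⟩, 0⟩, 0, 0⟩ 0 0))) (.void 24 ⟨⟨100000, 0, 0, 0, 0, 0, 0, 0, 0, ⟨0, 0⟩, 0⟩, 0, 0⟩ 0 0)))) (.void 22 ⟨⟨100000, 0, 0, 0, 0, 0, 0, 0, 0, ⟨0, 0⟩, 0⟩, 0, 0⟩ 0 0)) (.void 103 ⟨⟨100000, 0, 0, 0, 0, 0, 0, 0, 0, ⟨0, 0⟩, 0⟩, 0, 0⟩ 0 0)) (.void 114 ⟨⟨100000, 0, 0, 0, 0, 0, 0, 0, 0, ⟨0, 0⟩, 0⟩, 0, 0⟩ 0 0)) (.void 125 ⟨⟨93470, 0, 0, 5594, 0, 0, 0, 0, 0, ⟨0, 0⟩, 0⟩, 0,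 0⟩ 0 0))) (.cut .v 16777216 (.cut .v 8388608 (.cut .v 4194304 (.cut .v 2097152 (.cut .v 1048576 (.pos 119 .pm ⟨⟨0, 0, 21878058, 0, 0, 0, 0, 0, 0, ⟨0, 0⟩, 0⟩, 0, 19239⟩ 0 0) (.pos 120 .pm ⟨⟨0, 0, 23242025, 0, 0, 0, 0, 0, 0, ⟨0, 0⟩, 0⟩, 0, 45375⟩ 0 0)) (.pos 118 .pm ⟨⟨0, 0, 26556119, 0, 0, 0, 0, 0, 0, ⟨0, 0⟩, 0⟩, 0, 68711⟩ 0 0)) (.pos 5 .pm ⟨⟨0, 0, 11126693, 0, 0, 0, 0, 0, 0, ⟨0, 0⟩, 0⟩, 0, 0⟩ 0 0)) (.pos 3 .pm ⟨⟨0, 0, 0, 0, 0, 0, 0, 0, 0, ⟨0, 0⟩, 0⟩, 0, 0⟩ 0 0)) (.cut .v 268435456 (.cut .v 67108864 (.cut .d 2680896 (.cut .v 33554432 (.cut .d 1340448 (.cut .v 25165824 (.cut .d 670224 (.cut .v 20971520 (.cut .d 335112 (.cut .v 18874368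 (.cut .d 167556 (.cut .d 83778 (.cut .v 17825792 (.cut .v 17301504 (.cut .s 12845056 (.pos 29 .pp ⟨⟨261296958, 0, 0, 0, 0, 0, 0, 0, 0, ⟨0, 0⟩, 0⟩, 4819815, 0⟩ 0 0) (.pos 29 .pp ⟨⟨287857060, 0, 0, 0, 0, 0, 0, 0, 0, ⟨0, 0⟩, 0⟩, 5143329, 0⟩ 0 0)) (.pos 30 .pp ⟨⟨333266115, 0, 0, 0, 0, 0, 0, 0, 0, ⟨0, 0⟩, 0⟩, 0, 0⟩ 0 0)) (.pos 28 .pp ⟨⟨379396251, 0, 0, 0, 0, 0, 0, 0, 0, ⟨0, 0⟩, 0⟩, 0, 0⟩ 0 0)) (.pos 25 .pp ⟨⟨284222273, 0, 0, 0, 0, 0, 0, 0, 0, ⟨0, 0⟩, 0⟩, 0, 8865⟩ 0 0)) (.pos 25 .pp ⟨⟨0, 0, 0, 0, 0, 0, 0, 0, 0, ⟨0, 0⟩, 0⟩, 0, 307173⟩ 0 0)) (.cut .d 167556 (.cut .v 19922944 (.pos 53 .pp ⟨⟨416577924, 0, 0, 0, 0, 0, 0, 0, 0, ⟨0, 0⟩, 0⟩,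 0, 0⟩ 0 0) (.pos 54 .pp ⟨⟨478392702, 0, 0, 0, 0, 0, 0, 0, 0, ⟨0, 0⟩, 0⟩, 0, 0⟩ 0 0)) (.pos 26 .pp ⟨⟨358180337, 0, 0, 0, 0, 0, 0, 0, 0, ⟨0, 0⟩, 0⟩, 0, 0⟩ 0 0))) (.pos 23 .pp ⟨⟨0, 0, 0, 0, 0, 0, 0, 0, 0, ⟨0, 0⟩, 0⟩, 0, 322342⟩ 0 0)) (.cut .d 335112 (.cut .v 23068672 (.cut .d 167556 (.void 55 ⟨⟨0, 0, 0, 0, 0, 0, 0, 0, 0, ⟨0, 0⟩, 0⟩, 100000, 0⟩ 0 0) (.cut .d 251334 (.pos 55 .pp ⟨⟨522637291, 0, 0, 0, 0, 0, 0, 0, 0, ⟨0, 0⟩, 0⟩, 1812102, 0⟩ 0 0) (.pos 55 .pp ⟨⟨0, 0, 0, 0, 0, 0, 0, 0, 0, ⟨0, 0⟩, 0⟩, 54194654, 0⟩ 0 0))) (.pos 56 .pp ⟨⟨0, 0, 0, 0, 0, 0, 0, 0, 0, ⟨0, 0⟩, 0⟩, 78094477, 0⟩ 0 0)) (.pos 24 .pp ⟨⟨0, 0, 0, 0, 0, 0, 32301, 0, 0,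 ⟨0, 0⟩, 0⟩, 51014082, 0⟩ 0 0))) (.pos 21 .pp ⟨⟨0, 0, 0, 0, 0, 0, 0, 0, 0, ⟨0, 0⟩, 0⟩, 0, 348130⟩ 0 0)) (.cut .d 670224 (.cut .d 335112 (.void 22 ⟨⟨0, 0, 0, 0, 0, 0, 0, 0, 0, ⟨0, 0⟩, 0⟩, 100000, 0⟩ 0 0) (.cut .d 502668 (.pos 22 .pp ⟨⟨0, 0, 0, 0, 0, 0, 0, 0, 0, ⟨0, 0⟩, 0⟩, 82578631, 0⟩ 0 0) (.pos 22 .pp ⟨⟨0, 0, 0, 0, 0, 0, 0, 0, 0, ⟨0, 0⟩, 0⟩, 68375692, 0⟩ 0 0))) (.pos 22 .pp ⟨⟨0, 0, 0, 0, 0, 0, 1647, 0, 0, ⟨0, 0⟩, 0⟩, 53293539, 0⟩ 0 0))) (.pos 20 .pp ⟨⟨0, 0, 0, 0, 0, 0, 1159183, 0, 0, ⟨0, 0⟩, 0⟩, 0, 0⟩ 0 0)) (.cut .d 1340448 (.cut .v 50331648 (.pos 106 .pp ⟨⟨0, 0, 0, 0, 0, 0, 0, 0, 0, ⟨0, 0⟩, 0⟩, 140835470, 0⟩ 0 0) (.void 107 ⟨⟨0,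 0, 0, 0, 0, 0, 0, 0, 0, ⟨0, 0⟩, 0⟩, 100000, 0⟩ 0 0)) (.pos 103 .pp ⟨⟨0, 0, 0, 0, 0, 0, 0, 0, 0, ⟨0, 0⟩, 0⟩, 74398281, 0⟩ 0 0))) (.pos 102 .pp ⟨⟨0, 0, 0, 0, 0, 0, 0, 0, 0, ⟨0, 0⟩, 0⟩, 0, 290108⟩ 0 0)) (.void 114 ⟨⟨0, 0, 0, 46607, 0, 0, 0, 0, 0, ⟨0, 0⟩, 0⟩, 53393, 0⟩ 0 0)) (.void 125 ⟨⟨0, 0, 0, 0, 0, 0, 0, 0, 0, ⟨0, 0⟩, 0⟩, 100000, 0⟩ 0 0)))),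
    by decide +kernel⟩

def covers22 : cell.Covers Vale.Agent.P237.Petty.Cor.Grid.N12.table row22.1 :=
  ⟨(.cut .d 0 (.cut .v 16777216 (.cut .v 8388608 (.pos 2 .mm ⟨⟨0, 0, 460409500, 0, 0, 540126938, 0, 0, 0, ⟨0, 0⟩, 0⟩, 0, 0⟩ 0 0) (.cut .d (-8388608) (.void 3 ⟨⟨100167, 0, 0, 0, 0, 0, 0, 0, 0, ⟨0, 0⟩, 0⟩, 0, 0⟩ 0 0) (.cut .d (-4194304) (.void 3 ⟨⟨100000, 0, 0, 0, 0, 0, 0, 0, 0, ⟨0, 0⟩, 0⟩, 0, 0⟩ 0 0) (.cut .d (-2097152) (.void 3 ⟨⟨0, 0, 0, 0, 0, 100000, 0, 0, 0, ⟨0, 0⟩, 0⟩, 0, 0⟩ 0 0) (.cut .d (-1048576) (.void 3 ⟨⟨0, 0, 0, 0, 0, 100000, 0, 0, 0, ⟨0, 0⟩, 0⟩, 0, 0⟩ 0 0) (.cut .d (-524288) (.void 3 ⟨⟨0, 0, 0, 0, 0, 100000, 0, 0, 0,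 ⟨0, 0⟩, 0⟩, 0, 0⟩ 0 0) (.cut .s 13107200 (.pos 3 .mm ⟨⟨0, 0, 0, 0, 0, 662954044, 0, 0, 0, ⟨0, 0⟩, 0⟩, 0, 0⟩ 0 0) (.pos 3 .mm ⟨⟨0, 0, 0, 0, 0, 738503692, 0, 0, 0, ⟨0, 0⟩, 0⟩, 0, 0⟩ 0 0)))))))) (.cut .v 268435456 (.cut .v 67108864 (.cut .v 33554432 (.cut .v 25165824 (.cut .d (-8388608) (.void 21 ⟨⟨100000, 0, 0, 0, 0, 0, 0, 0, 0, ⟨0, 0⟩, 0⟩, 0, 0⟩ 0 0) (.cut .d (-4194304) (.void 21 ⟨⟨100000, 0, 0, 0, 0, 0, 0, 0, 0, ⟨0, 0⟩, 0⟩, 0, 0⟩ 0 0) (.cut .v 20971520 (.cut .d (-2097152) (.void 23 ⟨⟨100000, 0, 0, 0, 0, 0, 0, 0, 0, ⟨0, 0⟩, 0⟩, 0, 0⟩ 0 0) (.cut .v 18874368 (.cut .d (-1048576) (.void 25 ⟨⟨100000, 0, 0, 0, 0, 0, 0, 0, 0, ⟨0, 0⟩, 0⟩,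 0, 0⟩ 0 0) (.cut .v 17825792 (.cut .d (-524288) (.void 27 ⟨⟨100000, 0, 0, 0, 0, 0, 0, 0, 0, ⟨0, 0⟩, 0⟩, 0, 0⟩ 0 0) (.cut .v 17301504 (.cut .d (-262144) (.void 29 ⟨⟨100000, 0, 0, 0, 0, 0, 0, 0, 0, ⟨0, 0⟩, 0⟩, 0, 0⟩ 0 0) (.cut .v 17039360 (.cut .d (-131072) (.void 31 ⟨⟨100000, 0, 0, 0, 0, 0, 0, 0, 0, ⟨0, 0⟩, 0⟩, 0, 0⟩ 0 0) (.cut .d (-65536) (.void 31 ⟨⟨100000, 0, 0, 0, 0, 0, 0, 0, 0, ⟨0, 0⟩, 0⟩, 0, 0⟩ 0 0) (.cut .d (-32768) (.void 31 ⟨⟨100000, 0, 0, 0, 0, 0, 0, 0, 0, ⟨0, 0⟩, 0⟩, 0, 0⟩ 0 0) (.cut .d (-16384) (.void 31 ⟨⟨0, 0, 0, 0, 0, 100000, 0, 0, 0, ⟨0, 0⟩, 0⟩, 0, 0⟩ 0 0) (.cut .s 13107200 (.cut .v 16908288 (.cut .s 13041664 (.cut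 .v 16842752 (.cut .s 13008896 (.cut .s 12992512 (.cut .d (-8192) (.cut .s 12984320 (.pos 43 .mp ⟨⟨299056652, 0, 0, 0, 0, 107555419, 0, 0, 0, ⟨0, 0⟩, 0⟩, 0, 0⟩ 0 0) (.pos 43 .mp ⟨⟨300610594, 0, 0, 0, 0, 108568143, 0, 0, 0, ⟨0, 0⟩, 0⟩, 0, 0⟩ 0 0)) (.cut .l 153791 (.cut .v 16809984 (.cut .s 12984320 (.cut .s 12980224 (.pos 45 .mp ⟨⟨301962252, 0, 0, 0, 0, 97706125, 0, 0, 0, ⟨0, 0⟩, 0⟩, 0, 0⟩ 0 0) (.pos 45 .mp ⟨⟨302749302, 0, 0, 0, 0, 98145685, 0, 0, 0, ⟨0, 0⟩, 0⟩, 0, 0⟩ 0 0)) (.cut .s 12988416 (.pos 45 .mp ⟨⟨303660920, 0, 0, 0, 0, 98379968, 0, 0, 0, ⟨0, 0⟩, 0⟩, 0, 0⟩ 0 0) (.pos 45 .mp ⟨⟨304575627, 0, 0, 0, 0, 98617064, 0, 0, 0, ⟨0,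 0⟩, 0⟩, 0, 0⟩ 0 0))) (.pos 46 .mp ⟨⟨365219031, 0, 0, 0, 0, 0, 0, 0, 0, ⟨0, 0⟩, 0⟩, 0, 0⟩ 0 0)) (.pos 43 .mp ⟨⟨301355274, 0, 0, 0, 0, 96359865, 0, 0, 0, ⟨0, 0⟩, 0⟩, 0, 0⟩ 0 0))) (.cut .d (-8192) (.cut .s 13000704 (.pos 43 .mp ⟨⟨302185306, 0, 0, 0, 0, 109576524, 0, 0, 0, ⟨0, 0⟩, 0⟩, 0, 0⟩ 0 0) (.pos 43 .mp ⟨⟨303781283, 0, 0, 0, 0, 110579680, 0, 0, 0, ⟨0, 0⟩, 0⟩, 0, 0⟩ 0 0)) (.cut .l 153791 (.cut .v 16809984 (.cut .s 13000704 (.cut .s 12996608 (.pos 45 .mp ⟨⟨305493431, 0, 0, 0, 0, 98856963, 0, 0, 0, ⟨0, 0⟩, 0⟩, 0, 0⟩ 0 0) (.pos 45 .mp ⟨⟨306414343, 0, 0, 0, 0, 99099655, 0, 0, 0, ⟨0, 0⟩, 0⟩, 0, 0⟩ 0 0)) (.cut .s 13004800 (.pos 45 .mp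 ⟨⟨307338372, 0, 0, 0, 0, 99345131, 0, 0, 0, ⟨0, 0⟩, 0⟩, 0, 0⟩ 0 0) (.pos 45 .mp ⟨⟨308265529, 0, 0, 0, 0, 99593381, 0, 0, 0, ⟨0, 0⟩, 0⟩, 0, 0⟩ 0 0))) (.pos 46 .mp ⟨⟨369519299, 0, 0, 0, 0, 0, 0, 0, 0, ⟨0, 0⟩, 0⟩, 0, 0⟩ 0 0)) (.pos 43 .mp ⟨⟨305024951, 0, 0, 0, 0, 97422199, 0, 0, 0, ⟨0, 0⟩, 0⟩, 0, 0⟩ 0 0)))) (.cut .s 13025280 (.cut .d (-8192) (.cut .s 13017088 (.pos 43 .mp ⟨⟨305399021, 0, 0, 0, 0, 111576719, 0, 0, 0, ⟨0, 0⟩, 0⟩, 0, 0⟩ 0 0) (.cut .s 13021184 (.pos 43 .mp ⟨⟨303553570, 0, 0, 0, 0, 119245546, 0, 0, 0, ⟨0, 0⟩, 0⟩, 0, 0⟩ 0 0) (.pos 43 .mp ⟨⟨304471158, 0, 0, 0, 0, 119528438, 0, 0, 0, ⟨0, 0⟩, 0⟩, 0, 0⟩ 0 0))) (.cut .v 16809984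 (.cut .l 153791 (.cut .s 13017088 (.cut .s 13012992 (.pos 45 .mp ⟨⟨309195822, 0, 0, 0, 0, 99844395, 0, 0, 0, ⟨0, 0⟩, 0⟩, 0, 0⟩ 0 0) (.pos 45 .mp ⟨⟨310129261, 0, 0, 0, 0, 100098165, 0, 0, 0, ⟨0, 0⟩, 0⟩, 0, 0⟩ 0 0)) (.cut .s 13021184 (.pos 45 .mp ⟨⟨311065857, 0, 0, 0, 0, 100354679, 0, 0, 0, ⟨0, 0⟩, 0⟩, 0, 0⟩ 0 0) (.pos 45 .mp ⟨⟨312005619, 0, 0, 0, 0, 100613929, 0, 0, 0, ⟨0, 0⟩, 0⟩, 0, 0⟩ 0 0))) (.pos 45 .mp ⟨⟨307087524, 0, 0, 0, 0, 101084315, 0, 0, 0, ⟨0, 0⟩, 0⟩, 0, 0⟩ 0 0)) (.pos 46 .mp ⟨⟨365313282, 0, 0, 0, 0, 0, 0, 0, 0, ⟨0, 0⟩, 0⟩, 0, 0⟩ 0 0))) (.cut .d (-8192) (.cut .d (-12288) (.pos 43 .mp ⟨⟨307461895, 0, 0, 0, 0, 121854628,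 0, 0, 0, ⟨0, 0⟩, 0⟩, 0, 0⟩ 0 0) (.cut .l 153791 (.void 43 ⟨⟨0, 0, 0, 0, 0, 100000, 0, 0, 0, ⟨0, 0⟩, 0⟩, 0, 0⟩ 0 0) (.cut .s 13033472 (.pos 43 .mp ⟨⟨306615761, 0, 0, 0, 0, 116448065, 0, 0, 0, ⟨0, 0⟩, 0⟩, 0, 0⟩ 0 0) (.pos 43 .mp ⟨⟨308349542, 0, 0, 0, 0, 117346282, 0, 0, 0, ⟨0, 0⟩, 0⟩, 0, 0⟩ 0 0)))) (.cut .v 16809984 (.cut .l 153791 (.cut .s 13033472 (.cut .s 13029376 (.pos 45 .mp ⟨⟨312948557, 0, 0, 0, 0, 100875903, 0, 0, 0, ⟨0, 0⟩, 0⟩, 0, 0⟩ 0 0) (.pos 45 .mp ⟨⟨313894682, 0, 0, 0, 0, 101140593, 0, 0, 0, ⟨0, 0⟩, 0⟩, 0, 0⟩ 0 0)) (.cut .s 13037568 (.pos 45 .mp ⟨⟨314844002, 0, 0, 0, 0, 101407987, 0, 0, 0, ⟨0, 0⟩, 0⟩, 0, 0⟩ 0 0) (.pos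 45 .mp ⟨⟨315796529, 0, 0, 0, 0, 101678076, 0, 0, 0, ⟨0, 0⟩, 0⟩, 0, 0⟩ 0 0))) (.pos 45 .mp ⟨⟨310850574, 0, 0, 0, 0, 102220622, 0, 0, 0, ⟨0, 0⟩, 0⟩, 0, 0⟩ 0 0)) (.pos 46 .mp ⟨⟨369531991, 0, 0, 0, 0, 0, 0, 0, 0, ⟨0, 0⟩, 0⟩, 0, 0⟩ 0 0))))) (.pos 44 .mp ⟨⟨370505545, 0, 0, 0, 0, 0, 0, 0, 0, ⟨0, 0⟩, 0⟩, 0, 0⟩ 0 0)) (.cut .v 16842752 (.cut .s 13074432 (.cut .s 13058048 (.cut .d (-8192) (.cut .l 153791 (.void 43 ⟨⟨0, 0, 0, 0, 0, 100000, 0, 0, 0, ⟨0, 0⟩, 0⟩, 0, 0⟩ 0 0) (.cut .s 13049856 (.pos 43 .mp ⟨⟨309801438, 0, 0, 0, 0, 119055139, 0, 0, 0, ⟨0, 0⟩, 0⟩, 0, 0⟩ 0 0) (.pos 43 .mp ⟨⟨311572500, 0, 0, 0, 0, 119952752, 0, 0, 0, ⟨0, 0⟩, 0⟩, 0,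 0⟩ 0 0))) (.cut .v 16809984 (.cut .l 153791 (.cut .s 13049856 (.cut .s 13045760 (.pos 45 .mp ⟨⟨316752272, 0, 0, 0, 0, 101950850, 0, 0, 0, ⟨0, 0⟩, 0⟩, 0, 0⟩ 0 0) (.cut .s 13047808 (.pos 45 .mp ⟨⟨317231353, 0, 0, 0, 0, 102581904, 0, 0, 0, ⟨0, 0⟩, 0⟩, 0, 0⟩ 0 0) (.pos 45 .mp ⟨⟨317711241, 0, 0, 0, 0, 102721006, 0, 0, 0, ⟨0, 0⟩, 0⟩, 0, 0⟩ 0 0))) (.cut .d (-4096) (.pos 45 .mp ⟨⟨311638910, 0, 0, 0, 0, 120150361, 0, 0, 0, ⟨0, 0⟩, 0⟩, 0, 0⟩ 0 0) (.cut .s 13053952 (.pos 45 .mp ⟨⟨316234204, 0, 0, 0, 0, 106782942, 0, 0, 0, ⟨0, 0⟩, 0⟩, 0, 0⟩ 0 0) (.pos 45 .mp ⟨⟨317226385, 0, 0, 0, 0, 106997280, 0, 0, 0, ⟨0, 0⟩, 0⟩, 0, 0⟩ 0 0)))) (.pos 45 .mp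 ⟨⟨314662252, 0, 0, 0, 0, 103388182, 0, 0, 0, ⟨0, 0⟩, 0⟩, 0, 0⟩ 0 0)) (.pos 46 .mp ⟨⟨373832387, 0, 0, 0, 0, 0, 0, 0, 0, ⟨0, 0⟩, 0⟩, 0, 0⟩ 0 0))) (.cut .d (-8192) (.cut .l 153791 (.void 43 ⟨⟨0, 0, 0, 0, 0, 100000, 0, 0, 0, ⟨0, 0⟩, 0⟩, 0, 0⟩ 0 0) (.cut .s 13066240 (.pos 43 .mp ⟨⟨313363964, 0, 0, 0, 0, 120845547, 0, 0, 0, ⟨0, 0⟩, 0⟩, 0, 0⟩ 0 0) (.pos 43 .mp ⟨⟨315176192, 0, 0, 0, 0, 121732846, 0, 0, 0, ⟨0, 0⟩, 0⟩, 0, 0⟩ 0 0))) (.cut .v 16809984 (.cut .l 153791 (.cut .s 13066240 (.cut .d (-4096) (.pos 45 .mp ⟨⟨313524947, 0, 0, 0, 0, 120790698, 0, 0, 0, ⟨0, 0⟩, 0⟩, 0, 0⟩ 0 0) (.cut .s 13062144 (.pos 45 .mp ⟨⟨318220385, 0, 0, 0, 0, 107217536,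 0, 0, 0, ⟨0, 0⟩, 0⟩, 0, 0⟩ 0 0) (.pos 45 .mp ⟨⟨319216184, 0, 0, 0, 0, 107443774, 0, 0, 0, ⟨0, 0⟩, 0⟩, 0, 0⟩ 0 0))) (.cut .d (-4096) (.pos 45 .mp ⟨⟨315423618, 0, 0, 0, 0, 121447326, 0, 0, 0, ⟨0, 0⟩, 0⟩, 0, 0⟩ 0 0) (.cut .s 13070336 (.pos 45 .mp ⟨⟨320213758, 0, 0, 0, 0, 107676057, 0, 0, 0, ⟨0, 0⟩, 0⟩, 0, 0⟩ 0 0) (.pos 45 .mp ⟨⟨321213087, 0, 0, 0, 0, 107914449, 0, 0, 0, ⟨0, 0⟩, 0⟩, 0, 0⟩ 0 0)))) (.pos 45 .mp ⟨⟨318523181, 0, 0, 0, 0, 104585282, 0, 0, 0, ⟨0, 0⟩, 0⟩, 0, 0⟩ 0 0)) (.pos 46 .mp ⟨⟨378215475, 0, 0, 0, 0, 0, 0, 0, 0, ⟨0, 0⟩, 0⟩, 0, 0⟩ 0 0)))) (.cut .d (-8192) (.cut .l 153791 (.void 43 ⟨⟨0, 0, 0, 0, 0, 100000, 0, 0, 0, ⟨0, 0⟩,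 0⟩, 0, 0⟩ 0 0) (.cut .v 16809984 (.pos 45 .mp ⟨⟨286863865, 0, 0, 0, 0, 179431610, 0, 0, 0, ⟨0, 0⟩, 0⟩, 0, 0⟩ 0 0) (.cut .s 13090816 (.cut .s 13082624 (.pos 46 .mp ⟨⟨328248748, 0, 0, 0, 0, 101412902, 0, 0, 0, ⟨0, 0⟩, 0⟩, 0, 0⟩ 0 0) (.pos 46 .mp ⟨⟨330257257, 0, 0, 0, 0, 101974935, 0, 0, 0, ⟨0, 0⟩, 0⟩, 0, 0⟩ 0 0)) (.cut .s 13099008 (.pos 46 .mp ⟨⟨332279376, 0, 0, 0, 0, 102546802, 0, 0, 0, ⟨0, 0⟩, 0⟩, 0, 0⟩ 0 0) (.pos 46 .mp ⟨⟨334315194, 0, 0, 0, 0, 103128409, 0, 0, 0, ⟨0, 0⟩, 0⟩, 0, 0⟩ 0 0))))) (.cut .l 153791 (.cut .v 16809984 (.cut .s 13090816 (.cut .s 13082624 (.cut .d (-4096) (.pos 45 .mp ⟨⟨317335003, 0, 0, 0, 0, 122120362, 0,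 0, 0, ⟨0, 0⟩, 0⟩, 0, 0⟩ 0 0) (.cut .s 13078528 (.pos 45 .mp ⟨⟨322214146, 0, 0, 0, 0, 108159016, 0, 0, 0, ⟨0, 0⟩, 0⟩, 0, 0⟩ 0 0) (.pos 45 .mp ⟨⟨323216914, 0, 0, 0, 0, 108409823, 0, 0, 0, ⟨0, 0⟩, 0⟩, 0, 0⟩ 0 0))) (.cut .d (-4096) (.pos 45 .mp ⟨⟨319259183, 0, 0, 0, 0, 122809925, 0, 0, 0, ⟨0, 0⟩, 0⟩, 0, 0⟩ 0 0) (.cut .s 13086720 (.pos 45 .mp ⟨⟨324221368, 0, 0, 0, 0, 108666935, 0, 0, 0, ⟨0, 0⟩, 0⟩, 0, 0⟩ 0 0) (.pos 45 .mp ⟨⟨325227485, 0, 0, 0, 0, 108930418, 0, 0, 0, ⟨0, 0⟩, 0⟩, 0, 0⟩ 0 0)))) (.cut .s 13099008 (.cut .d (-4096) (.pos 45 .mp ⟨⟨321196240, 0, 0, 0, 0, 123516132, 0, 0, 0, ⟨0, 0⟩, 0⟩, 0, 0⟩ 0 0) (.cut .s 13094912 (.pos 45 .mp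 ⟨⟨326235240, 0, 0, 0, 0, 109200341, 0, 0, 0, ⟨0, 0⟩, 0⟩, 0, 0⟩ 0 0) (.pos 45 .mp ⟨⟨327234104, 0, 0, 0, 0, 109498214, 0, 0, 0, ⟨0, 0⟩, 0⟩, 0, 0⟩ 0 0))) (.cut .d (-4096) (.pos 45 .mp ⟨⟨323146255, 0, 0, 0, 0, 124239106, 0, 0, 0, ⟨0, 0⟩, 0⟩, 0, 0⟩ 0 0) (.cut .s 13103104 (.pos 45 .mp ⟨⟨328226177, 0, 0, 0, 0, 109819779, 0, 0, 0, ⟨0, 0⟩, 0⟩, 0, 0⟩ 0 0) (.pos 45 .mp ⟨⟨329221575, 0, 0, 0, 0, 110144409, 0, 0, 0, ⟨0, 0⟩, 0⟩, 0, 0⟩ 0 0))))) (.pos 46 .mp ⟨⟨392721085, 0, 0, 0, 0, 0, 0, 0, 0, ⟨0, 0⟩, 0⟩, 0, 0⟩ 0 0)) (.pos 43 .mp ⟨⟨327639092, 0, 0, 0, 0, 97699541, 0, 0, 0, ⟨0, 0⟩, 0⟩, 0, 0⟩ 0 0)))) (.cut .s 13074432 (.pos 44 .mp ⟨⟨384977750, 0,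 0, 0, 0, 0, 0, 0, 0, ⟨0, 0⟩, 0⟩, 0, 0⟩ 0 0) (.pos 44 .mp ⟨⟨394237673, 0, 0, 0, 0, 0, 0, 0, 0, ⟨0, 0⟩, 0⟩, 0, 0⟩ 0 0)))) (.pos 36 .mp ⟨⟨386663666, 0, 0, 0, 0, 0, 0, 0, 0, ⟨0, 0⟩, 0⟩, 0, 0⟩ 0 0)) (.cut .v 16908288 (.cut .s 13172736 (.cut .v 16842752 (.cut .s 13139968 (.cut .d (-8192) (.cut .l 153791 (.void 43 ⟨⟨0, 0, 0, 0, 0, 100000, 0, 0, 0, ⟨0, 0⟩, 0⟩, 0, 0⟩ 0 0) (.cut .v 16809984 (.pos 45 .mp ⟨⟨293011459, 0, 0, 0, 0, 185493785, 0, 0, 0, ⟨0, 0⟩, 0⟩, 0, 0⟩ 0 0) (.cut .s 13123584 (.cut .s 13115392 (.pos 46 .mp ⟨⟨336364798, 0, 0, 0, 0, 103719659, 0, 0, 0, ⟨0, 0⟩, 0⟩, 0, 0⟩ 0 0) (.pos 46 .mp ⟨⟨338428277, 0, 0, 0, 0, 104320455, 0, 0,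 0, ⟨0, 0⟩, 0⟩, 0, 0⟩ 0 0)) (.cut .s 13131776 (.pos 46 .mp ⟨⟨340505721, 0, 0, 0, 0, 104930699, 0, 0, 0, ⟨0, 0⟩, 0⟩, 0, 0⟩ 0 0) (.pos 46 .mp ⟨⟨342597221, 0, 0, 0, 0, 105550291, 0, 0, 0, ⟨0, 0⟩, 0⟩, 0, 0⟩ 0 0))))) (.cut .l 153791 (.cut .v 16809984 (.cut .s 13123584 (.cut .s 13115392 (.cut .d (-4096) (.pos 45 .mp ⟨⟨325109313, 0, 0, 0, 0, 124978967, 0, 0, 0, ⟨0, 0⟩, 0⟩, 0, 0⟩ 0 0) (.cut .s 13111296 (.pos 45 .mp ⟨⟨330220310, 0, 0, 0, 0, 110472100, 0, 0, 0, ⟨0, 0⟩, 0⟩, 0, 0⟩ 0 0) (.pos 45 .mp ⟨⟨331222393, 0, 0, 0, 0, 110802847, 0, 0, 0, ⟨0, 0⟩, 0⟩, 0, 0⟩ 0 0))) (.cut .d (-4096) (.pos 45 .mp ⟨⟨327085497, 0, 0, 0, 0, 125735838, 0, 0, 0,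 ⟨0, 0⟩, 0⟩, 0, 0⟩ 0 0) (.cut .s 13119488 (.pos 45 .mp ⟨⟨332227833, 0, 0, 0, 0, 111136649, 0, 0, 0, ⟨0, 0⟩, 0⟩, 0, 0⟩ 0 0) (.pos 45 .mp ⟨⟨333236643, 0, 0, 0, 0, 111473499, 0, 0, 0, ⟨0, 0⟩, 0⟩, 0, 0⟩ 0 0)))) (.cut .s 13131776 (.cut .d (-4096) (.pos 45 .mp ⟨⟨329074892, 0, 0, 0, 0, 126509841, 0, 0, 0, ⟨0, 0⟩, 0⟩, 0, 0⟩ 0 0) (.cut .s 13127680 (.pos 45 .mp ⟨⟨334248833, 0, 0, 0, 0, 111813395, 0, 0, 0, ⟨0, 0⟩, 0⟩, 0, 0⟩ 0 0) (.pos 45 .mp ⟨⟨335264413, 0, 0, 0, 0, 112156333, 0, 0, 0, ⟨0, 0⟩, 0⟩, 0, 0⟩ 0 0))) (.cut .d (-4096) (.pos 45 .mp ⟨⟨331077583, 0, 0, 0, 0, 127301103, 0, 0, 0, ⟨0, 0⟩, 0⟩, 0, 0⟩ 0 0) (.cut .s 13135872 (.pos 45 .mp ⟨⟨336283395,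 0, 0, 0, 0, 112502307, 0, 0, 0, ⟨0, 0⟩, 0⟩, 0, 0⟩ 0 0) (.pos 45 .mp ⟨⟨337305790, 0, 0, 0, 0, 112851314, 0, 0, 0, ⟨0, 0⟩, 0⟩, 0, 0⟩ 0 0))))) (.pos 46 .mp ⟨⟨402201920, 0, 0, 0, 0, 0, 0, 0, 0, ⟨0, 0⟩, 0⟩, 0, 0⟩ 0 0)) (.pos 43 .mp ⟨⟨335747694, 0, 0, 0, 0, 99994973, 0, 0, 0, ⟨0, 0⟩, 0⟩, 0, 0⟩ 0 0))) (.cut .d (-8192) (.cut .l 153791 (.void 43 ⟨⟨0, 0, 0, 0, 0, 100000, 0, 0, 0, ⟨0, 0⟩, 0⟩, 0, 0⟩ 0 0) (.cut .v 16809984 (.pos 45 .mp ⟨⟨299899241, 0, 0, 0, 0, 190822714, 0, 0, 0, ⟨0, 0⟩, 0⟩, 0, 0⟩ 0 0) (.cut .s 13156352 (.cut .s 13148160 (.pos 46 .mp ⟨⟨344702868, 0, 0, 0, 0, 106179129, 0, 0, 0, ⟨0, 0⟩, 0⟩, 0, 0⟩ 0 0) (.pos 46 .mp ⟨⟨346822753,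 0, 0, 0, 0, 106817109, 0, 0, 0, ⟨0, 0⟩, 0⟩, 0, 0⟩ 0 0)) (.cut .s 13164544 (.pos 46 .mp ⟨⟨348956970, 0, 0, 0, 0, 107464128, 0, 0, 0, ⟨0, 0⟩, 0⟩, 0, 0⟩ 0 0) (.pos 46 .mp ⟨⟨351105614, 0, 0, 0, 0, 108120079, 0, 0, 0, ⟨0, 0⟩, 0⟩, 0, 0⟩ 0 0))))) (.cut .l 153791 (.cut .v 16809984 (.cut .s 13156352 (.cut .s 13148160 (.cut .d (-4096) (.pos 45 .mp ⟨⟨333093657, 0, 0, 0, 0, 128109748, 0, 0, 0, ⟨0, 0⟩, 0⟩, 0, 0⟩ 0 0) (.cut .s 13144064 (.pos 45 .mp ⟨⟨338331609, 0, 0, 0, 0, 113203351, 0, 0, 0, ⟨0, 0⟩, 0⟩, 0, 0⟩ 0 0) (.pos 45 .mp ⟨⟨339360863, 0, 0, 0, 0, 113558411, 0, 0, 0, ⟨0, 0⟩, 0⟩, 0, 0⟩ 0 0))) (.cut .d (-4096) (.pos 45 .mp ⟨⟨335123201, 0,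 0, 0, 0, 128935904, 0, 0, 0, ⟨0, 0⟩, 0⟩, 0, 0⟩ 0 0) (.cut .s 13152256 (.pos 45 .mp ⟨⟨340393564, 0, 0, 0, 0, 113916492, 0, 0, 0, ⟨0, 0⟩, 0⟩, 0, 0⟩ 0 0) (.pos 45 .mp ⟨⟨341429721, 0, 0, 0, 0, 114277588, 0, 0, 0, ⟨0, 0⟩, 0⟩, 0, 0⟩ 0 0)))) (.cut .s 13164544 (.cut .d (-4096) (.pos 45 .mp ⟨⟨337166303, 0, 0, 0, 0, 129779698, 0, 0, 0, ⟨0, 0⟩, 0⟩, 0, 0⟩ 0 0) (.cut .s 13160448 (.pos 45 .mp ⟨⟨342469348, 0, 0, 0, 0, 114641695, 0, 0, 0, ⟨0, 0⟩, 0⟩, 0, 0⟩ 0 0) (.pos 45 .mp ⟨⟨343512454, 0, 0, 0, 0, 115008809, 0, 0, 0, ⟨0, 0⟩, 0⟩, 0, 0⟩ 0 0))) (.cut .d (-4096) (.pos 45 .mp ⟨⟨339223050, 0, 0, 0, 0, 130641259, 0, 0, 0, ⟨0, 0⟩, 0⟩, 0, 0⟩ 0 0) (.cut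 .s 13168640 (.pos 45 .mp ⟨⟨344559053, 0, 0, 0, 0, 115378925, 0, 0, 0, ⟨0, 0⟩, 0⟩, 0, 0⟩ 0 0) (.pos 45 .mp ⟨⟨345609154, 0, 0, 0, 0, 115752038, 0, 0, 0, ⟨0, 0⟩, 0⟩, 0, 0⟩ 0 0))))) (.pos 46 .mp ⟨⟨411937055, 0, 0, 0, 0, 0, 0, 0, 0, ⟨0, 0⟩, 0⟩, 0, 0⟩ 0 0)) (.pos 43 .mp ⟨⟨344067225, 0, 0, 0, 0, 102373823, 0, 0, 0, ⟨0, 0⟩, 0⟩, 0, 0⟩ 0 0)))) (.cut .s 13139968 (.pos 44 .mp ⟨⟨403757174, 0, 0, 0, 0, 0, 0, 0, 0, ⟨0, 0⟩, 0⟩, 0, 0⟩ 0 0) (.pos 44 .mp ⟨⟨413532056, 0, 0, 0, 0, 0, 0, 0, 0, ⟨0, 0⟩, 0⟩, 0, 0⟩ 0 0))) (.cut .v 16842752 (.cut .s 13205504 (.cut .d (-8192) (.cut .l 153791 (.void 43 ⟨⟨0, 0, 0, 0, 0, 100000, 0, 0, 0, ⟨0, 0⟩, 0⟩, 0, 0⟩ 0 0)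 (.cut .v 16809984 (.pos 45 .mp ⟨⟨307598978, 0, 0, 0, 0, 195293292, 0, 0, 0, ⟨0, 0⟩, 0⟩, 0, 0⟩ 0 0) (.cut .s 13189120 (.cut .s 13180928 (.pos 46 .mp ⟨⟨353268777, 0, 0, 0, 0, 108784854, 0, 0, 0, ⟨0, 0⟩, 0⟩, 0, 0⟩ 0 0) (.pos 46 .mp ⟨⟨355446557, 0, 0, 0, 0, 109458344, 0, 0, 0, ⟨0, 0⟩, 0⟩, 0, 0⟩ 0 0)) (.cut .s 13197312 (.pos 46 .mp ⟨⟨357639049, 0, 0, 0, 0, 110140439, 0, 0, 0, ⟨0, 0⟩, 0⟩, 0, 0⟩ 0 0) (.pos 46 .mp ⟨⟨359846351, 0, 0, 0, 0, 110831025, 0, 0, 0, ⟨0, 0⟩, 0⟩, 0, 0⟩ 0 0))))) (.cut .l 153791 (.cut .v 16809984 (.cut .s 13189120 (.cut .s 13180928 (.cut .d (-4096) (.pos 45 .mp ⟨⟨341293534, 0, 0, 0, 0, 131520718, 0, 0, 0, ⟨0, 0⟩, 0⟩,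 0, 0⟩ 0 0) (.cut .s 13176832 (.pos 45 .mp ⟨⟨346662769, 0, 0, 0, 0, 116128144, 0, 0, 0, ⟨0, 0⟩, 0⟩, 0, 0⟩ 0 0) (.pos 45 .mp ⟨⟨347719911, 0, 0, 0, 0, 116507237, 0, 0, 0, ⟨0, 0⟩, 0⟩, 0, 0⟩ 0 0))) (.cut .d (-4096) (.pos 45 .mp ⟨⟨343377843, 0, 0, 0, 0, 132418207, 0, 0, 0, ⟨0, 0⟩, 0⟩, 0, 0⟩ 0 0) (.cut .s 13185024 (.pos 45 .mp ⟨⟨348770930, 0, 0, 0, 0, 116909084, 0, 0, 0, ⟨0, 0⟩, 0⟩, 0, 0⟩ 0 0) (.pos 45 .mp ⟨⟨349809487, 0, 0, 0, 0, 117346692, 0, 0, 0, ⟨0, 0⟩, 0⟩, 0, 0⟩ 0 0)))) (.cut .s 13197312 (.cut .d (-4096) (.pos 45 .mp ⟨⟨345476069, 0, 0, 0, 0, 133333858, 0, 0, 0, ⟨0, 0⟩, 0⟩, 0, 0⟩ 0 0) (.cut .s 13193216 (.pos 45 .mp ⟨⟨350849060, 0,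 0, 0, 0, 117792496, 0, 0, 0, ⟨0, 0⟩, 0⟩, 0, 0⟩ 0 0) (.pos 45 .mp ⟨⟨351889621, 0, 0, 0, 0, 118246577, 0, 0, 0, ⟨0, 0⟩, 0⟩, 0, 0⟩ 0 0))) (.cut .d (-4096) (.pos 45 .mp ⟨⟨347588304, 0, 0, 0, 0, 134267804, 0, 0, 0, ⟨0, 0⟩, 0⟩, 0, 0⟩ 0 0) (.cut .s 13201408 (.pos 45 .mp ⟨⟨352931140, 0, 0, 0, 0, 118709016, 0, 0, 0, ⟨0, 0⟩, 0⟩, 0, 0⟩ 0 0) (.pos 45 .mp ⟨⟨353973588, 0, 0, 0, 0, 119179893, 0, 0, 0, ⟨0, 0⟩, 0⟩, 0, 0⟩ 0 0))))) (.pos 46 .mp ⟨⟨421922374, 0, 0, 0, 0, 0, 0, 0, 0, ⟨0, 0⟩, 0⟩, 0, 0⟩ 0 0)) (.pos 43 .mp ⟨⟨352603305, 0, 0, 0, 0, 104821234, 0, 0, 0, ⟨0, 0⟩, 0⟩, 0, 0⟩ 0 0))) (.cut .d (-8192) (.cut .d (-12288) (.pos 43 .mp ⟨⟨351605293, 0,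 0, 0, 0, 148277497, 0, 0, 0, ⟨0, 0⟩, 0⟩, 0, 0⟩ 0 0) (.cut .l 153791 (.void 43 ⟨⟨0, 0, 0, 0, 0, 100000, 0, 0, 0, ⟨0, 0⟩, 0⟩, 0, 0⟩ 0 0) (.cut .v 16809984 (.pos 45 .mp ⟨⟨317417198, 0, 0, 0, 0, 196418743, 0, 0, 0, ⟨0, 0⟩, 0⟩, 0, 0⟩ 0 0) (.cut .s 13221888 (.pos 46 .mp ⟨⟨361742730, 0, 0, 0, 0, 113102956, 0, 0, 0, ⟨0, 0⟩, 0⟩, 0, 0⟩ 0 0) (.pos 46 .mp ⟨⟨366217047, 0, 0, 0, 0, 114612412, 0, 0, 0, ⟨0, 0⟩, 0⟩, 0, 0⟩ 0 0))))) (.cut .l 153791 (.cut .v 16809984 (.cut .s 13221888 (.cut .s 13213696 (.cut .d (-4096) (.pos 45 .mp ⟨⟨349714641, 0, 0, 0, 0, 135220181, 0, 0, 0, ⟨0, 0⟩, 0⟩, 0, 0⟩ 0 0) (.cut .s 13209600 (.pos 45 .mp ⟨⟨355016936, 0, 0,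 0, 0, 119659292, 0, 0, 0, ⟨0, 0⟩, 0⟩, 0, 0⟩ 0 0) (.pos 45 .mp ⟨⟨356061154, 0, 0, 0, 0, 120147294, 0, 0, 0, ⟨0, 0⟩, 0⟩, 0, 0⟩ 0 0))) (.cut .d (-4096) (.pos 45 .mp ⟨⟨351855173, 0, 0, 0, 0, 136191125, 0, 0, 0, ⟨0, 0⟩, 0⟩, 0, 0⟩ 0 0) (.cut .s 13217792 (.pos 45 .mp ⟨⟨357106211, 0, 0, 0, 0, 120643982, 0, 0, 0, ⟨0, 0⟩, 0⟩, 0, 0⟩ 0 0) (.pos 45 .mp ⟨⟨358152077, 0, 0, 0, 0, 121149441, 0, 0, 0, ⟨0, 0⟩, 0⟩, 0, 0⟩ 0 0)))) (.cut .s 13230080 (.cut .s 13225984 (.cut .s 13223936 (.pos 45 .mp ⟨⟨361596195, 0, 0, 0, 0, 116836533, 0, 0, 0, ⟨0, 0⟩, 0⟩, 0, 0⟩ 0 0) (.pos 45 .mp ⟨⟨362150645, 0, 0, 0, 0, 117027638, 0, 0, 0, ⟨0, 0⟩, 0⟩, 0, 0⟩ 0 0)) (.pos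 45 .mp ⟨⟨363262337, 0, 0, 0, 0, 116820719, 0, 0, 0, ⟨0, 0⟩, 0⟩, 0, 0⟩ 0 0)) (.cut .s 13234176 (.pos 45 .mp ⟨⟨364377763, 0, 0, 0, 0, 117204371, 0, 0, 0, ⟨0, 0⟩, 0⟩, 0, 0⟩ 0 0) (.pos 45 .mp ⟨⟨365496934, 0, 0, 0, 0, 117590124, 0, 0, 0, ⟨0, 0⟩, 0⟩, 0, 0⟩ 0 0)))) (.pos 46 .mp ⟨⟨432153822, 0, 0, 0, 0, 0, 0, 0, 0, ⟨0, 0⟩, 0⟩, 0, 0⟩ 0 0)) (.pos 43 .mp ⟨⟨361361762, 0, 0, 0, 0, 107321972, 0, 0, 0, ⟨0, 0⟩, 0⟩, 0, 0⟩ 0 0)))) (.cut .s 13205504 (.pos 44 .mp ⟨⟨423558184, 0, 0, 0, 0, 0, 0, 0, 0, ⟨0, 0⟩, 0⟩, 0, 0⟩ 0 0) (.pos 44 .mp ⟨⟨433831486, 0, 0, 0, 0, 0, 0, 0, 0, ⟨0, 0⟩, 0⟩, 0, 0⟩ 0 0)))) (.pos 36 .mp ⟨⟨425422169, 0, 0, 0, 0, 0, 0, 0, 0, ⟨0,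 0⟩, 0⟩, 0, 0⟩ 0 0))))))) (.pos 32 .mp ⟨⟨470293317, 0, 0, 0, 0, 0, 0, 0, 0, ⟨0, 0⟩, 0⟩, 0, 0⟩ 0 0))) (.void 30 ⟨⟨100000, 0, 0, 0, 0, 0, 0, 0, 0, ⟨0, 0⟩, 0⟩, 0, 0⟩ 0 0))) (.void 28 ⟨⟨100000, 0, 0, 0, 0, 0, 0, 0, 0, ⟨0, 0⟩, 0⟩, 0, 0⟩ 0 0))) (.void 26 ⟨⟨100000, 0, 0, 0, 0, 0, 0, 0, 0, ⟨0, 0⟩, 0⟩, 0, 0⟩ 0 0))) (.void 24 ⟨⟨100000, 0, 0, 0, 0, 0, 0, 0, 0, ⟨0, 0⟩, 0⟩, 0, 0⟩ 0 0)))) (.void 22 ⟨⟨100000, 0, 0, 0, 0, 0, 0, 0, 0, ⟨0, 0⟩, 0⟩, 0, 0⟩ 0 0)) (.void 103 ⟨⟨100000, 0, 0, 0, 0, 0, 0, 0, 0, ⟨0, 0⟩, 0⟩, 0, 0⟩ 0 0)) (.void 114 ⟨⟨100000, 0, 0, 0, 0, 0, 0, 0, 0, ⟨0, 0⟩, 0⟩, 0, 0⟩ 0 0)) (.void 125 ⟨⟨94370, 0, 0, 5701, 0, 0, 0, 0, 0, ⟨0, 0⟩,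 0⟩, 0, 0⟩ 0 0))) (.cut .v 16777216 (.cut .v 8388608 (.cut .v 4194304 (.cut .v 2097152 (.cut .v 1048576 (.pos 119 .pm ⟨⟨0, 0, 22684037, 0, 0, 0, 0, 0, 0, ⟨0, 0⟩, 0⟩, 0, 15474⟩ 0 0) (.pos 120 .pm ⟨⟨0, 0, 24750451, 0, 0, 0, 0, 0, 0, ⟨0, 0⟩, 0⟩, 0, 29758⟩ 0 0)) (.pos 118 .pm ⟨⟨0, 0, 28915251, 0, 0, 0, 0, 0, 0, ⟨0, 0⟩, 0⟩, 0, 42984⟩ 0 0)) (.pos 5 .pm ⟨⟨0, 0, 13681344, 0, 0, 0, 0, 0, 0, ⟨0, 0⟩, 0⟩, 0, 0⟩ 0 0)) (.pos 3 .pm ⟨⟨0, 0, 0, 0, 0, 0, 0, 0, 0, ⟨0, 0⟩, 0⟩, 0, 0⟩ 0 0)) (.cut .v 268435456 (.cut .v 67108864 (.cut .d 2457270 (.cut .v 33554432 (.cut .d 1228635 (.cut .v 25165824 (.cut .d 614317 (.cut .v 20971520 (.cut .d 307158 (.cut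 .v 18874368 (.cut .d 153579 (.cut .d 76789 (.cut .v 17825792 (.cut .d 38394 (.cut .v 17301504 (.cut .s 13107200 (.pos 29 .pp ⟨⟨320647643, 0, 0, 0, 0, 0, 0, 0, 0, ⟨0, 0⟩, 0⟩, 4992025, 0⟩ 0 0) (.pos 29 .pp ⟨⟨348992321, 0, 0, 0, 0, 0, 0, 0, 0, ⟨0, 0⟩, 0⟩, 6141368, 0⟩ 0 0)) (.pos 30 .pp ⟨⟨415891158, 0, 0, 0, 0, 0, 0, 0, 0, ⟨0, 0⟩, 0⟩, 0, 0⟩ 0 0)) (.pos 27 .pp ⟨⟨324061254, 0, 0, 0, 0, 0, 0, 0, 0, ⟨0, 0⟩, 0⟩, 0, 20343⟩ 0 0)) (.pos 28 .pp ⟨⟨457896173, 0, 0, 0, 0, 0, 0, 0, 0, ⟨0, 0⟩, 0⟩, 0, 0⟩ 0 0)) (.pos 25 .pp ⟨⟨342014472, 0, 0, 0, 0, 0, 0, 0, 0, ⟨0, 0⟩, 0⟩, 0, 8151⟩ 0 0)) (.pos 25 .pp ⟨⟨0, 0, 0, 0, 0, 0, 0, 0, 0, ⟨0, 0⟩, 0⟩, 0, 254548⟩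 0 0)) (.cut .d 153579 (.cut .v 19922944 (.pos 53 .pp ⟨⟨501870973, 0, 0, 0, 0, 0, 0, 0, 0, ⟨0, 0⟩, 0⟩, 0, 0⟩ 0 0) (.pos 54 .pp ⟨⟨575857528, 0, 0, 0, 0, 0, 0, 0, 0, ⟨0, 0⟩, 0⟩, 0, 0⟩ 0 0)) (.pos 26 .pp ⟨⟨430212291, 0, 0, 0, 0, 0, 0, 0, 0, ⟨0, 0⟩, 0⟩, 0, 0⟩ 0 0))) (.pos 23 .pp ⟨⟨0, 0, 0, 0, 0, 0, 0, 0, 0, ⟨0, 0⟩, 0⟩, 0, 267118⟩ 0 0)) (.cut .d 307158 (.cut .v 23068672 (.cut .d 153579 (.void 55 ⟨⟨0, 0, 0, 0, 0, 0, 0, 0, 0, ⟨0, 0⟩, 0⟩, 100000, 0⟩ 0 0) (.cut .d 230368 (.pos 55 .pp ⟨⟨635721765, 0, 0, 0, 0, 0, 0, 0, 0, ⟨0, 0⟩, 0⟩, 1204758, 0⟩ 0 0) (.pos 55 .pp ⟨⟨0, 0, 0, 0, 0, 0, 0, 0, 0, ⟨0, 0⟩, 0⟩, 64982425, 0⟩ 0 0))) (.pos 56 .pp ⟨⟨0,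 0, 0, 0, 0, 0, 0, 0, 0, ⟨0, 0⟩, 0⟩, 93992584, 0⟩ 0 0)) (.pos 24 .pp ⟨⟨0, 0, 0, 0, 0, 0, 30195, 0, 0, ⟨0, 0⟩, 0⟩, 61232769, 0⟩ 0 0))) (.pos 21 .pp ⟨⟨0, 0, 0, 0, 0, 0, 0, 0, 0, ⟨0, 0⟩, 0⟩, 0, 288488⟩ 0 0)) (.cut .d 614317 (.cut .d 307158 (.void 22 ⟨⟨0, 0, 0, 0, 0, 0, 0, 0, 0, ⟨0, 0⟩, 0⟩, 100000, 0⟩ 0 0) (.cut .d 460737 (.pos 22 .pp ⟨⟨0, 0, 0, 0, 0, 0, 0, 0, 0, ⟨0, 0⟩, 0⟩, 98829770, 0⟩ 0 0) (.pos 22 .pp ⟨⟨0, 0, 0, 0, 0, 0, 0, 0, 0, ⟨0, 0⟩, 0⟩, 81724455, 0⟩ 0 0))) (.pos 22 .pp ⟨⟨0, 0, 0, 0, 0, 0, 9604, 0, 0, ⟨0, 0⟩, 0⟩, 63615160, 0⟩ 0 0))) (.pos 20 .pp ⟨⟨0, 0, 0, 0, 0, 0, 960922, 0, 0, ⟨0, 0⟩, 0⟩, 0, 0⟩ 0 0)) (.cut .d 1228635 (.cut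 .v 50331648 (.pos 106 .pp ⟨⟨0, 0, 0, 0, 0, 0, 0, 0, 0, ⟨0, 0⟩, 0⟩, 167612547, 0⟩ 0 0) (.void 107 ⟨⟨0, 0, 0, 0, 0, 0, 0, 0, 0, ⟨0, 0⟩, 0⟩, 100000, 0⟩ 0 0)) (.pos 103 .pp ⟨⟨0, 0, 0, 0, 0, 0, 0, 0, 0, ⟨0, 0⟩, 0⟩, 88886604, 0⟩ 0 0))) (.pos 102 .pp ⟨⟨0, 0, 0, 0, 0, 0, 0, 0, 0, ⟨0, 0⟩, 0⟩, 0, 240406⟩ 0 0)) (.void 114 ⟨⟨0, 0, 0, 46993, 0, 0, 0, 0, 0, ⟨0, 0⟩, 0⟩, 53007, 0⟩ 0 0)) (.void 125 ⟨⟨0, 0, 0, 0, 0, 0, 0, 0, 0, ⟨0, 0⟩, 0⟩, 100000, 0⟩ 0 0)))),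
    by decide +kernel⟩

def covers23 : cell.Covers Vale.Agent.P237.Petty.Cor.Grid.N12.table row23.1 :=
  ⟨(.cut .d 0 (.cut .v 16777216 (.cut .v 8388608 (.pos 2 .mm ⟨⟨0, 0, 518839748, 0, 0, 800624404, 0, 0, 0, ⟨0, 0⟩, 0⟩, 0, 0⟩ 0 0) (.cut .d (-8388608) (.void 3 ⟨⟨100000, 0, 0, 0, 0, 0, 0, 0, 0, ⟨0, 0⟩, 0⟩, 0, 0⟩ 0 0) (.cut .d (-4194304) (.void 3 ⟨⟨100000, 0, 0, 0, 0, 0, 0, 0, 0, ⟨0, 0⟩, 0⟩, 0, 0⟩ 0 0) (.cut .d (-2097152) (.void 3 ⟨⟨0, 0, 0, 0, 0, 100000, 0, 0, 0, ⟨0, 0⟩, 0⟩, 0, 0⟩ 0 0) (.cut .d (-1048576) (.void 3 ⟨⟨0, 0, 0, 0, 0, 100000, 0, 0, 0, ⟨0, 0⟩, 0⟩, 0, 0⟩ 0 0) (.cut .d (-524288) (.void 3 ⟨⟨0, 0, 0, 0, 0, 100000, 0, 0, 0,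 ⟨0, 0⟩, 0⟩, 0, 0⟩ 0 0) (.cut .d (-262144) (.void 3 ⟨⟨0, 0, 0, 0, 0, 100000, 0, 0, 0, ⟨0, 0⟩, 0⟩, 0, 0⟩ 0 0) (.cut .s 13369344 (.pos 3 .mm ⟨⟨0, 0, 0, 0, 0, 799103181, 0, 0, 0, ⟨0, 0⟩, 0⟩, 0, 0⟩ 0 0) (.pos 3 .mm ⟨⟨0, 0, 0, 0, 0, 891457104, 0, 0, 0, ⟨0, 0⟩, 0⟩, 0, 0⟩ 0 0))))))))) (.cut .v 268435456 (.cut .v 67108864 (.cut .v 33554432 (.cut .v 25165824 (.cut .d (-8388608) (.void 21 ⟨⟨100000, 0, 0, 0, 0, 0, 0, 0, 0, ⟨0, 0⟩, 0⟩, 0, 0⟩ 0 0) (.cut .d (-4194304) (.void 21 ⟨⟨100000, 0, 0, 0, 0, 0, 0, 0, 0, ⟨0, 0⟩, 0⟩, 0, 0⟩ 0 0) (.cut .v 20971520 (.cut .d (-2097152) (.void 23 ⟨⟨100000, 0, 0, 0, 0, 0, 0, 0, 0, ⟨0, 0⟩, 0⟩, 0, 0⟩ 0 0) (.cut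 .v 18874368 (.cut .d (-1048576) (.void 25 ⟨⟨100000, 0, 0, 0, 0, 0, 0, 0, 0, ⟨0, 0⟩, 0⟩, 0, 0⟩ 0 0) (.cut .v 17825792 (.cut .d (-524288) (.void 27 ⟨⟨100000, 0, 0, 0, 0, 0, 0, 0, 0, ⟨0, 0⟩, 0⟩, 0, 0⟩ 0 0) (.cut .v 17301504 (.cut .d (-262144) (.void 29 ⟨⟨100000, 0, 0, 0, 0, 0, 0, 0, 0, ⟨0, 0⟩, 0⟩, 0, 0⟩ 0 0) (.cut .v 17039360 (.cut .d (-131072) (.void 31 ⟨⟨100000, 0, 0, 0, 0, 0, 0, 0, 0, ⟨0, 0⟩, 0⟩, 0, 0⟩ 0 0) (.cut .d (-65536) (.void 31 ⟨⟨100000, 0, 0, 0, 0, 0, 0, 0, 0, ⟨0, 0⟩, 0⟩, 0, 0⟩ 0 0) (.cut .d (-32768) (.void 31 ⟨⟨100000, 0, 0, 0, 0, 0, 0, 0, 0, ⟨0, 0⟩, 0⟩, 0, 0⟩ 0 0) (.cut .d (-16384) (.void 31 ⟨⟨0, 0, 0, 0, 0, 100000, 0,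 0, 0, ⟨0, 0⟩, 0⟩, 0, 0⟩ 0 0) (.cut .s 13369344 (.cut .v 16908288 (.cut .s 13303808 (.cut .v 16842752 (.cut .s 13271040 (.cut .d (-8192) (.cut .d (-12288) (.pos 43 .mp ⟨⟨360354497, 0, 0, 0, 0, 152712308, 0, 0, 0, ⟨0, 0⟩, 0⟩, 0, 0⟩ 0 0) (.cut .l 153791 (.void 43 ⟨⟨0, 0, 0, 0, 0, 100000, 0, 0, 0, ⟨0, 0⟩, 0⟩, 0, 0⟩ 0 0) (.cut .v 16809984 (.pos 45 .mp ⟨⟨331023586, 0, 0, 0, 0, 192437568, 0, 0, 0, ⟨0, 0⟩, 0⟩, 0, 0⟩ 0 0) (.cut .s 13254656 (.pos 46 .mp ⟨⟨370757947, 0, 0, 0, 0, 116612405, 0, 0, 0, ⟨0, 0⟩, 0⟩, 0, 0⟩ 0 0) (.pos 46 .mp ⟨⟨375361749, 0, 0, 0, 0, 117791674, 0, 0, 0, ⟨0, 0⟩, 0⟩, 0, 0⟩ 0 0))))) (.cut .l 153791 (.cut .v 16809984 (.cut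 .s 13254656 (.cut .d (-4096) (.cut .s 13246464 (.pos 45 .mp ⟨⟨358364476, 0, 0, 0, 0, 139200001, 0, 0, 0, ⟨0, 0⟩, 0⟩, 0, 0⟩ 0 0) (.pos 45 .mp ⟨⟨360564512, 0, 0, 0, 0, 139892252, 0, 0, 0, ⟨0, 0⟩, 0⟩, 0, 0⟩ 0 0)) (.cut .v 16793600 (.cut .l 76895 (.cut .d (-2048) (.pos 47 .mp ⟨⟨358670865, 0, 0, 0, 0, 141100386, 0, 0, 0, ⟨0, 0⟩, 0⟩, 0, 0⟩ 0 0) (.cut .v 16785408 (.cut .s 13246464 (.pos 81 .mp ⟨⟨362815539, 0, 0, 0, 0, 125400572, 0, 0, 0, ⟨0, 0⟩, 0⟩, 0, 0⟩ 0 0) (.cut .s 13250560 (.pos 81 .mp ⟨⟨367226146, 0, 0, 0, 0, 121467679, 0, 0, 0, ⟨0, 0⟩, 0⟩, 0, 0⟩ 0 0) (.pos 81 .mp ⟨⟨368224930, 0, 0, 0, 0, 122006847, 0, 0, 0, ⟨0, 0⟩, 0⟩, 0, 0⟩ 0 0)))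 (.pos 82 .mp ⟨⟨431437247, 0, 0, 0, 0, 0, 0, 0, 0, ⟨0, 0⟩, 0⟩, 0, 0⟩ 0 0))) (.pos 47 .mp ⟨⟨364402672, 0, 0, 0, 0, 119117399, 0, 0, 0, ⟨0, 0⟩, 0⟩, 0, 0⟩ 0 0)) (.pos 48 .mp ⟨⟨431688092, 0, 0, 0, 0, 0, 0, 0, 0, ⟨0, 0⟩, 0⟩, 0, 0⟩ 0 0))) (.cut .d (-4096) (.cut .s 13262848 (.pos 45 .mp ⟨⟨362780015, 0, 0, 0, 0, 140605623, 0, 0, 0, ⟨0, 0⟩, 0⟩, 0, 0⟩ 0 0) (.pos 45 .mp ⟨⟨365011087, 0, 0, 0, 0, 141340274, 0, 0, 0, ⟨0, 0⟩, 0⟩, 0, 0⟩ 0 0)) (.cut .v 16793600 (.cut .l 76895 (.cut .s 13262848 (.cut .s 13258752 (.pos 47 .mp ⟨⟨368836422, 0, 0, 0, 0, 123054627, 0, 0, 0, ⟨0, 0⟩, 0⟩, 0, 0⟩ 0 0) (.pos 47 .mp ⟨⟨369859885, 0, 0, 0, 0, 123577268, 0, 0, 0,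 ⟨0, 0⟩, 0⟩, 0, 0⟩ 0 0)) (.cut .s 13266944 (.pos 47 .mp ⟨⟨370890678, 0, 0, 0, 0, 124098218, 0, 0, 0, ⟨0, 0⟩, 0⟩, 0, 0⟩ 0 0) (.pos 47 .mp ⟨⟨371928896, 0, 0, 0, 0, 124617322, 0, 0, 0, ⟨0, 0⟩, 0⟩, 0, 0⟩ 0 0))) (.pos 47 .mp ⟨⟨368899946, 0, 0, 0, 0, 120564962, 0, 0, 0, ⟨0, 0⟩, 0⟩, 0, 0⟩ 0 0)) (.pos 48 .mp ⟨⟨436786615, 0, 0, 0, 0, 0, 0, 0, 0, ⟨0, 0⟩, 0⟩, 0, 0⟩ 0 0)))) (.pos 46 .mp ⟨⟨443434079, 0, 0, 0, 0, 0, 0, 0, 0, ⟨0, 0⟩, 0⟩, 0, 0⟩ 0 0)) (.pos 43 .mp ⟨⟨371304171, 0, 0, 0, 0, 108976290, 0, 0, 0, ⟨0, 0⟩, 0⟩, 0, 0⟩ 0 0))) (.cut .d (-8192) (.cut .d (-12288) (.pos 43 .mp ⟨⟨369357682, 0, 0, 0, 0, 156139019, 0, 0, 0, ⟨0, 0⟩, 0⟩, 0, 0⟩ 0 0)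 (.cut .l 153791 (.void 43 ⟨⟨0, 0, 0, 0, 0, 100000, 0, 0, 0, ⟨0, 0⟩, 0⟩, 0, 0⟩ 0 0) (.cut .v 16809984 (.pos 45 .mp ⟨⟨0, 0, 0, 0, 0, 848208082, 0, 0, 0, ⟨0, 0⟩, 0⟩, 0, 0⟩ 0 0) (.cut .s 13287424 (.pos 46 .mp ⟨⟨380031120, 0, 0, 0, 0, 119035298, 0, 0, 0, ⟨0, 0⟩, 0⟩, 0, 0⟩ 0 0) (.pos 46 .mp ⟨⟨384766952, 0, 0, 0, 0, 120342946, 0, 0, 0, ⟨0, 0⟩, 0⟩, 0, 0⟩ 0 0))))) (.cut .l 153791 (.cut .v 16809984 (.cut .s 13287424 (.cut .d (-4096) (.cut .s 13279232 (.pos 45 .mp ⟨⟨367257833, 0, 0, 0, 0, 142096366, 0, 0, 0, ⟨0, 0⟩, 0⟩, 0, 0⟩ 0 0) (.pos 45 .mp ⟨⟨369520361, 0, 0, 0, 0, 142874062, 0, 0, 0, ⟨0, 0⟩, 0⟩, 0, 0⟩ 0 0)) (.cut .l 76895 (.cut .v 16793600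 (.cut .s 13279232 (.cut .s 13275136 (.pos 47 .mp ⟨⟨372968280, 0, 0, 0, 0, 125147518, 0, 0, 0, ⟨0, 0⟩, 0⟩, 0, 0⟩ 0 0) (.pos 47 .mp ⟨⟨374002326, 0, 0, 0, 0, 125702264, 0, 0, 0, ⟨0, 0⟩, 0⟩, 0, 0⟩ 0 0)) (.cut .s 13283328 (.pos 47 .mp ⟨⟨375044827, 0, 0, 0, 0, 126253187, 0, 0, 0, ⟨0, 0⟩, 0⟩, 0, 0⟩ 0 0) (.pos 47 .mp ⟨⟨376095893, 0, 0, 0, 0, 126800099, 0, 0, 0, ⟨0, 0⟩, 0⟩, 0, 0⟩ 0 0))) (.pos 48 .mp ⟨⟨452168636, 0, 0, 0, 0, 0, 0, 0, 0, ⟨0, 0⟩, 0⟩, 0, 0⟩ 0 0)) (.pos 45 .mp ⟨⟨374145668, 0, 0, 0, 0, 120970107, 0, 0, 0, ⟨0, 0⟩, 0⟩, 0, 0⟩ 0 0))) (.cut .d (-4096) (.cut .s 13295616 (.pos 45 .mp ⟨⟨371798775, 0, 0, 0, 0, 143673527, 0, 0, 0, ⟨0, 0⟩,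 0⟩, 0, 0⟩ 0 0) (.pos 45 .mp ⟨⟨374093185, 0, 0, 0, 0, 144494924, 0, 0, 0, ⟨0, 0⟩, 0⟩, 0, 0⟩ 0 0)) (.cut .l 76895 (.cut .v 16793600 (.cut .s 13295616 (.cut .s 13291520 (.pos 47 .mp ⟨⟨377155638, 0, 0, 0, 0, 127342808, 0, 0, 0, ⟨0, 0⟩, 0⟩, 0, 0⟩ 0 0) (.pos 47 .mp ⟨⟨378224174, 0, 0, 0, 0, 127881124, 0, 0, 0, ⟨0, 0⟩, 0⟩, 0, 0⟩ 0 0)) (.cut .s 13299712 (.pos 47 .mp ⟨⟨379301614, 0, 0, 0, 0, 128414853, 0, 0, 0, ⟨0, 0⟩, 0⟩, 0, 0⟩ 0 0) (.pos 47 .mp ⟨⟨380286121, 0, 0, 0, 0, 129154247, 0, 0, 0, ⟨0, 0⟩, 0⟩, 0, 0⟩ 0 0))) (.pos 48 .mp ⟨⟨457677890, 0, 0, 0, 0, 0, 0, 0, 0, ⟨0, 0⟩, 0⟩, 0, 0⟩ 0 0)) (.pos 45 .mp ⟨⟨378778972, 0, 0, 0, 0, 122485637, 0,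 0, 0, ⟨0, 0⟩, 0⟩, 0, 0⟩ 0 0)))) (.pos 46 .mp ⟨⟨454254863, 0, 0, 0, 0, 0, 0, 0, 0, ⟨0, 0⟩, 0⟩, 0, 0⟩ 0 0)) (.cut .s 13287424 (.pos 43 .mp ⟨⟨375909220, 0, 0, 0, 0, 118619249, 0, 0, 0, ⟨0, 0⟩, 0⟩, 0, 0⟩ 0 0) (.pos 43 .mp ⟨⟨380579488, 0, 0, 0, 0, 120080515, 0, 0, 0, ⟨0, 0⟩, 0⟩, 0, 0⟩ 0 0))))) (.cut .s 13271040 (.pos 44 .mp ⟨⟨445156525, 0, 0, 0, 0, 0, 0, 0, 0, ⟨0, 0⟩, 0⟩, 0, 0⟩ 0 0) (.pos 44 .mp ⟨⟨456021764, 0, 0, 0, 0, 0, 0, 0, 0, ⟨0, 0⟩, 0⟩, 0, 0⟩ 0 0))) (.cut .s 13336576 (.cut .v 16842752 (.cut .d (-8192) (.cut .l 153791 (.void 43 ⟨⟨0, 0, 0, 0, 0, 100000, 0, 0, 0, ⟨0, 0⟩, 0⟩, 0, 0⟩ 0 0) (.cut .d (-12288) (.pos 43 .mp ⟨⟨378617955,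 0, 0, 0, 0, 158894234, 0, 0, 0, ⟨0, 0⟩, 0⟩, 0, 0⟩ 0 0) (.cut .v 16809984 (.pos 45 .mp ⟨⟨0, 0, 0, 0, 0, 870555114, 0, 0, 0, ⟨0, 0⟩, 0⟩, 0, 0⟩ 0 0) (.cut .v 16826368 (.cut .s 13320192 (.cut .s 13312000 (.pos 115 .mp ⟨⟨376631918, 0, 0, 0, 0, 143776156, 0, 0, 0, ⟨0, 0⟩, 0⟩, 0, 0⟩ 0 0) (.pos 115 .mp ⟨⟨378854161, 0, 0, 0, 0, 144860352, 0, 0, 0, ⟨0, 0⟩, 0⟩, 0, 0⟩ 0 0)) (.cut .s 13328384 (.pos 115 .mp ⟨⟨381205675, 0, 0, 0, 0, 145744595, 0, 0, 0, ⟨0, 0⟩, 0⟩, 0, 0⟩ 0 0) (.pos 115 .mp ⟨⟨383573691, 0, 0, 0, 0, 146646259, 0, 0, 0, ⟨0, 0⟩, 0⟩, 0, 0⟩ 0 0))) (.pos 116 .mp ⟨⟨437531306, 0, 0, 0, 0, 42667790, 0, 0, 0, ⟨0, 0⟩, 0⟩, 0, 0⟩ 0 0))))) (.cut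 .l 153791 (.cut .v 16809984 (.cut .s 13320192 (.cut .d (-4096) (.cut .s 13312000 (.pos 45 .mp ⟨⟨376403699, 0, 0, 0, 0, 145338423, 0, 0, 0, ⟨0, 0⟩, 0⟩, 0, 0⟩ 0 0) (.pos 45 .mp ⟨⟨378730427, 0, 0, 0, 0, 146204191, 0, 0, 0, ⟨0, 0⟩, 0⟩, 0, 0⟩ 0 0)) (.cut .l 76895 (.cut .v 16793600 (.cut .s 13312000 (.cut .s 13307904 (.pos 47 .mp ⟨⟨381276681, 0, 0, 0, 0, 129895130, 0, 0, 0, ⟨0, 0⟩, 0⟩, 0, 0⟩ 0 0) (.pos 47 .mp ⟨⟨382283937, 0, 0, 0, 0, 130615569, 0, 0, 0, ⟨0, 0⟩, 0⟩, 0, 0⟩ 0 0)) (.cut .s 13316096 (.pos 47 .mp ⟨⟨383308081, 0, 0, 0, 0, 131315196, 0, 0, 0, ⟨0, 0⟩, 0⟩, 0, 0⟩ 0 0) (.pos 47 .mp ⟨⟨384349307, 0, 0, 0, 0, 131993642, 0, 0, 0, ⟨0,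 0⟩, 0⟩, 0, 0⟩ 0 0))) (.pos 48 .mp ⟨⟨463274067, 0, 0, 0, 0, 0, 0, 0, 0, ⟨0, 0⟩, 0⟩, 0, 0⟩ 0 0)) (.pos 45 .mp ⟨⟨383477686, 0, 0, 0, 0, 124038471, 0, 0, 0, ⟨0, 0⟩, 0⟩, 0, 0⟩ 0 0))) (.cut .d (-4096) (.cut .s 13328384 (.pos 45 .mp ⟨⟨381073480, 0, 0, 0, 0, 147092399, 0, 0, 0, ⟨0, 0⟩, 0⟩, 0, 0⟩ 0 0) (.pos 45 .mp ⟨⟨383432970, 0, 0, 0, 0, 148003220, 0, 0, 0, ⟨0, 0⟩, 0⟩, 0, 0⟩ 0 0)) (.cut .l 76895 (.cut .v 16793600 (.cut .s 13328384 (.cut .s 13324288 (.pos 47 .mp ⟨⟨385407807, 0, 0, 0, 0, 132650537, 0, 0, 0, ⟨0, 0⟩, 0⟩, 0, 0⟩ 0 0) (.pos 47 .mp ⟨⟨386483775, 0, 0, 0, 0, 133285513, 0, 0, 0, ⟨0, 0⟩, 0⟩, 0, 0⟩ 0 0)) (.cut .s 13332480 (.pos 47 .mp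 ⟨⟨387577403, 0, 0, 0, 0, 133898200, 0, 0, 0, ⟨0, 0⟩, 0⟩, 0, 0⟩ 0 0) (.pos 47 .mp ⟨⟨388688886, 0, 0, 0, 0, 134488228, 0, 0, 0, ⟨0, 0⟩, 0⟩, 0, 0⟩ 0 0))) (.pos 48 .mp ⟨⟨468956479, 0, 0, 0, 0, 0, 0, 0, 0, ⟨0, 0⟩, 0⟩, 0, 0⟩ 0 0)) (.pos 45 .mp ⟨⟨388242710, 0, 0, 0, 0, 125626212, 0, 0, 0, ⟨0, 0⟩, 0⟩, 0, 0⟩ 0 0)))) (.pos 46 .mp ⟨⟨465424111, 0, 0, 0, 0, 0, 0, 0, 0, ⟨0, 0⟩, 0⟩, 0, 0⟩ 0 0)) (.cut .s 13320192 (.pos 43 .mp ⟨⟨385315867, 0, 0, 0, 0, 121577988, 0, 0, 0, ⟨0, 0⟩, 0⟩, 0, 0⟩ 0 0) (.pos 43 .mp ⟨⟨390119264, 0, 0, 0, 0, 123109252, 0, 0, 0, ⟨0, 0⟩, 0⟩, 0, 0⟩ 0 0)))) (.pos 44 .mp ⟨⟨467236949, 0, 0, 0, 0, 0, 0, 0, 0, ⟨0, 0⟩, 0⟩, 0, 0⟩ 0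 0)) (.cut .v 16842752 (.cut .d (-8192) (.cut .l 153791 (.void 43 ⟨⟨0, 0, 0, 0, 0, 100000, 0, 0, 0, ⟨0, 0⟩, 0⟩, 0, 0⟩ 0 0) (.cut .d (-12288) (.pos 43 .mp ⟨⟨388142375, 0, 0, 0, 0, 162998274, 0, 0, 0, ⟨0, 0⟩, 0⟩, 0, 0⟩ 0 0) (.cut .v 16809984 (.pos 45 .mp ⟨⟨0, 0, 0, 0, 0, 893820905, 0, 0, 0, ⟨0, 0⟩, 0⟩, 0, 0⟩ 0 0) (.cut .v 16826368 (.cut .s 13352960 (.cut .s 13344768 (.pos 115 .mp ⟨⟨385958322, 0, 0, 0, 0, 147565308, 0, 0, 0, ⟨0, 0⟩, 0⟩, 0, 0⟩ 0 0) (.pos 115 .mp ⟨⟨388359683, 0, 0, 0, 0, 148501702, 0, 0, 0, ⟨0, 0⟩, 0⟩, 0, 0⟩ 0 0)) (.cut .s 13361152 (.pos 115 .mp ⟨⟨390777889, 0, 0, 0, 0, 149455399, 0, 0, 0, ⟨0, 0⟩, 0⟩, 0, 0⟩ 0 0) (.pos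 115 .mp ⟨⟨393213059, 0, 0, 0, 0, 150426358, 0, 0, 0, ⟨0, 0⟩, 0⟩, 0, 0⟩ 0 0))) (.pos 116 .mp ⟨⟨448775241, 0, 0, 0, 0, 43143934, 0, 0, 0, ⟨0, 0⟩, 0⟩, 0, 0⟩ 0 0))))) (.cut .l 153791 (.cut .v 16809984 (.cut .s 13352960 (.cut .d (-4096) (.cut .s 13344768 (.pos 45 .mp ⟨⟨385809009, 0, 0, 0, 0, 148936826, 0, 0, 0, ⟨0, 0⟩, 0⟩, 0, 0⟩ 0 0) (.pos 45 .mp ⟨⟨388201713, 0, 0, 0, 0, 149893393, 0, 0, 0, ⟨0, 0⟩, 0⟩, 0, 0⟩ 0 0)) (.cut .l 76895 (.cut .v 16793600 (.cut .s 13344768 (.cut .s 13340672 (.pos 47 .mp ⟨⟨389818414, 0, 0, 0, 0, 135055227, 0, 0, 0, ⟨0, 0⟩, 0⟩, 0, 0⟩ 0 0) (.pos 47 .mp ⟨⟨390966183, 0, 0, 0, 0, 135598828, 0, 0, 0, ⟨0, 0⟩, 0⟩, 0,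 0⟩ 0 0)) (.cut .s 13348864 (.pos 47 .mp ⟨⟨392132386, 0, 0, 0, 0, 136118659, 0, 0, 0, ⟨0, 0⟩, 0⟩, 0, 0⟩ 0 0) (.pos 47 .mp ⟨⟨393317214, 0, 0, 0, 0, 136614351, 0, 0, 0, ⟨0, 0⟩, 0⟩, 0, 0⟩ 0 0))) (.pos 48 .mp ⟨⟨474724440, 0, 0, 0, 0, 0, 0, 0, 0, ⟨0, 0⟩, 0⟩, 0, 0⟩ 0 0)) (.pos 45 .mp ⟨⟨393074961, 0, 0, 0, 0, 127246433, 0, 0, 0, ⟨0, 0⟩, 0⟩, 0, 0⟩ 0 0))) (.cut .d (-4096) (.cut .s 13361152 (.pos 45 .mp ⟨⟨390611196, 0, 0, 0, 0, 150873098, 0, 0, 0, ⟨0, 0⟩, 0⟩, 0, 0⟩ 0 0) (.pos 45 .mp ⟨⟨393037575, 0, 0, 0, 0, 151876119, 0, 0, 0, ⟨0, 0⟩, 0⟩, 0, 0⟩ 0 0)) (.cut .l 76895 (.cut .v 16793600 (.cut .s 13361152 (.cut .s 13357056 (.pos 47 .mp ⟨⟨394520863,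 0, 0, 0, 0, 137085532, 0, 0, 0, ⟨0, 0⟩, 0⟩, 0, 0⟩ 0 0) (.pos 47 .mp ⟨⟨395743525, 0, 0, 0, 0, 137531831, 0, 0, 0, ⟨0, 0⟩, 0⟩, 0, 0⟩ 0 0)) (.cut .s 13365248 (.pos 47 .mp ⟨⟨396985394, 0, 0, 0, 0, 137952878, 0, 0, 0, ⟨0, 0⟩, 0⟩, 0, 0⟩ 0 0) (.pos 47 .mp ⟨⟨398246663, 0, 0, 0, 0, 138348299, 0, 0, 0, ⟨0, 0⟩, 0⟩, 0, 0⟩ 0 0))) (.pos 48 .mp ⟨⟨480577274, 0, 0, 0, 0, 0, 0, 0, 0, ⟨0, 0⟩, 0⟩, 0, 0⟩ 0 0)) (.pos 45 .mp ⟨⟨397975373, 0, 0, 0, 0, 128896674, 0, 0, 0, ⟨0, 0⟩, 0⟩, 0, 0⟩ 0 0)))) (.pos 46 .mp ⟨⟨476936335, 0, 0, 0, 0, 0, 0, 0, 0, ⟨0, 0⟩, 0⟩, 0, 0⟩ 0 0)) (.cut .s 13352960 (.pos 43 .mp ⟨⟨394990607, 0, 0, 0, 0, 124671860, 0, 0, 0, ⟨0, 0⟩, 0⟩,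 0, 0⟩ 0 0) (.pos 43 .mp ⟨⟨399930839, 0, 0, 0, 0, 126263330, 0, 0, 0, ⟨0, 0⟩, 0⟩, 0, 0⟩ 0 0)))) (.pos 44 .mp ⟨⟨478796569, 0, 0, 0, 0, 0, 0, 0, 0, ⟨0, 0⟩, 0⟩, 0, 0⟩ 0 0)))) (.pos 36 .mp ⟨⟨469604274, 0, 0, 0, 0, 0, 0, 0, 0, ⟨0, 0⟩, 0⟩, 0, 0⟩ 0 0)) (.cut .v 16908288 (.cut .s 13434880 (.cut .s 13402112 (.cut .v 16842752 (.cut .d (-8192) (.cut .l 153791 (.void 43 ⟨⟨0, 0, 0, 0, 0, 100000, 0, 0, 0, ⟨0, 0⟩, 0⟩, 0, 0⟩ 0 0) (.cut .d (-12288) (.pos 43 .mp ⟨⟨397938272, 0, 0, 0, 0, 167463128, 0, 0, 0, ⟨0, 0⟩, 0⟩, 0, 0⟩ 0 0) (.cut .v 16809984 (.pos 45 .mp ⟨⟨0, 0, 0, 0, 0, 918032800, 0, 0, 0, ⟨0, 0⟩, 0⟩, 0, 0⟩ 0 0) (.cut .v 16826368 (.cut .s 13385728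 (.cut .s 13377536 (.pos 115 .mp ⟨⟨395665308, 0, 0, 0, 0, 151414536, 0, 0, 0, ⟨0, 0⟩, 0⟩, 0, 0⟩ 0 0) (.pos 115 .mp ⟨⟨398134757, 0, 0, 0, 0, 152419886, 0, 0, 0, ⟨0, 0⟩, 0⟩, 0, 0⟩ 0 0)) (.cut .s 13393920 (.pos 115 .mp ⟨⟨400621525, 0, 0, 0, 0, 153442363, 0, 0, 0, ⟨0, 0⟩, 0⟩, 0, 0⟩ 0 0) (.pos 115 .mp ⟨⟨403125735, 0, 0, 0, 0, 154481918, 0, 0, 0, ⟨0, 0⟩, 0⟩, 0, 0⟩ 0 0))) (.pos 116 .mp ⟨⟨460959847, 0, 0, 0, 0, 42672091, 0, 0, 0, ⟨0, 0⟩, 0⟩, 0, 0⟩ 0 0))))) (.cut .l 153791 (.cut .v 16809984 (.cut .s 13385728 (.cut .d (-4096) (.cut .s 13377536 (.pos 45 .mp ⟨⟨395480967, 0, 0, 0, 0, 152902637, 0, 0, 0, ⟨0, 0⟩, 0⟩, 0, 0⟩ 0 0) (.pos 45 .mp ⟨⟨397941490,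 0, 0, 0, 0, 153952834, 0, 0, 0, ⟨0, 0⟩, 0⟩, 0, 0⟩ 0 0)) (.cut .l 76895 (.cut .v 16793600 (.cut .s 13377536 (.cut .s 13373440 (.pos 47 .mp ⟨⟨399527527, 0, 0, 0, 0, 138717724, 0, 0, 0, ⟨0, 0⟩, 0⟩, 0, 0⟩ 0 0) (.pos 47 .mp ⟨⟨400828178, 0, 0, 0, 0, 139060779, 0, 0, 0, ⟨0, 0⟩, 0⟩, 0, 0⟩ 0 0)) (.cut .s 13381632 (.pos 47 .mp ⟨⟨402148812, 0, 0, 0, 0, 139377092, 0, 0, 0, ⟨0, 0⟩, 0⟩, 0, 0⟩ 0 0) (.pos 47 .mp ⟨⟨403489621, 0, 0, 0, 0, 139666290, 0, 0, 0, ⟨0, 0⟩, 0⟩, 0, 0⟩ 0 0))) (.pos 48 .mp ⟨⟨486514305, 0, 0, 0, 0, 0, 0, 0, 0, ⟨0, 0⟩, 0⟩, 0, 0⟩ 0 0)) (.pos 45 .mp ⟨⟨402944898, 0, 0, 0, 0, 130574438, 0, 0, 0, ⟨0, 0⟩, 0⟩, 0, 0⟩ 0 0))) (.cut .d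 (-4096) (.cut .s 13393920 (.pos 45 .mp ⟨⟨400419266, 0, 0, 0, 0, 155026893, 0, 0, 0, ⟨0, 0⟩, 0⟩, 0, 0⟩ 0 0) (.pos 45 .mp ⟨⟨402914414, 0, 0, 0, 0, 156125000, 0, 0, 0, ⟨0, 0⟩, 0⟩, 0, 0⟩ 0 0)) (.cut .l 76895 (.cut .v 16793600 (.cut .s 13393920 (.cut .s 13389824 (.pos 47 .mp ⟨⟨404850800, 0, 0, 0, 0, 139928000, 0, 0, 0, ⟨0, 0⟩, 0⟩, 0, 0⟩ 0 0) (.pos 47 .mp ⟨⟨406232544, 0, 0, 0, 0, 140161847, 0, 0, 0, ⟨0, 0⟩, 0⟩, 0, 0⟩ 0 0)) (.cut .s 13398016 (.pos 47 .mp ⟨⟨407635046, 0, 0, 0, 0, 140367458, 0, 0, 0, ⟨0, 0⟩, 0⟩, 0, 0⟩ 0 0) (.pos 47 .mp ⟨⟨409058502, 0, 0, 0, 0, 140544458, 0, 0, 0, ⟨0, 0⟩, 0⟩, 0, 0⟩ 0 0))) (.pos 48 .mp ⟨⟨492534865, 0, 0, 0,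 0, 0, 0, 0, 0, ⟨0, 0⟩, 0⟩, 0, 0⟩ 0 0)) (.pos 45 .mp ⟨⟨407984507, 0, 0, 0, 0, 132277200, 0, 0, 0, ⟨0, 0⟩, 0⟩, 0, 0⟩ 0 0)))) (.pos 46 .mp ⟨⟨488786127, 0, 0, 0, 0, 0, 0, 0, 0, ⟨0, 0⟩, 0⟩, 0, 0⟩ 0 0)) (.cut .s 13385728 (.pos 43 .mp ⟨⟨404940922, 0, 0, 0, 0, 127881148, 0, 0, 0, ⟨0, 0⟩, 0⟩, 0, 0⟩ 0 0) (.pos 43 .mp ⟨⟨410021838, 0, 0, 0, 0, 129522764, 0, 0, 0, ⟨0, 0⟩, 0⟩, 0, 0⟩ 0 0)))) (.pos 44 .mp ⟨⟨490695194, 0, 0, 0, 0, 0, 0, 0, 0, ⟨0, 0⟩, 0⟩, 0, 0⟩ 0 0)) (.cut .v 16842752 (.cut .d (-8192) (.cut .d (-12288) (.pos 43 .mp ⟨⟨408013263, 0, 0, 0, 0, 173460443, 0, 0, 0, ⟨0, 0⟩, 0⟩, 0, 0⟩ 0 0) (.cut .v 16809984 (.pos 45 .mp ⟨⟨0, 0, 0, 0, 0,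 954110477, 0, 0, 0, ⟨0, 0⟩, 0⟩, 0, 0⟩ 0 0) (.cut .v 16826368 (.cut .l 153791 (.void 115 ⟨⟨100000, 0, 0, 0, 0, 0, 0, 0, 0, ⟨0, 0⟩, 0⟩, 0, 0⟩ 0 0) (.cut .s 13418496 (.pos 115 .mp ⟨⟨405647508, 0, 0, 0, 0, 158628211, 0, 0, 0, ⟨0, 0⟩, 0⟩, 0, 0⟩ 0 0) (.pos 115 .mp ⟨⟨410744243, 0, 0, 0, 0, 160846409, 0, 0, 0, ⟨0, 0⟩, 0⟩, 0, 0⟩ 0 0))) (.pos 116 .mp ⟨⟨479867782, 0, 0, 0, 0, 32003501, 0, 0, 0, ⟨0, 0⟩, 0⟩, 0, 0⟩ 0 0)))) (.cut .l 153791 (.cut .v 16809984 (.cut .s 13418496 (.cut .d (-4096) (.cut .s 13410304 (.pos 45 .mp ⟨⟨405427056, 0, 0, 0, 0, 157247343, 0, 0, 0, ⟨0, 0⟩, 0⟩, 0, 0⟩ 0 0) (.pos 45 .mp ⟨⟨407957316, 0, 0, 0, 0, 158394110, 0, 0,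 0, ⟨0, 0⟩, 0⟩, 0, 0⟩ 0 0)) (.cut .l 76895 (.cut .v 16793600 (.cut .s 13410304 (.cut .s 13406208 (.pos 47 .mp ⟨⟨410503105, 0, 0, 0, 0, 140692471, 0, 0, 0, ⟨0, 0⟩, 0⟩, 0, 0⟩ 0 0) (.pos 47 .mp ⟨⟨411969052, 0, 0, 0, 0, 140811123, 0, 0, 0, ⟨0, 0⟩, 0⟩, 0, 0⟩ 0 0)) (.cut .s 13414400 (.pos 47 .mp ⟨⟨413456536, 0, 0, 0, 0, 140900037, 0, 0, 0, ⟨0, 0⟩, 0⟩, 0, 0⟩ 0 0) (.pos 47 .mp ⟨⟨414948567, 0, 0, 0, 0, 140994563, 0, 0, 0, ⟨0, 0⟩, 0⟩, 0, 0⟩ 0 0))) (.pos 48 .mp ⟨⟨498638292, 0, 0, 0, 0, 0, 0, 0, 0, ⟨0, 0⟩, 0⟩, 0, 0⟩ 0 0)) (.pos 45 .mp ⟨⟨413095190, 0, 0, 0, 0, 134002393, 0, 0, 0, ⟨0, 0⟩, 0⟩, 0, 0⟩ 0 0))) (.cut .d (-4096) (.cut .s 13426688 (.pos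 45 .mp ⟨⟨410505319, 0, 0, 0, 0, 159565492, 0, 0, 0, ⟨0, 0⟩, 0⟩, 0, 0⟩ 0 0) (.pos 45 .mp ⟨⟨413071190, 0, 0, 0, 0, 160761682, 0, 0, 0, ⟨0, 0⟩, 0⟩, 0, 0⟩ 0 0)) (.cut .l 76895 (.cut .v 16793600 (.cut .d (-2048) (.pos 47 .mp ⟨⟨410763343, 0, 0, 0, 0, 162270222, 0, 0, 0, ⟨0, 0⟩, 0⟩, 0, 0⟩ 0 0) (.cut .l 38447 (.cut .v 16785408 (.cut .d (-1024) (.pos 81 .mp ⟨⟨410893053, 0, 0, 0, 0, 161477804, 0, 0, 0, ⟨0, 0⟩, 0⟩, 0, 0⟩ 0 0) (.cut .l 19223 (.cut .v 16781312 (.cut .d (-512) (.pos 83 .mp ⟨⟨410958116, 0, 0, 0, 0, 161081326, 0, 0, 0, ⟨0, 0⟩, 0⟩, 0, 0⟩ 0 0) (.cut .l 9611 (.cut .v 16779264 (.cut .s 13426688 (.cut .s 13422592 (.pos 85 .mp ⟨⟨416387282,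 0, 0, 0, 0, 141188358, 0, 0, 0, ⟨0, 0⟩, 0⟩, 0, 0⟩ 0 0) (.pos 85 .mp ⟨⟨417783518, 0, 0, 0, 0, 141512350, 0, 0, 0, ⟨0, 0⟩, 0⟩, 0, 0⟩ 0 0)) (.cut .s 13430784 (.pos 85 .mp ⟨⟨419191324, 0, 0, 0, 0, 141827621, 0, 0, 0, ⟨0, 0⟩, 0⟩, 0, 0⟩ 0 0) (.pos 85 .mp ⟨⟨420610818, 0, 0, 0, 0, 142133972, 0, 0, 0, ⟨0, 0⟩, 0⟩, 0, 0⟩ 0 0))) (.pos 86 .mp ⟨⟨503951738, 0, 0, 0, 0, 0, 0, 0, 0, ⟨0, 0⟩, 0⟩, 0, 0⟩ 0 0)) (.pos 83 .mp ⟨⟨416427245, 0, 0, 0, 0, 138259279, 0, 0, 0, ⟨0, 0⟩, 0⟩, 0, 0⟩ 0 0))) (.pos 84 .mp ⟨⟨504082376, 0, 0, 0, 0, 0, 0, 0, 0, ⟨0, 0⟩, 0⟩, 0, 0⟩ 0 0)) (.pos 81 .mp ⟨⟨416691248, 0, 0, 0, 0, 137900642, 0, 0, 0, ⟨0, 0⟩, 0⟩, 0, 0⟩ 0 0))) (.pos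 82 .mp ⟨⟨504330752, 0, 0, 0, 0, 0, 0, 0, 0, ⟨0, 0⟩, 0⟩, 0, 0⟩ 0 0)) (.pos 47 .mp ⟨⟨417219678, 0, 0, 0, 0, 137183482, 0, 0, 0, ⟨0, 0⟩, 0⟩, 0, 0⟩ 0 0))) (.pos 48 .mp ⟨⟨504823926, 0, 0, 0, 0, 0, 0, 0, 0, ⟨0, 0⟩, 0⟩, 0, 0⟩ 0 0)) (.pos 45 .mp ⟨⟨418277956, 0, 0, 0, 0, 135747419, 0, 0, 0, ⟨0, 0⟩, 0⟩, 0, 0⟩ 0 0)))) (.pos 46 .mp ⟨⟨500968163, 0, 0, 0, 0, 0, 0, 0, 0, ⟨0, 0⟩, 0⟩, 0, 0⟩ 0 0)) (.cut .s 13418496 (.pos 43 .mp ⟨⟨415174586, 0, 0, 0, 0, 131185594, 0, 0, 0, ⟨0, 0⟩, 0⟩, 0, 0⟩ 0 0) (.pos 43 .mp ⟨⟨420400188, 0, 0, 0, 0, 132867015, 0, 0, 0, ⟨0, 0⟩, 0⟩, 0, 0⟩ 0 0)))) (.pos 44 .mp ⟨⟨502927475, 0, 0, 0, 0, 0, 0, 0, 0, ⟨0, 0⟩, 0⟩, 0, 0⟩ 0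 0))) (.cut .s 13467648 (.cut .v 16842752 (.cut .d (-8192) (.cut .d (-12288) (.pos 43 .mp ⟨⟨418375266, 0, 0, 0, 0, 178751198, 0, 0, 0, ⟨0, 0⟩, 0⟩, 0, 0⟩ 0 0) (.cut .v 16809984 (.pos 45 .mp ⟨⟨0, 0, 0, 0, 0, 980729819, 0, 0, 0, ⟨0, 0⟩, 0⟩, 0, 0⟩ 0 0) (.cut .v 16826368 (.cut .l 153791 (.void 115 ⟨⟨100000, 0, 0, 0, 0, 0, 0, 0, 0, ⟨0, 0⟩, 0⟩, 0, 0⟩ 0 0) (.cut .s 13451264 (.pos 115 .mp ⟨⟨415912733, 0, 0, 0, 0, 163131895, 0, 0, 0, ⟨0, 0⟩, 0⟩, 0, 0⟩ 0 0) (.pos 115 .mp ⟨⟨421154004, 0, 0, 0, 0, 165484213, 0, 0, 0, ⟨0, 0⟩, 0⟩, 0, 0⟩ 0 0))) (.pos 116 .mp ⟨⟨494490302, 0, 0, 0, 0, 28675217, 0, 0, 0, ⟨0, 0⟩, 0⟩, 0, 0⟩ 0 0)))) (.cut .l 153791 (.cut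 .v 16809984 (.cut .s 13451264 (.cut .d (-4096) (.cut .s 13443072 (.pos 45 .mp ⟨⟨415655056, 0, 0, 0, 0, 161982875, 0, 0, 0, ⟨0, 0⟩, 0⟩, 0, 0⟩ 0 0) (.pos 45 .mp ⟨⟨418257045, 0, 0, 0, 0, 163229267, 0, 0, 0, ⟨0, 0⟩, 0⟩, 0, 0⟩ 0 0)) (.cut .l 76895 (.cut .v 16793600 (.cut .d (-2048) (.pos 47 .mp ⟨⟨415908231, 0, 0, 0, 0, 164764662, 0, 0, 0, ⟨0, 0⟩, 0⟩, 0, 0⟩ 0 0) (.cut .l 38447 (.cut .v 16785408 (.cut .d (-1024) (.pos 81 .mp ⟨⟨416035525, 0, 0, 0, 0, 163969208, 0, 0, 0, ⟨0, 0⟩, 0⟩, 0, 0⟩ 0 0) (.cut .l 19223 (.cut .d (-512) (.pos 81 .mp ⟨⟨421858975, 0, 0, 0, 0, 150208499, 0, 0, 0, ⟨0, 0⟩, 0⟩, 0, 0⟩ 0 0) (.cut .s 13443072 (.cut .s 13438976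 (.pos 81 .mp ⟨⟨419687942, 0, 0, 0, 0, 147051284, 0, 0, 0, ⟨0, 0⟩, 0⟩, 0, 0⟩ 0 0) (.pos 81 .mp ⟨⟨421056627, 0, 0, 0, 0, 147486274, 0, 0, 0, ⟨0, 0⟩, 0⟩, 0, 0⟩ 0 0)) (.pos 81 .mp ⟨⟨422169490, 0, 0, 0, 0, 149051700, 0, 0, 0, ⟨0, 0⟩, 0⟩, 0, 0⟩ 0 0))) (.pos 81 .mp ⟨⟨421914504, 0, 0, 0, 0, 139711378, 0, 0, 0, ⟨0, 0⟩, 0⟩, 0, 0⟩ 0 0))) (.pos 82 .mp ⟨⟨510591486, 0, 0, 0, 0, 0, 0, 0, 0, ⟨0, 0⟩, 0⟩, 0, 0⟩ 0 0)) (.pos 47 .mp ⟨⟨422453800, 0, 0, 0, 0, 138978058, 0, 0, 0, ⟨0, 0⟩, 0⟩, 0, 0⟩ 0 0))) (.pos 48 .mp ⟨⟨511091114, 0, 0, 0, 0, 0, 0, 0, 0, ⟨0, 0⟩, 0⟩, 0, 0⟩ 0 0)) (.pos 45 .mp ⟨⟨423533835, 0, 0, 0, 0, 137509641, 0, 0, 0, ⟨0, 0⟩, 0⟩, 0, 0⟩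 0 0))) (.cut .d (-4096) (.pos 45 .mp ⟨⟨420877287, 0, 0, 0, 0, 168954825, 0, 0, 0, ⟨0, 0⟩, 0⟩, 0, 0⟩ 0 0) (.cut .v 16793600 (.cut .l 76895 (.cut .d (-2048) (.pos 47 .mp ⟨⟨421125533, 0, 0, 0, 0, 167360594, 0, 0, 0, ⟨0, 0⟩, 0⟩, 0, 0⟩ 0 0) (.cut .l 38447 (.cut .d (-1024) (.pos 47 .mp ⟨⟨427450208, 0, 0, 0, 0, 152440474, 0, 0, 0, ⟨0, 0⟩, 0⟩, 0, 0⟩ 0 0) (.cut .s 13459456 (.cut .s 13455360 (.pos 47 .mp ⟨⟨425298799, 0, 0, 0, 0, 148617944, 0, 0, 0, ⟨0, 0⟩, 0⟩, 0, 0⟩ 0 0) (.pos 47 .mp ⟨⟨426700656, 0, 0, 0, 0, 149044713, 0, 0, 0, ⟨0, 0⟩, 0⟩, 0, 0⟩ 0 0)) (.pos 47 .mp ⟨⟨428273908, 0, 0, 0, 0, 149823641, 0, 0, 0, ⟨0, 0⟩, 0⟩, 0, 0⟩ 0 0))) (.pos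 47 .mp ⟨⟨427761689, 0, 0, 0, 0, 140787795, 0, 0, 0, ⟨0, 0⟩, 0⟩, 0, 0⟩ 0 0))) (.pos 47 .mp ⟨⟨419488582, 0, 0, 0, 0, 157093984, 0, 0, 0, ⟨0, 0⟩, 0⟩, 0, 0⟩ 0 0)) (.pos 48 .mp ⟨⟨462132623, 0, 0, 0, 0, 86498171, 0, 0, 0, ⟨0, 0⟩, 0⟩, 0, 0⟩ 0 0)))) (.pos 46 .mp ⟨⟨513477194, 0, 0, 0, 0, 0, 0, 0, 0, ⟨0, 0⟩, 0⟩, 0, 0⟩ 0 0)) (.cut .s 13451264 (.pos 43 .mp ⟨⟨425699682, 0, 0, 0, 0, 134564369, 0, 0, 0, ⟨0, 0⟩, 0⟩, 0, 0⟩ 0 0) (.pos 43 .mp ⟨⟨431074130, 0, 0, 0, 0, 136274958, 0, 0, 0, ⟨0, 0⟩, 0⟩, 0, 0⟩ 0 0)))) (.pos 44 .mp ⟨⟨515488143, 0, 0, 0, 0, 0, 0, 0, 0, ⟨0, 0⟩, 0⟩, 0, 0⟩ 0 0)) (.cut .v 16842752 (.cut .d (-8192) (.cut .d (-12288) (.pos 43 .mp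 ⟨⟨429032510, 0, 0, 0, 0, 184450363, 0, 0, 0, ⟨0, 0⟩, 0⟩, 0, 0⟩ 0 0) (.cut .v 16809984 (.pos 45 .mp ⟨⟨0, 0, 0, 0, 0, 1008404395, 0, 0, 0, ⟨0, 0⟩, 0⟩, 0, 0⟩ 0 0) (.cut .s 13484032 (.cut .s 13475840 (.pos 46 .mp ⟨⟨444193266, 0, 0, 0, 0, 132157480, 0, 0, 0, ⟨0, 0⟩, 0⟩, 0, 0⟩ 0 0) (.pos 46 .mp ⟨⟨447003762, 0, 0, 0, 0, 133165483, 0, 0, 0, ⟨0, 0⟩, 0⟩, 0, 0⟩ 0 0)) (.pos 46 .mp ⟨⟨452684824, 0, 0, 0, 0, 133266771, 0, 0, 0, ⟨0, 0⟩, 0⟩, 0, 0⟩ 0 0)))) (.cut .l 153791 (.cut .v 16809984 (.cut .s 13484032 (.cut .d (-4096) (.pos 45 .mp ⟨⟨426173055, 0, 0, 0, 0, 171660110, 0, 0, 0, ⟨0, 0⟩, 0⟩, 0, 0⟩ 0 0) (.cut .v 16793600 (.cut .l 76895 (.cut .d (-2048)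 (.pos 47 .mp ⟨⟨426416289, 0, 0, 0, 0, 170059621, 0, 0, 0, ⟨0, 0⟩, 0⟩, 0, 0⟩ 0 0) (.cut .s 13475840 (.cut .s 13471744 (.pos 47 .mp ⟨⟨432662790, 0, 0, 0, 0, 147131030, 0, 0, 0, ⟨0, 0⟩, 0⟩, 0, 0⟩ 0 0) (.pos 47 .mp ⟨⟨434158835, 0, 0, 0, 0, 147435655, 0, 0, 0, ⟨0, 0⟩, 0⟩, 0, 0⟩ 0 0)) (.pos 47 .mp ⟨⟨434508366, 0, 0, 0, 0, 150585710, 0, 0, 0, ⟨0, 0⟩, 0⟩, 0, 0⟩ 0 0))) (.pos 47 .mp ⟨⟨424749315, 0, 0, 0, 0, 159160857, 0, 0, 0, ⟨0, 0⟩, 0⟩, 0, 0⟩ 0 0)) (.pos 48 .mp ⟨⟨469452045, 0, 0, 0, 0, 85150700, 0, 0, 0, ⟨0, 0⟩, 0⟩, 0, 0⟩ 0 0))) (.cut .d (-4096) (.pos 45 .mp ⟨⟨431543420, 0, 0, 0, 0, 174470241, 0, 0, 0, ⟨0, 0⟩, 0⟩, 0, 0⟩ 0 0) (.cut .v 16793600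 (.cut .l 76895 (.cut .d (-2048) (.pos 47 .mp ⟨⟨431781561, 0, 0, 0, 0, 172863379, 0, 0, 0, ⟨0, 0⟩, 0⟩, 0, 0⟩ 0 0) (.cut .s 13492224 (.pos 47 .mp ⟨⟨437236981, 0, 0, 0, 0, 151720656, 0, 0, 0, ⟨0, 0⟩, 0⟩, 0, 0⟩ 0 0) (.pos 47 .mp ⟨⟨439779698, 0, 0, 0, 0, 153295296, 0, 0, 0, ⟨0, 0⟩, 0⟩, 0, 0⟩ 0 0))) (.pos 47 .mp ⟨⟨430083975, 0, 0, 0, 0, 161241465, 0, 0, 0, ⟨0, 0⟩, 0⟩, 0, 0⟩ 0 0)) (.pos 48 .mp ⟨⟨477111833, 0, 0, 0, 0, 83381608, 0, 0, 0, ⟨0, 0⟩, 0⟩, 0, 0⟩ 0 0)))) (.pos 46 .mp ⟨⟨526308052, 0, 0, 0, 0, 0, 0, 0, 0, ⟨0, 0⟩, 0⟩, 0, 0⟩ 0 0)) (.cut .s 13484032 (.pos 43 .mp ⟨⟨436524613, 0, 0, 0, 0, 137996044, 0, 0, 0, ⟨0, 0⟩, 0⟩, 0, 0⟩ 0 0) (.pos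 43 .mp ⟨⟨442052236, 0, 0, 0, 0, 139724849, 0, 0, 0, ⟨0, 0⟩, 0⟩, 0, 0⟩ 0 0)))) (.pos 44 .mp ⟨⟨528372008, 0, 0, 0, 0, 0, 0, 0, 0, ⟨0, 0⟩, 0⟩, 0, 0⟩ 0 0)))) (.pos 36 .mp ⟨⟨518460190, 0, 0, 0, 0, 0, 0, 0, 0, ⟨0, 0⟩, 0⟩, 0, 0⟩ 0 0))))))) (.pos 32 .mp ⟨⟨573717755, 0, 0, 0, 0, 0, 0, 0, 0, ⟨0, 0⟩, 0⟩, 0, 0⟩ 0 0))) (.void 30 ⟨⟨100000, 0, 0, 0, 0, 0, 0, 0, 0, ⟨0, 0⟩, 0⟩, 0, 0⟩ 0 0))) (.void 28 ⟨⟨100000, 0, 0, 0, 0, 0, 0, 0, 0, ⟨0, 0⟩, 0⟩, 0, 0⟩ 0 0))) (.void 26 ⟨⟨100000, 0, 0, 0, 0, 0, 0, 0, 0, ⟨0, 0⟩, 0⟩, 0, 0⟩ 0 0))) (.void 24 ⟨⟨100000, 0, 0, 0, 0, 0, 0, 0, 0, ⟨0, 0⟩, 0⟩, 0, 0⟩ 0 0)))) (.void 22 ⟨⟨100000, 0, 0, 0, 0, 0, 0, 0, 0, ⟨0, 0⟩,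 0⟩, 0, 0⟩ 0 0)) (.void 103 ⟨⟨100000, 0, 0, 0, 0, 0, 0, 0, 0, ⟨0, 0⟩, 0⟩, 0, 0⟩ 0 0)) (.void 114 ⟨⟨100000, 0, 0, 0, 0, 0, 0, 0, 0, ⟨0, 0⟩, 0⟩, 0, 0⟩ 0 0)) (.void 125 ⟨⟨94171, 0, 0, 5829, 0, 0, 0, 0, 0, ⟨0, 0⟩, 0⟩, 0, 0⟩ 0 0))) (.cut .v 16777216 (.cut .v 8388608 (.cut .v 4194304 (.cut .v 2097152 (.cut .v 1048576 (.pos 119 .pm ⟨⟨0, 0, 24064654, 0, 0, 0, 0, 0, 0, ⟨0, 0⟩, 0⟩, 0, 12100⟩ 0 0) (.pos 120 .pm ⟨⟨0, 0, 26701567, 0, 0, 0, 0, 0, 0, ⟨0, 0⟩, 0⟩, 0, 17794⟩ 0 0)) (.pos 118 .pm ⟨⟨0, 0, 33036176, 0, 0, 0, 0, 0, 0, ⟨0, 0⟩, 0⟩, 0, 33611⟩ 0 0)) (.pos 5 .pm ⟨⟨0, 0, 17394853, 0, 0, 0, 0, 0, 0, ⟨0, 0⟩, 0⟩, 0, 0⟩ 0 0)) (.pos 3 .pm ⟨⟨0, 0,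 0, 0, 0, 0, 0, 0, 0, ⟨0, 0⟩, 0⟩, 0, 0⟩ 0 0)) (.cut .v 268435456 (.cut .v 67108864 (.cut .d 2242500 (.cut .v 33554432 (.cut .d 1121250 (.cut .v 25165824 (.cut .d 560625 (.cut .d 280312 (.cut .v 20971520 (.cut .v 18874368 (.cut .d 140156 (.cut .d 70078 (.cut .v 17825792 (.cut .d 35039 (.cut .v 17301504 (.cut .s 13369344 (.pos 29 .pp ⟨⟨387710957, 0, 0, 0, 0, 0, 0, 0, 0, ⟨0, 0⟩, 0⟩, 6263884, 0⟩ 0 0) (.pos 29 .pp ⟨⟨424958060, 0, 0, 0, 0, 0, 0, 0, 0, ⟨0, 0⟩, 0⟩, 7389078, 0⟩ 0 0)) (.pos 30 .pp ⟨⟨504601542, 0, 0, 0, 0, 0, 0, 0, 0, ⟨0, 0⟩, 0⟩, 0, 0⟩ 0 0)) (.pos 27 .pp ⟨⟨391855347, 0, 0, 0, 0, 0, 0, 0, 0, ⟨0, 0⟩, 0⟩, 0, 16376⟩ 0 0)) (.pos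 28 .pp ⟨⟨555176117, 0, 0, 0, 0, 0, 0, 0, 0, ⟨0, 0⟩, 0⟩, 0, 0⟩ 0 0)) (.pos 25 .pp ⟨⟨413048799, 0, 0, 0, 0, 0, 0, 0, 0, ⟨0, 0⟩, 0⟩, 0, 6805⟩ 0 0)) (.pos 25 .pp ⟨⟨0, 0, 0, 0, 0, 0, 0, 0, 0, ⟨0, 0⟩, 0⟩, 0, 204712⟩ 0 0)) (.cut .d 140156 (.cut .v 19922944 (.pos 53 .pp ⟨⟨607524574, 0, 0, 0, 0, 0, 0, 0, 0, ⟨0, 0⟩, 0⟩, 0, 0⟩ 0 0) (.pos 54 .pp ⟨⟨696581957, 0, 0, 0, 0, 0, 0, 0, 0, ⟨0, 0⟩, 0⟩, 0, 0⟩ 0 0)) (.pos 26 .pp ⟨⟨518896522, 0, 0, 0, 0, 0, 0, 0, 0, ⟨0, 0⟩, 0⟩, 0, 0⟩ 0 0))) (.cut .v 23068672 (.cut .d 140156 (.void 55 ⟨⟨0, 0, 0, 0, 0, 0, 0, 0, 0, ⟨0, 0⟩, 0⟩, 100000, 0⟩ 0 0) (.cut .d 210234 (.pos 55 .pp ⟨⟨778605322, 0, 0, 0, 0, 0, 0, 0,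 0, ⟨0, 0⟩, 0⟩, 77409, 0⟩ 0 0) (.pos 55 .pp ⟨⟨0, 0, 0, 0, 0, 0, 0, 0, 0, ⟨0, 0⟩, 0⟩, 78246234, 0⟩ 0 0))) (.pos 56 .pp ⟨⟨0, 0, 0, 0, 0, 0, 0, 0, 0, ⟨0, 0⟩, 0⟩, 113687301, 0⟩ 0 0))) (.cut .v 20971520 (.pos 23 .pp ⟨⟨0, 0, 0, 0, 0, 0, 0, 0, 0, ⟨0, 0⟩, 0⟩, 0, 214821⟩ 0 0) (.pos 24 .pp ⟨⟨0, 0, 0, 0, 0, 0, 25580, 0, 0, ⟨0, 0⟩, 0⟩, 73840990, 0⟩ 0 0))) (.pos 21 .pp ⟨⟨0, 0, 0, 0, 0, 0, 0, 0, 0, ⟨0, 0⟩, 0⟩, 0, 232007⟩ 0 0)) (.cut .d 560625 (.cut .d 280312 (.void 22 ⟨⟨0, 0, 0, 0, 0, 0, 0, 0, 0, ⟨0, 0⟩, 0⟩, 100000, 0⟩ 0 0) (.cut .d 420468 (.pos 22 .pp ⟨⟨0, 0, 0, 0, 0, 0, 0, 0, 0, ⟨0, 0⟩, 0⟩, 118993496, 0⟩ 0 0) (.pos 22 .pp ⟨⟨0, 0, 0, 0, 0, 0,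 0, 0, 0, ⟨0, 0⟩, 0⟩, 98271036, 0⟩ 0 0))) (.pos 22 .pp ⟨⟨0, 0, 0, 0, 0, 0, 11075, 0, 0, ⟨0, 0⟩, 0⟩, 76479874, 0⟩ 0 0))) (.pos 20 .pp ⟨⟨0, 0, 0, 0, 0, 0, 772982, 0, 0, ⟨0, 0⟩, 0⟩, 0, 0⟩ 0 0)) (.cut .d 1121250 (.cut .v 50331648 (.pos 106 .pp ⟨⟨0, 0, 0, 0, 0, 0, 0, 0, 0, ⟨0, 0⟩, 0⟩, 200600821, 0⟩ 0 0) (.void 107 ⟨⟨0, 0, 0, 0, 0, 0, 0, 0, 0, ⟨0, 0⟩, 0⟩, 100000, 0⟩ 0 0)) (.pos 103 .pp ⟨⟨0, 0, 0, 0, 0, 0, 0, 0, 0, ⟨0, 0⟩, 0⟩, 107793881, 0⟩ 0 0))) (.pos 102 .pp ⟨⟨0, 0, 0, 0, 0, 0, 0, 0, 0, ⟨0, 0⟩, 0⟩, 0, 193339⟩ 0 0)) (.void 114 ⟨⟨0, 0, 0, 47376, 0, 0, 0, 0, 0, ⟨0, 0⟩, 0⟩, 52624, 0⟩ 0 0)) (.void 125 ⟨⟨0, 0, 0, 0, 0, 0, 0, 0, 0, ⟨0, 0⟩,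 0⟩, 100000, 0⟩ 0 0)))),
    by decide +kernel⟩

end Vale.Agent.P237.Petty.Cor.Grid.Tiny.N12
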